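import Vale.Agent.P057T.Gk.Defs

/-! Row statements for the relative structure theorem. -/

set_option linter.all false

open Finset

namespace Vale.Agent.P057T.Gk

open TT

noncomputable section

/-- quantify over a tower with at most `a` classes, dimension `≤ exp Y`, typical to depth `d` -/
def AT (d : ℕ) (P : ℕ → ∀ (α ι κ ρ : Type) [Fintype α] [DecidableEq α] [Fintype ι] [DecidableEq ι]
    [Fintype κ] [Fintype ρ] [DecidableEq ρ], TT α ι → ℝ → Prop) : Prop :=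
  ∀ a : ℕ, ∃ C : ℕ, ∀ (α ι κ ρ : Type) [Fintype α] [DecidableEq α] [Fintype ι] [DecidableEq ι]
    [Fintype κ] [Fintype ρ] [DecidableEq ρ] (T : TT α ι) (Y : ℝ), Fintype.card α ≤ a → (C : ℝ) ≤ Y →
    (Fintype.card ι : ℝ) ≤ Real.exp Y → (Fintype.card κ : ℝ) ≤ Real.exp Y →
    (Fintype.card ρ : ℝ) ≤ Y → T.Ok → T.Nn d (Real.exp (-Y ^ C)) → P C α ι κ ρ T Y

/-! ### Formal rows -/

/-- copies and windows are towers -/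
def CPOK : Prop := ∀ (α ι : Type) [Fintype α] [DecidableEq α] [Fintype ι] [DecidableEq ι]
  (T : TT α ι), T.Ok →
  (∀ (i : α) (κ : Type) [Fintype κ] [DecidableEq κ], (T.cpy i κ).Ok ∧
    (∀ (ε : κ → ℤ) (S G : Finset α) (f : Fn ι), T.Fm S G f → (i ∈ G ∨ i ∉ S) →
      (T.cpy i κ).Fm (S.disjSum univ) (G.disjSum univ) (fun Z => f (T.vx i ε Z))) ∧
    (∀ (ε : κ → ℤ) (S G : Finset α) (f : Fn ι), T.Fm S G f → i ∉ G →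
      (T.cpy i κ).Fm (S.disjSum univ) (G.disjSum ∅) (fun Z => f (T.vx i ε Z))) ∧
    (∀ (ε : κ → ℤ) (Z : T.CV i κ → ℝ) (v : ι), T.u (T.vx i ε Z) v = (T.cpy i κ).u Z (Sum.inl v) +
      ∑ k, (ε k : ℝ) * T.hc i ((T.cpy i κ).u Z) k v) ∧
    ∀ l cen : ι → ℝ, (T.sc l cen).cpy i κ =
      (T.cpy i κ).sc (Sum.elim l (fun p => l p.2.1)) (Sum.elim cen (fun _ => 0))) ∧
  (∀ l cen : ι → ℝ, (∀ v, 0 < l v) → (T.sc l cen).Ok) ∧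
  (∀ l cen l' cen' : ι → ℝ, (∀ v, 0 < l v) → (∀ v, 0 < l' v) →
    (T.sc l cen).sc l' cen' = T.sc (fun v => l v * l' v) (fun v => cen v + l v * cen' v)) ∧
  (∀ T1 T2 Z1 Z2, T.Sub T1 Z1 → T1.Sub T2 Z2 → T.Sub T2 (Z1 + Z2)) ∧
  (∀ Z, 0 ≤ Z → T.Sub T Z) ∧ (∀ T1 Z, T.Sub T1 Z → Mor T1 T id) ∧
  ∀ S K z, z ∈ T.pts S K ↔ z ∈ T.PS S K

/-- bounds on a small box give bounds on a large box; finitely many test pairs -/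
def SCALE : Prop := ∀ (α ι : Type) [Fintype α] [DecidableEq α] [Fintype ι] [DecidableEq ι]
  (T : TT α ι) (S0 S : Finset α) (c : α) (b : ι → ℤ), T.Ok → S0 ⊆ S → c ∉ S0 →
  (∀ (f : Fn ι) (l cen : ι → ℝ) (lo H : ℝ), T.Fm S (S \ S0) f → 0 < lo →
    (∀ v, lo ≤ l v ∧ |cen v| + l v ≤ 20) → (T.sc l cen).Osc S0 S c b f H →
    (T.sc (fun _ => 20) (fun _ => 0)).Osc S0 S c b f
      ((100 / lo) ^ (2 ^ (Fintype.card α + 1)) * H)) ∧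
  ∃ (n : ℕ) (p q : Fin n → ι → ℝ), n ≤ (Fintype.card ι + 1) ^ (2 ^ (Fintype.card α + 1)) ∧
    (∀ j, T.Ag S0 (p j) (cz b) ∧ T.Ag S0 (q j) (cz b) ∧ T.Of c (p j) (q j) ∧
      ∀ v ∈ T.fv S0 S, |T.u (p j) v| ≤ 1 ∧ |T.u (q j) v| ≤ 1) ∧
    ∀ (f : Fn ι) (H : ℝ), 0 ≤ H → T.Fm S (S \ S0) f → (∀ j, |f (p j) - f (q j)| ≤ H) →
      T.Osc S0 S c b f ((2 * Fintype.card ι + 1) ^ (2 ^ (Fintype.card α + 1)) * H)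

/-- calculus of `IB` -/
def IBC : Prop := ∀ (α ι : Type) [Fintype α] [DecidableEq α] [Fintype ι] [DecidableEq ι]
  (T : TT α ι), T.Ok →
  (∀ S0 S S' c b f g H H', T.IBg S0 S S' c b f H → T.IBg S0 S S' c b g H' →
    T.IBg S0 S S' c b (fun z => f z + g z) (H + H')) ∧
  (∀ S0 S S' c b f H (n : ℤ), T.IBg S0 S S' c b f H →
    T.IBg S0 S S' c b (fun z => n * f z) (|(n : ℝ)| * H)) ∧
  (∀ S0 S S' c b f H H', H ≤ H' → T.IBg S0 S S' c b f H → T.IBg S0 S S' c b f H') ∧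
  (∀ S0 S S' c b b' f H, T.Ag S0 b b' → T.IBg S0 S S' c b f H → T.IBg S0 S S' c b' f H) ∧
  (∀ S0 S S' c b f g H, (∀ z z', T.Ag S0 z (cz b) → T.Ag S0 z' (cz b) → T.Of c z z' →
    f z - f z' = g z - g z') → T.IBg S0 S S' c b f H → T.IBg S0 S S' c b g H) ∧
  (∀ S0 S1 S c b f H, S0 ⊆ S1 → S1 ⊆ S → (∀ v ∈ T.fv S0 S1, |T.u (cz b) v| ≤ 1) →
    T.IB S0 S c b f H → T.IB S1 S c b f H) ∧
  (∀ S0 S S1 c b f H, S0 ⊆ S → S ⊆ S1 → T.IB S0 S c b f H → (∀ a ∈ S1, a ∉ S → a ∉ S0) →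
    T.IB S0 S1 c b f H) ∧
  (∀ T1 Z S0 S c b f H, T.Sub T1 Z → T.IB S0 S c b f H → T1.IB S0 S c b f H) ∧
  (∀ (κ : Type) T1 Z S c (τ : κ → Fn ι) Ω Ω' i H, T.Sub T1 Z → Ω' ⊆ Ω → T.HS S c τ Ω i H →
    T1.HS S c τ Ω' i H) ∧
  ∀ (i : α) (κ : Type) [Fintype κ] [DecidableEq κ] (ε : κ → ℤ) (S0 S : Finset α) (c : α)
    (Z : T.CV i κ → ℤ) (f : Fn ι) (H : ℝ), i ∈ S0 → S0 ⊆ S → c ∉ S0 → T.Fm S (S \ S0) f →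
    (∑ k, |(ε k : ℝ)|) ≤ 19 → T.IB S0 S c (T.vx i ε Z) f H →
    (T.cpy i κ).IB (S0.disjSum univ) (S.disjSum univ) (Sum.inl c) Z (fun x => f (T.vx i ε x))
      ((100 : ℝ) ^ (2 ^ (Fintype.card α + 1)) * H)

/-- typicality passes to windows and to smaller depth -/
def SCG : Prop := ∀ (n : ℕ) (α ι : Type) [Fintype α] [DecidableEq α] [Fintype ι] [DecidableEq ι]
  (T : TT α ι) (σ σ' : ℝ), T.Ok → 0 < σ → σ' ≤ 1 →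
  (σ ≤ σ' → T.Nn n σ → T.Nn n σ') ∧ (T.Nn (n + 1) σ → T.Nn n σ) ∧
  ∀ T1 Z, 0 ≤ Z → T.Sub T1 Z →
    σ * (100 * Real.exp Z) ^ (2 ^ (Fintype.card α + 8 * n + 1)) ≤ σ' → T.Nn n σ → T1.Nn n σ'

/-- gluing a family of forms indexed by base points -/
def GLU : Prop := ∀ (α ι : Type) [Fintype α] [DecidableEq α] [Fintype ι] [DecidableEq ι]
  (T : TT α ι) (S0 S G : Finset α) (Φ : (ι → ℤ) → Fn ι), S0 ⊆ S → (∀ a ∈ G, a ∉ S0) →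
  (∀ b, T.Fm S G (Φ b)) →
  ∃ f : Fn ι, T.Fm S G f ∧ ∀ (b : ι → ℤ) (z : ι → ℝ), T.Ag S0 z (cz b) → f z = Φ (T.res S0 b) z

/-- the minimal form of `G0` -/
def G00 {α ι : Type} [Fintype α] [DecidableEq α] [Fintype ι] [DecidableEq ι] (T : TT α ι)
    (σ : ℝ) : Prop :=
  (∀ S, T.Eq ∅ S 0 σ) ∧ ∀ S a, a ∈ S → T.Mo (S.erase a) σ (fun z => T.Eq (S.erase a) S z σ)

/-- transfer of typicality to larger marginals -/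
def TRF : Prop := ∀ a : ℕ, ∃ C : ℕ, ∀ (α ι : Type) [Fintype α] [DecidableEq α] [Fintype ι]
  [DecidableEq ι] (T : TT α ι) (Y : ℝ), Fintype.card α ≤ a → (C : ℝ) ≤ Y → T.Ok →
  G00 T (Real.exp (-(C * Y))) → T.G0 (Real.exp (-Y)) ∧
    ∀ (S0 S1 : Finset α) (p : (ι → ℤ) → Prop), S0 ⊆ S1 → (∀ z z', T.Ag S0 z z' → p z → p z') →
      T.Mo S0 (Real.exp (-(C * Y))) p → T.Mo S1 (Real.exp (-Y)) p

/-- counts in fibres with several classes -/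
def MUL : Prop := ∀ a : ℕ, ∃ C : ℕ, ∀ (α ι : Type) [Fintype α] [DecidableEq α] [Fintype ι]
  [DecidableEq ι] (T : TT α ι) (Y : ℝ), Fintype.card α ≤ a → (C : ℝ) ≤ Y → T.Ok →
  T.G0 (Real.exp (-(C * Y))) → ∀ S0 S S1 c r, S0 ⊆ S → S0 ⊆ S1 → Bx (Real.exp (-Y)) c r →
    T.Mo S1 (Real.exp (-Y)) (fun z => T.Ct S0 S z (Real.exp (-Y)) c r)

/-- uniqueness on typical fibres -/
def ZER : Prop := ∀ a : ℕ, ∃ C : ℕ, ∀ (α ι : Type) [Fintype α] [DecidableEq α] [Fintype ι]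
  [DecidableEq ι] (T : TT α ι) (Y : ℝ), Fintype.card α ≤ a → (C : ℝ) ≤ Y →
  (Fintype.card ι : ℝ) ≤ Real.exp Y → T.Ok → T.G0 (Real.exp (-(C * Y))) →
  ∀ S0 S S1 c, S0 ⊆ S → S0 ⊆ S1 → c ∈ S → c ∉ S0 →
    T.Mo S1 (Real.exp (-Y)) (fun z => T.Zr S0 S c z (Real.exp Y))

def ZT : Prop := ∀ a n : ℕ, ∃ C : ℕ, ∀ (α ι : Type) [Fintype α] [DecidableEq α] [Fintype ι]
  [DecidableEq ι] (T : TT α ι) (Y : ℝ), Fintype.card α ≤ a → (C : ℝ) ≤ Y →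
  (Fintype.card ι : ℝ) ≤ Real.exp Y → T.Ok → T.Gn n (Real.exp (-(C * Y))) →
  T.Nn n (Real.exp (-Y))

/-! ### Counting and equidistribution -/

/-- many quadruples -/
def CSQ : Prop := AT 1 fun C α ι _ _ _ _ _ _ _ _ _ T Y =>
  ∀ (S1 : Finset α) (i : α) (Ω : Finset (ι → ℤ)) (L : ℝ) (m : ℕ), i ∈ S1 → 1 ≤ L → T.Dn S1 Ω L →
    Real.exp (C * L) * (Fintype.card ι + 1) ≤ m → (m : ℝ) ≤ Real.exp Y →
    ∃ cen E, T.Cen i m cen ∧ (T.qt i m cen).Dn (ex S1) E (C * L) ∧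
      ∀ Z ∈ E, ∀ w, T.vx i (qv w) Z ∈ Ω

/-- the moving part of an exactly additive family is a fixed bounded form -/
def MOV : Prop := AT 1 fun C α ι κ _ _ _ _ _ _ _ _ T Y =>
  ∀ (S0 S : Finset α) (c e : α) (f : (ι → ℤ) → κ → Fn ι) (E : Finset (ι → ℤ)),
    c ∈ S → S0 ⊆ S.erase c → e ∈ S0 → T.Dn S0 E Y → (∀ b k, T.Fm S (S \ S0) (f b k)) →
    (∀ Z : T.CV e (Fin 2) → ℤ, (∀ w, T.vx e (qv w) Z ∈ E) → ∀ k (x : T.CV e (Fin 2) → ℝ),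
      (T.cpy e (Fin 2)).Ag (ex S0) x (cz Z) →
      T.Q e (fun w => f (T.vx e (qv w) Z) k) x = 0) →
    (∀ b ∈ E, ∀ k, T.IB S0 S c b (f b k) (Real.exp Y)) →
    ∃ (lam : ℝ) (E' : Finset (ι → ℤ)), Real.exp (-Y ^ C) ≤ lam ∧ lam ≤ 1 ∧
      T.Dn (S0.erase e) E' (Y ^ C) ∧ ∀ b' ∈ E',
      ∃ (cen : ι → ℝ) (Sb : Finset (ι → ℤ)) (M : κ → Fn ι), (∀ v, |cen v| ≤ 3) ∧ Sb ⊆ E ∧
        Sb ⊆ T.fbx (S0.erase e) S0 b' cen (fun _ => lam) ∧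
        Real.exp (-Y ^ C) * (T.vol (S0.erase e) S0 * ∏ v ∈ T.fv (S0.erase e) S0, lam) ≤ Sb.card ∧
        (∀ k, T.Fm S (insert e (S \ S0)) (M k) ∧
          T.Osc (S0.erase e) S c b' (M k) (Real.exp (Y ^ C))) ∧
        ∀ y ∈ Sb, ∀ k, T.IBg S0 S (S.erase e) c y (fun x => f y k x - M k x) (Real.exp (Y ^ C))

/-- one class moves from the base to the fibre -/
def EQ1 : Prop := AT 1 fun C α ι κ _ _ _ _ _ _ _ _ T Y =>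
  ∀ (S0 S : Finset α) (c e : α) (f : κ → Fn ι) (E : Finset (ι → ℤ)),
    c ∈ S → S0 ⊆ S.erase c → e ∈ S0 → T.Dn S0 E Y → (∀ k, T.Fm S (insert e (S \ S0)) (f k)) →
    (∀ b ∈ E, ∀ k, T.IB S0 S c b (f k) (Real.exp Y)) →
    ∃ (n : ℕ) (E' : Finset (ι → ℤ)), 1 ≤ n ∧ (n : ℝ) ≤ Real.exp (Y ^ C) ∧
      T.Dn (S0.erase e) E' (Y ^ C) ∧ ∀ b' ∈ E', (∃ b ∈ E, T.res (S0.erase e) b = b') ∧
        ∀ k, T.IB (S0.erase e) S c b' (fun x => n * f k x) (Real.exp (Y ^ C))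

def EQI : Prop := AT 1 fun C α ι κ _ _ _ _ _ _ _ _ T Y =>
  ∀ (S0 S1 S : Finset α) (c : α) (f : κ → Fn ι) (E : Finset (ι → ℤ)),
    c ∈ S → S1 ⊆ S.erase c → S0 ⊆ S1 → T.Dn S1 E Y → (∀ k, T.Fm S (S \ S0) (f k)) →
    (∀ b ∈ E, ∀ k, T.IB S1 S c b (f k) (Real.exp Y)) →
    ∃ (n : ℕ) (E' : Finset (ι → ℤ)), 1 ≤ n ∧ (n : ℝ) ≤ Real.exp (Y ^ C) ∧
      T.Dn S0 E' (Y ^ C) ∧ ∀ b' ∈ E', (∃ b ∈ E, T.res S0 b = b') ∧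
        ∀ k, T.IB S0 S c b' (fun x => n * f k x) (Real.exp (Y ^ C))

/-- the same with wild coordinates -/
def EQW : Prop := AT 1 fun C α ι κ ρ _ _ _ _ _ _ _ T Y =>
  ∀ (S00 S : Finset α) (c e : α) (a : κ → Fn ι) (cc : κ → ρ → Fn ι) (g : ρ → Fn ι)
    (E : Finset (ι → ℤ)), c ∈ S → S00 ⊆ S.erase c → e ∈ S00 → T.Dn (S.erase c) E Y →
    (∀ k, T.Fm S {e, c} (a k)) → (∀ k r, T.Fm (S.erase e) {c} (cc k r)) →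
    (∀ r, T.Fm S00 {e} (g r)) → (∀ z ∈ E, ∀ r, |g r (cz z) - round (g r (cz z))| ≤ 1 / 100) →
    (∀ z ∈ E, ∀ k, T.IB (S.erase c) S c z (tw a cc g k) (Real.exp Y)) →
    ∃ (n : ℕ) (K : ρ → ρ → ℤ) (E' : Finset (ι → ℤ)), 1 ≤ n ∧ (n : ℝ) ≤ Real.exp (Y ^ C) ∧
      (∀ s r, |(K s r : ℝ)| ≤ Real.exp (Y ^ C)) ∧ T.Dn ((S.erase c).erase e) E' (Y ^ C) ∧
      ∀ b' ∈ E', (∃ b ∈ E, T.res ((S.erase c).erase e) b = b') ∧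
        (∀ s, T.IB (S00.erase e) S00 e b' (lc (K s) g) (Real.exp (Y ^ C))) ∧
        ∀ ζ : ρ → ℤ, (∀ s, ∑ r, K s r * ζ r = 0) → ∀ k,
          T.IB ((S.erase c).erase e) (S.erase e) c b' (fun x => n * lc ζ (cc k) x)
            (Real.exp (Y ^ C) * ∑ r, |(ζ r : ℝ)|)

/-- two completions of the first vertex -/
def SLOT : Prop := AT 1 fun C α ι κ _ _ _ _ _ _ _ _ T Y =>
  ∀ (S : Finset α) (c i : α) (f : κ → Fn ι) (m : ℕ) (cen : T.CV i (Fin 2) → ℝ) (L : ℝ)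
    (E : Finset (T.CV i (Fin 2) → ℤ)), c ∈ S → i ∈ S.erase c → 1 ≤ m → (m : ℝ) ≤ Real.exp Y →
    1 ≤ L → L ≤ Y → T.Cen i m cen → (T.qt i m cen).Dn (ex (S.erase c)) E L →
    (∀ k, T.Fm S {c} (f k)) →
    (∀ Z ∈ E, ∀ k, (T.qt i m cen).IB (ex (S.erase c)) (ex S) (Sum.inl c) Z
      (fun x => f k (T.bs i x)) (Real.exp L)) →
    ∃ E1 ⊆ E, (T.qt i m cen).Dn (ex (S.erase c)) E1 (C * L) ∧ ∀ Z ∈ E1, ∀ k,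
      (T.win i m cen).IB (S.erase c) S c (T.bs i Z) (f k) (Real.exp (C * L))

/-! ### The step -/

/-- step (0); `L` is the level of the state -/
def Q0 : Prop := AT 2 fun C α ι κ _ _ _ _ _ _ _ _ T Y =>
  ∀ (S F : Finset α) (c i : α) (τ : κ → Fn ι) (Ω : Finset (ι → ℤ)) (m : ℕ),
    T.St S c F τ Ω Y → i ∈ S.erase c \ F → Real.exp (Y ^ 2) ≤ m →
    ∀ C1 : ℕ, (m : ℝ) ≤ Real.exp (Y ^ C1) → T.Nn 2 (Real.exp (-Y ^ (C * (C1 + 1)))) →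
    ∃ cen, ∃ n : ℕ, 1 ≤ n ∧ (n : ℝ) ≤ Real.exp (Y ^ C) ∧
      T.QS S c F i (fun _ k x => n * τ k x) Ω m cen (Y ^ C)

/-- step (1*) -/
def ONE : Prop := AT 1 fun C α ι κ _ _ _ _ _ _ _ _ T Y =>
  ∀ (S F : Finset α) (c i : α) (f : Fin 4 → κ → Fn ι) (Ω : Finset (ι → ℤ)) (m : ℕ)
    (cen : T.CV i (Fin 2) → ℝ), c ∈ S → F ⊆ S.erase c → i ∈ S.erase c \ F →
    Real.exp (Y ^ C) ≤ m → ∀ C1 : ℕ, (m : ℝ) ≤ Real.exp (Y ^ C1) →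
    T.Nn 1 (Real.exp (-Y ^ (C * (C1 + 1)))) →
    T.QS S c F i f Ω m cen Y → T.ES S c F i (f 0) Ω m cen (Y ^ (C * (C1 + 1)))

/-- metric Freiman in every fibre, one global window -/
def FRX : Prop := AT 0 fun C α ι κ _ _ _ _ _ _ _ _ T Y =>
  ∀ (S F : Finset α) (c i : α) (f : κ → Fn ι) (Ω : Finset (ι → ℤ)) (m : ℕ)
    (cen : T.CV i (Fin 2) → ℝ), c ∈ S → F ⊆ S.erase c → i ∈ S.erase c \ F →
    100 * ((Fintype.card ι : ℝ) + 1) ≤ m → (m : ℝ) ≤ Real.exp Y → (∀ k, T.Fm S (insert c F) (f k)) →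
    T.ES S c F i f Ω m cen Y →
    ∃ T1 Ω1, (T.win i m cen).Sub T1 (Y ^ C) ∧ Ω1 ⊆ Ω ∧ T1.R6 S c F i f Ω1 (Y ^ C)

def HSR : Prop := AT 0 fun C α ι κ _ _ _ _ _ _ _ _ T Y =>
  ∀ (S F : Finset α) (c i : α) (f : κ → Fn ι) (Ω : Finset (ι → ℤ)), c ∈ S → F ⊆ S.erase c →
    i ∈ S.erase c \ F → (∀ k, T.Fm S (insert c F) (f k)) → T.R6 S c F i f Ω Y →
    T.HS S c f Ω i (Real.exp (Y ^ C))

/-- step (2): characters -/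
def BOG : Prop := AT 0 fun C α ι κ _ _ _ _ _ _ _ _ T Y =>
  ∀ (S F : Finset α) (c i : α) (f : κ → Fn ι) (Ω : Finset (ι → ℤ)), c ∈ S → F ⊆ S.erase c →
    i ∈ S.erase c \ F → (∀ k, T.Fm S (insert c F) (f k)) → T.R6 S c F i f Ω Y →
    ∃ (T1 : TT α ι) (Ω1 : Finset (ι → ℤ)) (r : ℕ) (a : κ → Fn ι) (cc : κ → Fin r → Fn ι)
      (g : Fin r → Fn ι), T.Sub T1 (Y ^ C) ∧ Ω1 ⊆ Ω ∧ T1.Dn univ Ω1 (Y ^ C) ∧ (r : ℝ) ≤ Y ^ C ∧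
      T1.WD S c F i a cc g Ω1 ∧ T1.Rel S c 1 f (tw a cc g) Ω1 (Real.exp (Y ^ C))

/-- states pass to related forms -/
def RST : Prop := ∀ a : ℕ, ∃ C : ℕ, ∀ (α ι κ : Type) [Fintype α] [DecidableEq α] [Fintype ι]
  [DecidableEq ι] (T : TT α ι) (S G : Finset α) (c : α) (τ τ' τ'' : κ → Fn ι) (Ω : Finset (ι → ℤ))
  (n n' : ℕ) (H H' : ℝ), Fintype.card α ≤ a → T.Ok → c ∈ S → c ∈ G → 0 ≤ H → 0 ≤ H' →
  (∀ k, T.Fm S G (τ k)) → (∀ k, T.Fm S G (τ' k)) → T.Rel S c n τ τ' Ω H →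
  (∀ i ∈ S.erase c, T.HS S c τ Ω i H' → T.HS S c τ' Ω i (n * H' + C * H)) ∧
  (T.Rel S c n' τ' τ'' Ω H' → T.Rel S c (n' * n) τ τ'' Ω (n' * H + H'))

/-- linear algebra -/
def LA : Prop := ∃ C : ℕ, ∀ (ρ δ : Type) [Fintype ρ] [DecidableEq ρ] [Fintype δ] (Y : ℝ)
  (k : δ → ρ → ℤ), (C : ℝ) ≤ Y → (Fintype.card ρ : ℝ) ≤ Y → (∀ s r, |(k s r : ℝ)| ≤ Real.exp Y) →
  ∃ (sel : ρ → Option δ) (D0 : ℕ) (p l ζ : ρ → ρ → ℤ),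
    LAD (fun s => (sel s).elim 0 k) D0 p l ζ (Y ^ C) ∧ ∀ s j, ∑ r, k s r * ζ j r = 0

/-- step (3), geometry -/
def P1 : Prop := AT 2 fun C α ι κ ρ _ _ _ _ _ _ _ T Y =>
  ∀ (S F : Finset α) (c i i' : α) (a : κ → Fn ι) (cc : κ → ρ → Fn ι) (g : ρ → Fn ι)
    (Ω : Finset (ι → ℤ)) (m : ℕ), T.St S c F (tw a cc g) Ω Y → T.WD S c F i a cc g Ω →
    i' ∈ (S.erase c \ F).erase i → Real.exp (Y ^ 2) ≤ m →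
    ∀ C1 : ℕ, (m : ℝ) ≤ Real.exp (Y ^ C1) → T.Nn 2 (Real.exp (-Y ^ (C * (C1 + 1)))) →
    ∃ (cen : T.CV i' (Fin 2) → ℝ) (n D0 : ℕ) (k : Fin 4 → ρ → ρ → ℤ) (p l ζ : ρ → ρ → ℤ)
      (Ω1 : Finset (ι → ℤ)), 1 ≤ n ∧ (n : ℝ) ≤ Real.exp (Y ^ C) ∧ LAD (k 0) D0 p l ζ (Y ^ C) ∧
      Ω1 ⊆ Ω ∧ T.QS (S.erase c \ F) i ∅ i' (fun w s => lc (k w s) g) Ω1 m cen (Y ^ C) ∧
      ∀ z ∈ Ω1, ∀ j kk, (T.win i' m cen).IB ((S.erase c \ F).erase i) (S.erase i) c z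
        (fun x => n * lc (ζ j) (cc kk) x) (Real.exp (Y ^ C))

/-- step (3), factorisation and finer arcs -/
def ARC : Prop := AT 0 fun C α ι κ ρ _ _ _ _ _ _ _ T Y =>
  ∀ (S F : Finset α) (c i : α) (a : κ → Fn ι) (cc : κ → ρ → Fn ι) (g : ρ → Fn ι)
    (Ω : Finset (ι → ℤ)) (n D0 : ℕ) (k p l ζ : ρ → ρ → ℤ), c ∈ S → F ⊆ S.erase c →
    T.Dn univ Ω Y → T.WD S c F i a cc g Ω → 1 ≤ n → (n : ℝ) ≤ Real.exp Y → LAD k D0 p l ζ Y →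
    (∀ z ∈ Ω, ∀ j kk, T.IB ((S.erase c \ F).erase i) (S.erase i) c z
      (fun x => n * lc (ζ j) (cc kk) x) (Real.exp Y)) →
    ∃ (Ω1 : Finset (ι → ℤ)) (a' : κ → Fn ι) (cc' : κ → ρ → Fn ι) (g' : ρ → Fn ι), Ω1 ⊆ Ω ∧
      T.Dn univ Ω1 (Y ^ C) ∧ T.WD S c F i a' cc' g' Ω1 ∧
      T.Rel S c (D0 * n) (tw a cc g) (tw a' cc' g') Ω1 (Real.exp (Y ^ C)) ∧
      ∀ s, T.Ind i (fun x => g' s x - lc (k s) g x)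

/-- from many good quadruples to all relations -/
def FGT : Prop := AT 1 fun C α ι κ _ _ _ _ _ _ _ _ T Y =>
  ∀ (S F : Finset α) (c i : α) (f : Fin 4 → κ → Fn ι) (Ω : Finset (ι → ℤ)) (m : ℕ)
    (cen : T.CV i (Fin 2) → ℝ), c ∈ S → F ⊆ S.erase c → i ∈ S.erase c \ F →
    Real.exp (Y ^ C) ≤ m → ∀ C1 : ℕ, (m : ℝ) ≤ Real.exp (Y ^ C1) →
    T.Nn 1 (Real.exp (-Y ^ (C * (C1 + 1)))) → T.QS S c F i f Ω m cen Y →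
    ∃ T1 Ω1, (T.win i m cen).Sub T1 (Y ^ (C * (C1 + 1))) ∧ Ω1 ⊆ Ω ∧
      T1.R6 S c F i (f 0) Ω1 (Y ^ (C * (C1 + 1)))

/-- step (3), one direction -/
def PETD : Prop := AT 2 fun C α ι κ ρ _ _ _ _ _ _ _ T Y =>
  ∀ (S F : Finset α) (c i i' : α) (a : κ → Fn ι) (cc : κ → ρ → Fn ι) (g : ρ → Fn ι)
    (Ω : Finset (ι → ℤ)), T.St S c F (tw a cc g) Ω Y → T.WD S c F i a cc g Ω →
    i' ∈ (S.erase c \ F).erase i →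
    ∃ (T1 : TT α ι) (Ω1 : Finset (ι → ℤ)) (n : ℕ) (a' : κ → Fn ι) (cc' : κ → ρ → Fn ι)
      (g' : ρ → Fn ι), T.Sub T1 (Y ^ C) ∧ Ω1 ⊆ Ω ∧ 1 ≤ n ∧ (n : ℝ) ≤ Real.exp (Y ^ C) ∧
      T1.St S c F (tw a' cc' g') Ω1 (Y ^ C) ∧ T1.WD S c F i a' cc' g' Ω1 ∧
      T1.Rel S c n (tw a cc g) (tw a' cc' g') Ω1 (Real.exp (Y ^ C)) ∧
      T1.HS (S.erase c \ F) i g' Ω1 i' (Real.exp (Y ^ C)) ∧
      ∀ i'' ∈ (S.erase c \ F).erase i, T.HS (S.erase c \ F) i g Ω i'' (Real.exp Y) →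
        T1.HS (S.erase c \ F) i g' Ω1 i'' (Real.exp (Y ^ C))

/-- steps (0) to (3) -/
def PRE : Prop := AT 2 fun C α ι κ _ _ _ _ _ _ _ _ T Y =>
  ∀ (S F : Finset α) (c i : α) (τ : κ → Fn ι) (Ω : Finset (ι → ℤ)), T.St S c F τ Ω Y →
    i ∈ S.erase c \ F →
    ∃ (T1 : TT α ι) (Ω1 : Finset (ι → ℤ)) (n r : ℕ) (a : κ → Fn ι) (cc : κ → Fin r → Fn ι)
      (g : Fin r → Fn ι), T.Sub T1 (Y ^ C) ∧ Ω1 ⊆ Ω ∧ 1 ≤ n ∧ (n : ℝ) ≤ Real.exp (Y ^ C) ∧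
      (r : ℝ) ≤ Y ^ C ∧ T1.St S c F (tw a cc g) Ω1 (Y ^ C) ∧ T1.WD S c F i a cc g Ω1 ∧
      T1.Rel S c n τ (tw a cc g) Ω1 (Real.exp (Y ^ C)) ∧
      T1.St (S.erase c \ F) i ∅ g Ω1 (Y ^ C)

/-- step (4): a window in the class `i` -/
def SHR : Prop := AT 0 fun C α ι _ ρ _ _ _ _ _ _ _ T Y =>
  ∀ (B : Finset α) (i : α) (g Ψ : ρ → Fn ι) (Ω : Finset (ι → ℤ)) (n : ℕ), i ∈ B → T.Dn univ Ω Y →
    (∀ r, T.Fm B {i} (g r)) → (∀ r, T.Fm B {i} (Ψ r)) → T.Rel B i n g Ψ Ω (Real.exp Y) →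
    ∃ (T1 : TT α ι) (Ω1 : Finset (ι → ℤ)) (I j0 : ρ → Fn ι), T.Sub T1 (Y ^ C) ∧ Ω1 ⊆ Ω ∧
      T1.Dn univ Ω1 (Y ^ C) ∧ (∀ r, T.Fm B {i} (I r) ∧ (∀ z : ι → ℤ, ∃ q : ℤ, I r (cz z) = q) ∧
        T.Dep (B.erase i) (j0 r)) ∧
      ∀ z ∈ Ω1, ∀ r, |n * g r (cz z) - Ψ r (cz z) - I r (cz z) - j0 r (cz z)| ≤ 1 / 100

/-- step (4): the new form -/
def FINA : Prop := AT 0 fun C α ι κ ρ _ _ _ _ _ _ _ T Y =>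
  ∀ (S F : Finset α) (c i : α) (a : κ → Fn ι) (cc : κ → ρ → Fn ι) (g J j0 : ρ → Fn ι)
    (Ω : Finset (ι → ℤ)) (n : ℕ), c ∈ S → F ⊆ S.erase c → T.Dn univ Ω Y →
    T.WD S c F i a cc g Ω → 1 ≤ n → (n : ℝ) ≤ Real.exp Y →
    (∀ r, T.Fm (S.erase c \ F) {i} (J r) ∧ (∀ z : ι → ℤ, ∃ q : ℤ, J r (cz z) = q) ∧
      T.Dep ((S.erase c \ F).erase i) (j0 r)) →
    (∀ z ∈ Ω, ∀ r, |n * g r (cz z) - J r (cz z) - j0 r (cz z)| ≤ 1 / 50) →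
    ∃ (Ω1 : Finset (ι → ℤ)) (τ : κ → Fn ι), Ω1 ⊆ Ω ∧ T.Dn univ Ω1 (Y ^ C) ∧
      (∀ k, T.Fm S (insert c (insert i F)) (τ k)) ∧ T.Rel S c n (tw a cc g) τ Ω1 0

/-- pull back along morphisms -/
def LIFT : Prop := ∀ a : ℕ, ∃ C : ℕ, ∀ (α ι ι' : Type) [Fintype α] [DecidableEq α] [Fintype ι]
  [DecidableEq ι] [Fintype ι'] [DecidableEq ι'] (T : TT α ι) (T' : TT α ι')
  (π : (ι' → ℝ) → ι → ℝ), Fintype.card α ≤ a → T.Ok → T'.Ok → Mor T' T π →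
  (∀ S G f, T.Fm S G f → T'.Fm S G (fun z => f (π z))) ∧
  (∀ S f, T.Dep S f → T'.Dep S (fun z => f (π z))) ∧
  (∀ S0 S c b f H, S0 ⊆ S → b ∈ T'.pts univ 1 → T.IB S0 S c (zi π b) f H →
    T'.IB S0 S c b (fun z => f (π z)) H) ∧
  (∀ (κ : Type) S G c (τ : κ → Fn ι) Ω (Ω' : Finset (ι' → ℤ)) i H, c ∈ S → c ∈ G →
    i ∈ S.erase c → 0 ≤ H → (∀ k, T.Fm S G (τ k)) →
    Ω' ⊆ T'.pts univ 1 → (∀ z ∈ Ω', zi π z ∈ Ω) → T.HS S c τ Ω i H →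
    T'.HS S c (fun k z => τ k (π z)) Ω' i (C * H)) ∧
  ∀ (ι'' : Type) [Fintype ι''] [DecidableEq ι''] (T'' : TT α ι'') (π' : (ι'' → ℝ) → ι' → ℝ),
    Mor T'' T' π' → Mor T'' T (fun z => π (π' z)) ∧
      ∀ z, zi (fun z => π (π' z)) z = zi π (zi π' z)

/-- no base class left -/
def BASE : Prop := ∀ a C0 s : ℕ, GKs a C0 s 0
/-- the step of the recursion -/
def STEP : Prop := ∀ a C0 s b : ℕ, GKs a C0 s a → GKs a C0 (s + 1) b → GKs a C0 (s + 1) (b + 1)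

end

end Vale.Agent.P057T.Gk
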