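import Vale.Agent.P057T.Gk.Defs

/-! Basic facts on typed towers. -/

set_option linter.all false

open Finset

namespace Vale.Agent.P057T.Gk

namespace TT

variable {α ι : Type} [Fintype α] [DecidableEq α] [Fintype ι] [DecidableEq ι] {T : TT α ι}

section
variable {R : Type} {S S' : Finset α} {c : α} {x y z : ι → R}

theorem Ag.refl (S : Finset α) (z : ι → R) : T.Ag S z z := fun _ _ => rfl
theorem Ag.symm (h : T.Ag S x y) : T.Ag S y x := fun v hv => (h v hv).symm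
theorem Ag.trans (h : T.Ag S x y) (h' : T.Ag S y z) : T.Ag S x z :=
  fun v hv => (h v hv).trans (h' v hv)
theorem Ag.mono (h : T.Ag S' x y) (hS : S ⊆ S') : T.Ag S x y := fun v hv => h v (hv.trans hS)
theorem Of.refl (c : α) (z : ι → R) : T.Of c z z := fun _ _ => rfl
theorem Of.symm (h : T.Of c x y) : T.Of c y x := fun v hv => (h v hv).symm
theorem Of.trans (h : T.Of c x y) (h' : T.Of c y z) : T.Of c x z :=
  fun v hv => (h v hv).trans (h' v hv)
theorem Of.ag (h : T.Of c x y) (hc : c ∉ S) : T.Ag S x y := fun v hv => h v fun hh => hc (hv hh)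
end

theorem Ag.cz {S : Finset α} {x y : ι → ℤ} (h : T.Ag S x y) : T.Ag S (cz x) (cz y) :=
  fun v hv => by unfold Gk.cz; rw [h v hv]

theorem ag_cz {S : Finset α} {x y : ι → ℤ} : T.Ag S (cz x) (cz y) ↔ T.Ag S x y :=
  ⟨fun h v hv => Int.cast_injective (α := ℝ) (h v hv), Ag.cz⟩

theorem Of.cz {c : α} {x y : ι → ℤ} (h : T.Of c x y) : T.Of c (cz x) (cz y) :=
  fun v hv => by unfold Gk.cz; rw [h v hv]

theorem ag_res (S : Finset α) (z : ι → ℤ) : T.Ag S (T.res S z) z := fun v hv => if_pos hv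

theorem res_congr {S : Finset α} {x y : ι → ℤ} (h : T.Ag S x y) : T.res S x = T.res S y := by
  funext v
  unfold res
  split_ifs with hv
  · exact h v hv
  · rfl

theorem res_res {S S' : Finset α} (h : S ⊆ S') (z : ι → ℤ) : T.res S (T.res S' z) = T.res S z :=
  res_congr ((ag_res S' z).mono h)

variable {S S' S0 S1 G G' : Finset α} {a c : α} {f g : Fn ι} {b b' : ι → ℤ} {H H' : ℝ}

theorem dep_const (S : Finset α) (r : ℝ) : T.Dep S (fun _ => r) := fun _ _ _ => rfl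
theorem Dep.mono (h : T.Dep S f) (hS : S ⊆ S') : T.Dep S' f := fun z z' hz => h z z' (hz.mono hS)
theorem Dep.op (h : T.Dep S f) (h' : T.Dep S g) (φ : ℝ → ℝ → ℝ) :
    T.Dep S (fun z => φ (f z) (g z)) := fun z z' hz => by
  show φ (f z) (g z) = φ (f z') (g z')
  rw [h z z' hz, h' z z' hz]
theorem Dep.comp (h : T.Dep S f) (φ : ℝ → ℝ) : T.Dep S (fun z => φ (f z)) := fun z z' hz => by
  show φ (f z) = φ (f z')
  rw [h z z' hz]
theorem Dep.ind (h : T.Dep S f) (hc : c ∉ S) : T.Ind c f := fun z z' hz => h z z' (hz.ag hc)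

theorem Ind.aff (h : T.Ind a f) : T.Aff a f := fun z =>
  ⟨0, fun k hk => by
    rw [LinearMap.zero_apply, add_zero]
    exact h _ _ fun v hv => by rw [Pi.add_apply, hk v hv, add_zero]⟩
theorem ind_const (c : α) (r : ℝ) : T.Ind c (fun _ => r) := fun _ _ _ => rfl
theorem Ind.op (h : T.Ind c f) (h' : T.Ind c g) (φ : ℝ → ℝ → ℝ) :
    T.Ind c (fun z => φ (f z) (g z)) := fun z z' hz => by
  show φ (f z) (g z) = φ (f z') (g z')
  rw [h z z' hz, h' z z' hz]

theorem aff_const (a : α) (r : ℝ) : T.Aff a (fun _ => r) := (ind_const a r).aff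
theorem Aff.add (h : T.Aff a f) (h' : T.Aff a g) : T.Aff a (fun z => f z + g z) := fun z => by
  obtain ⟨L, hL⟩ := h z
  obtain ⟨L', hL'⟩ := h' z
  exact ⟨L + L', fun k hk => by
    show f (z + k) + g (z + k) = f z + g z + (L k + L' k)
    rw [hL k hk, hL' k hk]; ring⟩
theorem Aff.mul (h : T.Aff a f) (h' : T.Ind a g) : T.Aff a (fun z => f z * g z) := fun z => by
  obtain ⟨L, hL⟩ := h z
  exact ⟨g z • L, fun k hk => by
    show f (z + k) * g (z + k) = f z * g z + g z * L k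
    rw [hL k hk, h' (z + k) z fun v hv => by rw [Pi.add_apply, hk v hv, add_zero]]; ring⟩
theorem Aff.mul' (h : T.Ind a f) (h' : T.Aff a g) : T.Aff a (fun z => f z * g z) := by
  simpa only [mul_comm] using h'.mul h
theorem Aff.smul (h : T.Aff a f) (r : ℝ) : T.Aff a (fun z => r * f z) := Aff.mul' (ind_const a r) h
theorem Aff.neg (h : T.Aff a f) : T.Aff a (fun z => -f z) := by
  simpa only [neg_one_mul] using h.smul (-1)
theorem Aff.sub (h : T.Aff a f) (h' : T.Aff a g) : T.Aff a (fun z => f z - g z) := by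
  simpa only [sub_eq_add_neg] using h.add h'.neg

theorem fm_const (S G : Finset α) (r : ℝ) : T.Fm S G (fun _ => r) :=
  ⟨dep_const S r, fun a _ => aff_const a r⟩
theorem Fm.mono (h : T.Fm S G f) (hS : S ⊆ S') (hG : G' ⊆ G) : T.Fm S' G' f :=
  ⟨h.1.mono hS, fun a ha => h.2 a (hG ha)⟩
/-- classes outside `S` are free -/
theorem Fm.ext (h : T.Fm S G f) (hG : ∀ a ∈ G', a ∈ S → a ∈ G) : T.Fm S G' f :=
  ⟨h.1, fun a ha => by
    by_cases hs : a ∈ S
    · exact h.2 a (hG a ha hs)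
    · exact (h.1.ind hs).aff⟩
theorem Fm.add (h : T.Fm S G f) (h' : T.Fm S G g) : T.Fm S G (fun z => f z + g z) :=
  ⟨h.1.op h'.1 (· + ·), fun a ha => (h.2 a ha).add (h'.2 a ha)⟩
theorem Fm.sub (h : T.Fm S G f) (h' : T.Fm S G g) : T.Fm S G (fun z => f z - g z) :=
  ⟨h.1.op h'.1 (· - ·), fun a ha => (h.2 a ha).sub (h'.2 a ha)⟩
theorem Fm.neg (h : T.Fm S G f) : T.Fm S G (fun z => -f z) :=
  ⟨h.1.comp Neg.neg, fun a ha => (h.2 a ha).neg⟩
theorem Fm.smul (h : T.Fm S G f) (r : ℝ) : T.Fm S G (fun z => r * f z) :=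
  ⟨h.1.comp (r * ·), fun a ha => (h.2 a ha).smul r⟩
theorem fm_sum {κ : Type*} (t : Finset κ) {F : κ → Fn ι} (h : ∀ k ∈ t, T.Fm S G (F k)) :
    T.Fm S G (fun z => ∑ k ∈ t, F k z) := by
  classical
  induction t using Finset.induction_on with
  | empty => simpa using fm_const S G 0
  | insert k t hk ih =>
    simp only [sum_insert hk]
    exact (h k (mem_insert_self _ _)).add (ih fun j hj => h j (mem_insert_of_mem hj))
/-- a product of forms whose supports meet only outside `G` -/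
theorem Fm.mul (h : T.Fm S0 G f) (h' : T.Fm S1 G g) (h0 : S0 ⊆ S) (h1 : S1 ⊆ S)
    (hd : ∀ a ∈ G, a ∉ S0 ∨ a ∉ S1) : T.Fm S G (fun z => f z * g z) :=
  ⟨(h.1.mono h0).op (h'.1.mono h1) (· * ·), fun a ha => (hd a ha).elim
    (fun k => Aff.mul' (h.1.ind k) (h'.2 a ha)) fun k => (h.2 a ha).mul (h'.1.ind k)⟩
theorem fm_coord (T : TT α ι) (v : ι) : T.Fm (T.ty v) G (fun z => z v) :=
  ⟨fun _ _ hz => hz v subset_rfl, fun _ _ _ => ⟨LinearMap.proj v, fun _ _ => rfl⟩⟩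

theorem Osc.mono (h : T.Osc S0 S' c b f H) (hH : H ≤ H') : T.Osc S0 S' c b f H' :=
  fun z z' h1 h2 h3 h4 => (h z z' h1 h2 h3 h4).trans hH
theorem Osc.up (h : T.Osc S0 S c b f H) (hS : S ⊆ S') : T.Osc S0 S' c b f H :=
  fun z z' h1 h2 h3 h4 => h z z' h1 h2 h3 fun v hv => h4 v (by
    simp only [fv, mem_filter, mem_univ, true_and] at hv ⊢
    exact ⟨hv.1.trans hS, hv.2⟩)
theorem Osc.congr (h : T.Osc S0 S' c b f H) (hb : T.Ag S0 b b') : T.Osc S0 S' c b' f H :=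
  fun z z' h1 h2 h3 h4 => h z z' (h1.trans hb.cz.symm) (h2.trans hb.cz.symm) h3 h4
theorem Ind.osc (h : T.Ind c f) : T.Osc S0 S' c b f 0 := fun z z' _ _ h3 _ => by
  rw [h z z' h3, sub_self, abs_zero]
theorem Osc.add (h : T.Osc S0 S' c b f H) (h' : T.Osc S0 S' c b g H') :
    T.Osc S0 S' c b (fun z => f z + g z) (H + H') := fun z z' h1 h2 h3 h4 => by
  have e : f z + g z - (f z' + g z') = (f z - f z') + (g z - g z') := by ring
  show |f z + g z - (f z' + g z')| ≤ _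
  rw [e]
  exact (abs_add_le _ _).trans (add_le_add (h z z' h1 h2 h3 h4) (h' z z' h1 h2 h3 h4))
theorem Osc.smul (h : T.Osc S0 S' c b f H) (r : ℝ) :
    T.Osc S0 S' c b (fun z => r * f z) (|r| * H) := fun z z' h1 h2 h3 h4 => by
  show |r * f z - r * f z'| ≤ _
  rw [← mul_sub, abs_mul]
  exact mul_le_mul_of_nonneg_left (h z z' h1 h2 h3 h4) (abs_nonneg _)
theorem Osc.neg (h : T.Osc S0 S' c b f H) : T.Osc S0 S' c b (fun z => -f z) H := by
  simpa only [neg_one_mul, abs_neg, abs_one, one_mul, neg_mul] using h.smul (-1)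
theorem Osc.sub (h : T.Osc S0 S' c b f H) (h' : T.Osc S0 S' c b g H') :
    T.Osc S0 S' c b (fun z => f z - g z) (H + H') := by
  simpa only [sub_eq_add_neg] using h.add h'.neg
/-- only the values over `b` matter -/
theorem Osc.eq (h : T.Osc S0 S' c b f H) (e : ∀ z, T.Ag S0 z (cz b) → f z = g z) :
    T.Osc S0 S' c b g H := fun z z' h1 h2 h3 h4 => by
  rw [← e z h1, ← e z' h2]; exact h z z' h1 h2 h3 h4

theorem isI_int (S0 : Finset α) (b : ι → ℤ) (n : ℤ) : T.IsI S0 b (fun _ => (n : ℝ)) :=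
  fun _ _ => ⟨n, rfl⟩
theorem isI_zero (S0 : Finset α) (b : ι → ℤ) : T.IsI S0 b (fun _ => 0) :=
  fun _ _ => ⟨0, Int.cast_zero.symm⟩
theorem IsI.congr (h : T.IsI S0 b f) (hb : T.Ag S0 b b') : T.IsI S0 b' f :=
  fun z hz => h z (hz.trans hb.symm)
theorem IsI.add (h : T.IsI S0 b f) (h' : T.IsI S0 b g) : T.IsI S0 b (fun z => f z + g z) :=
  fun z hz => by
    obtain ⟨n, hn⟩ := h z hz
    obtain ⟨m, hm⟩ := h' z hz
    exact ⟨n + m, by rw [Int.cast_add, ← hn, ← hm]⟩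
theorem IsI.mul (h : T.IsI S0 b f) (h' : T.IsI S0 b g) : T.IsI S0 b (fun z => f z * g z) :=
  fun z hz => by
    obtain ⟨n, hn⟩ := h z hz
    obtain ⟨m, hm⟩ := h' z hz
    exact ⟨n * m, by rw [Int.cast_mul, ← hn, ← hm]⟩
theorem IsI.zsmul (h : T.IsI S0 b f) (n : ℤ) : T.IsI S0 b (fun z => (n : ℝ) * f z) :=
  (isI_int S0 b n).mul h
theorem IsI.neg (h : T.IsI S0 b f) : T.IsI S0 b (fun z => -f z) := by
  simpa using h.zsmul (-1)
theorem IsI.sub (h : T.IsI S0 b f) (h' : T.IsI S0 b g) : T.IsI S0 b (fun z => f z - g z) := by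
  simpa only [sub_eq_add_neg] using h.add h'.neg
theorem IsI.up (h : T.IsI S0 b f) (hS : S0 ⊆ S1) : T.IsI S1 b f := fun z hz => h z (hz.mono hS)

theorem IBg.mono (h : T.IBg S0 S S' c b f H) (hH : H ≤ H') : T.IBg S0 S S' c b f H' := by
  obtain ⟨I, h1, h2, h3⟩ := h
  exact ⟨I, h1, h2, h3.mono hH⟩
theorem IBg.congr (h : T.IBg S0 S S' c b f H) (hb : T.Ag S0 b b') : T.IBg S0 S S' c b' f H := by
  obtain ⟨I, h1, h2, h3⟩ := h
  exact ⟨I, h1, h2.congr hb, h3.congr hb⟩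
theorem IBg.eq (h : T.IBg S0 S S' c b f H) (e : ∀ z, T.Ag S0 z (cz b) → f z = g z) :
    T.IBg S0 S S' c b g H := by
  obtain ⟨I, h1, h2, h3⟩ := h
  exact ⟨I, h1, h2, h3.eq fun z hz => by rw [e z hz]⟩
theorem Osc.ibg (h : T.Osc S0 S' c b f H) : T.IBg S0 S S' c b f H :=
  ⟨fun _ => 0, fm_const _ _ 0, isI_zero _ _, by simpa only [sub_zero] using h⟩
theorem ibg_int (h1 : T.Fm S (S \ S0) f) (h2 : T.IsI S0 b f) : T.IBg S0 S S' c b f 0 :=
  ⟨f, h1, h2, by simpa only [sub_self] using (ind_const (T := T) c 0).osc⟩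
theorem IBg.add (h : T.IBg S0 S S' c b f H) (h' : T.IBg S0 S S' c b g H') :
    T.IBg S0 S S' c b (fun z => f z + g z) (H + H') := by
  obtain ⟨I, h1, h2, h3⟩ := h
  obtain ⟨J, k1, k2, k3⟩ := h'
  exact ⟨fun z => I z + J z, h1.add k1, h2.add k2, (h3.add k3).eq fun z _ => by ring⟩
theorem IBg.zsmul (h : T.IBg S0 S S' c b f H) (n : ℤ) :
    T.IBg S0 S S' c b (fun z => (n : ℝ) * f z) (|(n : ℝ)| * H) := by
  obtain ⟨I, h1, h2, h3⟩ := h
  exact ⟨fun z => (n : ℝ) * I z, h1.smul n, h2.zsmul n, (h3.smul n).eq fun z _ => by ring⟩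
theorem IBg.nsmul (h : T.IBg S0 S S' c b f H) (n : ℕ) :
    T.IBg S0 S S' c b (fun z => (n : ℝ) * f z) (n * H) := by
  simpa using h.zsmul n
theorem IBg.neg (h : T.IBg S0 S S' c b f H) : T.IBg S0 S S' c b (fun z => -f z) H := by
  simpa using h.zsmul (-1)
theorem IBg.sub (h : T.IBg S0 S S' c b f H) (h' : T.IBg S0 S S' c b g H') :
    T.IBg S0 S S' c b (fun z => f z - g z) (H + H') := by
  simpa only [sub_eq_add_neg] using h.add h'.neg
theorem Ind.ibg (h : T.Ind c f) : T.IBg S0 S S' c b f 0 := h.osc.ibg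
theorem ibg_sum {κ : Type*} (t : Finset κ) {F : κ → Fn ι} {K : κ → ℝ}
    (h : ∀ k ∈ t, T.IBg S0 S S' c b (F k) (K k)) :
    T.IBg S0 S S' c b (fun z => ∑ k ∈ t, F k z) (∑ k ∈ t, K k) := by
  classical
  induction t using Finset.induction_on with
  | empty => simpa using (ind_const (T := T) c 0).ibg
  | insert k t hk ih =>
    simp only [sum_insert hk]
    exact (h k (mem_insert_self _ _)).add (ih fun j hj => h j (mem_insert_of_mem hj))

theorem IB.mono (h : T.IB S0 S c b f H) (hH : H ≤ H') : T.IB S0 S c b f H' := IBg.mono h hH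
theorem IB.congr (h : T.IB S0 S c b f H) (hb : T.Ag S0 b b') : T.IB S0 S c b' f H :=
  IBg.congr h hb
theorem IB.eq (h : T.IB S0 S c b f H) (e : ∀ z, T.Ag S0 z (cz b) → f z = g z) :
    T.IB S0 S c b g H := IBg.eq h e
theorem IB.add (h : T.IB S0 S c b f H) (h' : T.IB S0 S c b g H') :
    T.IB S0 S c b (fun z => f z + g z) (H + H') := IBg.add h h'
theorem IB.sub (h : T.IB S0 S c b f H) (h' : T.IB S0 S c b g H') :
    T.IB S0 S c b (fun z => f z - g z) (H + H') := IBg.sub h h'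
theorem IB.neg (h : T.IB S0 S c b f H) : T.IB S0 S c b (fun z => -f z) H := IBg.neg h
theorem IB.zsmul (h : T.IB S0 S c b f H) (n : ℤ) :
    T.IB S0 S c b (fun z => (n : ℝ) * f z) (|(n : ℝ)| * H) := IBg.zsmul h n
theorem IB.nsmul (h : T.IB S0 S c b f H) (n : ℕ) :
    T.IB S0 S c b (fun z => (n : ℝ) * f z) (n * H) := IBg.nsmul h n
theorem ib_sum {κ : Type*} (t : Finset κ) {F : κ → Fn ι} {K : κ → ℝ}
    (h : ∀ k ∈ t, T.IB S0 S c b (F k) (K k)) :
    T.IB S0 S c b (fun z => ∑ k ∈ t, F k z) (∑ k ∈ t, K k) := ibg_sum t h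

theorem mem_pts (hT : T.Ok) {K : ℝ} {z : ι → ℤ} : z ∈ T.pts S K ↔
    (∀ v, ¬ T.ty v ⊆ S → z v = 0) ∧ ∀ v, T.ty v ⊆ S → |T.u (cz z) v| ≤ K := by
  unfold pts
  rw [dif_pos (hT.fin S K), Set.Finite.mem_toFinset]
  rfl

theorem pts_mono (hT : T.Ok) {K K' : ℝ} (h : K ≤ K') : T.pts S K ⊆ T.pts S K' := fun z hz =>
  (mem_pts hT).2 ⟨((mem_pts hT).1 hz).1, fun v hv => (((mem_pts hT).1 hz).2 v hv).trans h⟩

theorem Ok.u_ag (hT : T.Ok) {z z' : ι → ℝ} (h : T.Ag S z z') {v : ι} (hv : T.ty v ⊆ S) :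
    T.u z v = T.u z' v := (hT.fu v).1 z z' (h.mono hv)

theorem Ok.ψ_ag (hT : T.Ok) {z z' : ι → ℝ} (h : T.Ag S z z') {v : ι} (hv : T.ty v ⊆ S) :
    T.ψ z v = T.ψ z' v := (hT.fψ v).1 z z' (h.mono hv)

theorem res_mem (hT : T.Ok) {K : ℝ} {z : ι → ℤ} (hz : z ∈ T.pts S' K) (h : S ⊆ S') :
    T.res S z ∈ T.pts S K :=
  (mem_pts hT).2 ⟨fun v hv => if_neg hv, fun v hv => by
    rw [hT.u_ag (ag_res S z).cz hv]
    exact ((mem_pts hT).1 hz).2 v (hv.trans h)⟩

theorem vol_pos (hT : T.Ok) (S0 S : Finset α) : 0 < T.vol S0 S :=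
  prod_pos fun v _ => mul_pos two_pos (hT.pos v)

theorem vol_mul (hT : T.Ok) (h : S0 ⊆ S1) (h' : S1 ⊆ S) :
    T.vol S0 S = T.vol S0 S1 * T.vol S1 S := by
  unfold vol
  rw [← prod_union]
  · congr 1
    ext v
    simp only [fv, mem_filter, mem_univ, true_and, mem_union]
    constructor
    · rintro ⟨k1, k2⟩
      by_cases k : T.ty v ⊆ S1
      · exact Or.inl ⟨k, k2⟩
      · exact Or.inr ⟨k1, k⟩
    · rintro (⟨k1, k2⟩ | ⟨k1, k2⟩)
      · exact ⟨k1.trans h', k2⟩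
      · exact ⟨k1, fun k => k2 (k.trans h)⟩
  · rw [disjoint_left]
    intro v k1 k2
    simp only [fv, mem_filter, mem_univ, true_and] at k1 k2
    exact k2.2 k1.1

end TT

end Vale.Agent.P057T.Gk
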