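import Vale.Agent.P057T.Gk.Rows
import Vale.Agent.P057T.Gk.Bas

/-! Transfer of typicality and counts in fibres with several classes. -/

set_option linter.all false

open Finset

namespace Vale.Agent.P057T.Gk

open TT

noncomputable section

namespace Trf

variable {α ι : Type} [Fintype α] [DecidableEq α] [Fintype ι] [DecidableEq ι] {T : TT α ι}
  {S0 S1 S : Finset α} {b z : ι → ℤ} {c r : ι → ℝ} {σ τ : ℝ}

theorem mem_fbx : z ∈ T.fbx S0 S b c r ↔
    z ∈ T.pts S 20 ∧ T.Ag S0 z b ∧ ∀ v ∈ T.fv S0 S, |T.u (cz z) v - c v| ≤ r v := by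
  unfold fbx
  simp only [mem_filter]

theorem mem_fv {v : ι} : v ∈ T.fv S0 S ↔ T.ty v ⊆ S ∧ ¬ T.ty v ⊆ S0 := by simp [fv]

/-- expected number of points -/
def VV (T : TT α ι) (r : ι → ℝ) (S0 S : Finset α) : ℝ := T.vol S0 S * ∏ v ∈ T.fv S0 S, r v

theorem VV_pos (hT : T.Ok) (hr : ∀ v, 0 < r v) (S0 S : Finset α) : 0 < VV T r S0 S :=
  mul_pos (vol_pos hT _ _) (prod_pos fun v _ => hr v)

theorem VV_mul (hT : T.Ok) (h : S0 ⊆ S1) (h' : S1 ⊆ S) :
    VV T r S0 S = VV T r S0 S1 * VV T r S1 S := by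
  have e : T.fv S0 S = T.fv S0 S1 ∪ T.fv S1 S := by
    ext v
    simp only [mem_fv, mem_union]
    constructor
    · rintro ⟨k1, k2⟩
      by_cases k : T.ty v ⊆ S1
      · exact Or.inl ⟨k, k2⟩
      · exact Or.inr ⟨k1, k⟩
    · rintro (⟨k1, k2⟩ | ⟨k1, k2⟩)
      · exact ⟨k1.trans h', k2⟩
      · exact ⟨k1, fun k => k2 (k.trans h)⟩
  unfold VV
  rw [vol_mul hT h h', e, prod_union (disjoint_left.2 fun v k1 k2 =>
    (mem_fv.1 k2).2 (mem_fv.1 k1).1)]
  ring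

theorem split (hT : T.Ok) (h : S0 ⊆ S1) (h' : S1 ⊆ S) (g : (ι → ℤ) → ℝ) :
    ∑ z ∈ T.fbx S0 S b c r, g z = ∑ y ∈ T.fbx S0 S1 b c r, ∑ z ∈ T.fbx S1 S y c r, g z := by
  rw [← sum_fiberwise_of_maps_to (t := T.fbx S0 S1 b c r) (g := T.res S1)]
  · refine sum_congr rfl fun y hy => sum_congr ?_ fun _ _ => rfl
    obtain ⟨y1, y2, y3⟩ := mem_fbx.1 hy
    ext z
    rw [mem_filter, mem_fbx, mem_fbx]
    constructor
    · rintro ⟨⟨z1, z2, z3⟩, rfl⟩
      exact ⟨z1, (ag_res S1 z).symm, fun v hv =>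
        z3 v (mem_fv.2 ⟨(mem_fv.1 hv).1, fun k => (mem_fv.1 hv).2 (k.trans h)⟩)⟩
    · rintro ⟨z1, z2, z3⟩
      refine ⟨⟨z1, (z2.mono h).trans y2, fun v hv => ?_⟩, ?_⟩
      · by_cases k : T.ty v ⊆ S1
        · rw [hT.u_ag z2.cz k]
          exact y3 v (mem_fv.2 ⟨k, (mem_fv.1 hv).2⟩)
        · exact z3 v (mem_fv.2 ⟨(mem_fv.1 hv).1, k⟩)
      · funext v
        unfold res
        split_ifs with k
        · exact z2 v k
        · exact (((mem_pts hT).1 y1).1 v k).symm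
  · intro z hz
    obtain ⟨z1, z2, z3⟩ := mem_fbx.1 hz
    refine mem_fbx.2 ⟨res_mem hT z1 h', ((ag_res S1 z).mono h).trans z2, fun v hv => ?_⟩
    rw [hT.u_ag (ag_res S1 z).cz (mem_fv.1 hv).1]
    exact z3 v (mem_fv.2 ⟨(mem_fv.1 hv).1.trans h', (mem_fv.1 hv).2⟩)

theorem split1 (hT : T.Ok) (h : S0 ⊆ S1) (h' : S1 ⊆ S) :
    ((T.fbx S0 S b c r).card : ℝ) = ∑ y ∈ T.fbx S0 S1 b c r, ((T.fbx S1 S y c r).card : ℝ) := by
  simpa using split (b := b) (c := c) (r := r) hT h h' fun _ => 1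

theorem defi (hT : T.Ok) (hG : G00 T σ) (h0 : 0 < σ) (h1 : σ ≤ 1) (hB : Bx σ c r) (D : Finset α)
    (hD : Disjoint D S0) :
    ∑ y ∈ T.fbx ∅ S0 0 c r, max (VV T r S0 (D ∪ S0) - (T.fbx S0 (D ∪ S0) y c r).card) 0 ≤
      3 * D.card * σ * VV T r ∅ (D ∪ S0) := by
  classical
  have hr : ∀ v, 0 < r v := fun v => h0.trans_le (hB v).1
  induction D using Finset.induction_on with
  | empty =>
    rw [empty_union, card_empty, Nat.cast_zero, mul_zero, zero_mul, zero_mul]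
    refine sum_nonpos fun y hy => max_le ?_ le_rfl
    have e : T.fv S0 S0 = ∅ := eq_empty_of_forall_notMem fun v hv => (mem_fv.1 hv).2 (mem_fv.1 hv).1
    have k : 1 ≤ (T.fbx S0 S0 y c r).card := card_pos.2
      ⟨y, mem_fbx.2 ⟨(mem_fbx.1 hy).1, Ag.refl _ _, by simp [e]⟩⟩
    have k' : (1 : ℝ) ≤ (T.fbx S0 S0 y c r).card := by exact_mod_cast k
    simp only [VV, vol, e, prod_empty]
    linarith
  | insert a D ha ih =>
    rw [disjoint_insert_left] at hD
    have ih := ih hD.2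
    have ha' : a ∉ D ∪ S0 := by simp [ha, hD.1]
    rw [insert_union, card_insert_of_notMem ha]
    generalize hS : D ∪ S0 = S' at *
    have s0 : S0 ⊆ S' := hS ▸ subset_union_right
    have s1 : S' ⊆ insert a S' := subset_insert _ _
    have p1 := VV_pos hT hr S' (insert a S')
    have p2 := VV_pos hT hr ∅ S'
    have hM := hG.2 (insert a S') a (mem_insert_self _ _) c r hB
    rw [erase_insert ha'] at hM
    have hE := (abs_le.1 (hG.1 S' c r hB)).2
    let g : (ι → ℤ) → ℝ := fun w => σ + if ¬ T.Eq S' (insert a S') w σ then 1 else 0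
    have g0 : ∀ w, 0 ≤ g w := fun w => by
      simp only [g]
      split_ifs <;> linarith
    have k1 : ∀ w, (1 - g w) * VV T r S' (insert a S') ≤ (T.fbx S' (insert a S') w c r).card := by
      intro w
      simp only [g]
      split_ifs with k
      · have := (abs_le.1 (k c r hB)).1
        unfold VV
        linarith
      · have : (0 : ℝ) ≤ (T.fbx S' (insert a S') w c r).card := Nat.cast_nonneg _
        nlinarith
    have k2 : ∀ y, max (VV T r S0 (insert a S') - (T.fbx S0 (insert a S') y c r).card) 0 ≤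
        VV T r S' (insert a S') * (max (VV T r S0 S' - (T.fbx S0 S' y c r).card) 0 +
          ∑ w ∈ T.fbx S0 S' y c r, g w) := by
      intro y
      have k3 := sum_le_sum fun w (_ : w ∈ T.fbx S0 S' y c r) => k1 w
      rw [← split1 hT s0 s1, ← sum_mul, sum_sub_distrib, sum_const, nsmul_eq_mul, mul_one] at k3
      have k4 := le_max_left (VV T r S0 S' - (T.fbx S0 S' y c r).card) 0
      have k5 := le_max_right (VV T r S0 S' - (T.fbx S0 S' y c r).card) 0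
      have k6 : 0 ≤ ∑ w ∈ T.fbx S0 S' y c r, g w := sum_nonneg fun w _ => g0 w
      refine max_le ?_ (by positivity)
      rw [VV_mul hT s0 s1]
      nlinarith
    have k7 : ∑ w ∈ T.fbx ∅ S' 0 c r, g w ≤ 3 * σ * VV T r ∅ S' := by
      simp only [g]
      rw [sum_add_distrib, sum_const, nsmul_eq_mul, sum_boole]
      have k8 : ((T.fbx ∅ S' 0 c r).card : ℝ) ≤ 2 * VV T r ∅ S' := by
        unfold VV at p2 ⊢
        nlinarith
      have k9 : ((((T.fbx ∅ S' 0 c r).filter fun w => ¬ T.Eq S' (insert a S') w σ).card : ℕ) : ℝ) ≤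
          σ * VV T r ∅ S' := by
        unfold VV
        convert hM
      nlinarith
    refine (sum_le_sum fun y _ => k2 y).trans ?_
    rw [← mul_sum, sum_add_distrib, ← split hT (empty_subset _) s0, VV_mul hT (empty_subset S') s1]
    push_cast
    nlinarith

theorem l1 (hT : T.Ok) (hG : G00 T σ) (h0 : 0 < σ) (h1 : σ ≤ 1) (hB : Bx σ c r) {a : ℕ}
    (ha : Fintype.card α ≤ a) (h : S0 ⊆ S) :
    ∑ y ∈ T.fbx ∅ S0 0 c r, |((T.fbx S0 S y c r).card : ℝ) - VV T r S0 S| ≤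
      (2 + 6 * a) * σ * VV T r ∅ S := by
  have hr : ∀ v, 0 < r v := fun v => h0.trans_le (hB v).1
  have k1 := defi (S0 := S0) hT hG h0 h1 hB (S \ S0) sdiff_disjoint
  rw [sdiff_union_of_subset h] at k1
  have k2 : ∀ x y : ℝ, |x - y| = x - y + 2 * max (y - x) 0 := fun x y => by
    rcases le_total x y with k | k
    · rw [abs_of_nonpos (by linarith), max_eq_left (by linarith)]; ring
    · rw [abs_of_nonneg (by linarith), max_eq_right (by linarith)]; ring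
  simp only [k2]
  rw [sum_add_distrib, sum_sub_distrib, ← mul_sum, ← split1 hT (empty_subset _) h, sum_const,
    nsmul_eq_mul]
  have k3 : _ ≤ σ * VV T r ∅ S := (abs_le.1 (hG.1 S c r hB)).2
  have k4 : -(σ * VV T r ∅ S0) ≤ _ := (abs_le.1 (hG.1 S0 c r hB)).1
  have k5 : (((S \ S0).card : ℕ) : ℝ) ≤ a := by exact_mod_cast (card_le_univ _).trans ha
  have p1 := VV_pos hT hr S0 S
  have p2 := VV_pos hT hr ∅ S
  have e := VV_mul (r := r) hT (empty_subset S0) h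
  have k6 := mul_le_mul_of_nonneg_right k4 p1.le
  have k7 := mul_le_mul_of_nonneg_right k5 (mul_pos h0 p2).le
  change _ - VV T r ∅ S ≤ _ at k3
  change _ ≤ (_ - VV T r ∅ S0) * _ at k6
  have e2 : σ * VV T r ∅ S = σ * (VV T r ∅ S0 * VV T r S0 S) := by rw [← e]
  nlinarith

theorem bx_mono (hB : Bx τ c r) (h : σ ≤ τ) : Bx σ c r := fun v => ⟨h.trans (hB v).1, (hB v).2⟩

theorem tr (hT : T.Ok) (hG : G00 T σ) (h0 : 0 < σ) (h1 : σ ≤ 1) {a : ℕ} (ha : Fintype.card α ≤ a)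
    (h : S0 ⊆ S1) {p : (ι → ℤ) → Prop} (hp : ∀ z z', T.Ag S0 z z' → p z → p z') (hτ : σ ≤ τ)
    {ε : ℝ} (hε : τ + (2 + 6 * a) * σ ≤ ε) (hM : T.Mo S0 τ p) : T.Mo S1 ε p := by
  classical
  intro c r hB
  have a0 : (0 : ℝ) ≤ (2 + 6 * a) * σ := by positivity
  have hB1 : Bx τ c r := bx_mono hB (by linarith)
  have hB2 : Bx σ c r := bx_mono hB1 hτ
  have hr : ∀ v, 0 < r v := fun v => h0.trans_le (hB2 v).1
  have k1 := l1 hT hG h0 h1 hB2 ha h
  have k2 : (((T.fbx ∅ S0 0 c r).filter fun z => ¬ p z).card : ℝ) ≤ τ * VV T r ∅ S0 := by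
    unfold VV
    convert hM c r hB1
  have p1 := VV_pos hT hr S0 S1
  have p2 := VV_pos hT hr ∅ S1
  have k3 : (((T.fbx ∅ S1 0 c r).filter fun z => ¬ p z).card : ℝ) ≤ ε * VV T r ∅ S1 := by
    rw [← sum_boole, split hT (empty_subset _) h]
    have k4 : ∀ y ∈ T.fbx ∅ S0 0 c r, ∑ z ∈ T.fbx S0 S1 y c r, (if ¬ p z then (1 : ℝ) else 0) ≤
        |((T.fbx S0 S1 y c r).card : ℝ) - VV T r S0 S1| +
          (if ¬ p y then (1 : ℝ) else 0) * VV T r S0 S1 := by
      intro y _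
      by_cases k : p y
      · rw [sum_eq_zero fun z hz => if_neg (not_not.2 (hp y z (mem_fbx.1 hz).2.1.symm k)),
          if_neg (not_not.2 k), zero_mul, add_zero]
        exact abs_nonneg _
      · rw [if_pos k, sum_boole]
        have k5 : ((((T.fbx S0 S1 y c r).filter fun z => ¬ p z).card : ℕ) : ℝ) ≤
            (T.fbx S0 S1 y c r).card := by exact_mod_cast card_filter_le _ _
        linarith [le_abs_self (((T.fbx S0 S1 y c r).card : ℝ) - VV T r S0 S1)]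
    refine (sum_le_sum k4).trans ?_
    rw [sum_add_distrib, ← sum_mul, sum_boole]
    have k6 := mul_le_mul_of_nonneg_right k2 p1.le
    rw [mul_assoc, ← VV_mul hT (empty_subset _) h] at k6
    nlinarith
  unfold VV at k3
  convert k3

theorem eq_mono (hT : T.Ok) (h0 : 0 < σ) (h : σ ≤ τ) (hE : T.Eq S0 S b σ) : T.Eq S0 S b τ :=
  fun c r hB => (hE c r (bx_mono hB h)).trans (mul_le_mul_of_nonneg_right h
    (VV_pos hT (fun v => (h0.trans_le h).trans_le (hB v).1) S0 S).le)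

theorem fbx_congr {b' : ι → ℤ} (h : T.Ag S0 b b') : T.fbx S0 S b c r = T.fbx S0 S b' c r := by
  ext z
  rw [mem_fbx, mem_fbx]
  exact ⟨fun k => ⟨k.1, k.2.1.trans h, k.2.2⟩, fun k => ⟨k.1, k.2.1.trans h.symm, k.2.2⟩⟩

theorem ct_congr {b' : ι → ℤ} (h : T.Ag S0 b b') (k : T.Ct S0 S b σ c r) : T.Ct S0 S b' σ c r := by
  unfold Ct at k ⊢
  rwa [← fbx_congr h]

theorem mo_imp {p p' : (ι → ℤ) → Prop} (h : ∀ z, p z → p' z) (hM : T.Mo S σ p) : T.Mo S σ p' := by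
  intro c r hB
  refine le_trans ?_ (hM c r hB)
  exact_mod_cast card_le_card fun z hz => by
    simp only [mem_filter] at hz ⊢
    exact ⟨hz.1, fun k => hz.2 (h z k)⟩

theorem ct0 (hT : T.Ok) (hG : G00 T σ) (h0 : 0 < σ) (h1 : σ ≤ 1) {a : ℕ} (ha : Fintype.card α ≤ a)
    (h : S0 ⊆ S) {ε : ℝ} (hτ : σ ≤ τ) (hε : σ ≤ ε) (hs : (2 + 6 * a) * σ ≤ τ * ε)
    (hB : Bx ε c r) : T.Mo S0 τ fun z => T.Ct S0 S z ε c r := by
  classical
  intro c' r' hB'
  let c2 : ι → ℝ := fun v => if T.ty v ⊆ S0 then c' v else c v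
  let r2 : ι → ℝ := fun v => if T.ty v ⊆ S0 then r' v else r v
  have hB2 : Bx σ c2 r2 := fun v => by
    simp only [c2, r2]
    split_ifs
    · exact bx_mono hB' hτ v
    · exact bx_mono hB hε v
  have hr : ∀ v, 0 < r2 v := fun v => h0.trans_le (hB2 v).1
  have e1 : T.fbx ∅ S0 0 c2 r2 = T.fbx ∅ S0 0 c' r' := by
    ext z
    rw [mem_fbx, mem_fbx]
    refine and_congr_right fun _ => and_congr_right fun _ => forall₂_congr fun v hv => ?_
    simp only [c2, r2, if_pos (mem_fv.1 hv).1]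
  have e2 : ∀ y, T.fbx S0 S y c2 r2 = T.fbx S0 S y c r := fun y => by
    ext z
    rw [mem_fbx, mem_fbx]
    refine and_congr_right fun _ => and_congr_right fun _ => forall₂_congr fun v hv => ?_
    simp only [c2, r2, if_neg (mem_fv.1 hv).2]
  have e3 : VV T r2 ∅ S0 = VV T r' ∅ S0 :=
    congrArg _ (prod_congr rfl fun v hv => if_pos (mem_fv.1 hv).1)
  have e4 : VV T r2 S0 S = VV T r S0 S :=
    congrArg _ (prod_congr rfl fun v hv => if_neg (mem_fv.1 hv).2)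
  have k1 := l1 hT hG h0 h1 hB2 ha h
  have p1 := VV_pos hT hr S0 S
  have p2 := VV_pos hT hr ∅ S0
  rw [VV_mul hT (empty_subset _) h] at k1
  simp only [e1, e2, e3, e4] at k1 p1 p2
  have ε0 : 0 < ε := h0.trans_le hε
  have k2 : (((T.fbx ∅ S0 0 c' r').filter fun z => ¬ T.Ct S0 S z ε c r).card : ℝ) *
      (ε * VV T r S0 S) ≤ ∑ y ∈ T.fbx ∅ S0 0 c' r', |((T.fbx S0 S y c r).card : ℝ) - VV T r S0 S| := by
    rw [← nsmul_eq_mul, ← sum_const]
    exact (sum_le_sum fun y hy => (not_le.1 (mem_filter.1 hy).2).le).trans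
      (sum_le_sum_of_subset_of_nonneg (filter_subset _ _) fun _ _ _ => abs_nonneg _)
  have k3 : (((T.fbx ∅ S0 0 c' r').filter fun z => ¬ T.Ct S0 S z ε c r).card : ℝ) ≤
      τ * VV T r' ∅ S0 := by
    refine le_of_mul_le_mul_right (k2.trans (k1.trans ?_)) (mul_pos ε0 p1)
    have := mul_le_mul_of_nonneg_right hs (mul_pos p2 p1).le
    linarith
  unfold VV at k3
  convert k3

theorem num (a : ℕ) {Y : ℝ} (hY : ((12 * a + 6 : ℕ) : ℝ) ≤ Y) :
    (4 + 12 * a) * Real.exp (-((12 * a + 6 : ℕ) * Y)) ≤ Real.exp (-Y) * Real.exp (-Y) ∧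
      Real.exp (-Y) ≤ 1 := by
  have a0 : (0 : ℝ) ≤ a := Nat.cast_nonneg a
  push_cast at hY ⊢
  refine ⟨?_, Real.exp_le_one_iff.2 (by linarith)⟩
  have h1 := Real.add_one_le_exp ((12 * a + 4) * Y)
  have h2 : (4 + 12 * a : ℝ) ≤ Real.exp ((12 * a + 4) * Y) := by nlinarith
  refine (mul_le_mul_of_nonneg_right h2 (Real.exp_pos _).le).trans (le_of_eq ?_)
  rw [← Real.exp_add, ← Real.exp_add]
  congr 1
  ring

end Trf

open Trf in
theorem trf : TRF := by
  intro a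
  refine ⟨12 * a + 6, fun α ι _ _ _ _ T Y ha hY hT hG => ?_⟩
  obtain ⟨n1, n2⟩ := num a hY
  have h0 := Real.exp_pos (-((12 * a + 6 : ℕ) * Y))
  have y0 := Real.exp_pos (-Y)
  have a0 : (0 : ℝ) ≤ a := Nat.cast_nonneg a
  generalize Real.exp (-((12 * a + 6 : ℕ) * Y)) = σ at *
  generalize Real.exp (-Y) = ε at *
  have n3 : σ + (2 + 6 * a) * σ ≤ ε := by nlinarith
  have n4 : σ ≤ ε := by nlinarith
  have k : ∀ (S0 S1 : Finset α) (p : (ι → ℤ) → Prop), S0 ⊆ S1 →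
      (∀ z z', T.Ag S0 z z' → p z → p z') → T.Mo S0 σ p → T.Mo S1 ε p :=
    fun S0 S1 p h hp hM => tr hT hG h0 (n4.trans n2) ha h hp le_rfl n3 hM
  exact ⟨⟨fun S => eq_mono hT h0 n4 (hG.1 S), fun S S1 x hx h =>
    mo_imp (fun z => eq_mono hT h0 n4) (k _ _ _ h
      (fun z z' e hz c r hB => ct_congr e (hz c r hB)) (hG.2 S x hx))⟩, k⟩

open Trf in
theorem mul0 : MUL := by
  intro a
  refine ⟨12 * a + 6, fun α ι _ _ _ _ T Y ha hY hT hG S0 S S1 c r h h' hB => ?_⟩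
  obtain ⟨n1, n2⟩ := num a hY
  have h0 := Real.exp_pos (-((12 * a + 6 : ℕ) * Y))
  have y0 := Real.exp_pos (-Y)
  have a0 : (0 : ℝ) ≤ a := Nat.cast_nonneg a
  generalize Real.exp (-((12 * a + 6 : ℕ) * Y)) = σ at *
  generalize Real.exp (-Y) = ε at *
  have hG0 : G00 T σ := ⟨hG.1, fun S x hx => hG.2 S _ x hx subset_rfl⟩
  have n4 : σ ≤ ε / 2 := by nlinarith
  exact tr (τ := ε / 2) hT hG0 h0 (by linarith) ha h' (fun z z' e hz => ct_congr e hz) n4
    (by nlinarith) (ct0 hT hG0 h0 (by linarith) ha h n4 (by linarith) (by nlinarith) hB)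

theorem mul (_ : TRF) : MUL := mul0

end

end Vale.Agent.P057T.Gk
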