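import Vale.Agent.P057T.Gk.Rows
import Vale.Agent.P057T.Gk.Bas

/-! Row `ARC`. -/

set_option linter.all false

open Finset

namespace Vale.Agent.P057T.Gk

open TT

namespace ArcP

/-- pigeonhole on bounded integer labels -/
theorem pig {β ρ : Type} [Fintype ρ] [DecidableEq ρ] (Ω : Finset β) (lab : β → ρ → ℤ) (M : ℕ)
    (h : ∀ z ∈ Ω, ∀ s, |lab z s| ≤ M) :
    ∃ (t : ρ → ℤ) (Ω1 : Finset β), Ω1 ⊆ Ω ∧ (∀ z ∈ Ω1, lab z = t) ∧
      (Ω.card : ℝ) ≤ (2 * M + 1 : ℝ) ^ Fintype.card ρ * Ω1.card := by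
  classical
  set Tt : Finset (ρ → ℤ) := Fintype.piFinset fun _ => Icc (-(M : ℤ)) M with hT
  have hc : Tt.card = (2 * M + 1) ^ Fintype.card ρ := by
    rw [hT, Fintype.card_piFinset, prod_const, card_univ, Int.card_Icc]
    congr 1
    omega
  have hne : Tt.Nonempty := ⟨0, by simp [hT]⟩
  obtain ⟨t, -, ht⟩ := exists_max_image Tt (fun t => (Ω.filter fun z => lab z = t).card) hne
  refine ⟨t, Ω.filter fun z => lab z = t, filter_subset _ _, fun z hz => (mem_filter.1 hz).2, ?_⟩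
  have hm : ∀ z ∈ Ω, lab z ∈ Tt := fun z hz => by
    rw [hT, Fintype.mem_piFinset]
    intro s
    exact mem_Icc.2 (abs_le.1 (h z hz s))
  have h1 := card_eq_sum_card_fiberwise (f := lab) (s := Ω) (t := Tt) (fun z hz => hm z hz)
  have h2 : Ω.card ≤ Tt.card * (Ω.filter fun z => lab z = t).card := by
    rw [h1, ← smul_eq_mul]
    exact sum_le_card_nsmul _ _ _ fun y hy => ht y hy
  rw [hc] at h2
  exact_mod_cast h2

theorem dot_le {ρ : Type} [Fintype ρ] (k : ρ → ℤ) (e : ρ → ℝ) (Y : ℝ)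
    (hρ : (Fintype.card ρ : ℝ) ≤ Y) (hk : ∀ r, |(k r : ℝ)| ≤ Real.exp Y)
    (he : ∀ r, |e r| ≤ 1 / 100) : |∑ r, (k r : ℝ) * e r| ≤ Y * (Real.exp Y * (1 / 100)) := by
  refine (abs_sum_le_sum_abs _ _).trans ?_
  have : ∑ r, |(k r : ℝ) * e r| ≤ ∑ _r : ρ, Real.exp Y * (1 / 100) := sum_le_sum fun r _ => by
    rw [abs_mul]
    exact mul_le_mul (hk r) (he r) (abs_nonneg _) (Real.exp_pos _).le
  refine this.trans ?_
  rw [sum_const, card_univ, nsmul_eq_mul]
  exact mul_le_mul_of_nonneg_right hρ (by positivity)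

theorem fm_lc {α ι ρ : Type} [Fintype α] [DecidableEq α] [Fintype ι] [DecidableEq ι] [Fintype ρ]
    {T : TT α ι} {S G : Finset α} {g : ρ → Fn ι} (h : ∀ r, T.Fm S G (g r)) (K : ρ → ℤ) :
    T.Fm S G (lc K g) := fm_sum univ fun r _ => (h r).smul _

theorem num1 {Y : ℝ} (hY : 4 ≤ Y) {M d : ℕ} (hM : (M : ℝ) ≤ Y * Real.exp Y + 2)
    (hd : (d : ℝ) ≤ Y) : (2 * M + 1 : ℝ) ^ d ≤ Real.exp (Y ^ 4 - Y) := by
  have h1 : Y + 1 ≤ Real.exp Y := Real.add_one_le_exp Y
  have h0 : 0 < Real.exp Y := Real.exp_pos Y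
  have h2 : (2 * M + 1 : ℝ) ≤ Real.exp (3 * Y) := by
    have e : Real.exp (3 * Y) = Real.exp Y * Real.exp Y * Real.exp Y := by
      rw [← Real.exp_add, ← Real.exp_add]; congr 1; ring
    have h3 : 5 * (Y + 1) ≤ Real.exp Y * Real.exp Y := by nlinarith
    have h4 : 5 * (Y + 1) * Real.exp Y ≤ Real.exp Y * Real.exp Y * Real.exp Y :=
      mul_le_mul_of_nonneg_right h3 h0.le
    rw [e]; nlinarith
  calc (2 * M + 1 : ℝ) ^ d ≤ Real.exp (3 * Y) ^ d := pow_le_pow_left₀ (by positivity) h2 d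
    _ = Real.exp (d * (3 * Y)) := (Real.exp_nat_mul _ _).symm
    _ ≤ _ := Real.exp_le_exp.2 (by
      have h5 : (d : ℝ) * (3 * Y) ≤ Y * (3 * Y) := mul_le_mul_of_nonneg_right hd (by linarith)
      have h6 : 16 * Y ^ 2 ≤ Y ^ 4 := by
        have : 16 ≤ Y ^ 2 := by nlinarith
        nlinarith [sq_nonneg Y]
      nlinarith)

theorem num2 {Y : ℝ} (hY : 4 ≤ Y) :
    Y * (Y * (Real.exp Y * (1 / 100)) * Real.exp Y) ≤ Real.exp (Y ^ 4) := by
  have h1 : Y + 1 ≤ Real.exp Y := Real.add_one_le_exp Y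
  have h0 : 0 < Real.exp Y := Real.exp_pos Y
  have e : Real.exp (4 * Y) = Real.exp Y * Real.exp Y * (Real.exp Y * Real.exp Y) := by
    rw [← Real.exp_add, ← Real.exp_add]; congr 1; ring
  have h2 : Y * Y ≤ Real.exp Y * Real.exp Y := mul_le_mul (by linarith) (by linarith) (by linarith) h0.le
  have h3 : Real.exp (4 * Y) ≤ Real.exp (Y ^ 4) := Real.exp_le_exp.2 (by
    have : 4 ≤ Y ^ 3 := by
      have : 16 ≤ Y ^ 2 := by nlinarith
      nlinarith
    nlinarith)
  refine le_trans ?_ h3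
  rw [e]
  have h4 : 0 < Real.exp Y * Real.exp Y := by positivity
  nlinarith [mul_le_mul_of_nonneg_right h2 h4.le]

end ArcP

open ArcP in
theorem arc (hG : GLU) : ARC := by
  intro a0
  refine ⟨4, ?_⟩
  intro α ι κ ρ _ _ _ _ _ _ _ T Y _ hY _ _ hρ hT _ S F c i a cc g Ω n D0 k p l ζ hc hF hD hW _ _ hL hI
  classical
  have hY4 : (4 : ℝ) ≤ Y := by exact_mod_cast hY
  set B := S.erase c \ F with hB
  have hBS : B ⊆ S.erase c := sdiff_subset
  have hiB : i ∈ B := hW.hi
  have hic : i ≠ c := (mem_erase.1 (hBS hiB)).1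
  have hcB : c ∉ B := fun h => (mem_erase.1 (hBS h)).1 rfl
  have hB' : B.erase i ⊆ S.erase i := erase_subset_erase _ (hBS.trans (erase_subset _ _))
  have hG' : ∀ x ∈ insert c F, x ∉ B := fun x hx h => by
    rcases mem_insert.1 hx with rfl | hx
    · exact hcB h
    · exact (mem_sdiff.1 h).2 hx
  -- integer parts, chosen per base point
  have hex : ∀ (b : ι → ℤ) (j : ρ) (kk : κ), ∃ I : Fn ι, T.Fm (S.erase i) (insert c F) I ∧
      ∀ z ∈ Ω, T.res (B.erase i) z = b → T.IsI (B.erase i) z I ∧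
        T.Osc (B.erase i) (S.erase i) c z (fun x => n * lc (ζ j) (cc kk) x - I x) (Real.exp Y) := by
    intro b j kk
    by_cases h : ∃ z ∈ Ω, T.res (B.erase i) z = b
    · obtain ⟨z0, hz0, e0⟩ := h
      obtain ⟨I, h1, h2, h3⟩ := hI z0 hz0 j kk
      refine ⟨I, h1.ext fun x hx hs => mem_sdiff.2 ⟨hs, fun h => hG' x hx (mem_erase.1 h).2⟩, ?_⟩
      intro z _ e
      have hag : T.Ag (B.erase i) z0 z := by
        refine (ag_res _ z0).symm.trans ?_
        rw [e0, ← e]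
        exact ag_res _ z
      exact ⟨h2.congr hag, h3.congr hag⟩
    · exact ⟨fun _ => 0, fm_const _ _ 0, fun z hz e => (h ⟨z, hz, e⟩).elim⟩
  choose Φ hΦ1 hΦ2 using hex
  have hgl : ∀ (j : ρ) (kk : κ), ∃ f : Fn ι, T.Fm (S.erase i) (insert c F) f ∧
      ∀ (b : ι → ℤ) (z : ι → ℝ), T.Ag (B.erase i) z (cz b) → f z = Φ (T.res (B.erase i) b) j kk z :=
    fun j kk => hG α ι T (B.erase i) (S.erase i) (insert c F) (fun b => Φ b j kk) hB'
      (fun x hx h => hG' x hx (mem_erase.1 h).2) fun b => hΦ1 b j kk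
  choose Ig hI1 hI2 using hgl
  -- arcs
  set e : (ι → ℤ) → ρ → ℝ := fun z r => g r (cz z) - round (g r (cz z)) with he
  have hke : ∀ z ∈ Ω, ∀ s, |∑ r, (k s r : ℝ) * e z r| ≤ Y * (Real.exp Y * (1 / 100)) :=
    fun z hz s => dot_le (k s) (e z) Y hρ (fun r => (hL.bd s r).1) (hW.arc z hz)
  have hle : ∀ z ∈ Ω, ∀ s, |∑ r, (l s r : ℝ) * e z r| ≤ Y * (Real.exp Y * (1 / 100)) :=
    fun z hz s => dot_le (l s) (e z) Y hρ (fun r => (hL.bd s r).2.2.1) (hW.arc z hz)
  have hYe : 0 ≤ Y * Real.exp Y := by positivity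
  obtain ⟨t, Ω1, hΩ, ht, hcard⟩ := pig Ω (fun z s => ⌊100 * ∑ r, (k s r : ℝ) * e z r⌋)
    (⌈Y * Real.exp Y⌉₊ + 1) (fun z hz s => by
      have h1 := abs_le.1 (hke z hz s)
      have h2 := Nat.le_ceil (Y * Real.exp Y)
      have h3 := Int.floor_le (100 * ∑ r, (k s r : ℝ) * e z r)
      have h4 := Int.lt_floor_add_one (100 * ∑ r, (k s r : ℝ) * e z r)
      have : |((⌊100 * ∑ r, (k s r : ℝ) * e z r⌋ : ℤ) : ℝ)| ≤ ((⌈Y * Real.exp Y⌉₊ + 1 : ℕ) : ℝ) := by
        push_cast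
        rw [abs_le]
        constructor <;> linarith [h1.1, h1.2]
      exact_mod_cast this)
  have harc : ∀ z ∈ Ω1, ∀ s, |lc (k s) g (cz z) - t s / 100 -
      ((∑ r, k s r * round (g r (cz z)) : ℤ) : ℝ)| ≤ 1 / 100 := by
    intro z hz s
    have h0 : ⌊100 * ∑ r, (k s r : ℝ) * e z r⌋ = t s := congrFun (ht z hz) s
    have h3 := Int.floor_le (100 * ∑ r, (k s r : ℝ) * e z r)
    have h4 := Int.lt_floor_add_one (100 * ∑ r, (k s r : ℝ) * e z r)
    rw [h0] at h3 h4
    have e1 : lc (k s) g (cz z) - ((∑ r, k s r * round (g r (cz z)) : ℤ) : ℝ) =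
        ∑ r, (k s r : ℝ) * e z r := by
      push_cast
      simp only [lc, he, mul_sub, sum_sub_distrib]
    rw [abs_le]
    constructor <;> linarith
  have hrd : ∀ z ∈ Ω1, ∀ s, round (lc (k s) g (cz z) - t s / 100) =
      ∑ r, k s r * round (g r (cz z)) := by
    intro z hz s
    have h1 := abs_le.1 (harc z hz s)
    rw [round_eq, Int.floor_eq_iff]
    constructor <;> linarith [h1.1, h1.2]
  have hβ : ∀ j kk, T.Fm (S.erase i) (insert c F)
      (fun x => n * lc (ζ j) (cc kk) x - Ig j kk x) :=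
    fun j kk => ((fm_lc (hW.fc kk) (ζ j)).smul _).sub (hI1 j kk)
  refine ⟨Ω1, fun kk x => ((D0 * n : ℕ) : ℝ) * a kk x +
      ∑ j, lc (l j) g x * (n * lc (ζ j) (cc kk) x - Ig j kk x),
    fun kk s x => n * lc (p s) (cc kk) x, fun s x => lc (k s) g x - t s / 100, hΩ,
    ⟨hΩ.trans hD.1, ?_⟩, ⟨hiB, fun kk => ?_, fun kk s => (fm_lc (hW.fc kk) (p s)).smul _,
      fun s => (fm_lc hW.fg (k s)).sub (fm_const _ _ _), fun z hz s => ?_⟩, ?_, fun s x y _ => ?_⟩
  · have h1 := num1 hY4 (M := ⌈Y * Real.exp Y⌉₊ + 1) (d := Fintype.card ρ) (by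
      push_cast
      linarith [Nat.ceil_lt_add_one hYe]) hρ
    have h2 : Real.exp (-Y) * T.vol ∅ univ ≤ Real.exp (Y ^ 4 - Y) * Ω1.card :=
      (hD.2.trans hcard).trans (mul_le_mul_of_nonneg_right h1 (Nat.cast_nonneg _))
    have h3 := mul_le_mul_of_nonneg_left h2 (Real.exp_pos (-(Y ^ 4 - Y))).le
    rw [← mul_assoc, ← mul_assoc, ← Real.exp_add, ← Real.exp_add, neg_add_cancel, Real.exp_zero,
      one_mul] at h3
    refine le_trans (le_of_eq ?_) h3
    congr 2
    ring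
  · refine ((hW.fa kk).smul _).add (fm_sum univ fun j _ => ?_)
    refine Fm.mul (S0 := B) (S1 := S.erase i) ((fm_lc hW.fg (l j)).ext fun x hx hs => ?_)
      ((hβ j kk).ext fun x hx hs => ?_) (hBS.trans (erase_subset _ _)) (erase_subset _ _)
      fun x hx => ?_
    · rcases mem_insert.1 hx with rfl | hx
      · exact mem_singleton_self _
      · exact (hG' x hx hs).elim
    · rcases mem_insert.1 hx with rfl | hx
      · exact ((mem_erase.1 hs).1 rfl).elim
      · exact hx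
    · rcases mem_insert.1 hx with rfl | hx
      · exact Or.inr fun h => (mem_erase.1 h).1 rfl
      · exact Or.inl (hG' x hx)
  · show |lc (k s) g (cz z) - t s / 100 - round (lc (k s) g (cz z) - t s / 100)| ≤ 1 / 100
    rw [hrd z hz s]
    exact harc z hz s
  · intro z hz kk
    have hz' := hΩ hz
    have hzp := (mem_pts hT).1 (hD.1 hz')
    set m : ρ → ℤ := fun r => round (g r (cz z)) with hm
    set J : ρ → Fn ι := fun j => Φ (T.res (B.erase i) z) j kk with hJ
    have hsub : B.erase i ⊆ S.erase c := (erase_subset _ _).trans hBS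
    have hA : T.IB (S.erase c) S c z (fun x => ∑ j, ((∑ r, l j r * m r : ℤ) : ℝ) * J j x) 0 := by
      have := ib_sum (T := T) (S0 := S.erase c) (S := S) (c := c) (b := z) univ
        (F := fun j x => ((∑ r, l j r * m r : ℤ) : ℝ) * J j x) (K := fun _ => 0) fun j _ =>
          ibg_int (((hΦ1 _ j kk).smul _).mono (erase_subset _ _) fun x hx => by
            have h1 := mem_sdiff.1 hx
            have : x = c := by
              by_contra h
              exact h1.2 (mem_erase.2 ⟨h, h1.1⟩)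
            rw [this]
            exact mem_insert_self _ _) (((hΦ2 _ j kk z hz' rfl).1.up hsub).zsmul _)
      simpa using this
    have hO : ∀ j, T.Osc (S.erase c) S c z (fun x => n * lc (ζ j) (cc kk) x - J j x)
        (Real.exp Y) := by
      intro j x x' h1 h2 h3 h4
      refine (hΦ2 _ j kk z hz' rfl).2 x x' (h1.mono hsub) (h2.mono hsub) h3 fun v hv => ?_
      by_cases hv' : T.ty v ⊆ S.erase c
      · rw [hT.u_ag h1 hv', hT.u_ag h2 hv']
        exact ⟨hzp.2 v (subset_univ _), hzp.2 v (subset_univ _)⟩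
      · refine h4 v ?_
        simp only [fv, mem_filter, mem_univ, true_and] at hv ⊢
        exact ⟨hv.1.trans (erase_subset _ _), hv'⟩
    have hBB : T.IB (S.erase c) S c z (fun x => ∑ j, (∑ r, (l j r : ℝ) * e z r) *
        (n * lc (ζ j) (cc kk) x - J j x)) (∑ _j : ρ, Y * (Real.exp Y * (1 / 100)) * Real.exp Y) :=
      ib_sum univ fun j _ => (((hO j).smul _).mono
        (mul_le_mul_of_nonneg_right (hle z hz' j) (Real.exp_pos _).le)).ibg
    refine ((hA.sub hBB).mono ?_).eq fun x hx => ?_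
    · rw [zero_add, sum_const, card_univ, nsmul_eq_mul]
      exact (mul_le_mul_of_nonneg_right hρ (by positivity)).trans (num2 hY4)
    · have hg : ∀ r, g r x = g r (cz z) := fun r => (hW.fg r).1 _ _ (hx.mono hBS)
      have hlc : ∀ K : ρ → ℤ, lc K g x = lc K g (cz z) := fun K => by simp only [lc, hg]
      have hIg : ∀ j, Ig j kk x = J j x := fun j => hI2 j kk z x (hx.mono hsub)
      have hid : ∀ r, (D0 : ℝ) * (m r : ℝ) = ∑ s, ((∑ r', k s r' * m r' : ℤ) : ℝ) * p s r +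
          ∑ j, ((∑ r', l j r' * m r' : ℤ) : ℝ) * ζ j r := fun r => by
        exact_mod_cast hL.id m r
      have hlg : ∀ j, lc (l j) g (cz z) = ((∑ r', l j r' * m r' : ℤ) : ℝ) +
          ∑ r, (l j r : ℝ) * e z r := fun j => by
        push_cast
        simp only [lc, he, hm, mul_sub, sum_sub_distrib]
        ring
      simp only [tw, hlc, hg, hIg, hrd z hz, hlg]
      have key : ((D0 * n : ℕ) : ℝ) * ∑ r, cc kk r x * (m r : ℝ) =
          ∑ s, n * lc (p s) (cc kk) x * ((∑ r', k s r' * m r' : ℤ) : ℝ) +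
          ∑ j, ((∑ r', l j r' * m r' : ℤ) : ℝ) * (n * lc (ζ j) (cc kk) x) := by
        have : ((D0 * n : ℕ) : ℝ) * ∑ r, cc kk r x * (m r : ℝ) =
            ∑ r, (n * cc kk r x) * ((D0 : ℝ) * (m r : ℝ)) := by
          rw [mul_sum]
          exact sum_congr rfl fun r _ => by push_cast; ring
        rw [this]
        simp only [hid, mul_add, sum_add_distrib, lc, mul_sum, sum_mul]
        congr 1
        · rw [sum_comm]
          exact sum_congr rfl fun s _ => sum_congr rfl fun r _ => by ring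
        · rw [sum_comm]
          exact sum_congr rfl fun s _ => sum_congr rfl fun r _ => by ring
      rw [mul_add, key]
      simp only [add_mul, mul_sub, sum_add_distrib, sum_sub_distrib]
      ring
  · show lc (k s) g x - t s / 100 - lc (k s) g x = lc (k s) g y - t s / 100 - lc (k s) g y
    ring

end Vale.Agent.P057T.Gk
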