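import Vale.Agent.P057T.Gk.Bas3
import Vale.Agent.P057T.Gk.Rows

/-! Row CPOK. -/

set_option linter.all false

open Finset

namespace Vale.Agent.P057T.Gk

open TT

theorem TT.cpy_sc {α ι : Type} [Fintype α] [DecidableEq α] [Fintype ι] [DecidableEq ι]
    (T : TT α ι) (i : α) (κ : Type) [Fintype κ] [DecidableEq κ] (l cen : ι → ℝ) :
    (T.sc l cen).cpy i κ =
      (T.cpy i κ).sc (Sum.elim l (fun p => l p.2.1)) (Sum.elim cen (fun _ => 0)) := by
  unfold TT.cpy TT.sc
  congr 1
  · funext Z x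
    rcases x with v | p
    · rfl
    · show (T.u (T.bs i Z + T.hc i Z p.1) p.2.1 - cen p.2.1) / l p.2.1 -
        (T.u (T.bs i Z) p.2.1 - cen p.2.1) / l p.2.1 =
        (T.u (T.bs i Z + T.hc i Z p.1) p.2.1 - T.u (T.bs i Z) p.2.1 - 0) / l p.2.1
      ring
  · funext Z x
    rcases x with v | p
    · rfl
    · show T.ψ (fun v => l v * (T.bs i Z + T.hc i Z p.1) v + cen v) p.2.1 -
        T.ψ (fun v => l v * T.bs i Z v + cen v) p.2.1 =
        T.ψ ((fun v => l v * T.bs i Z v + cen v) + T.hc i (fun x : T.CV i κ =>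
          Sum.elim l (fun p => l p.2.1) x * Z x + Sum.elim cen (fun _ => 0) x) p.1) p.2.1 -
        T.ψ (fun v => l v * T.bs i Z v + cen v) p.2.1
      congr 2
      funext v
      by_cases h : i ∈ T.ty v
      · simp only [Pi.add_apply, hc_of _ _ h, Sum.elim_inr]
        ring
      · simp only [Pi.add_apply, hc_not _ _ h, add_zero]
  · funext x
    rcases x with v | p <;> rfl

theorem cpok : CPOK := by
  intro α ι _ _ _ _ T hT
  refine ⟨fun i κ _ _ => ⟨hT.cpy i κ, fun ε S G f hf hi => ?_, fun ε S G f hf hi => ?_,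
    fun ε Z v => ?_, T.cpy_sc i κ⟩, fun l cen hl => hT.sc hl cen, fun l cen l' cen' hl _ => ?_,
    fun _ _ _ _ h h' => h.trans h', fun _ hZ => sub_refl hZ, fun _ _ h => h.mor,
    fun S K z => mem_pts hT⟩
  · exact hf.vx ε (by rw [toLeft_disjSum]) (fun k _ => by simp) (fun a ha _ => by simpa using ha)
      fun _ _ hs => hi.resolve_right fun h => h hs
  · exact hf.vx ε (by rw [toLeft_disjSum]) (fun k _ => by simp) (fun a ha _ => by simpa using ha)
      fun _ hk _ => by simp at hk
  · rw [hT.u_vx]; rfl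
  · rw [sc_sc hl]
    congr 1
    funext v
    ring

end Vale.Agent.P057T.Gk
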