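import Vale.Agent.P057T.Gk.Num

/-! Several classes move from the base to the fibre. -/

set_option linter.all false

open Finset

namespace Vale.Agent.P057T.Gk

open TT

noncomputable section

namespace EqiP

/-- the conclusion of `EQI` -/
def Out {α ι κ : Type} [Fintype α] [DecidableEq α] [Fintype ι] [DecidableEq ι] (T : TT α ι)
    (S0 S : Finset α) (c : α) (f : κ → Fn ι) (E : Finset (ι → ℤ)) (Z : ℝ) : Prop :=
  ∃ (n : ℕ) (E' : Finset (ι → ℤ)), 1 ≤ n ∧ (n : ℝ) ≤ Real.exp Z ∧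
    T.Dn S0 E' Z ∧ ∀ b' ∈ E', (∃ b ∈ E, T.res S0 b = b') ∧
      ∀ k, T.IB S0 S c b' (fun x => n * f k x) (Real.exp Z)

/-- `EQI` for at most `m` moving classes -/
def Eqn (m : ℕ) : Prop := AT 1 fun C α ι κ _ _ _ _ _ _ _ _ T Y =>
  ∀ (S0 S1 S : Finset α) (c : α) (f : κ → Fn ι) (E : Finset (ι → ℤ)), (S1 \ S0).card ≤ m →
    c ∈ S → S1 ⊆ S.erase c → S0 ⊆ S1 → T.Dn S1 E Y → (∀ k, T.Fm S (S \ S0) (f k)) →
    (∀ b ∈ E, ∀ k, T.IB S1 S c b (f k) (Real.exp Y)) → Out T S0 S c f E (Y ^ C)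

theorem base {α ι κ : Type} [Fintype α] [DecidableEq α] [Fintype ι] [DecidableEq ι] {T : TT α ι}
    (hT : T.Ok) {S0 S : Finset α} {c : α} {f : κ → Fn ι} {E : Finset (ι → ℤ)} {Y Z : ℝ}
    (h0 : 0 ≤ Z) (hZ : Y ≤ Z) (hE : T.Dn S0 E Y)
    (hI : ∀ b ∈ E, ∀ k, T.IB S0 S c b (f k) (Real.exp Y)) : Out T S0 S c f E Z := by
  refine ⟨1, E, le_rfl, ?_, hE.mono hT hZ, fun b hb => ⟨⟨b, hb, ?_⟩, fun k => ?_⟩⟩
  · rw [Nat.cast_one]
    exact Real.one_le_exp h0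
  · funext v
    unfold res
    split_ifs with hv
    · rfl
    · exact (((mem_pts hT).1 (hE.1 hb)).1 v hv).symm
  · exact IB.eq (IB.mono (hI b hb k) (Real.exp_le_exp.2 hZ)) fun z _ => by
      rw [Nat.cast_one, one_mul]

theorem eqn_zero : Eqn 0 := by
  intro a
  refine ⟨1, ?_⟩
  intro α ι κ ρ _ _ _ _ _ _ _ T Y _ hC _ _ _ hT _ S0 S1 S c f E hm _ _ h01 hE _ hI
  have e : S1 = S0 :=
    Subset.antisymm (sdiff_eq_empty_iff_subset.1 (card_eq_zero.1 (Nat.le_zero.1 hm))) h01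
  subst e
  have hY : (1 : ℝ) ≤ Y := by exact_mod_cast hC
  exact base hT (by positivity) (by rw [pow_one]) hE hI

theorem eqn_succ (h1 : EQ1) (hS : SCG) (m : ℕ) (ih : Eqn m) : Eqn (m + 1) := by
  intro a
  obtain ⟨C1, k1⟩ := h1 a
  obtain ⟨C2, k2⟩ := ih a
  refine ⟨(C1 + 1) * C2 + C1 + C2 + 2, ?_⟩
  intro α ι κ ρ _ _ _ _ _ _ _ T Y ha hC hι hκ hρ hT hN S0 S1 S c f E hm hc h1S h01 hE hF hI
  set C : ℕ := (C1 + 1) * C2 + C1 + C2 + 2 with hCd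
  have cY : ∀ x : ℕ, x ≤ C → (x : ℝ) ≤ Y := fun x hx => le_trans (by exact_mod_cast hx) hC
  have hY2 : (2 : ℝ) ≤ Y := by exact_mod_cast cY 2 (by omega)
  have hY1 : (1 : ℝ) ≤ Y := by linarith
  have pw : ∀ x y : ℕ, x ≤ y → Y ^ x ≤ Y ^ y := fun x y h => pow_le_pow_right₀ hY1 h
  have pY : ∀ x : ℕ, 1 ≤ x → Y ≤ Y ^ x := fun x h => by simpa using pw 1 x h
  have nn : ∀ x : ℕ, x ≤ C → T.Nn 1 (Real.exp (-Y ^ x)) := fun x hx =>
    (hS 1 α ι T _ _ hT (Real.exp_pos _)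
      (Real.exp_le_one_iff.2 (neg_nonpos.2 (by positivity)))).1
      (Real.exp_le_exp.2 (neg_le_neg (pw _ _ hx))) hN
  rcases (S1 \ S0).eq_empty_or_nonempty with he | ⟨e, he⟩
  · have e : S1 = S0 := Subset.antisymm (sdiff_eq_empty_iff_subset.1 he) h01
    subst e
    exact base hT (by positivity) (pY C (by omega)) hE hI
  have he1 : e ∈ S1 := (mem_sdiff.1 he).1
  have he0 : e ∉ S0 := (mem_sdiff.1 he).2
  have heS : e ∈ S := mem_of_mem_erase (h1S he1)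
  obtain ⟨n1, E1, a1, a2, a3, a4⟩ := k1 α ι κ ρ T Y ha (cY _ (by omega)) hι hκ hρ hT
    (nn C1 (by omega)) S1 S c e f E hc h1S he1 hE
    (fun k => (hF k).mono (Subset.refl _)
      (insert_subset (mem_sdiff.2 ⟨heS, he0⟩) (sdiff_subset_sdiff (Subset.refl _) h01))) hI
  have hY' : Y ≤ Y ^ (C1 + 1) := pY _ (by omega)
  have hY'' : Y ^ C1 ≤ Y ^ (C1 + 1) := pw _ _ (by omega)
  have ep : (Y ^ (C1 + 1)) ^ C2 = Y ^ ((C1 + 1) * C2) := by rw [← pow_mul]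
  have h0e : S0 ⊆ S1.erase e := fun x hx =>
    mem_erase.2 ⟨fun h => he0 (h ▸ hx), h01 hx⟩
  have hcard : (S1.erase e \ S0).card ≤ m := by
    have e1 : S1.erase e \ S0 = (S1 \ S0).erase e := by
      ext x
      simp only [mem_sdiff, mem_erase]
      tauto
    rw [e1, card_erase_of_mem he]
    omega
  obtain ⟨n2, E2, b1, b2, b3, b4⟩ := k2 α ι κ ρ T (Y ^ (C1 + 1)) ha
    ((cY _ (by omega)).trans hY') (hι.trans (Real.exp_le_exp.2 hY'))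
    (hκ.trans (Real.exp_le_exp.2 hY')) (hρ.trans hY') hT (by rw [ep]; exact nn _ (by omega))
    S0 (S1.erase e) S c (fun k x => n1 * f k x) E1 hcard hc ((erase_subset _ _).trans h1S) h0e
    (a3.mono hT hY'') (fun k => (hF k).smul n1)
    (fun b hb k => IB.mono ((a4 b hb).2 k) (Real.exp_le_exp.2 hY''))
  rw [ep] at b2 b3 b4
  have hz : Y ^ ((C1 + 1) * C2) ≤ Y ^ C := pw _ _ (by omega)
  refine ⟨n2 * n1, E2, Nat.mul_pos b1 a1, ?_, b3.mono hT hz, fun b'' hb'' => ⟨?_, fun k => ?_⟩⟩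
  · push_cast
    refine (mul_le_mul b2 a2 (by positivity) (by positivity)).trans ?_
    rw [← Real.exp_add]
    refine Real.exp_le_exp.2 ?_
    have t1 : Y ^ ((C1 + 1) * C2) ≤ Y ^ (C - 1) := pw _ _ (by omega)
    have t2 : Y ^ C1 ≤ Y ^ (C - 1) := pw _ _ (by omega)
    have t3 : Y ^ C = Y ^ (C - 1) * Y := by
      rw [← pow_succ]
      congr 1
    have t4 : 0 ≤ Y ^ (C - 1) := by positivity
    rw [t3]
    nlinarith
  · obtain ⟨b', hb', e1⟩ := (b4 b'' hb'').1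
    obtain ⟨b, hb, e2⟩ := (a4 b' hb').1
    exact ⟨b, hb, by rw [← e1, ← e2, res_res h0e]⟩
  · exact IB.eq (IB.mono ((b4 b'' hb'').2 k) (Real.exp_le_exp.2 hz)) fun z _ => by
      push_cast
      ring

theorem eqn (h1 : EQ1) (hS : SCG) (m : ℕ) : Eqn m := by
  induction m with
  | zero => exact eqn_zero
  | succ m ih => exact eqn_succ h1 hS m ih

end EqiP

theorem eqi (h1 : EQ1) (hS : SCG) : EQI := by
  intro a
  obtain ⟨C, k⟩ := EqiP.eqn h1 hS a a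
  refine ⟨C, ?_⟩
  intro α ι κ ρ _ _ _ _ _ _ _ T Y ha hC hι hκ hρ hT hN S0 S1 S c f E hc h1S h01 hE hF hI
  exact k α ι κ ρ T Y ha hC hι hκ hρ hT hN S0 S1 S c f E ((card_le_univ _).trans ha) hc h1S h01 hE
    hF hI

end

end Vale.Agent.P057T.Gk
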