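import Vale.Agent.P057T.Gk.Rows
import Vale.Agent.P057T.MfrH53

/-! The pieces of the row FRX (statements). -/

set_option linter.all false

open Finset

namespace Vale.Agent.P057T.Gk

open TT

noncomputable section

/-- metric Freiman in every fibre, one global window; typical to depth one -/
def FRX1 : Prop := AT 1 fun C α ι κ _ _ _ _ _ _ _ _ T Y =>
  ∀ (S F : Finset α) (c i : α) (f : κ → Fn ι) (Ω : Finset (ι → ℤ)) (m : ℕ)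
    (cen : T.CV i (Fin 2) → ℝ), c ∈ S → F ⊆ S.erase c → i ∈ S.erase c \ F →
    100 * ((Fintype.card ι : ℝ) + 1) ≤ m → (m : ℝ) ≤ Real.exp Y → (∀ k, T.Fm S (insert c F) (f k)) →
    T.ES S c F i f Ω m cen Y →
    ∃ T1 Ω1, (T.win i m cen).Sub T1 (Y ^ C) ∧ Ω1 ⊆ Ω ∧ T1.R6 S c F i f Ω1 (Y ^ C)

namespace Frx

/-- all relations of six terms hold up to `H` modulo `I` -/
def Six {G δ : Type} [AddCommGroup G] [Fintype δ] (I : AddSubgroup (δ → ℝ)) (g : G → δ → ℝ)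
    (S : Finset G) (H : ℝ) : Prop :=
  ∀ s t : Fin 6 → G, (∀ k, s k ∈ S) → (∀ k, t k ∈ S) → ∑ k, s k = ∑ k, t k →
    ∃ y ∈ I, ‖∑ k, g (s k) - ∑ k, g (t k) - y‖ ≤ H

/-- metric Freiman lemma with a loss which is polynomial in the dimension of the target -/
def MFP : Prop := ∀ (G δ : Type) [AddCommGroup G] [Fintype δ] (I : AddSubgroup (δ → ℝ)) (γ : ℝ)
  (B1 B2 B3 B4 C1 C2 C3 : Finset G) (f g ζ : G → δ → ℝ) (R : Finset (G × G)) (ε L : ℝ),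
  0 < γ → (∀ y ∈ I, ‖y‖ ≤ γ → y = 0) → Mfr.Nest B1 B2 B3 B4 C1 C2 C3 → 1 ≤ L → 0 < ε →
  R ⊆ B1 ×ˢ B2 → (∀ q ∈ R, ∃ y ∈ I, ‖f q.1 + g q.2 - ζ (q.1 + q.2) - y‖ ≤ ε) →
  (B1.card : ℝ) * B2.card ≤ Real.exp L * R.card →
  ∃ (x : G) (S : Finset G), (∀ s ∈ S, (∃ a, (a, s) ∈ R) ∧ s - x ∈ B4) ∧
    (B4.card : ℝ) ≤ Real.exp (8000 * L) * S.card ∧
    Six I g S (10 ^ 6 * ((Fintype.card δ : ℝ) + 4) ^ 4 * ε)

/-- an equidistributed lattice with its boxes -/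
structure Lat {G ν : Type} [AddCommGroup G] [Fintype ν] (l : G →+ ν → ℝ) (P : AddSubgroup G)
    (bx : (ν → ℝ) → ℝ → Finset G) (V σ : ℝ) : Prop where
  pos : 0 < V
  mem : ∀ c r, (∀ v, |c v| + r ≤ 10) → ∀ g, g ∈ bx c r ↔ g ∈ P ∧ ∀ v, |l g v - c v| ≤ r
  cnt : ∀ c r, σ ≤ r → (∀ v, |c v| + r ≤ 10) →
    |((bx c r).card : ℝ) - V * r ^ Fintype.card ν| ≤ σ * (V * r ^ Fintype.card ν)

/-- the position of the cell number `j` in the unit box -/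
def cc {M : ℕ} (j : Fin M) : ℝ := -1 + (2 * ((j : ℕ) : ℝ) + 1) / M

/-- one fibre: many cells carry a dense set with all relations -/
def FIB : Prop := ∀ (G δ ν : Type) [AddCommGroup G] [Fintype δ] [Fintype ν] [DecidableEq ν]
  (I : AddSubgroup (δ → ℝ)) (γ : ℝ) (l : G →+ ν → ℝ) (P : AddSubgroup G)
  (bx : (ν → ℝ) → ℝ → Finset G) (V σ : ℝ) (c1 c2 : ν → ℝ) (r1 r2 : ℝ) (M : ℕ)
  (f g ζ : G → δ → ℝ) (R : Finset (G × G)) (ε L : ℝ),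
  0 < γ → (∀ y ∈ I, ‖y‖ ≤ γ → y = 0) → Lat l P bx V σ → 1 ≤ L → 0 < ε → σ ≤ 1 / 100 →
  (∀ v, |c1 v| ≤ 2 ∧ |c2 v| ≤ 2) → 0 < r2 → r1 ≤ 1 →
  100 * ((Fintype.card ν : ℝ) + 1) * r2 ≤ r1 → 10 ^ 8 * ((Fintype.card ν : ℝ) + 1) ^ 3 ≤ M →
  σ * M ≤ r2 → R ⊆ bx c1 r1 ×ˢ bx c2 r2 →
  (∀ q ∈ R, ∃ y ∈ I, ‖f q.1 + g q.2 - ζ (q.1 + q.2) - y‖ ≤ ε) →
  Real.exp (-L) * ((V * r1 ^ Fintype.card ν) * (V * r2 ^ Fintype.card ν)) ≤ R.card →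
  ∃ J : Finset (ν → Fin M), Real.exp (-L) / 8 * (M : ℝ) ^ Fintype.card ν ≤ J.card ∧
    ∀ j ∈ J, ∃ S : Finset G,
      (∀ s ∈ S, (∃ a, (a, s) ∈ R) ∧ ∀ v, |l s v - (c2 v + r2 * cc (j v))| ≤ r2 / M) ∧
      Real.exp (-(8000 * (L + 2))) * (V * (r2 / M) ^ Fintype.card ν) ≤ S.card ∧
      Six I g S (10 ^ 6 * ((Fintype.card δ : ℝ) + 4) ^ 4 * ε)

/-- forms on a fibre as vectors, integer forms as a discrete subgroup -/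
def ENC : Prop := ∀ (α ι κ : Type) [Fintype α] [DecidableEq α] [Fintype ι] [DecidableEq ι]
  [Fintype κ] (T : TT α ι) (S0 S : Finset α) (c : α) (b : ι → ℤ) (H0 : ℝ), T.Ok → S0 ⊆ S → c ∉ S0 →
  0 < H0 → T.Zr S0 S c b H0 →
  ∃ (n : ℕ) (e : (κ → Fn ι) →+ (κ × Fin n → ℝ)) (I : AddSubgroup (κ × Fin n → ℝ)) (γ : ℝ),
    n ≤ (Fintype.card ι + 1) ^ (2 ^ (Fintype.card α + 1)) ∧ 0 < γ ∧ (∀ y ∈ I, ‖y‖ ≤ γ → y = 0) ∧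
    (∀ (F : κ → Fn ι) (H : ℝ), 0 ≤ H → (∀ k, T.IB S0 S c b (F k) H) → ∃ y ∈ I, ‖e F - y‖ ≤ H) ∧
    ∀ (F : κ → Fn ι) (H : ℝ), 0 ≤ H → (∀ k, T.Fm S (S \ S0) (F k)) → (∃ y ∈ I, ‖e F - y‖ ≤ H) →
      ∀ k, T.IB S0 S c b (F k) ((2 * Fintype.card ι + 1) ^ (2 ^ (Fintype.card α + 1)) * H)

/-- a typical fibre of one class is an equidistributed lattice -/
def LAT : Prop := ∀ (α ι : Type) [Fintype α] [DecidableEq α] [Fintype ι] [DecidableEq ι]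
  (T : TT α ι) (B : Finset α) (i : α) (y1 : ι → ℤ) (σ : ℝ), T.Ok → i ∈ B → y1 ∈ T.pts B 1 →
  σ ≤ 1 → T.Eq (B.erase i) B y1 σ →
  ∃ (l : (ι → ℤ) →+ ({v // v ∈ T.fv (B.erase i) B} → ℝ)) (P : AddSubgroup (ι → ℤ))
    (bx : ({v // v ∈ T.fv (B.erase i) B} → ℝ) → ℝ → Finset (ι → ℤ)),
    Lat l P bx (T.vol (B.erase i) B) σ ∧
    (∀ h, h ∈ P ↔ ∀ v, v ∉ T.fv (B.erase i) B → h v = 0) ∧
    ∀ y, T.Ag (B.erase i) y y1 → ∀ h ∈ P, ∀ v : {v // v ∈ T.fv (B.erase i) B},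
      T.u (cz (y + h)) v.1 = T.u (cz y) v.1 + l h v

end Frx

end

end Vale.Agent.P057T.Gk
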