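import Vale.Agent.P057T.Gk.Fgt
import Vale.Agent.P057T.Gk.FrxD

/-! The row FGT from the depth one form of FRX. -/

set_option linter.all false

namespace Vale.Agent.P057T.Gk

open TT FgtP

theorem fgt1 (hO : ONE) (hF : FRX1) (hS : SCG) : FGT := by
  intro a
  obtain ⟨A, hA⟩ := hO a
  obtain ⟨B, hB⟩ := hF a
  refine ⟨(A + 1) * (B + 1) + 7, ?_⟩
  intro α ι κ ρ _ _ _ _ _ _ _ T Y ha hY h1 h2 h3 ok nn S F c i f Ω m cen hc hF hi hm C1 hm1 nn1 qs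
  have l1 : A ≤ (A + 1) * (B + 1) + 7 := by nlinarith
  have l2 : B ≤ (A + 1) * (B + 1) + 7 := by nlinarith
  have y7 : (7 : ℝ) ≤ Y := le_trans (by exact_mod_cast Nat.le_add_left 7 _) hY
  have y1 : (1 : ℝ) ≤ Y := by linarith
  have pw : ∀ {p q : ℕ}, p ≤ q → Y ^ p ≤ Y ^ q := fun h => pow_le_pow_right₀ y1 h
  have p0 : ∀ p : ℕ, 0 ≤ Y ^ p := fun p => by positivity
  have es := hA α ι κ ρ T Y ha (le_trans (by exact_mod_cast l1) hY) h1 h2 h3 ok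
    (nn_mono hS ok (p0 _) (pw l1) nn) S F c i f Ω m cen hc hF hi
    ((Real.exp_le_exp.2 (pw l1)).trans hm) C1 hm1
    (nn_mono hS ok (p0 _) (pw (Nat.mul_le_mul_right _ l1)) nn1) qs
  have yy : Y ≤ Y ^ ((A + 1) * (C1 + 1)) := le_self_pow₀ y1 (by positivity)
  have l3 : (Y ^ ((A + 1) * (C1 + 1))) ^ B ≤ Y ^ (((A + 1) * (B + 1) + 7) * (C1 + 1)) := by
    rw [← pow_mul]
    exact pw (by nlinarith [Nat.zero_le (A * C1), Nat.zero_le A, Nat.zero_le C1])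
  obtain ⟨T1, Ω1, k1, k2, k3⟩ := hB α ι κ ρ T (Y ^ ((A + 1) * (C1 + 1))) ha
    (le_trans (by exact_mod_cast l2) (hY.trans yy)) (h1.trans (Real.exp_le_exp.2 yy))
    (h2.trans (Real.exp_le_exp.2 yy)) (h3.trans yy) ok
    (nn_mono hS ok (by positivity) l3 nn1)
    S F c i (f 0) Ω m cen hc hF hi
    (le_trans (le_trans (by linarith) (num y7)) ((Real.exp_le_exp.2 (pw (by omega))).trans hm))
    (hm1.trans (Real.exp_le_exp.2 (pw (by nlinarith [Nat.zero_le (A * C1), Nat.zero_le A]))))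
    (qs.2.1 0) (es_mono (pw (Nat.mul_le_mul_right _ (Nat.le_succ A))) es)
  exact ⟨T1, Ω1, sub_mono l3 k1, k2, r6_mono l3 k3⟩

end Vale.Agent.P057T.Gk
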