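import Vale.Agent.P057T.Gk.Rows
import Vale.Agent.P057T.Gk.Bas

/-! Step (4): the wild coordinates are replaced by integer forms on a popular class. -/

set_option linter.all false

open Finset

namespace Vale.Agent.P057T.Gk

open TT

namespace FinaP

/-- a popular fibre -/
theorem pig {β γ : Type} [DecidableEq γ] (Ω : Finset β) (t : Finset γ) (ht : t.Nonempty)
    (e : β → γ) (he : ∀ z ∈ Ω, e z ∈ t) :
    ∃ y ∈ t, (Ω.card : ℝ) ≤ t.card * ((Ω.filter fun z => e z = y).card : ℝ) := by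
  obtain ⟨y, hy, hm⟩ := exists_max_image t (fun y => (Ω.filter fun z => e z = y).card) ht
  refine ⟨y, hy, ?_⟩
  have h1 := card_eq_sum_card_fiberwise (f := e) (s := Ω) (t := t) he
  have h2 := sum_le_card_nsmul t _ _ hm
  rw [← h1, smul_eq_mul] at h2
  exact_mod_cast h2

/-- the number of integer vectors of sup norm at most `n` -/
theorem box {ρ : Type} [Fintype ρ] [DecidableEq ρ] {n : ℕ} {Y : ℝ} (h1 : 1 ≤ n)
    (h2 : (n : ℝ) ≤ Real.exp Y) (hY : 0 ≤ Y) (hρ : (Fintype.card ρ : ℝ) ≤ Y) :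
    ((Fintype.piFinset fun _ : ρ => Icc (-(n : ℤ)) n).card : ℝ) ≤ Real.exp (Y * (Y + 2)) := by
  rw [Fintype.card_piFinset, prod_const, card_univ, Int.card_Icc]
  have h3 : ((n : ℤ) + 1 - -(n : ℤ)).toNat = 2 * n + 1 := by omega
  rw [h3]
  have h4 : (1 : ℝ) ≤ n := by exact_mod_cast h1
  have h5 : (3 : ℝ) ≤ Real.exp 2 := by have := Real.add_one_le_exp (2 : ℝ); linarith
  have h6 : ((2 * n + 1 : ℕ) : ℝ) ≤ Real.exp (Y + 2) := by
    rw [Real.exp_add]
    push_cast
    nlinarith [Real.exp_pos Y]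
  rw [Nat.cast_pow]
  refine (pow_le_pow_left₀ (Nat.cast_nonneg _) h6 _).trans ?_
  rw [← Real.exp_nat_mul]
  exact Real.exp_le_exp.2 (mul_le_mul_of_nonneg_right hρ (by linarith))

end FinaP

theorem fina0 : FINA := fun _ => ⟨3, by
  intro α ι κ ρ _ _ _ _ _ _ _ T Y _ hY _ _ hρ hT _ S F c i a cc g J j0 Ω n hc hF hΩ hW hn1 hn hJ hz
  classical
  have hY3 : (3 : ℝ) ≤ Y := by exact_mod_cast hY
  have hn1' : (1 : ℝ) ≤ n := by exact_mod_cast hn1
  choose q hq using fun r => (hJ r).2.1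
  let e : (ι → ℤ) → ρ → ℤ := fun z r => n * round (g r (cz z)) - q r z - round (j0 r (cz z))
  have he : ∀ z ∈ Ω, e z ∈ Fintype.piFinset fun _ : ρ => Icc (-(n : ℤ)) n := fun z hzΩ => by
    refine Fintype.mem_piFinset.2 fun r => ?_
    rw [mem_Icc, ← abs_le]
    have h1 := abs_le.1 (hW.arc z hzΩ r)
    have h2 := abs_le.1 (hz z hzΩ r)
    have h3 := abs_le.1 (abs_sub_round (j0 r (cz z)))
    have h4 : ((e z r : ℤ) : ℝ) =
        n * (round (g r (cz z)) : ℝ) - J r (cz z) - (round (j0 r (cz z)) : ℝ) := by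
      simp only [e, hq]; push_cast; ring
    have h5 : |((e z r : ℤ) : ℝ)| ≤ n := by
      rw [h4, abs_le]
      constructor <;> nlinarith [h1.1, h1.2, h2.1, h2.2, h3.1, h3.2]
    exact_mod_cast h5
  obtain ⟨y, _, hy⟩ := FinaP.pig Ω _
    ⟨fun _ => 0, Fintype.mem_piFinset.2 fun _ => mem_Icc.2 ⟨by omega, by omega⟩⟩ e he
  have hB : S.erase c \ F ⊆ S.erase c := sdiff_subset
  have hBS : S.erase c \ F ⊆ S := hB.trans (erase_subset _ _)
  have hd : ∀ r, T.Dep (S.erase c \ F) fun x => J r x + (round (j0 r x) : ℝ) + (y r : ℝ) :=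
    fun r => (((hJ r).1.1.op ((hJ r).2.2.mono (erase_subset _ _))
      fun s t => s + (round t : ℝ) + (y r : ℝ)))
  refine ⟨Ω.filter fun z => e z = y,
    fun k x => n * a k x + ∑ r, cc k r x * (J r x + (round (j0 r x) : ℝ) + (y r : ℝ)),
    filter_subset _ _, ⟨(filter_subset _ _).trans hΩ.1, ?_⟩, fun k => ?_, fun z hzΩ k => ?_⟩
  · have h1 := FinaP.box hn1 hn (by linarith) hρ
    have h2 := hΩ.2.trans (hy.trans (mul_le_mul_of_nonneg_right h1 (Nat.cast_nonneg _)))
    have h3 : Real.exp (-Y ^ 3) ≤ Real.exp (-Y) * Real.exp (-(Y * (Y + 2))) := by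
      rw [← Real.exp_add]
      exact Real.exp_le_exp.2 (by
        nlinarith [mul_nonneg (mul_nonneg (by linarith : (0 : ℝ) ≤ Y) (by linarith : (0 : ℝ) ≤ Y))
          (by linarith : (0 : ℝ) ≤ Y - 3), mul_nonneg (by linarith : (0 : ℝ) ≤ Y)
          (by linarith : (0 : ℝ) ≤ Y - 3)])
    have h4 := (vol_pos hT ∅ univ).le
    refine (mul_le_mul_of_nonneg_right h3 h4).trans ?_
    rw [mul_right_comm, Real.exp_neg (Y * (Y + 2)), ← div_eq_mul_inv, div_le_iff₀ (Real.exp_pos _)]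
    linarith
  · refine Fm.add (((hW.fa k).mono subset_rfl ?_).smul n) (fm_sum _ fun r _ => ⟨?_, fun d hd' => ?_⟩)
    · rw [Finset.insert_comm]
    · exact ((hW.fc k r).1.mono (erase_subset _ _)).op ((hd r).mono hBS) (· * ·)
    · by_cases hdi : d = i
      · subst hdi
        refine Aff.mul' ((hW.fc k r).1.ind (notMem_erase _ _)) ?_
        exact (((hJ r).1.2 d (mem_singleton_self _)).add
          ((((hJ r).2.2.comp fun t => (round t : ℝ)).ind (notMem_erase _ _)).aff)).add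
          (aff_const _ _)
      · have h1 : d ∈ insert c F := by
          simp only [mem_insert] at hd' ⊢
          tauto
        refine ((hW.fc k r).2 d h1).mul ((hd r).ind fun h2 => ?_)
        rcases mem_insert.1 h1 with h3 | h3
        · exact (mem_erase.1 (mem_sdiff.1 h2).1).1 h3
        · exact (mem_sdiff.1 h2).2 h3
  · obtain ⟨h1, h2⟩ := mem_filter.1 hzΩ
    refine IB.eq (f := fun _ => 0) (Ind.ibg (ind_const c 0)) fun x hx => ?_
    have h3 : ∀ r, n * (round (g r x) : ℝ) = J r x + (round (j0 r x) : ℝ) + (y r : ℝ) := fun r => by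
      have h4 : J r x + (round (j0 r x) : ℝ) + (y r : ℝ) =
          J r (cz z) + (round (j0 r (cz z)) : ℝ) + (y r : ℝ) := hd r x (cz z) (hx.mono hB)
      rw [h4, (hW.fg r).1 x (cz z) (hx.mono hB), ← h2, hq]
      simp only [e]
      push_cast
      ring
    simp only [tw, ← h3, mul_add, mul_sum]
    rw [eq_comm, sub_eq_zero]
    congr 1
    exact sum_congr rfl fun r _ => by ring⟩

theorem fina (_ : GLU) : FINA := fina0

end Vale.Agent.P057T.Gk
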