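import Vale.Agent.P057T.Gk.Bas

/-! Windows, copies and morphisms of typed towers. -/

set_option linter.all false

open Finset

namespace Vale.Agent.P057T.Gk

namespace TT

variable {α ι : Type} [Fintype α] [DecidableEq α] [Fintype ι] [DecidableEq ι] {T : TT α ι}

section Sc
variable {l cen : ι → ℝ} {S G S0 S' : Finset α} {f : Fn ι} {c : α} {b : ι → ℤ} {H : ℝ}

theorem fm_sc : (T.sc l cen).Fm S G f ↔ T.Fm S G f := Iff.rfl
theorem isI_sc : (T.sc l cen).IsI S0 b f ↔ T.IsI S0 b f := Iff.rfl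
theorem ag_sc {R : Type} {x y : ι → R} : (T.sc l cen).Ag S x y ↔ T.Ag S x y := Iff.rfl
theorem fv_sc : (T.sc l cen).fv S0 S = T.fv S0 S := rfl
theorem res_sc (z : ι → ℤ) : (T.sc l cen).res S z = T.res S z := rfl

theorem vol_sc : (T.sc l cen).vol S0 S = T.vol S0 S * ∏ v ∈ T.fv S0 S, l v := by
  unfold vol
  rw [← prod_mul_distrib]
  exact prod_congr rfl fun v _ => (mul_assoc _ _ _).symm

theorem Ok.sc (hT : T.Ok) (hl : ∀ v, 0 < l v) (cen : ι → ℝ) : (T.sc l cen).Ok where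
  ne := hT.ne
  fu v := by
    have h := ((hT.fu v).sub (fm_const _ _ (cen v))).smul (l v)⁻¹
    refine ⟨fun z z' hz => ?_, fun a ha z => ?_⟩
    · have := h.1 z z' hz
      simpa only [TT.sc, div_eq_inv_mul] using this
    · obtain ⟨L, hL⟩ := h.2 a ha z
      exact ⟨L, fun k hk => by simpa only [TT.sc, div_eq_inv_mul] using hL k hk⟩
  fψ v := by
    refine ⟨fun z z' hz => (hT.fψ v).1 _ _ fun w hw => ?_, fun a ha z => ?_⟩
    · show l w * z w + cen w = l w * z' w + cen w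
      rw [hz w hw]
    · obtain ⟨L, hL⟩ := (hT.fψ v).2 a ha (fun w => l w * z w + cen w)
      refine ⟨L.comp (LinearMap.pi fun w => l w • LinearMap.proj w), fun k hk => ?_⟩
      have := hL (fun w => l w * k w) fun w hw => by rw [hk w hw, mul_zero]
      have e : (fun w => l w * (z + k) w + cen w) =
          (fun w => l w * z w + cen w) + fun w => l w * k w := by
        funext w
        simp only [Pi.add_apply]
        ring
      show T.ψ (fun w => l w * (z + k) w + cen w) v = _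
      rw [e]
      exact this
  l z := by
    show T.ψ (fun v => l v * ((T.u z v - cen v) / l v) + cen v) = z
    have e : (fun v => l v * ((T.u z v - cen v) / l v) + cen v) = T.u z := by
      funext v
      rw [mul_div_cancel₀ _ (hl v).ne', sub_add_cancel]
    rw [e, hT.l]
  r x := by
    funext v
    show (T.u (T.ψ fun v => l v * x v + cen v) v - cen v) / l v = x v
    rw [hT.r, add_sub_cancel_right, mul_div_cancel_left₀ _ (hl v).ne']
  pos v := mul_pos (hT.pos v) (hl v)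
  fin S K := by
    refine (hT.fin S (∑ v, (|l v * K| + |cen v|))).subset fun z hz => ⟨hz.1, fun v hv => ?_⟩
    have h1 : |(T.u (cz z) v - cen v) / l v| ≤ K := hz.2 v hv
    rw [abs_div, abs_of_pos (hl v), div_le_iff₀ (hl v)] at h1
    have h2 : |l v * K| + |cen v| ≤ ∑ v, (|l v * K| + |cen v|) :=
      single_le_sum (f := fun v => |l v * K| + |cen v|)
        (fun _ _ => add_nonneg (abs_nonneg _) (abs_nonneg _)) (mem_univ v)
    have h3 := abs_add_le (T.u (cz z) v - cen v) (cen v)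
    rw [sub_add_cancel] at h3
    have h4 := le_abs_self (l v * K)
    linarith [mul_comm K (l v)]

theorem Adm.pos {Z : ℝ} (h : Adm l cen Z) (v : ι) : 0 < l v := (Real.exp_pos _).trans_le (h v).1

theorem Adm.mono {Z Z' : ℝ} (h : Adm l cen Z) (hZ : Z ≤ Z') : Adm l cen Z' := fun v =>
  ⟨(Real.exp_le_exp.2 (neg_le_neg hZ)).trans (h v).1, (h v).2⟩

/-- a point of the window lies in the cell -/
theorem u_le_of_sc (hl : ∀ v, 0 < l v) (hc : ∀ v, |cen v| + l v ≤ 1) {z : ι → ℝ} {v : ι}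
    (h : |(T.sc l cen).u z v| ≤ 1) : |T.u z v| ≤ 1 := by
  have h1 : |(T.u z v - cen v) / l v| ≤ 1 := h
  rw [abs_div, abs_of_pos (hl v), div_le_one (hl v)] at h1
  have h3 := abs_add_le (T.u z v - cen v) (cen v)
  rw [sub_add_cancel] at h3
  linarith [hc v]

theorem pts_sc (hT : T.Ok) (hl : ∀ v, 0 < l v) (hc : ∀ v, |cen v| + l v ≤ 1) :
    (T.sc l cen).pts S 1 ⊆ T.pts S 1 := fun z hz =>
  (mem_pts hT).2 ⟨((mem_pts (hT.sc hl cen)).1 hz).1, fun v hv =>
    u_le_of_sc hl hc (((mem_pts (hT.sc hl cen)).1 hz).2 v hv)⟩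

theorem Osc.sc (h : T.Osc S0 S' c b f H) (hl : ∀ v, 0 < l v) (hc : ∀ v, |cen v| + l v ≤ 1) :
    (T.sc l cen).Osc S0 S' c b f H := fun z z' h1 h2 h3 h4 =>
  h z z' h1 h2 h3 fun v hv => ⟨u_le_of_sc hl hc (h4 v hv).1, u_le_of_sc hl hc (h4 v hv).2⟩

theorem IBg.sc (h : T.IBg S0 S S' c b f H) (hl : ∀ v, 0 < l v) (hc : ∀ v, |cen v| + l v ≤ 1) :
    (T.sc l cen).IBg S0 S S' c b f H := by
  obtain ⟨I, h1, h2, h3⟩ := h
  exact ⟨I, h1, h2, h3.sc hl hc⟩

theorem IB.sc (h : T.IB S0 S c b f H) (hl : ∀ v, 0 < l v) (hc : ∀ v, |cen v| + l v ≤ 1) :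
    (T.sc l cen).IB S0 S c b f H := IBg.sc h hl hc

theorem sc_sc (hl : ∀ v, 0 < l v) (l' cen' : ι → ℝ) :
    (T.sc l cen).sc l' cen' = T.sc (fun v => l v * l' v) (fun v => l v * cen' v + cen v) := by
  unfold TT.sc
  congr 1
  · funext z v
    have := (hl v).ne'
    by_cases h : l' v = 0
    · simp [h]
    · field_simp
      ring
  · funext x
    show T.ψ (fun v => l v * (l' v * x v + cen' v) + cen v) =
      T.ψ (fun v => l v * l' v * x v + (l v * cen' v + cen v))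
    exact congrArg T.ψ (funext fun v => by ring)
  · funext v
    ring

theorem sc_one : T.sc (fun _ => 1) (fun _ => 0) = T := by
  cases T
  simp [TT.sc]

theorem sub_refl {Z : ℝ} (hZ : 0 ≤ Z) : T.Sub T Z :=
  ⟨fun _ => 1, fun _ => 0, fun _ => ⟨Real.exp_le_one_iff.2 (by linarith), by simp⟩, sc_one.symm⟩

theorem Sub.mono {T' : TT α ι} {Z Z' : ℝ} (h : T.Sub T' Z) (hZ : Z ≤ Z') : T.Sub T' Z' := by
  obtain ⟨l, cen, h1, h2⟩ := h
  exact ⟨l, cen, h1.mono hZ, h2⟩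

theorem Sub.trans {T' T'' : TT α ι} {Z Z' : ℝ} (h : T.Sub T' Z) (h' : T'.Sub T'' Z') :
    T.Sub T'' (Z + Z') := by
  obtain ⟨l, cen, h1, rfl⟩ := h
  obtain ⟨l', cen', h2, rfl⟩ := h'
  refine ⟨_, _, fun v => ⟨?_, ?_⟩, sc_sc h1.pos l' cen'⟩
  · rw [neg_add, Real.exp_add]
    exact mul_le_mul (h1 v).1 (h2 v).1 (Real.exp_pos _).le (h1.pos v).le
  · have k1 := abs_add_le (l v * cen' v) (cen v)
    rw [abs_mul, abs_of_pos (h1.pos v)] at k1
    have k2 := mul_le_mul_of_nonneg_left (h2 v).2 (h1.pos v).le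
    have k3 := (h1 v).2
    show |l v * cen' v + cen v| + l v * l' v ≤ 1
    linarith [mul_add (l v) |cen' v| (l' v)]

theorem Sub.ok {T' : TT α ι} {Z : ℝ} (h : T.Sub T' Z) (hT : T.Ok) : T'.Ok := by
  obtain ⟨l, cen, h1, rfl⟩ := h
  exact hT.sc h1.pos cen

theorem Sub.ib {T' : TT α ι} {Z : ℝ} (h : T.Sub T' Z) (hb : T.IB S0 S c b f H) :
    T'.IB S0 S c b f H := by
  obtain ⟨l, cen, h1, rfl⟩ := h
  exact hb.sc h1.pos fun v => (h1 v).2

theorem Sub.fm {T' : TT α ι} {Z : ℝ} (h : T.Sub T' Z) : T'.Fm S G f ↔ T.Fm S G f := by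
  obtain ⟨l, cen, h1, rfl⟩ := h
  exact Iff.rfl

theorem Sub.pts {T' : TT α ι} {Z : ℝ} (h : T.Sub T' Z) (hT : T.Ok) : T'.pts S 1 ⊆ T.pts S 1 := by
  obtain ⟨l, cen, h1, rfl⟩ := h
  exact pts_sc hT h1.pos fun v => (h1 v).2
end Sc

end TT

section Mor
variable {α ι ι' ι'' : Type} [Fintype α] [DecidableEq α] [Fintype ι] [DecidableEq ι] [Fintype ι']
  [DecidableEq ι'] [Fintype ι''] [DecidableEq ι''] {T : TT α ι} {T' : TT α ι'} {T'' : TT α ι''}
  {π : (ι' → ℝ) → ι → ℝ} {π' : (ι'' → ℝ) → ι' → ℝ}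

theorem zi_id (z : ι → ℤ) : zi (fun x : ι → ℝ => x) z = z := by
  funext v
  exact round_intCast _

theorem Mor.id (T : TT α ι) : Mor T T (fun x => x) :=
  ⟨fun z => by rw [zi_id], fun v => T.fm_coord v, fun _ _ h => h⟩

theorem TT.Sub.mor {T1 : TT α ι} {Z : ℝ} (h : T.Sub T1 Z) : Mor T1 T (fun x => x) := by
  obtain ⟨l, cen, h1, rfl⟩ := h
  exact ⟨fun z => by rw [zi_id], fun v => T.fm_coord v,
    fun _ _ h v hv => TT.u_le_of_sc h1.pos (fun v => (h1 v).2) (h v hv)⟩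

theorem Mor.ag (h : Mor T' T π) {S : Finset α} {z z' : ι' → ℝ} (hz : T'.Ag S z z') :
    T.Ag S (π z) (π z') := fun v hv => (h.fm v).1 z z' (hz.mono hv)

theorem Mor.of (h : Mor T' T π) {c : α} {z z' : ι' → ℝ} (hz : T'.Of c z z') :
    T.Of c (π z) (π z') := fun v hv => (h.fm v).1 z z' (hz.ag hv)

theorem Mor.agz (h : Mor T' T π) {S : Finset α} {z z' : ι' → ℤ} (hz : T'.Ag S z z') :
    T.Ag S (zi π z) (zi π z') := by
  rw [← TT.ag_cz, ← h.int, ← h.int]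
  exact h.ag hz.cz

theorem Mor.aff (h : Mor T' T π) {a : α} {f : Fn ι} (hf : T.Aff a f) :
    T'.Aff a (fun z => f (π z)) := fun z => by
  obtain ⟨L, hL⟩ := hf (π z)
  choose M hM using fun v => (h.fm v).2 a (mem_univ a) z
  refine ⟨L.comp (LinearMap.pi M), fun k hk => ?_⟩
  have e : π (z + k) = π z + fun v => M v k := funext fun v => hM v k hk
  show f (π (z + k)) = f (π z) + L (fun v => M v k)
  rw [e]
  refine hL _ fun v hv => ?_
  have k1 := hM v k hk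
  have k2 : π (z + k) v = π z v := (h.fm v).1 _ _ fun w hw => by
    rw [Pi.add_apply, hk w fun hh => hv (hw hh), add_zero]
  simp only at k1
  linarith

theorem Mor.pull (h : Mor T' T π) {S G : Finset α} {f : Fn ι} (hf : T.Fm S G f) :
    T'.Fm S G (fun z => f (π z)) :=
  ⟨fun _ _ hz => hf.1 _ _ (h.ag hz), fun a ha => h.aff (hf.2 a ha)⟩

theorem Mor.zi_comp (h' : Mor T'' T' π') (π : (ι' → ℝ) → ι → ℝ) (z : ι'' → ℤ) :
    zi (fun x => π (π' x)) z = zi π (zi π' z) := by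
  funext v
  show round (π (π' (cz z)) v) = round (π (cz (zi π' z)) v)
  rw [h'.int]

theorem Mor.comp (h' : Mor T'' T' π') (h : Mor T' T π) : Mor T'' T (fun x => π (π' x)) :=
  ⟨fun z => by rw [h'.zi_comp, h'.int, h.int], fun v => h'.pull (h.fm v),
    fun S z hz => h.cel S _ (h'.cel S z hz)⟩

theorem Mor.isI (h : Mor T' T π) {S0 : Finset α} {b : ι' → ℤ} {I : Fn ι}
    (hI : T.IsI S0 (zi π b) I) : T'.IsI S0 b (fun z => I (π z)) := fun z hz => by
  show ∃ n : ℤ, I (π (cz z)) = n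
  rw [h.int]
  exact hI _ (h.agz hz)

/-- pull back over a point of the cell -/
theorem Mor.osc (h : Mor T' T π) (hT' : T'.Ok) {S0 S' : Finset α} {c : α} {b : ι' → ℤ} {f : Fn ι}
    {H : ℝ} (hb : ∀ v, T'.ty v ⊆ S0 → |T'.u (cz b) v| ≤ 1) (hf : T.Osc S0 S' c (zi π b) f H) :
    T'.Osc S0 S' c b (fun z => f (π z)) H := by
  intro z z' h1 h2 h3 h4
  have key : ∀ x : ι' → ℝ, T'.Ag S0 x (cz b) → (∀ v ∈ T'.fv S0 S', |T'.u x v| ≤ 1) →
      ∀ v ∈ T.fv S0 S', |T.u (π x) v| ≤ 1 := by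
    intro x hx hu v hv
    refine h.cel S' x (fun w hw => ?_) v (mem_filter.1 hv).2.1
    by_cases k : T'.ty w ⊆ S0
    · rw [hT'.u_ag hx k]; exact hb w k
    · exact hu w (mem_filter.2 ⟨mem_univ _, hw, k⟩)
  refine hf _ _ ?_ ?_ (h.of h3) fun v hv =>
    ⟨key z h1 (fun v hv => (h4 v hv).1) v hv, key z' h2 (fun v hv => (h4 v hv).2) v hv⟩
  · rw [← h.int]; exact h.ag h1
  · rw [← h.int]; exact h.ag h2

theorem Mor.ib (h : Mor T' T π) (hT' : T'.Ok) {S0 S : Finset α} {c : α} {b : ι' → ℤ} {f : Fn ι}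
    {H : ℝ} (hb : ∀ v, T'.ty v ⊆ S0 → |T'.u (cz b) v| ≤ 1) (hf : T.IB S0 S c (zi π b) f H) :
    T'.IB S0 S c b (fun z => f (π z)) H := by
  obtain ⟨I, h1, h2, h3⟩ := hf
  exact ⟨fun z => I (π z), h.pull h1, h.isI h2, h.osc hT' hb h3⟩

end Mor

end Vale.Agent.P057T.Gk
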