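import Vale.Agent.P057T.Gk.Rows
import Vale.Agent.P057T.Gk.Bas2

/-! Relations of length six give the hereditary property. -/

set_option linter.all false

open Finset

namespace Vale.Agent.P057T.Gk

open TT

namespace HsrP

variable {α ι : Type} [Fintype α] [DecidableEq α] [Fintype ι] [DecidableEq ι] {T : TT α ι}

theorem hc_zero {R : Type} [CommRing R] {i : α} (Z : T.CV i (Fin 2) → R) (k : Fin 2) {v : ι}
    (hv : i ∉ T.ty v) : T.hc i Z k v = 0 := dif_neg hv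

theorem vx_of {R : Type} [CommRing R] {i : α} (Z : T.CV i (Fin 2) → R) (ε ε' : Fin 2 → ℤ) :
    T.Of i (T.vx i ε Z) (T.vx i ε' Z) := fun v hv => by
  simp only [vx, hc_zero Z _ hv, mul_zero]

theorem vx_sum {R : Type} [CommRing R] {i : α} (Z : T.CV i (Fin 2) → R) (v : ι) :
    T.vx i (qv 0) Z v + T.vx i (qv 3) Z v = T.vx i (qv 1) Z v + T.vx i (qv 2) Z v := by
  simp [vx, qv, Fin.sum_univ_two]
  ring

theorem q_aff {i : α} {f : Fn ι} (h : T.Aff i f) (x : T.CV i (Fin 2) → ℝ) :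
    f (T.vx i (qv 0) x) + f (T.vx i (qv 3) x) = f (T.vx i (qv 1) x) + f (T.vx i (qv 2) x) := by
  obtain ⟨L, hL⟩ := h (T.vx i (qv 0) x)
  have e : ∀ w, f (T.vx i (qv w) x) =
      f (T.vx i (qv 0) x) + L (T.vx i (qv w) x - T.vx i (qv 0) x) := fun w => by
    rw [← hL (T.vx i (qv w) x - T.vx i (qv 0) x)
      fun v hv => sub_eq_zero.2 (vx_of x (qv w) (qv 0) v hv), add_sub_cancel]
  have e2 : T.vx i (qv 3) x - T.vx i (qv 0) x =
      (T.vx i (qv 1) x - T.vx i (qv 0) x) + (T.vx i (qv 2) x - T.vx i (qv 0) x) := by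
    funext v
    have := vx_sum x v
    simp only [Pi.add_apply, Pi.sub_apply]
    linarith
  rw [e 3, e 1, e 2, e2, map_add]
  ring

theorem qv_le (w : Fin 4) : ∑ k, |(qv w k : ℝ)| ≤ 19 := by
  fin_cases w <;> simp [qv, Fin.sum_univ_two] <;> norm_num

theorem num {a n : ℕ} {Y : ℝ} (hn : n ≤ a) (hY : ((5 * 100 ^ 2 ^ (a + 1) + 2 : ℕ) : ℝ) ≤ Y) :
    5 * ((100 : ℝ) ^ 2 ^ (n + 1) * Real.exp Y) ≤ Real.exp (Y ^ (5 * 100 ^ 2 ^ (a + 1) + 2)) := by
  push_cast at hY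
  have h0 : (0 : ℝ) < 100 ^ 2 ^ (a + 1) := by positivity
  have h1 : (100 : ℝ) ^ 2 ^ (n + 1) ≤ 100 ^ 2 ^ (a + 1) :=
    pow_le_pow_right₀ (by norm_num) (Nat.pow_le_pow_right (by norm_num) (by omega))
  have h2 : 5 * (100 : ℝ) ^ 2 ^ (n + 1) ≤ Real.exp Y := by linarith [Real.add_one_le_exp Y]
  have h3 : Y + Y ≤ Y ^ (5 * 100 ^ 2 ^ (a + 1) + 2) :=
    le_trans (by nlinarith) (pow_le_pow_right₀ (by linarith) (Nat.le_add_left 2 _))
  rw [← mul_assoc]
  refine (mul_le_mul_of_nonneg_right h2 (Real.exp_pos _).le).trans ?_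
  rw [← Real.exp_add]
  exact Real.exp_le_exp.2 h3

end HsrP

open HsrP in
theorem hsr (hI : IBC) : HSR := by
  intro a
  refine ⟨5 * 100 ^ 2 ^ (a + 1) + 2, fun α ι κ ρ _ _ _ _ _ _ _ T Y ha hC _ _ _ hT _ => ?_⟩
  intro S F c i f Ω hc hF hi hf hR Z hZ k
  obtain ⟨hD, A, Cc, hA, hCc, h1, h6⟩ := hR
  obtain ⟨-, -, -, -, -, up, wide, -, -, lift⟩ := hI α ι T hT
  choose ω hω hag using hZ
  have hi1 : i ∈ S.erase c := (mem_sdiff.1 hi).1
  have hB : S.erase c \ F ⊆ S.erase c := sdiff_subset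
  have hS : S.erase c ⊆ S := erase_subset _ _
  have hG : S \ S.erase c ⊆ insert c F := fun x hx => by
    have h := mem_sdiff.1 hx
    by_contra h'
    exact h.2 (mem_erase.2 ⟨fun e => h' (e ▸ mem_insert_self _ _), h.1⟩)
  have hu : ∀ w v, |T.u (cz (ω w)) v| ≤ 1 := fun w v =>
    ((mem_pts hT).1 (hD.1 (hω w))).2 v (subset_univ _)
  have fA : ∀ y, T.Fm S (S \ S.erase c) (A y k) := fun y => (hA y k).mono (erase_subset _ _) hG
  have key : ∀ (w : Fin 4) (g : Fn ι) (S0 : Finset α), S0 ⊆ S.erase c → T.Fm S (S \ S.erase c) g →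
      T.IB S0 S c (ω w) g (Real.exp Y) →
      (T.cpy i (Fin 2)).IB (ex (S.erase c)) (ex S) (Sum.inl c) Z (fun x => g (T.vx i (qv w) x))
        ((100 : ℝ) ^ 2 ^ (Fintype.card α + 1) * Real.exp Y) := fun w g S0 h0 hg hb =>
    lift i (Fin 2) (qv w) (S.erase c) S c Z g _ hi1 hS (notMem_erase c S) hg (qv_le w)
      ((up S0 (S.erase c) S c (ω w) g _ h0 hS (fun v _ => hu w v) hb).congr (hag w).symm)
  have g1 := fun w => key w _ _ hB
    ((((hf k).mono subset_rfl hG).sub (fA (T.res (S.erase c \ F) (ω w)))).sub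
      ((hCc k).mono subset_rfl (hG.trans (subset_insert _ _)))) (h1 (ω w) (hω w) k)
  have ag0 : ∀ w, T.Ag ((S.erase c \ F).erase i) (ω w) (ω 0) := fun w =>
    (((hag w).symm.mono ((erase_subset _ _).trans hB)).trans
      ((vx_of Z _ _).ag (notMem_erase i _))).trans ((hag 0).mono ((erase_subset _ _).trans hB))
  have r6 := h6 (fun j => ω (![0, 3, 0, 0, 0, 0] j)) (fun j => ω (![1, 2, 0, 0, 0, 0] j))
    (fun j => ⟨hω _, hω _⟩) (fun j => ⟨ag0 _, ag0 _⟩) (fun v hv => by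
      have e := vx_sum Z v
      rw [hag 0 v (hv.trans hB), hag 1 v (hv.trans hB), hag 2 v (hv.trans hB),
        hag 3 v (hv.trans hB)] at e
      simp [Fin.sum_univ_six]
      linarith) k
  have r7 := wide _ _ S c _ _ _ (erase_subset_erase i (hB.trans hS)) (erase_subset i S) r6
    fun x hx hx' hx'' => hx' (mem_erase.2 ⟨(mem_erase.1 hx'').1, hx⟩)
  have g2 := key 0 _ _ ((erase_subset _ _).trans hB)
    ((fm_sum univ fun j _ => fA _).sub (fm_sum univ fun j _ => fA _)) r7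
  refine ((((((g1 0).sub (g1 1)).sub (g1 2)).add (g1 3)).add g2).eq fun x _ => ?_).mono
    (le_trans (le_of_eq (by ring)) (num ha hC))
  have eA : ∀ y w, A y k (T.vx i (qv w) x) = A y k (T.vx i (qv 0) x) := fun y w =>
    (hA y k).1 _ _ ((vx_of x _ _).ag (notMem_erase i S))
  have eC := q_aff ((hCc k).2 i (mem_insert_self _ _)) x
  simp only [TT.Q, Fin.sum_univ_four, Fin.sum_univ_six, eA _ 1, eA _ 2, eA _ 3]
  simp [sg]
  linarith

end Vale.Agent.P057T.Gk
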