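import Vale.Agent.P057T.Gk.Cpok

/-! Row IBC. -/

set_option linter.all false

open Finset

namespace Vale.Agent.P057T.Gk

open TT

namespace TT

variable {α ι : Type} [Fintype α] [DecidableEq α] [Fintype ι] [DecidableEq ι] {T : TT α ι}
  {S0 S1 S S' : Finset α} {c : α} {b : ι → ℤ} {f g : Fn ι} {H : ℝ}

theorem mem_fv {v : ι} : v ∈ T.fv S0 S ↔ T.ty v ⊆ S ∧ ¬ T.ty v ⊆ S0 := by
  simp only [fv, mem_filter, mem_univ, true_and]

theorem IBg.osc_eq (h : T.IBg S0 S S' c b f H)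
    (e : ∀ z z', T.Ag S0 z (cz b) → T.Ag S0 z' (cz b) → T.Of c z z' → f z - f z' = g z - g z') :
    T.IBg S0 S S' c b g H := by
  obtain ⟨I, h1, h2, h3⟩ := h
  refine ⟨I, h1, h2, fun z z' k1 k2 k3 k4 => ?_⟩
  have := h3 z z' k1 k2 k3 k4
  have e1 : g z - I z - (g z' - I z') = f z - I z - (f z' - I z') := by
    linarith [e z z' k1 k2 k3]
  show |g z - I z - (g z' - I z')| ≤ H
  rw [e1]
  exact this

theorem Osc.base (hT : T.Ok) (h : T.Osc S0 S' c b f H) (h01 : S0 ⊆ S1)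
    (hb : ∀ v ∈ T.fv S0 S1, |T.u (cz b) v| ≤ 1) : T.Osc S1 S' c b f H := by
  intro z z' k1 k2 k3 k4
  refine h z z' (k1.mono h01) (k2.mono h01) k3 fun v hv => ?_
  by_cases k : T.ty v ⊆ S1
  · have := hb v (mem_fv.2 ⟨k, (mem_fv.1 hv).2⟩)
    rw [hT.u_ag k1 k, hT.u_ag k2 k]
    exact ⟨this, this⟩
  · exact k4 v (mem_fv.2 ⟨(mem_fv.1 hv).1, k⟩)

theorem IB.base (hT : T.Ok) (h : T.IB S0 S c b f H) (h01 : S0 ⊆ S1)
    (hb : ∀ v ∈ T.fv S0 S1, |T.u (cz b) v| ≤ 1) : T.IB S1 S c b f H := by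
  obtain ⟨I, h1, h2, h3⟩ := h
  exact ⟨I, h1.mono subset_rfl (sdiff_subset_sdiff subset_rfl h01), h2.up h01, h3.base hT h01 hb⟩

theorem IB.up (h : T.IB S0 S c b f H) (hS : S ⊆ S1) : T.IB S0 S1 c b f H := by
  obtain ⟨I, h1, h2, h3⟩ := h
  exact ⟨I, (h1.ext fun a ha hs => mem_sdiff.2 ⟨hs, (mem_sdiff.1 ha).2⟩).mono hS subset_rfl, h2,
    h3.up hS⟩

theorem HS.sub {κ : Type} {T1 : TT α ι} {Z : ℝ} {τ : κ → Fn ι} {Ω Ω' : Finset (ι → ℤ)} {i : α}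
    (h : T.HS S c τ Ω i H) (hs : T.Sub T1 Z) (hΩ : Ω' ⊆ Ω) : T1.HS S c τ Ω' i H := by
  obtain ⟨l, cen, h1, rfl⟩ := hs
  intro Z hZ k
  have := h Z (fun w => by
    obtain ⟨ω, hω, ha⟩ := hZ w
    exact ⟨ω, hΩ hω, ha⟩) k
  rw [T.cpy_sc]
  refine IB.sc this ?_ ?_
  · rintro (v | p)
    · exact h1.pos v
    · exact h1.pos _
  · rintro (v | p)
    · exact (h1 v).2
    · have k1 := (h1 p.2.1).2
      have k2 := abs_nonneg (cen p.2.1)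
      show |(0 : ℝ)| + l p.2.1 ≤ 1
      rw [abs_zero]
      linarith

variable {κ : Type} [Fintype κ] [DecidableEq κ] {i : α}

/-- the chart of a vertex on a fibre -/
theorem Ok.u_vx_le (hT : T.Ok) (hi : i ∈ S0) {ε : κ → ℤ} {K : ℝ} (hε : (∑ k, |(ε k : ℝ)|) ≤ K)
    {x : T.CV i κ → ℝ}
    (hx : ∀ v ∈ (T.cpy i κ).fv (S0.disjSum univ) (S.disjSum univ), |(T.cpy i κ).u x v| ≤ 1)
    {v : ι} (hv : v ∈ T.fv S0 S) : |T.u (T.vx i ε x) v| ≤ 1 + K := by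
  obtain ⟨v1, v2⟩ := mem_fv.1 hv
  rw [hT.u_vx]
  refine (abs_add_le _ _).trans (add_le_add (hx (Sum.inl v) (mem_fv.2 ⟨?_, ?_⟩)) ?_)
  · rw [ty_inl_sub, toLeft_disjSum]; exact v1
  · rw [ty_inl_sub, toLeft_disjSum]; exact v2
  · refine (abs_sum_le_sum_abs _ _).trans ((sum_le_sum fun k _ => ?_).trans hε)
    rw [abs_mul]
    refine mul_le_of_le_one_right (abs_nonneg _) ?_
    by_cases h : i ∈ T.ty v
    · rw [hc_of _ k h]
      refine hx _ (mem_fv.2 ⟨?_, ?_⟩)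
      · rw [ty_inr_sub, toLeft_disjSum]
        exact ⟨(erase_subset _ _).trans v1, by simp⟩
      · rw [ty_inr_sub, toLeft_disjSum]
        exact fun k => v2 ((subset_insert_iff.2 k.1).trans (by rw [insert_eq_of_mem hi]))
    · rw [hc_not _ k h, abs_zero]; exact zero_le_one

theorem IsI.vx {ε : κ → ℤ} {Z : T.CV i κ → ℤ} (h : T.IsI S0 (T.vx i ε Z) f) :
    (T.cpy i κ).IsI (S0.disjSum univ) Z (fun x => f (T.vx i ε x)) := fun z hz => by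
  show ∃ n : ℤ, f (T.vx i ε (cz z)) = n
  rw [← cz_vx]
  refine h _ ?_
  have := hz.vx (ε := ε) fun k _ => by simp
  rwa [toLeft_disjSum] at this

theorem Fm.vx_sdiff (h : T.Fm S (S \ S0) f) (ε : κ → ℤ) :
    (T.cpy i κ).Fm (S.disjSum univ) (S.disjSum univ \ S0.disjSum univ) (fun x => f (T.vx i ε x)) :=
  h.vx ε (by rw [toLeft_disjSum]) (fun k _ => by simp) (fun a ha _ => by simpa using ha)
    fun k hk _ => by simp at hk

theorem Osc.vx (hT : T.Ok) (hi : i ∈ S0) {ε : κ → ℤ} (hε : (∑ k, |(ε k : ℝ)|) ≤ 19)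
    {Z : T.CV i κ → ℤ}
    (h : (T.sc (fun _ => 20) (fun _ => 0)).Osc S0 S c (T.vx i ε Z) f H) :
    (T.cpy i κ).Osc (S0.disjSum univ) (S.disjSum univ) (Sum.inl c) Z (fun x => f (T.vx i ε x)) H := by
  intro x x' k1 k2 k3 k4
  have a1 : ∀ y : T.CV i κ → ℝ, (T.cpy i κ).Ag (S0.disjSum univ) y (cz Z) →
      T.Ag S0 (T.vx i ε y) (cz (T.vx i ε Z)) := fun y hy => by
    have := hy.vx (ε := ε) fun k _ => by simp
    rwa [toLeft_disjSum, ← cz_vx] at this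
  have a2 : ∀ y : T.CV i κ → ℝ,
      (∀ v ∈ (T.cpy i κ).fv (S0.disjSum univ) (S.disjSum univ), |(T.cpy i κ).u y v| ≤ 1) →
      ∀ v ∈ T.fv S0 S, |(T.u (T.vx i ε y) v - 0) / 20| ≤ 1 := fun y hy v hv => by
    have := hT.u_vx_le hi hε hy hv
    rw [sub_zero, abs_div, abs_of_pos (by norm_num : (0 : ℝ) < 20), div_le_one (by norm_num)]
    linarith
  exact h _ _ (a1 x k1) (a1 x' k2) (k3.vx ε) fun v hv =>
    ⟨a2 x (fun v hv => (k4 v hv).1) v hv, a2 x' (fun v hv => (k4 v hv).2) v hv⟩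

theorem IB.vx (hS : SCALE) (hT : T.Ok) (hi : i ∈ S0) (h0 : S0 ⊆ S) (hc : c ∉ S0)
    (hf : T.Fm S (S \ S0) f) {ε : κ → ℤ} (hε : (∑ k, |(ε k : ℝ)|) ≤ 19) {Z : T.CV i κ → ℤ}
    (h : T.IB S0 S c (T.vx i ε Z) f H) :
    (T.cpy i κ).IB (S0.disjSum univ) (S.disjSum univ) (Sum.inl c) Z (fun x => f (T.vx i ε x))
      ((100 : ℝ) ^ (2 ^ (Fintype.card α + 1)) * H) := by
  obtain ⟨I, h1, h2, h3⟩ := h
  refine ⟨fun x => I (T.vx i ε x), h1.vx_sdiff ε, h2.vx, ?_⟩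
  have k := (hS α ι T S0 S c (T.vx i ε Z) hT h0 hc).1 (fun z => f z - I z) (fun _ => 1)
    (fun _ => 0) 1 H (hf.sub h1) one_pos (fun _ => ⟨le_rfl, by norm_num⟩) (by rw [sc_one]; exact h3)
  rw [div_one] at k
  exact Osc.vx (f := fun z => f z - I z) hT hi hε k

end TT

theorem ibc (_ : CPOK) (hS : SCALE) : IBC := by
  intro α ι _ _ _ _ T hT
  exact ⟨fun _ _ _ _ _ _ _ _ _ h h' => h.add h', fun _ _ _ _ _ _ _ n h => h.zsmul n,
    fun _ _ _ _ _ _ _ _ hH h => h.mono hH, fun _ _ _ _ _ _ _ _ hb h => h.congr hb,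
    fun _ _ _ _ _ _ _ _ e h => h.osc_eq e, fun _ _ _ _ _ _ _ h01 _ hb h => h.base hT h01 hb,
    fun _ _ _ _ _ _ _ _ hS h _ => h.up hS, fun _ _ _ _ _ _ _ _ hs h => hs.ib h,
    fun _ _ _ _ _ _ _ _ _ _ hs hΩ h => h.sub hs hΩ,
    fun _ _ _ _ _ _ _ _ _ _ _ hi h0 hc hf hε h => h.vx hS hT hi h0 hc hf hε⟩

end Vale.Agent.P057T.Gk
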