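import Vale.Agent.P057T.Gk.Bas2

/-! Copies of a class. -/

set_option linter.all false

open Finset

namespace Vale.Agent.P057T.Gk

namespace TT

variable {α ι : Type} [Fintype α] [DecidableEq α] [Fintype ι] [DecidableEq ι] {T : TT α ι}
  {κ : Type} [Fintype κ] [DecidableEq κ] {i : α}

section
variable {R : Type} [CommRing R]

theorem hc_of (Z : T.CV i κ → R) (k : κ) {v : ι} (h : i ∈ T.ty v) :
    T.hc i Z k v = Z (Sum.inr (k, ⟨v, h⟩)) := dif_pos h
theorem hc_not (Z : T.CV i κ → R) (k : κ) {v : ι} (h : i ∉ T.ty v) : T.hc i Z k v = 0 := dif_neg h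
theorem hc_add (Z Z' : T.CV i κ → R) (k : κ) : T.hc i (Z + Z') k = T.hc i Z k + T.hc i Z' k := by
  funext v
  by_cases h : i ∈ T.ty v
  · simp only [Pi.add_apply, hc_of _ k h]
  · simp only [Pi.add_apply, hc_not _ k h, add_zero]
theorem bs_add (Z Z' : T.CV i κ → R) : T.bs i (Z + Z') = T.bs i Z + T.bs i Z' := rfl
theorem vx_eq (ε : κ → ℤ) (Z : T.CV i κ → R) :
    T.vx i ε Z = T.bs i Z + ∑ k, (ε k : R) • T.hc i Z k := by
  funext v
  simp only [vx, bs, Pi.add_apply, Finset.sum_apply, Pi.smul_apply, smul_eq_mul]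
theorem vx_add (ε : κ → ℤ) (Z Z' : T.CV i κ → R) :
    T.vx i ε (Z + Z') = T.vx i ε Z + T.vx i ε Z' := by
  funext v
  simp only [vx, hc_add, Pi.add_apply, mul_add, sum_add_distrib]
  ring
theorem vx_zero (Z : T.CV i κ → R) : T.vx i 0 Z = T.bs i Z := by
  funext v
  simp [vx, bs]
theorem vx_single (k : κ) (Z : T.CV i κ → R) :
    T.vx i (Pi.single k 1) Z = T.bs i Z + T.hc i Z k := by
  funext v
  simp only [vx, bs, Pi.add_apply]
  rw [sum_eq_single k]
  · simp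
  · intro j _ hj; simp [Pi.single_eq_of_ne hj]
  · simp
theorem of_vx (ε : κ → ℤ) (Z : T.CV i κ → R) : T.Of i (T.vx i ε Z) (T.bs i Z) := fun v hv => by
  simp only [vx, bs, hc_not Z _ hv, mul_zero, sum_const_zero, add_zero]
end

theorem cz_hc (Z : T.CV i κ → ℤ) (k : κ) : cz (T.hc i Z k) = T.hc i (cz Z) k := by
  funext v
  by_cases h : i ∈ T.ty v
  · simp only [cz, hc_of _ k h]
  · simp only [cz, hc_not _ k h, Int.cast_zero]
theorem cz_bs (Z : T.CV i κ → ℤ) : cz (T.bs i Z) = T.bs i (cz Z) := rfl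
theorem cz_vx (ε : κ → ℤ) (Z : T.CV i κ → ℤ) : cz (T.vx i ε Z) = T.vx i ε (cz Z) := by
  funext v
  simp only [vx, ← cz_hc, cz]
  push_cast
  rfl
theorem cz_add (x y : ι → ℤ) : cz (x + y) = cz x + cz y := by
  funext v
  simp [cz]
theorem cz_sub (x y : ι → ℤ) : cz (x - y) = cz x - cz y := by
  funext v
  simp [cz]

variable (T i) in
/-- a vertex as a linear map -/
def vxL (ε : κ → ℤ) : (T.CV i κ → ℝ) →ₗ[ℝ] ι → ℝ where
  toFun := T.vx i ε
  map_add' := vx_add ε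
  map_smul' r Z := by
    funext v
    by_cases h : i ∈ T.ty v
    · simp only [vx, hc_of _ _ h, Pi.smul_apply, smul_eq_mul, RingHom.id_apply, mul_add, mul_sum]
      congr 1
      exact sum_congr rfl fun k _ => by ring
    · simp [vx, hc_not _ _ h]

theorem ty_inl (v : ι) : (T.cpy i κ).ty (Sum.inl v) = (T.ty v).disjSum ∅ := rfl
theorem ty_inr (p : κ × {v : ι // i ∈ T.ty v}) :
    (T.cpy i κ).ty (Sum.inr p) = ((T.ty p.2.1).erase i).disjSum {p.1} := rfl

theorem ty_inl_sub {v : ι} {S : Finset (α ⊕ κ)} :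
    (T.cpy i κ).ty (Sum.inl v) ⊆ S ↔ T.ty v ⊆ S.toLeft := by
  rw [ty_inl, disjSum_subset]
  simp
theorem ty_inr_sub {p : κ × {v : ι // i ∈ T.ty v}} {S : Finset (α ⊕ κ)} :
    (T.cpy i κ).ty (Sum.inr p) ⊆ S ↔ (T.ty p.2.1).erase i ⊆ S.toLeft ∧ Sum.inr p.1 ∈ S := by
  rw [ty_inr, disjSum_subset]
  simp

theorem Ag.bs {R : Type} [CommRing R] {S : Finset (α ⊕ κ)} {Z Z' : T.CV i κ → R}
    (h : (T.cpy i κ).Ag S Z Z') : T.Ag S.toLeft (T.bs i Z) (T.bs i Z') :=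
  fun v hv => h (Sum.inl v) (ty_inl_sub.2 hv)

theorem Ag.hc {R : Type} [CommRing R] {S : Finset (α ⊕ κ)} {Z Z' : T.CV i κ → R}
    (h : (T.cpy i κ).Ag S Z Z') {k : κ} (hk : Sum.inr k ∈ S) :
    T.Ag (insert i S.toLeft) (T.hc i Z k) (T.hc i Z' k) := fun v hv => by
  by_cases hi : i ∈ T.ty v
  · rw [hc_of _ k hi, hc_of _ k hi]
    exact h _ (ty_inr_sub.2 ⟨subset_insert_iff.1 hv, hk⟩)
  · rw [hc_not _ k hi, hc_not _ k hi]

theorem Ag.vx {R : Type} [CommRing R] {S : Finset (α ⊕ κ)} {Z Z' : T.CV i κ → R}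
    (h : (T.cpy i κ).Ag S Z Z') {ε : κ → ℤ} (hε : ∀ k, ε k ≠ 0 → Sum.inr k ∈ S) :
    T.Ag S.toLeft (T.vx i ε Z) (T.vx i ε Z') := fun v hv => by
  have h1 : Z (Sum.inl v) = Z' (Sum.inl v) := h.bs v hv
  simp only [TT.vx, h1]
  congr 1
  refine sum_congr rfl fun k _ => ?_
  by_cases hk : ε k = 0
  · simp [hk]
  · rw [h.hc (hε k hk) v (hv.trans (subset_insert _ _))]

theorem Of.vx {R : Type} [CommRing R] {c : α} {Z Z' : T.CV i κ → R}
    (h : (T.cpy i κ).Of (Sum.inl c) Z Z') (ε : κ → ℤ) : T.Of c (T.vx i ε Z) (T.vx i ε Z') :=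
  fun v hv => by
  have h1 : Z (Sum.inl v) = Z' (Sum.inl v) := h _ (by simpa [ty_inl] using hv)
  simp only [TT.vx, h1]
  congr 1
  refine sum_congr rfl fun k _ => ?_
  by_cases hi : i ∈ T.ty v
  · rw [hc_of _ k hi, hc_of _ k hi, h (Sum.inr (k, ⟨v, hi⟩)) (by simp [ty_inr, hv])]
  · rw [hc_not _ k hi, hc_not _ k hi]

variable {f : Fn ι}

theorem Aff.vx_inl {a : α} (h : T.Aff a f) (ε : κ → ℤ) :
    (T.cpy i κ).Aff (Sum.inl a) (fun Z => f (T.vx i ε Z)) := fun Z => by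
  obtain ⟨L, hL⟩ := h (T.vx i ε Z)
  refine ⟨L.comp (T.vxL i ε), fun K hK => ?_⟩
  show f (T.vx i ε (Z + K)) = f (T.vx i ε Z) + L (T.vx i ε K)
  rw [vx_add]
  refine hL _ fun v hv => ?_
  have := Of.vx (T := T) (i := i) (c := a) (Z := K) (Z' := 0) (fun x hx => hK x hx) ε v hv
  rw [this]
  exact congrFun (T.vxL i ε).map_zero v

theorem Aff.vx_inr (h : T.Aff i f) (k : κ) (ε : κ → ℤ) :
    (T.cpy i κ).Aff (Sum.inr k) (fun Z => f (T.vx i ε Z)) := fun Z => by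
  obtain ⟨L, hL⟩ := h (T.vx i ε Z)
  refine ⟨L.comp (T.vxL i ε), fun K hK => ?_⟩
  show f (T.vx i ε (Z + K)) = f (T.vx i ε Z) + L (T.vx i ε K)
  rw [vx_add]
  refine hL _ fun v hv => ?_
  rw [of_vx ε K v hv]
  exact hK (Sum.inl v) (by simp [ty_inl])

/-- a form at a vertex -/
theorem Fm.vx {S G : Finset α} (h : T.Fm S G f) (ε : κ → ℤ) {S' G' : Finset (α ⊕ κ)}
    (hS : S ⊆ S'.toLeft) (hε : ∀ k, ε k ≠ 0 → Sum.inr k ∈ S')
    (hl : ∀ a, Sum.inl a ∈ G' → a ∈ S → a ∈ G) (hr : ∀ k, Sum.inr k ∈ G' → i ∈ S → i ∈ G) :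
    (T.cpy i κ).Fm S' G' (fun Z => f (T.vx i ε Z)) := by
  refine ⟨fun Z Z' hZ => h.1 _ _ ((hZ.vx hε).mono hS), ?_⟩
  rintro (a | k) ha
  · exact ((h.ext (G' := {a}) fun x hx hs => by
      rw [mem_singleton.1 hx] at hs ⊢; exact hl a ha hs).2 a (mem_singleton_self a)).vx_inl ε
  · exact ((h.ext (G' := {i}) fun x hx hs => by
      rw [mem_singleton.1 hx] at hs ⊢; exact hr k ha hs).2 i (mem_singleton_self i)).vx_inr k ε

/-- the increment along the class `i` does not depend on the position in the class `i` -/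
theorem Aff.diff (h : T.Aff i f) {x y k : ι → ℝ} (hxy : T.Of i x y)
    (hk : ∀ v, i ∉ T.ty v → k v = 0) : f (x + k) - f x = f (y + k) - f y := by
  obtain ⟨L, hL⟩ := h x
  have h0 : ∀ v, i ∉ T.ty v → (y - x) v = 0 := fun v hv => by
    rw [Pi.sub_apply, hxy v hv, sub_self]
  have h1 := hL (y - x) h0
  have h2 := hL (y - x + k) fun v hv => by rw [Pi.add_apply, h0 v hv, hk v hv, add_zero]
  rw [← add_assoc, add_sub_cancel, map_add] at h2
  rw [add_sub_cancel] at h1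
  rw [hL k hk, h1, h2]
  ring

/-- the value at a vertex -/
theorem Aff.at_vx (h : T.Aff i f) (ε : κ → ℤ) (Z : T.CV i κ → ℝ) :
    f (T.vx i ε Z) = f (T.bs i Z) + ∑ k, (ε k : ℝ) * (f (T.bs i Z + T.hc i Z k) - f (T.bs i Z)) := by
  obtain ⟨L, hL⟩ := h (T.bs i Z)
  rw [vx_eq, hL _ fun v hv => by simp [hc_not Z _ hv], map_sum]
  congr 1
  refine sum_congr rfl fun k _ => ?_
  rw [hL _ fun v hv => hc_not Z k hv, map_smul, smul_eq_mul, add_sub_cancel_left]

theorem fm_inc {S G : Finset α} (h : T.Fm S G f) (hi : T.Aff i f) (k : κ) {G' : Finset (α ⊕ κ)}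
    (hl : ∀ a, Sum.inl a ∈ G' → a ∈ S → a ∈ G) :
    (T.cpy i κ).Fm ((S.erase i).disjSum {k}) G'
      (fun Z => f (T.bs i Z + T.hc i Z k) - f (T.bs i Z)) := by
  refine ⟨fun Z Z' hZ => ?_, fun a ha => ?_⟩
  · have h1 := hZ.bs
    have h2 := hZ.hc (k := k) (by simp)
    rw [toLeft_disjSum] at h1 h2
    have e : T.Ag S (fun w => if i ∈ T.ty w then T.bs i Z' w else T.bs i Z w) (T.bs i Z') :=
      fun w hw => by
        by_cases hh : i ∈ T.ty w
        · exact if_pos hh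
        · exact (if_neg hh).trans (h1 w (subset_erase.2 ⟨hw, hh⟩))
    show f (T.bs i Z + T.hc i Z k) - f (T.bs i Z) = f (T.bs i Z' + T.hc i Z' k) - f (T.bs i Z')
    rw [hi.diff (y := fun w => if i ∈ T.ty w then T.bs i Z' w else T.bs i Z w)
      (fun w hw => (if_neg hw).symm) fun v hv => hc_not Z k hv, h.1 _ _ e]
    congr 1
    refine h.1 _ _ fun w hw => ?_
    exact congrArg₂ (· + ·) (e w hw) (h2 w (hw.trans (subset_insert_iff.2 subset_rfl)))
  · have e : (fun Z : T.CV i κ → ℝ => f (T.bs i Z + T.hc i Z k) - f (T.bs i Z)) =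
        fun Z => f (T.vx i (Pi.single k 1) Z) - f (T.vx i 0 Z) := by
      funext Z
      rw [vx_single, vx_zero]
    rw [e]
    rcases a with a | j
    · have := (h.ext (G' := {a}) fun x hx hs => by
        rw [mem_singleton.1 hx] at hs ⊢; exact hl a ha hs).2 a (mem_singleton_self a)
      exact (this.vx_inl _).sub (this.vx_inl _)
    · exact (hi.vx_inr j _).sub (hi.vx_inr j _)

theorem fm_cm {m : (ι → ℝ) → ι → ℝ} (hm : ∀ v, T.Fm (T.ty v) univ (fun z => m z v))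
    (x : T.CV i κ) : (T.cpy i κ).Fm ((T.cpy i κ).ty x) univ (fun Z => T.cm i m Z x) := by
  rcases x with v | p
  · have := (hm v).vx (i := i) (κ := κ) 0 (S' := (T.cpy i κ).ty (Sum.inl v)) (G' := univ)
      (by rw [ty_inl, toLeft_disjSum]) (fun k hk => absurd rfl hk) (fun _ _ _ => mem_univ _)
      (fun _ _ _ => mem_univ _)
    simp only [vx_zero] at this
    exact this
  · exact fm_inc (hm p.2.1) ((hm p.2.1).2 i (mem_univ _)) p.1 fun _ _ _ => mem_univ _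

theorem bs_cm (m : (ι → ℝ) → ι → ℝ) (Z : T.CV i κ → ℝ) : T.bs i (T.cm i m Z) = m (T.bs i Z) := rfl

theorem hc_cm {m : (ι → ℝ) → ι → ℝ} (hm : ∀ v, T.Fm (T.ty v) univ (fun z => m z v))
    (Z : T.CV i κ → ℝ) (k : κ) :
    T.hc i (T.cm i m Z) k = m (T.bs i Z + T.hc i Z k) - m (T.bs i Z) := by
  funext v
  by_cases h : i ∈ T.ty v
  · rw [hc_of _ k h]; rfl
  · rw [hc_not _ k h, Pi.sub_apply]
    have := ((hm v).1.ind h) (T.bs i Z + T.hc i Z k) (T.bs i Z) fun w hw => by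
      rw [Pi.add_apply, hc_not Z k hw, add_zero]
    exact (sub_eq_zero.2 this).symm

/-- the chart of a vertex is the vertex of the chart -/
theorem vx_cm {m : (ι → ℝ) → ι → ℝ} (hm : ∀ v, T.Fm (T.ty v) univ (fun z => m z v))
    (ε : κ → ℤ) (Z : T.CV i κ → ℝ) : T.vx i ε (T.cm i m Z) = m (T.vx i ε Z) := by
  funext v
  rw [((hm v).2 i (mem_univ _)).at_vx ε Z]
  simp only [vx, hc_cm hm, Pi.sub_apply]
  rfl

theorem cm_cm {m m' : (ι → ℝ) → ι → ℝ} (hm : ∀ v, T.Fm (T.ty v) univ (fun z => m z v))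
    (h : ∀ z, m' (m z) = z) (Z : T.CV i κ → ℝ) : T.cm i m' (T.cm i m Z) = Z := by
  funext x
  rcases x with v | ⟨k, v⟩
  · show m' (m (T.bs i Z)) v = _
    rw [h]; rfl
  · show m' (T.bs i (T.cm i m Z) + T.hc i (T.cm i m Z) k) v.1 - m' (T.bs i (T.cm i m Z)) v.1 = _
    rw [hc_cm hm, bs_cm, add_sub_cancel, h, h, Pi.add_apply, add_sub_cancel_left, hc_of _ k v.2]

theorem Ok.u_vx (hT : T.Ok) (ε : κ → ℤ) (Z : T.CV i κ → ℝ) :
    T.u (T.vx i ε Z) = T.vx i ε ((T.cpy i κ).u Z) := (vx_cm hT.fu ε Z).symm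

theorem Ok.cpy (hT : T.Ok) (i : α) (κ : Type) [Fintype κ] [DecidableEq κ] : (T.cpy i κ).Ok where
  ne := by
    rintro (v | p)
    · obtain ⟨a, ha⟩ := hT.ne v
      exact ⟨Sum.inl a, by simpa [ty_inl] using ha⟩
    · exact ⟨Sum.inr p.1, by simp [ty_inr]⟩
  fu := fm_cm hT.fu
  fψ := fm_cm hT.fψ
  l := cm_cm hT.fu hT.l
  r := cm_cm hT.fψ hT.r
  pos := by
    rintro (v | p)
    · exact hT.pos v
    · exact hT.pos _
  fin S K := by
    have hA := hT.fin S.toLeft K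
    obtain ⟨M, hM⟩ : ∃ M : ℝ, ∀ b ∈ T.PS S.toLeft K, ∀ v, |T.u (cz b) v| ≤ M := by
      refine ⟨∑ b ∈ hA.toFinset, ∑ v, |T.u (cz b) v|, fun b hb v => ?_⟩
      exact (single_le_sum (f := fun v => |T.u (cz b) v|) (fun _ _ => abs_nonneg _)
        (mem_univ v)).trans (single_le_sum (f := fun b => ∑ v, |T.u (cz b) v|)
          (fun _ _ => sum_nonneg fun _ _ => abs_nonneg _) (hA.mem_toFinset.2 hb))
    have hB := hT.fin (insert i S.toLeft) (|K| + M)
    refine ((hA.prod (Set.Finite.pi' fun _ : κ => hB)).image fun q : (ι → ℤ) × (κ → ι → ℤ) =>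
      (Sum.elim q.1 (fun p => q.2 p.1 p.2.1 - q.1 p.2.1) : T.CV i κ → ℤ)).subset fun Z hZ => ?_
    have hb : T.bs i Z ∈ T.PS S.toLeft K :=
      ⟨fun v hv => hZ.1 (Sum.inl v) fun h => hv (ty_inl_sub.1 h),
        fun v hv => hZ.2 (Sum.inl v) (ty_inl_sub.2 hv)⟩
    refine ⟨(T.bs i Z, fun k => T.bs i Z + T.hc i Z k), ⟨hb, fun k => ⟨fun v hv => ?_, fun v hv => ?_⟩⟩, ?_⟩
    · show T.bs i Z v + T.hc i Z k v = 0
      rw [hb.1 v fun h => hv (h.trans (subset_insert _ _)), zero_add]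
      by_cases hi : i ∈ T.ty v
      · rw [hc_of _ k hi]
        exact hZ.1 _ fun h => hv (subset_insert_iff.2 (ty_inr_sub.1 h).1)
      · exact hc_not _ k hi
    · show |T.u (cz (T.bs i Z + T.hc i Z k)) v| ≤ |K| + M
      have e := congrFun (hc_cm hT.fu (cz Z) k) v
      rw [Pi.sub_apply] at e
      have h1 := hM _ hb v
      rw [cz_add, cz_hc, cz_bs]
      rw [cz_bs] at h1
      have h2 : |T.hc i (T.cm i T.u (cz Z)) k v| ≤ |K| := by
        by_cases hi : i ∈ T.ty v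
        · by_cases hk : Sum.inr k ∈ S
          · rw [hc_of _ k hi]
            exact (hZ.2 (Sum.inr (k, ⟨v, hi⟩)) (ty_inr_sub.2 ⟨subset_insert_iff.1 hv, hk⟩)).trans
              (le_abs_self K)
          · have e0 : T.hc i (cz Z) k = 0 := by
              funext w
              by_cases hw : i ∈ T.ty w
              · rw [hc_of _ k hw]
                show ((Z _ : ℤ) : ℝ) = 0
                rw [hZ.1 _ fun h => hk (ty_inr_sub.1 h).2, Int.cast_zero]
              · exact hc_not _ k hw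
            rw [e, e0, add_zero, sub_self, abs_zero]
            exact abs_nonneg K
        · rw [hc_not _ k hi, abs_zero]; exact abs_nonneg K
      rw [e] at h2
      have h3 := abs_add_le (T.u (T.bs i (cz Z) + T.hc i (cz Z) k) v - T.u (T.bs i (cz Z)) v)
        (T.u (T.bs i (cz Z)) v)
      rw [sub_add_cancel] at h3
      linarith
    · funext x
      rcases x with v | ⟨k, v⟩
      · rfl
      · show T.bs i Z v.1 + T.hc i Z k v.1 - T.bs i Z v.1 = _
        rw [add_sub_cancel_left, hc_of _ k v.2]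

end TT

end Vale.Agent.P057T.Gk
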