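import Vale.Agent.P057T.Gk.Rows
import Vale.Agent.P057T.Gk.Bas3

/-! Pull back along morphisms of towers. -/

set_option linter.all false

open Finset

namespace Vale.Agent.P057T.Gk

open TT

noncomputable section

namespace LfA

variable {α ι ι' κ : Type} [Fintype α] [DecidableEq α] [Fintype ι] [DecidableEq ι] [Fintype ι']
  [DecidableEq ι'] [Fintype κ] [DecidableEq κ] (T : TT α ι) (T' : TT α ι') (i : α)
  (π : (ι' → ℝ) → ι → ℝ)

/-- the morphism on the copies -/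
def lf (Z : T'.CV i κ → ℝ) : T.CV i κ → ℝ :=
  Sum.elim (π (T'.bs i Z)) fun p => π (T'.bs i Z + T'.hc i Z p.1) p.2.1 - π (T'.bs i Z) p.2.1

/-- the same types with a trivial chart -/
def tz {β μ : Type} (U : TT β μ) : TT β μ := ⟨U.ty, fun _ _ => 0, U.ψ, U.dv⟩

variable {T T' π}

lemma hc_lf (h : Mor T' T π) (Z : T'.CV i κ → ℝ) (k : κ) :
    T.bs i (lf T T' i π Z) + T.hc i (lf T T' i π Z) k = π (T'.bs i Z + T'.hc i Z k) := by
  funext v
  show π (T'.bs i Z) v + T.hc i (lf T T' i π Z) k v = _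
  by_cases hv : i ∈ T.ty v
  · rw [hc_of _ _ hv]
    exact add_sub_cancel _ _
  · rw [hc_not _ _ hv, add_zero]
    refine (h.fm v).1 _ _ fun w hw => ?_
    rw [Pi.add_apply, hc_not _ _ fun c => hv (hw c), add_zero]

lemma vx_lf (h : Mor T' T π) (ε : κ → ℤ) (Z : T'.CV i κ → ℝ) :
    T.vx i ε (lf T T' i π Z) = π (T'.vx i ε Z) := by
  funext v
  have h1 := ((h.fm v).2 i (mem_univ _)).at_vx ε Z
  simp only [← hc_lf i h] at h1
  rw [h1]
  refine congrArg (π (T'.bs i Z) v + ·) (Finset.sum_congr rfl fun k _ => ?_)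
  exact congrArg ((ε k : ℝ) * ·) (add_sub_cancel_left _ _).symm

lemma mor_lf (h : Mor T' T π) : Mor (T'.cpy i κ) (tz (T.cpy i κ)) (lf T T' i π) := by
  refine ⟨fun Z => funext fun x => ?_, ?_, fun _ _ _ _ _ => by simp [tz]⟩
  · have : ∃ n : ℤ, lf T T' i π (cz Z) x = n := by
      rcases x with v | p
      · exact ⟨_, congrFun (h.int (T'.bs i Z)) v⟩
      · refine ⟨zi π (T'.bs i Z + T'.hc i Z p.1) p.2.1 - zi π (T'.bs i Z) p.2.1, ?_⟩
        have h1 := congrFun (h.int (T'.bs i Z + T'.hc i Z p.1)) p.2.1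
        have h2 := congrFun (h.int (T'.bs i Z)) p.2.1
        rw [cz_add, cz_hc] at h1
        rw [Int.cast_sub]
        exact congrArg₂ (· - ·) h1 h2
    obtain ⟨n, hn⟩ := this
    show _ = ((round (lf T T' i π (cz Z) x) : ℤ) : ℝ)
    rw [hn, round_intCast]
  · rintro (v | p)
    · have := (h.fm v).vx (i := i) (0 : κ → ℤ) (S' := (T.ty v).disjSum ∅) (G' := univ)
        (by rw [toLeft_disjSum]) (fun k hk => absurd rfl hk) (fun _ _ _ => mem_univ _) fun _ _ _ => mem_univ _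
      simp only [vx_zero] at this
      exact this
    · exact fm_inc (h.fm p.2.1) ((h.fm p.2.1).2 i (mem_univ _)) p.1 fun _ _ _ => mem_univ _

lemma box (h : Mor T' T π) (hT' : T'.Ok) {S : Finset α} {c : α} (hi : i ∈ S.erase c)
    {Z : T'.CV i (Fin 2) → ℤ}
    (hZ : ∀ w, ∃ ω ∈ T'.pts univ 1, T'.Ag (S.erase c) (T'.vx i (qv w) Z) ω)
    {x : T'.CV i (Fin 2) → ℝ} (h1 : (T'.cpy i (Fin 2)).Ag (ex (S.erase c)) x (cz Z))
    (h2 : ∀ v ∈ (T'.cpy i (Fin 2)).fv (ex (S.erase c)) (ex S), |(T'.cpy i (Fin 2)).u x v| ≤ 1 / 2) :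
    ∀ v, (T.cpy i (Fin 2)).ty v ⊆ ex S → |(T.cpy i (Fin 2)).u (lf T T' i π x) v| ≤ 2 := by
  have base : ∀ w v, T'.ty v ⊆ S → c ∉ T'.ty v → |T'.u (T'.vx i (qv w) x) v| ≤ 1 := by
    intro w v hv hc
    obtain ⟨ω, a1, a2⟩ := hZ w
    have a3 := h1.vx (ε := qv w) fun k _ => by simp [ex]
    rw [ex, toLeft_disjSum, ← cz_vx] at a3
    rw [hT'.u_ag (a3.trans a2.cz) (subset_erase.2 ⟨hv, hc⟩)]
    exact ((mem_pts hT').1 a1).2 v (subset_univ _)
  have fl : ∀ v, T'.ty v ⊆ S → c ∈ T'.ty v → |T'.u (T'.bs i x) v| ≤ 1 / 2 := fun v hv hc =>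
    h2 (.inl v) (mem_filter.2 ⟨mem_univ _, ty_inl_sub.2 (by simpa [ex] using hv), fun k =>
      notMem_erase c S (by simpa [ex] using ty_inl_sub.1 k hc)⟩)
  have b0 : ∀ v, T'.ty v ⊆ S → |T'.u (T'.bs i x) v| ≤ 1 := fun v hv => by
    by_cases hc : c ∈ T'.ty v
    · exact (fl v hv hc).trans (by norm_num)
    · have := base 0 v hv hc
      rwa [show qv 0 = 0 by decide, vx_zero] at this
  have b1 : ∀ k v, T'.ty v ⊆ S → |T'.u (T'.bs i x + T'.hc i x k) v| ≤ 1 := fun k v hv => by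
    by_cases hc : c ∈ T'.ty v
    · have e := congrFun (hc_cm hT'.fu x k) v
      have a1 := abs_le.1 (fl v hv hc)
      have a2 : |T'.hc i (T'.cm i T'.u x) k v| ≤ 1 / 2 := by
        by_cases hv' : i ∈ T'.ty v
        · rw [hc_of _ _ hv']
          refine h2 (.inr (k, ⟨v, hv'⟩)) (mem_filter.2 ⟨mem_univ _, ty_inr_sub.2
            ⟨by simpa [ex] using (erase_subset _ _).trans hv, by simp [ex]⟩, fun k => ?_⟩)
          have := (ty_inr_sub.1 k).1 (mem_erase.2 ⟨(ne_of_mem_erase hi).symm, hc⟩)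
          exact notMem_erase c S (by simpa [ex] using this)
        · rw [hc_not _ _ hv']
          norm_num
      rw [e, Pi.sub_apply] at a2
      have a3 := abs_le.1 a2
      exact abs_le.2 ⟨by linarith [a1.1, a3.1], by linarith [a1.2, a3.2]⟩
    · obtain ⟨w, hw⟩ : ∃ w, qv w = Pi.single k 1 := by
        revert k
        decide
      have := base w v hv hc
      rwa [hw, vx_single] at this
  rintro (v | p) hv
  · exact (h.cel S _ b0 v (by simpa [ex] using ty_inl_sub.1 hv)).trans (by norm_num)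
  · have a0 : T.ty p.2.1 ⊆ S := by
      have : (T.ty p.2.1).erase i ⊆ S := by simpa [ex] using (ty_inr_sub.1 hv).1
      intro a ha
      by_cases e : a = i
      · exact e ▸ mem_of_mem_erase hi
      · exact this (mem_erase.2 ⟨e, ha⟩)
    have a1 := abs_le.1 (h.cel S _ b0 _ a0)
    have a2 := abs_le.1 (h.cel S _ (b1 p.1) _ a0)
    show |T.u (T.bs i (lf T T' i π x) + T.hc i (lf T T' i π x) p.1) p.2.1 -
      T.u (π (T'.bs i x)) p.2.1| ≤ 2
    rw [hc_lf i h]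
    exact abs_le.2 ⟨by linarith [a1.2, a2.1], by linarith [a1.1, a2.2]⟩

end LfA

open LfA in
theorem lift (hS : SCALE) : LIFT := by
  intro a
  refine ⟨200 ^ 2 ^ (a + 3) * 200 ^ 2 ^ (a + 3), fun α ι ι' _ _ _ _ _ _ T T' π ha hT hT' h =>
    ⟨fun S G f hf => h.pull hf, fun S f hf _ _ hz => hf _ _ (h.ag hz),
      fun S0 S c b f H _ hb hf => h.ib hT' (fun v _ => ((mem_pts hT').1 hb).2 v (subset_univ _)) hf,
      ?_, fun ι'' _ _ T'' π' h' => ⟨h'.comp h, h'.zi_comp π⟩⟩⟩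
  intro κ S G c τ Ω Ω' i H hc hG hi hH hτ h1 h2 h3 Z hZ k
  have M := mor_lf (κ := Fin 2) i h
  obtain ⟨I, a1, a2, a3⟩ := h3 (zi (lf T T' i π) Z) (fun w => by
    obtain ⟨ω, b1, b2⟩ := hZ w
    refine ⟨_, h2 ω b1, ag_cz.1 ?_⟩
    rw [cz_vx, ← M.int, vx_lf i h, ← h.int, ← cz_vx]
    exact h.ag b2.cz) k
  have s1 : ex (S.erase c) ⊆ ex S := disjSum_mono (erase_subset _ _) subset_rfl
  have s2 : Sum.inl c ∉ ex (S.erase c) := by simp [ex]
  have f1 : (T.cpy i (Fin 2)).Fm (ex S) (ex S \ ex (S.erase c))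
      fun z => T.Q i (fun _ => τ k) z - I z := by
    refine Fm.sub (fm_sum univ fun w _ => ((hτ k).vx (i := i) (qv w) (by simp [ex]) (by simp [ex])
      (fun b hb hb' => ?_) fun k hk => absurd hk (by simp [ex])).smul _) a1
    have : b = c := by simpa [ex, hb'] using hb
    exact this ▸ hG
  rw [← sc_one (T := T.cpy i (Fin 2))] at a3
  have c1 := (hS _ _ _ _ _ _ _ (hT.cpy i (Fin 2)) s1 s2).1 _ _ _ 1 H f1 one_pos
    (fun v => ⟨le_rfl, by norm_num⟩) a3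
  have c2 : ((T'.cpy i (Fin 2)).sc (fun _ => 1 / 2) fun _ => 0).Osc (ex (S.erase c)) (ex S)
      (Sum.inl c) Z (fun z => T.Q i (fun _ => τ k) (lf T T' i π z) - I (lf T T' i π z))
      ((100 / 1) ^ 2 ^ (Fintype.card (α ⊕ Fin 2) + 1) * H) := by
    intro x x' d1 d2 d3 d4
    have hZ' : ∀ w, ∃ ω ∈ T'.pts univ 1, T'.Ag (S.erase c) (T'.vx i (qv w) Z) ω := fun w =>
      (hZ w).imp fun ω b => ⟨h1 b.1, b.2⟩
    have hf : ∀ u : ℝ, |(u - 0) / (1 / 2)| ≤ 1 → |u| ≤ 1 / 2 := fun u hu => by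
      rw [sub_zero, abs_div, div_le_one (by norm_num)] at hu
      exact hu.trans (by norm_num)
    have hg : ∀ u : ℝ, |u| ≤ 2 → |(u - 0) / 20| ≤ 1 := fun u hu => by
      rw [sub_zero, abs_div, div_le_one (by norm_num)]
      exact hu.trans (by norm_num)
    refine c1 _ _ (M.int Z ▸ M.ag d1) (M.int Z ▸ M.ag d2) (M.of d3) fun v hv => ⟨hg _ ?_, hg _ ?_⟩
    · exact box i h hT' hi hZ' d1 (fun v hv => hf _ (d4 v hv).1) v (mem_filter.1 hv).2.1
    · exact box i h hT' hi hZ' d2 (fun v hv => hf _ (d4 v hv).2) v (mem_filter.1 hv).2.1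
  have c3 := (hS _ _ _ _ _ _ _ (hT'.cpy i (Fin 2)) s1 s2).1 _ _ _ (1 / 2) _ (M.pull f1)
    (by norm_num) (fun v => ⟨le_rfl, by norm_num⟩) c2
  refine ⟨fun z => I (lf T T' i π z), M.pull a1, M.isI a2, fun x x' d1 d2 d3 d4 => ?_⟩
  have hg : ∀ u : ℝ, |u| ≤ 1 → |(u - 0) / 20| ≤ 1 := fun u hu => by
    rw [sub_zero, abs_div, div_le_one (by norm_num)]
    exact hu.trans (by norm_num)
  have c4 := c3 x x' d1 d2 d3 fun v hv => ⟨hg _ (d4 v hv).1, hg _ (d4 v hv).2⟩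
  simp only [Q, vx_lf i h] at c4
  refine le_trans c4 ?_
  have e : 2 ^ (Fintype.card (α ⊕ Fin 2) + 1) ≤ 2 ^ (a + 3) :=
    Nat.pow_le_pow_right two_pos (by simp; omega)
  have e1 : ∀ u : ℝ, 1 ≤ u → u ≤ 200 → u ^ 2 ^ (Fintype.card (α ⊕ Fin 2) + 1) ≤ 200 ^ 2 ^ (a + 3) :=
    fun u u1 u2 => (pow_le_pow_right₀ u1 e).trans (pow_le_pow_left₀ (by linarith) u2 _)
  rw [← mul_assoc]
  push_cast
  exact mul_le_mul_of_nonneg_right (mul_le_mul (e1 _ (by norm_num) (by norm_num))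
    (e1 _ (by norm_num) (by norm_num)) (by positivity) (by positivity)) hH

end

end Vale.Agent.P057T.Gk
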