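import Vale.Agent.P057T.Gk.Rows
import Vale.Agent.P057T.Gk.Bas3

/-! Row `PRE`: steps (0) to (3). -/

set_option linter.all false

open Finset

namespace Vale.Agent.P057T.Gk

open TT

noncomputable section

namespace PreP

variable {α ι κ : Type} [Fintype α] [DecidableEq α] [Fintype ι] [DecidableEq ι] {T : TT α ι}

theorem dn_mono (hT : T.Ok) {S : Finset α} {Ω : Finset (ι → ℤ)} {Y Y' : ℝ} (h : T.Dn S Ω Y)
    (hY : Y ≤ Y') : T.Dn S Ω Y' :=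
  ⟨h.1, (mul_le_mul_of_nonneg_right (Real.exp_le_exp.2 (neg_le_neg hY)) (vol_pos hT _ _).le).trans
    h.2⟩

theorem hs_mono {S : Finset α} {c i : α} {τ : κ → Fn ι} {Ω : Finset (ι → ℤ)} {H H' : ℝ}
    (h : T.HS S c τ Ω i H) (hH : H ≤ H') : T.HS S c τ Ω i H' :=
  fun Z hZ k => (h Z hZ k).mono hH

theorem rel_mono {S : Finset α} {c : α} {n : ℕ} {τ τ' : κ → Fn ι} {Ω : Finset (ι → ℤ)} {H H' : ℝ}
    (h : T.Rel S c n τ τ' Ω H) (hH : H ≤ H') : T.Rel S c n τ τ' Ω H' :=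
  fun z hz k => (h z hz k).mono hH

theorem st_mono (hT : T.Ok) {S F : Finset α} {c : α} {τ : κ → Fn ι} {Ω : Finset (ι → ℤ)} {Y Y' : ℝ}
    (h : T.St S c F τ Ω Y) (hY : Y ≤ Y') : T.St S c F τ Ω Y' :=
  ⟨h.hc, h.hF, h.fm, dn_mono hT h.dn hY, fun i hi => hs_mono (h.hs i hi) (Real.exp_le_exp.2 hY)⟩

theorem r6_mono (hT : T.Ok) {S F : Finset α} {c i : α} {f : κ → Fn ι} {Ω : Finset (ι → ℤ)}
    {Y Y' : ℝ} (h : T.R6 S c F i f Ω Y) (hY : Y ≤ Y') : T.R6 S c F i f Ω Y' := by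
  obtain ⟨h1, A, C, h2, h3, h4, h5⟩ := h
  exact ⟨dn_mono hT h1 hY, A, C, h2, h3, fun z hz k => (h4 z hz k).mono (Real.exp_le_exp.2 hY),
    fun s t a b c k => (h5 s t a b c k).mono (Real.exp_le_exp.2 hY)⟩

theorem win_ok (hT : T.Ok) (i : α) {m : ℕ} (hm : 1 ≤ m) (cen : T.CV i (Fin 2) → ℝ) :
    (T.win i m cen).Ok := by
  have m0 : (0 : ℝ) < m := by exact_mod_cast hm
  exact hT.sc (fun v => by split_ifs <;> positivity) _

theorem qt_ok (hT : T.Ok) (i : α) {m : ℕ} (hm : 1 ≤ m) (cen : T.CV i (Fin 2) → ℝ) :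
    (T.qt i m cen).Ok := by
  have m0 : (0 : ℝ) < m := by exact_mod_cast hm
  refine (hT.cpy i (Fin 2)).sc (fun x => ?_) _
  rcases x with v | p <;> simp only [ql, Sum.elim_inl, Sum.elim_inr] <;> split_ifs <;> positivity

theorem qs_mono (hT : T.Ok) {S F : Finset α} {c i : α} {f : Fin 4 → κ → Fn ι}
    {Ω : Finset (ι → ℤ)} {m : ℕ} (hm : 1 ≤ m) {cen : T.CV i (Fin 2) → ℝ} {Y Y' : ℝ}
    (h : T.QS S c F i f Ω m cen Y) (hY : Y ≤ Y') : T.QS S c F i f Ω m cen Y' := by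
  obtain ⟨h1, h2, E, h3, h4⟩ := h
  refine ⟨h1, h2, E, dn_mono (qt_ok hT i hm cen) h3 hY, fun Z hZ => ⟨?_, fun k =>
    ((h4 Z hZ).2 k).mono (Real.exp_le_exp.2 hY)⟩⟩
  exact (mul_le_mul_of_nonneg_right (Real.exp_le_exp.2 (neg_le_neg hY))
    (vol_pos (win_ok hT i hm cen) _ _).le).trans (h4 Z hZ).1

theorem sub_win {i : α} {m : ℕ} (hm : 1 ≤ m) {cen : T.CV i (Fin 2) → ℝ} (hc : T.Cen i m cen)
    {Z : ℝ} (h0 : 0 ≤ Z) (hZ : (m : ℝ) ≤ Real.exp Z) : T.Sub (T.win i m cen) (3 * Z) := by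
  have m0 : (0 : ℝ) < m := by exact_mod_cast hm
  refine ⟨_, _, fun v => ⟨?_, hc (Sum.inl v)⟩, rfl⟩
  simp only [ql, Sum.elim_inl]
  split_ifs
  · rw [Real.exp_neg]
    refine inv_anti₀ (by positivity) ?_
    rw [show (3 : ℝ) * Z = (3 : ℕ) * Z by norm_num, Real.exp_nat_mul]
    exact pow_le_pow_left₀ m0.le hZ 3
  · exact Real.exp_le_one_iff.2 (by linarith)

theorem tw_fm {ρ : Type} [Fintype ρ] {S F : Finset α} {c i : α} {a : κ → Fn ι}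
    {cc : κ → ρ → Fn ι} {g : ρ → Fn ι} {Ω : Finset (ι → ℤ)} (h : T.WD S c F i a cc g Ω) (k : κ) :
    T.Fm S (insert c F) (tw a cc g k) := by
  refine ((h.fa k).mono subset_rfl (subset_insert _ _)).add (fm_sum _ fun r _ => ?_)
  have hn : ∀ x ∈ insert c F, x ∉ S.erase c \ F := fun x hx hx' => by
    rw [mem_sdiff, mem_erase] at hx'
    rcases mem_insert.1 hx with e | e
    · exact hx'.1.1 e
    · exact hx'.2 e
  have h1 : T.Fm (S.erase c \ F) (insert c F) (fun z => (round (g r z) : ℝ)) :=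
    Fm.ext (G := ∅) ⟨(h.fg r).1.comp fun x => (round x : ℝ), fun _ ha => absurd ha (notMem_empty _)⟩
      fun x hx hx' => absurd hx' (hn x hx)
  exact (h.fc k r).mul h1 (erase_subset _ _) (sdiff_subset.trans (erase_subset _ _))
    fun x hx => Or.inr (hn x hx)

theorem nn_le (hS : SCG) (hT : T.Ok) {W W' : ℝ} (h0 : 0 ≤ W') (hW : W' ≤ W) {n : ℕ}
    (h : T.Nn n (Real.exp (-W))) : T.Nn n (Real.exp (-W')) :=
  (hS n α ι T _ _ hT (Real.exp_pos _) (Real.exp_le_one_iff.2 (by linarith))).1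
    (Real.exp_le_exp.2 (neg_le_neg hW)) h

theorem nn_dn (hS : SCG) (hT : T.Ok) {W : ℝ} {n : ℕ}
    (h : T.Nn (n + 1) (Real.exp (-W))) : T.Nn n (Real.exp (-W)) :=
  (hS n α ι T _ 1 hT (Real.exp_pos _) le_rfl).2.1 h

theorem nn_sub (hS : SCG) (hT : T.Ok) {a : ℕ} (ha : Fintype.card α ≤ a) {T1 : TT α ι} {Z W W' : ℝ}
    (hZ : 0 ≤ Z) (h1 : T.Sub T1 Z) (h0 : 0 ≤ W') (hW : W' + 2 ^ (a + 17) * (100 + Z) ≤ W)
    (h : T.Nn 2 (Real.exp (-W))) : T1.Nn 2 (Real.exp (-W')) := by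
  refine (hS 2 α ι T _ _ hT (Real.exp_pos _) (Real.exp_le_one_iff.2 (by linarith))).2.2 T1 Z hZ h1
    ?_ h
  have e1 : 100 * Real.exp Z ≤ Real.exp (100 + Z) := by
    rw [Real.exp_add]
    exact mul_le_mul_of_nonneg_right (by linarith [Real.add_one_le_exp (100 : ℝ)]) (Real.exp_pos _).le
  have e2 := pow_le_pow_left₀ (by positivity) e1 (2 ^ (Fintype.card α + 8 * 2 + 1))
  rw [← Real.exp_nat_mul] at e2
  refine (mul_le_mul_of_nonneg_left e2 (Real.exp_pos _).le).trans ?_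
  rw [← Real.exp_add, Real.exp_le_exp]
  have e3 : ((2 ^ (Fintype.card α + 8 * 2 + 1) : ℕ) : ℝ) ≤ 2 ^ (a + 17) := by
    push_cast
    exact pow_le_pow_right₀ one_le_two (by omega)
  have e4 := mul_le_mul_of_nonneg_right e3 (by linarith : 0 ≤ 100 + Z)
  linarith

/-- numerics: everything of level `L ^ e` fits in `L ^ (e + 3)` -/
theorem num {L K : ℝ} (hL : K + 100 ≤ L) (hK : 0 ≤ K) (e : ℕ) :
    L ^ e + K * (100 + 4 * L) + 4 * L + K + 1 ≤ L ^ (e + 3) ∧ 1 ≤ L ^ e := by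
  have L1 : 1 ≤ L := by linarith
  have h1 : 1 ≤ L ^ e := one_le_pow₀ L1
  refine ⟨?_, h1⟩
  have h2 : L ^ (e + 3) = L ^ e * (L * L * L) := by ring
  have h3 : K * (100 + 4 * L) ≤ L * (5 * L) :=
    mul_le_mul (by linarith) (by linarith) (by linarith) (by linarith)
  have h4 : 100 * L ≤ L * L := mul_le_mul_of_nonneg_right (by linarith) (by linarith)
  have h5 : 100 * (L * L) ≤ L * L * L := by nlinarith
  have h6 : L ^ e + (L * L * L - 1) ≤ L ^ e * (L * L * L) := by nlinarith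
  nlinarith

theorem exp2 {x y z : ℝ} (hx : x + 1 ≤ z) (hy : y + 1 ≤ z) : Real.exp x + Real.exp y ≤ Real.exp z := by
  have e2 : (2 : ℝ) ≤ Real.exp 1 := by linarith [Real.add_one_le_exp (1 : ℝ)]
  have h1 := Real.exp_le_exp.2 hx
  have h2 := Real.exp_le_exp.2 hy
  rw [Real.exp_add] at h1 h2
  nlinarith [Real.exp_pos x, Real.exp_pos y]

/-- the state of the loop -/
def Sg (T : TT α ι) (S F : Finset α) (c i : α) (τ : κ → Fn ι) (Ω : Finset (ι → ℤ)) (L : ℝ)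
    (D : Finset α) : Prop :=
  ∃ (T1 : TT α ι) (Ω1 : Finset (ι → ℤ)) (n r : ℕ) (a : κ → Fn ι) (cc : κ → Fin r → Fn ι)
    (g : Fin r → Fn ι), T.Sub T1 L ∧ Ω1 ⊆ Ω ∧ 1 ≤ n ∧ (n : ℝ) ≤ Real.exp L ∧ (r : ℝ) ≤ L ∧
    T1.St S c F (tw a cc g) Ω1 L ∧ T1.WD S c F i a cc g Ω1 ∧
    T1.Rel S c n τ (tw a cc g) Ω1 (Real.exp L) ∧
    ∀ i' ∈ D, T1.HS (S.erase c \ F) i g Ω1 i' (Real.exp L)

theorem Sg.mono (hT : T.Ok) {S F : Finset α} {c i : α} {τ : κ → Fn ι} {Ω : Finset (ι → ℤ)}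
    {L L' : ℝ} {D : Finset α} (h : Sg T S F c i τ Ω L D) (hL : L ≤ L') : Sg T S F c i τ Ω L' D := by
  obtain ⟨T1, Ω1, n, r, a, cc, g, h1, h2, h3, h4, h5, h6, h7, h8, h9⟩ := h
  have e := Real.exp_le_exp.2 hL
  exact ⟨T1, Ω1, n, r, a, cc, g, h1.mono hL, h2, h3, h4.trans e, h5.trans hL,
    st_mono (h1.ok hT) h6 hL, h7, rel_mono h8 e, fun i' hi => hs_mono (h9 i' hi) e⟩

/-- the statement with `k` directions done -/
def Cl (a k M E : ℕ) : Prop :=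
  ∀ (α ι κ : Type) [Fintype α] [DecidableEq α] [Fintype ι] [DecidableEq ι] [Fintype κ]
    (T : TT α ι) (Y : ℝ), Fintype.card α ≤ a → (M : ℝ) ≤ Y → (Fintype.card ι : ℝ) ≤ Real.exp Y →
    (Fintype.card κ : ℝ) ≤ Real.exp Y → T.Ok → T.Nn 2 (Real.exp (-Y ^ E)) →
    ∀ (S F : Finset α) (c i : α) (τ : κ → Fn ι) (Ω : Finset (ι → ℤ)), T.St S c F τ Ω Y →
      i ∈ S.erase c \ F → ∀ D ⊆ (S.erase c \ F).erase i, D.card ≤ k → Sg T S F c i τ Ω (Y ^ E) D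

theorem step (hR : RST) (hP : PETD) (hS : SCG) (a k M E : ℕ) (E1 : 1 ≤ E) (h : Cl a k M E) :
    ∃ M' E', 1 ≤ E' ∧ Cl a (k + 1) M' E' := by
  obtain ⟨Cr, hR⟩ := hR a
  obtain ⟨Cp, hP⟩ := hP a
  refine ⟨M + Cp + 2 ^ (a + 17) + 100, E * (Cp + 3), Nat.mul_pos E1 (by omega), ?_⟩
  intro α ι κ _ _ _ _ _ T Y ha hY hι hκ hT hN S F c i τ Ω hSt hi D hD hk
  push_cast at hY
  have M0 : (0 : ℝ) ≤ M := Nat.cast_nonneg _
  have P0 : (0 : ℝ) ≤ Cp := Nat.cast_nonneg _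
  have K0 : (0 : ℝ) ≤ 2 ^ (a + 17) := by positivity
  have Y1 : 1 ≤ Y := by linarith
  have YL : Y ≤ Y ^ E := le_self_pow₀ Y1 (by omega)
  rw [pow_mul] at hN ⊢
  have h0 := fun hn => h α ι κ T Y ha (by linarith) hι hκ hT hn S F c i τ Ω hSt hi
  generalize Y ^ E = L at YL hN h0 ⊢
  obtain ⟨n1, n2⟩ := num (L := L) (by linarith) K0 Cp
  have K1 := mul_nonneg K0 (by linarith : 0 ≤ 100 + 4 * L)
  have h1 := h0 (nn_le hS hT (by linarith) (by linarith) hN)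
  rcases D.eq_empty_or_nonempty with rfl | ⟨i', hi'⟩
  · exact (h1 ∅ hD (by simp)).mono hT (by linarith)
  obtain ⟨T1, Ω1, n, r, a1, cc, g, s1, s2, s3, s4, s5, s6, s7, s8, s9⟩ :=
    h1 (D.erase i') ((erase_subset _ _).trans hD) (by rw [card_erase_of_mem hi']; omega)
  have eY := Real.exp_le_exp.2 YL
  have T1k := s1.ok hT
  obtain ⟨T2, Ω2, n', a2, cc', g', t1, t2, t3, t4, t5, t6, t7, t8, t9⟩ :=
    hP α ι κ (Fin r) T1 L ha (by linarith) (hι.trans eY) (hκ.trans eY) (by simpa using s5) T1k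
      (nn_sub hS hT ha (by linarith) s1 (by linarith)
        (by linarith [mul_nonneg K0 (by linarith : 0 ≤ L)]) hN)
      S F c i i' a1 cc g Ω1 s6 s7 (hD hi')
  have T2k := t1.ok T1k
  have e1 : Real.exp (L ^ Cp) ≤ Real.exp (L ^ (Cp + 3)) := Real.exp_le_exp.2 (by linarith)
  have e2 : (n' : ℝ) * Real.exp L ≤ Real.exp (L ^ Cp + L) := by
    rw [Real.exp_add]; exact mul_le_mul_of_nonneg_right t4 (Real.exp_pos _).le
  refine ⟨T2, Ω2, n' * n, r, a2, cc', g', (s1.trans t1).mono (by linarith), t2.trans s2,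
    Nat.mul_pos t3 s3, ?_, by linarith, st_mono T2k t5 (by linarith), t6, ?_, fun j hj => ?_⟩
  · rw [Nat.cast_mul]
    exact ((mul_le_mul_of_nonneg_left s4 (Nat.cast_nonneg _)).trans e2).trans
      (Real.exp_le_exp.2 (by linarith))
  · refine rel_mono ((hR α ι κ T2 S (insert c F) c τ (tw a1 cc g) (tw a2 cc' g') Ω2 n n' _ _ ha T2k
      hSt.hc (mem_insert_self _ _) (Real.exp_pos L).le (Real.exp_pos (L ^ Cp)).le
      (fun k => t1.fm.2 (s1.fm.2 (hSt.fm k))) (fun k => t1.fm.2 (s6.fm k))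
      (fun z hz k => t1.ib (s8 z (t2 hz) k))).2 t7) ?_
    exact (add_le_add e2 le_rfl).trans (exp2 (by linarith) (by linarith))
  · by_cases e : j = i'
    · rw [e]; exact hs_mono t8 e1
    · exact hs_mono (t9 j (hD hj) (s9 j (mem_erase.2 ⟨e, hj⟩))) e1

theorem zero (hQ : Q0) (hF : FGT) (hB : BOG) (hR : RST) (hI : IBC) (hS : SCG) (a : ℕ) :
    ∃ M E, 1 ≤ E ∧ Cl a 0 M E := by
  obtain ⟨Cq, hQ⟩ := hQ a
  obtain ⟨Cf, hF⟩ := hF a
  obtain ⟨Cb, hB⟩ := hB a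
  obtain ⟨Cr, hR⟩ := hR a
  obtain ⟨e2, he2⟩ : ∃ e2, e2 = Cf * (Cf + 3 + 1) + (Cf + 3) + 3 := ⟨_, rfl⟩
  obtain ⟨E, hE⟩ : ∃ E, E = (Cq + 2) * e2 * (Cb + 3) := ⟨_, rfl⟩
  refine ⟨Cq + Cf + Cb + Cr + 2 ^ (a + 17) + 100, E + Cq * ((Cq + 2) * (Cf + 3) + 1) + 1, by omega, ?_⟩
  intro α ι κ _ _ _ _ _ T Y ha hY hι hκ hT hN S F c i τ Ω hSt hi D _ hk
  rw [card_eq_zero.1 (Nat.le_zero.1 hk)]
  push_cast at hY
  have q0 : (0 : ℝ) ≤ Cq := Nat.cast_nonneg _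
  have f0 : (0 : ℝ) ≤ Cf := Nat.cast_nonneg _
  have b0 : (0 : ℝ) ≤ Cb := Nat.cast_nonneg _
  have r0 : (0 : ℝ) ≤ Cr := Nat.cast_nonneg _
  have K0 : (0 : ℝ) ≤ 2 ^ (a + 17) := by positivity
  have Y1 : 1 ≤ Y := by linarith
  have pw : ∀ {x y : ℕ}, x ≤ y → Y ^ x ≤ Y ^ y := fun h => pow_le_pow_right₀ Y1 h
  have nn : ∀ x, x ≤ E + Cq * ((Cq + 2) * (Cf + 3) + 1) + 1 → T.Nn 2 (Real.exp (-Y ^ x)) :=
    fun x hx => nn_le hS hT (by positivity) (pw hx) hN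
  refine Sg.mono hT (L := Y ^ E) ?_ (pw (by omega))
  have hE1 : (Cq + 2) * e2 ≤ E := by rw [hE]; exact Nat.le_mul_of_pos_right _ (by omega)
  have hE2 : ∀ x, x ≤ e2 → (Cq + 2) * x ≤ E := fun x hx => (Nat.mul_le_mul_left _ hx).trans hE1
  obtain ⟨Y1', hY1⟩ : ∃ Y1', Y1' = Y ^ (Cq + 2) := ⟨_, rfl⟩
  have y1 : Y ≤ Y1' := by rw [hY1]; exact le_self_pow₀ Y1 (by omega)
  have y11 : 1 ≤ Y1' := Y1.trans y1
  have pw1 : ∀ {x y : ℕ}, x ≤ y → Y1' ^ x ≤ Y1' ^ y := fun h => pow_le_pow_right₀ y11 h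
  have n1 : ∀ x, x ≤ e2 → T.Nn 1 (Real.exp (-Y1' ^ x)) := fun x hx => by
    rw [hY1, ← pow_mul]; exact nn_dn hS hT (nn _ ((hE2 x hx).trans (by omega)))
  obtain ⟨m, hm⟩ : ∃ m : ℕ, m = ⌈Real.exp (Y1' ^ Cf + Y1')⌉₊ := ⟨_, rfl⟩
  have m1 : Real.exp (Y1' ^ Cf + Y1') ≤ m := by rw [hm]; exact Nat.le_ceil _
  obtain ⟨a1, a2⟩ := num (L := Y1') (K := 0) (by linarith) le_rfl Cf
  have m2 : (m : ℝ) ≤ Real.exp (Y1' ^ (Cf + 3)) := by
    rw [hm]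
    refine (Nat.ceil_lt_add_one (Real.exp_pos _).le).le.trans ?_
    rw [← Real.exp_zero]
    exact exp2 (by linarith) (by linarith)
  have m3 : 1 ≤ m := by rw [hm]; exact Nat.ceil_pos.2 (Real.exp_pos _)
  obtain ⟨cen, n, q1, q2, q3⟩ := hQ α ι κ (Fin 0) T Y ha (by linarith) hι hκ (by simp; linarith) hT
    (nn _ (by
      have := Nat.le_mul_of_pos_right Cq (show 0 < (Cq + 2) * (Cf + 3) + 1 by omega)
      omega)) S F c i τ Ω m hSt hi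
    ((Real.exp_le_exp.2 (by linarith [hY1 ▸ pw (by omega : 2 ≤ Cq + 2)])).trans m1)
    ((Cq + 2) * (Cf + 3)) (by rw [pow_mul, ← hY1]; exact m2) (nn _ (by omega))
  have yq : Y ^ Cq ≤ Y1' := hY1 ▸ pw (by omega)
  have e1 := Real.exp_le_exp.2 y1
  obtain ⟨T1, Ω1, s1, s2, s3⟩ := hF α ι κ (Fin 0) T Y1' ha (by linarith) (hι.trans e1) (hκ.trans e1)
    (by simp; linarith) hT (n1 _ (by omega)) S F c i _ Ω m cen hSt.hc hSt.hF hi
    ((Real.exp_le_exp.2 (by linarith)).trans m1) (Cf + 3) m2 (n1 _ (by omega))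
    (qs_mono hT m3 q3 yq)
  obtain ⟨L, hL⟩ : ∃ L, L = Y1' ^ e2 := ⟨_, rfl⟩
  have l1 : 3 * Y1' ^ (Cf + 3) + Y1' ^ (Cf * (Cf + 3 + 1)) ≤ L := by
    have h1 := pw1 (by omega : Cf + 3 ≤ Cf * (Cf + 3 + 1) + (Cf + 3))
    have h2 := pw1 (by omega : Cf * (Cf + 3 + 1) ≤ Cf * (Cf + 3 + 1) + (Cf + 3))
    have h3 := pw1 (by omega : Cf * (Cf + 3 + 1) + (Cf + 3) + 1 ≤ e2)
    rw [pow_succ] at h3
    have h4 := mul_le_mul_of_nonneg_left (by linarith : 4 ≤ Y1')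
      (by positivity : 0 ≤ Y1' ^ (Cf * (Cf + 3 + 1) + (Cf + 3)))
    linarith
  have l2 : Y1' ≤ L := by rw [hL]; exact le_self_pow₀ y11 (by omega)
  have p1 : 0 ≤ Y1' ^ (Cf + 3) := by positivity
  have s4 : T.Sub T1 L := ((sub_win m3 q3.1 p1 m2).trans s1).mono l1
  have T1k := s4.ok hT
  have hYE : Y ^ E = L ^ (Cb + 3) := by rw [hL, hY1, hE, pow_mul, pow_mul]
  obtain ⟨c1, c2⟩ := num (L := L) (K := 2 ^ (a + 17) + Cr) (by linarith) (by linarith) Cb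
  have L0 : 0 ≤ L := by linarith
  have k1 := mul_nonneg K0 L0
  have k2 := mul_nonneg r0 L0
  have e3 := Real.exp_le_exp.2 (y1.trans l2)
  have fτ : ∀ k, T1.Fm S (insert c F) (τ k) := fun k => s4.fm.2 (hSt.fm k)
  obtain ⟨T2, Ω2, r, a2, cc, g, t1, t2, t3, t4, t5, t6⟩ := hB α ι κ (Fin 0) T1 L ha (by linarith)
    (hι.trans e3) (hκ.trans e3) (by simp; linarith) T1k
    (nn_dn hS T1k (nn_dn hS T1k (nn_sub hS hT ha L0 s4 (by linarith) (by linarith)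
      (hYE ▸ nn E (by omega)))))
    S F c i _ Ω1 hSt.hc hSt.hF hi (fun k => (fτ k).smul n) (r6_mono T1k s3 (by linarith))
  have T2k := t1.ok T1k
  have t7 : T2.Rel S c n τ (tw a2 cc g) Ω2 (Real.exp (L ^ Cb)) := fun z hz k =>
    (t6 z hz k).eq fun x _ => by simp
  have c3 : L ^ Cb + 4 * L + Cr + 1 ≤ L ^ (Cb + 3) := by linarith
  rw [hYE]
  refine ⟨T2, Ω2, n, r, a2, cc, g, (s4.trans t1).mono (by linarith), t2.trans s2, q1,
    q2.trans (Real.exp_le_exp.2 (by linarith)), by linarith,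
    ⟨hSt.hc, hSt.hF, tw_fm t5, dn_mono T2k t3 (by linarith), fun j hj => ?_⟩, t5,
    rel_mono t7 (Real.exp_le_exp.2 (by linarith)), fun _ h => absurd h (notMem_empty _)⟩
  refine hs_mono ((hR α ι κ T2 S (insert c F) c τ (tw a2 cc g) τ Ω2 n 0 _ _ ha T2k hSt.hc
    (mem_insert_self _ _) (Real.exp_pos _).le (Real.exp_pos Y).le (fun k => t1.fm.2 (fτ k))
    (tw_fm t5) t7).1 j (mem_sdiff.1 hj).1
    ((hI α ι T hT).2.2.2.2.2.2.2.2.1 κ T2 _ S c τ Ω Ω2 j _ (s4.trans t1) (t2.trans s2)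
      (hSt.hs j hj))) ?_
  have u1 : (n : ℝ) * Real.exp Y ≤ Real.exp (Y ^ Cq + Y) := by
    rw [Real.exp_add]; exact mul_le_mul_of_nonneg_right q2 (Real.exp_pos _).le
  have u2 : (Cr : ℝ) * Real.exp (L ^ Cb) ≤ Real.exp (Cr + L ^ Cb) := by
    rw [Real.exp_add]
    exact mul_le_mul_of_nonneg_right (by linarith [Real.add_one_le_exp (Cr : ℝ)]) (Real.exp_pos _).le
  exact (add_le_add u1 u2).trans (exp2 (by linarith) (by linarith))

end PreP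

open PreP in
theorem pre (hQ : Q0) (hF : FGT) (hB : BOG) (hR : RST) (hP : PETD) (hI : IBC) (hS : SCG)
    (_ : CPOK) : PRE := by
  intro a
  have h : ∀ k, ∃ M E, 1 ≤ E ∧ Cl a k M E := by
    intro k
    induction k with
    | zero => exact zero hQ hF hB hR hI hS a
    | succ k ih =>
      obtain ⟨M, E, h1, h2⟩ := ih
      exact step hR hP hS a k M E h1 h2
  obtain ⟨M, E, h1, h2⟩ := h a
  refine ⟨M + E, ?_⟩
  intro α ι κ ρ _ _ _ _ _ _ _ T Y ha hY hι hκ _ hT hN S F c i τ Ω hSt hi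
  push_cast at hY
  have M0 : (0 : ℝ) ≤ M := Nat.cast_nonneg _
  have E1 : (1 : ℝ) ≤ E := by exact_mod_cast h1
  have Y1 : 1 ≤ Y := by linarith
  have pw : Y ^ E ≤ Y ^ (M + E) := pow_le_pow_right₀ Y1 (by omega)
  obtain ⟨T1, Ω1, n, r, a1, cc, g, s1, s2, s3, s4, s5, s6, s7, s8, s9⟩ :=
    (h2 α ι κ T Y ha (by linarith) hι hκ hT (nn_le hS hT (by positivity) pw hN) S F c i τ Ω hSt hi
      _ subset_rfl ((card_le_univ _).trans ha)).mono hT pw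
  exact ⟨T1, Ω1, n, r, a1, cc, g, s1, s2, s3, s4, s5, s6, s7, s8,
    ⟨hi, empty_subset _, fun k => s7.fg k, s6.dn, fun j hj => s9 j (mem_sdiff.1 hj).1⟩⟩

end

end Vale.Agent.P057T.Gk
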