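import Vale.Agent.P057T.Gk.Cnt8b

/-! Row Q0. -/

set_option linter.all false

open Finset

namespace Vale.Agent.P057T.Gk

namespace TT

variable {α ι : Type} [Fintype α] [DecidableEq α] [Fintype ι] [DecidableEq ι] {T : TT α ι}
  {i : α} {m : ℕ} {cen : T.CV i (Fin 2) → ℝ}

theorem ql_ge (hm : 1 ≤ m) (x : T.CV i (Fin 2)) : ((m : ℝ) ^ 3)⁻¹ ≤ T.ql i m x := by
  have h1 : (1 : ℝ) ≤ m := by exact_mod_cast hm
  rcases x with v | p
  · show _ ≤ if i ∈ T.ty v then ((m : ℝ) ^ 3)⁻¹ else 1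
    split_ifs
    · exact le_rfl
    · exact inv_le_one_of_one_le₀ (one_le_pow₀ h1)
  · show _ ≤ if p.1 = 0 then ((m : ℝ) ^ 2)⁻¹ else (m : ℝ)⁻¹
    split_ifs
    · exact inv_anti₀ (by positivity) (pow_le_pow_right₀ h1 (by norm_num))
    · exact inv_anti₀ (by positivity) (le_self_pow₀ h1 (by norm_num))

theorem sub_qt (hm : 1 ≤ m) {Z : ℝ} (hZ : (m : ℝ) ≤ Real.exp Z) (hc : T.Cen i m cen) :
    (T.cpy i (Fin 2)).Sub (T.qt i m cen) (3 * Z) := by
  have h1 : (1 : ℝ) ≤ m := by exact_mod_cast hm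
  refine ⟨T.ql i m, cen, fun x => ⟨le_trans ?_ (ql_ge hm x), hc x⟩, rfl⟩
  rw [Real.exp_neg]
  refine inv_anti₀ (by positivity) ?_
  have e : Real.exp (3 * Z) = Real.exp Z ^ 3 := by
    rw [← Real.exp_nat_mul]; norm_num
  rw [e]
  exact pow_le_pow_left₀ (by linarith) hZ 3

theorem ql_pos (hm : 1 ≤ m) (x : T.CV i (Fin 2)) : 0 < T.ql i m x := by
  have h1 : (1 : ℝ) ≤ m := by exact_mod_cast hm
  exact lt_of_lt_of_le (by positivity) (ql_ge hm x)

theorem Ok.win (hT : T.Ok) (hm : 1 ≤ m) (cen : T.CV i (Fin 2) → ℝ) : (T.win i m cen).Ok :=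
  hT.sc (fun v => ql_pos hm (Sum.inl v)) _

theorem Ok.qt (hT : T.Ok) (hm : 1 ≤ m) (cen : T.CV i (Fin 2) → ℝ) : (T.qt i m cen).Ok :=
  (hT.cpy i (Fin 2)).sc (ql_pos hm) _

theorem ex_univ : ex (univ : Finset α) = univ := univ_disjSum_univ

theorem vol_qt (B S : Finset α) :
    (T.qt i m cen).vol (B.disjSum ∅) (S.disjSum ∅) = (T.win i m cen).vol B S := by
  unfold vol fv
  rw [prod_filter, prod_filter, Fintype.prod_sum_type]
  have h : ∀ p : Fin 2 × {v : ι // i ∈ T.ty v},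
      ¬ ((T.qt i m cen).ty (Sum.inr p) ⊆ S.disjSum ∅ ∧ ¬ (T.qt i m cen).ty (Sum.inr p) ⊆ B.disjSum ∅) :=
    fun p h => by simpa using ((ty_inr_sub (T := T) (i := i)).1 h.1).2
  rw [prod_congr rfl fun p _ => if_neg (h p), prod_const_one, mul_one]
  refine prod_congr rfl fun v _ => if_congr ?_ rfl rfl
  have e : ∀ A : Finset α, (T.qt i m cen).ty (Sum.inl v) ⊆ A.disjSum ∅ ↔ T.ty v ⊆ A := fun A => by
    have := ty_inl_sub (T := T) (i := i) (κ := Fin 2) (v := v) (S := A.disjSum ∅)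
    rwa [toLeft_disjSum] at this
  rw [e, e]
  rfl

theorem bs_mem_win (hT : T.Ok) (hm : 1 ≤ m) {S : Finset (α ⊕ Fin 2)} {Z : T.CV i (Fin 2) → ℤ}
    (hZ : Z ∈ (T.qt i m cen).pts S 1) : T.bs i Z ∈ (T.win i m cen).pts S.toLeft 1 :=
  (mem_pts (hT.win hm cen)).2
    ⟨fun v hv => ((mem_pts (hT.qt hm cen)).1 hZ).1 (Sum.inl v) fun h => hv ((ty_inl_sub (T := T) (i := i)).1 h),
      fun v hv => ((mem_pts (hT.qt hm cen)).1 hZ).2 (Sum.inl v) ((ty_inl_sub (T := T) (i := i)).2 hv)⟩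

theorem bs_res (Z : T.CV i (Fin 2) → ℤ) :
    T.bs i ((T.qt i m cen).res ((univ : Finset α).disjSum ∅) Z) = T.bs i Z := by
  funext v
  exact ag_res (T := T.qt i m cen) _ Z (Sum.inl v)
    ((ty_inl_sub (T := T) (i := i)).2 (by rw [toLeft_disjSum]; exact subset_univ _))

open Classical in
/-- popular fibres of the first vertex -/
theorem pop_of (hT : T.Ok) (hm : 1 ≤ m) {B : Finset α} {Ω : Finset (ι → ℤ)}
    {E : Finset (T.CV i (Fin 2) → ℤ)} (hE : E ⊆ (T.qt i m cen).pts univ 1)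
    (hΩ : ∀ Z ∈ E, T.bs i Z ∈ Ω) {Z : T.CV i (Fin 2) → ℤ} {L : ℝ}
    (h : Real.exp (-L) * (T.qt i m cen).vol (B.disjSum ∅) ((univ : Finset α).disjSum ∅) ≤
      (((E.image ((T.qt i m cen).res ((univ : Finset α).disjSum ∅))).filter
        fun y => (T.qt i m cen).Ag (B.disjSum ∅) y Z).card : ℝ)) :
    (T.win i m cen).Pop B Ω (T.bs i Z) L := by
  unfold Pop
  rw [vol_qt] at h
  refine h.trans (Nat.cast_le.2 (card_le_card_of_injOn (T.bs i) (fun X hX => ?_) fun X hX X' hX' e => ?_))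
  · obtain ⟨h1, h2⟩ := mem_filter.1 (mem_coe.1 hX)
    obtain ⟨Z0, h3, rfl⟩ := mem_image.1 h1
    refine mem_coe.2 ?_
    simp only [mem_filter]
    have h4 := Ag.bs (T := T) h2
    rw [toLeft_disjSum] at h4
    refine ⟨by rw [bs_res]; exact hΩ Z0 h3, ?_, h4⟩
    rw [bs_res]
    simpa using bs_mem_win hT hm (hE h3)
  · obtain ⟨Z0, -, rfl⟩ := mem_image.1 (mem_filter.1 (mem_coe.1 hX)).1
    obtain ⟨Z1, -, rfl⟩ := mem_image.1 (mem_filter.1 (mem_coe.1 hX')).1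
    funext x
    rcases x with v | p
    · exact congrFun e v
    · have h : ¬ (T.qt i m cen).ty (Sum.inr p) ⊆ (univ : Finset α).disjSum ∅ :=
        fun h => by simpa using ((ty_inr_sub (T := T) (i := i)).1 h).2
      exact (if_neg h).trans (if_neg h).symm

theorem Pop.congr {B : Finset α} {Ω : Finset (ι → ℤ)} {b b' : ι → ℤ} {L L' : ℝ} (hT : T.Ok)
    (h : T.Pop B Ω b L) (hb : T.Ag B b b') (hL : L ≤ L') : T.Pop B Ω b' L' := by
  unfold Pop at h ⊢
  refine (mul_le_mul_of_nonneg_right (Real.exp_le_exp.2 (neg_le_neg hL))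
    (vol_pos hT _ _).le).trans (h.trans (Nat.cast_le.2 (card_le_card fun z hz => ?_)))
  simp only [mem_filter] at hz ⊢
  exact ⟨hz.1, hz.2.1, hz.2.2.trans hb⟩

theorem fm_Q {S S0 : Finset α} {f : Fin 4 → Fn ι} (h : ∀ w, T.Fm S (S \ S0) (f w)) :
    (T.cpy i (Fin 2)).Fm (ex S) (ex S \ ex S0) (T.Q i f) :=
  fm_sum univ fun w _ => ((h w).vx_sdiff (qv w)).smul (sg w)

theorem card_cv (T : TT α ι) (i : α) (n : ℕ) :
    Fintype.card (T.CV i (Fin n)) ≤ (n + 1) * Fintype.card ι := by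
  have : Fintype.card {v : ι // i ∈ T.ty v} ≤ Fintype.card ι := Fintype.card_subtype_le _
  simp only [Fintype.card_sum, Fintype.card_prod, Fintype.card_fin]
  nlinarith

theorem Nn.n0 {σ : ℝ} {n : ℕ} (h : T.Nn n σ) : T.N0 σ := by
  cases n with
  | zero => exact h
  | succ n => exact h.1

theorem Nn.cpy {σ : ℝ} {n : ℕ} (h : T.Nn (n + 1) σ) (i : α) {k : ℕ} (hk : k ≤ 8) :
    (T.cpy i (Fin k)).Nn n σ := h.2 i k hk

/-- numerics of a window -/
theorem win_num {Y Z A B : ℝ} {K K0 : ℕ} (hK : K ≤ K0) (hZ : 0 ≤ Z) (h : K0 * (5 + Z) + A ≤ B) :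
    Real.exp (-B) * (100 * Real.exp Z) ^ K ≤ Real.exp (-A) := by
  have h1 : (100 : ℝ) ≤ Real.exp 5 := by
    have := Real.add_one_le_exp (1.6 : ℝ)
    have h2 := Real.add_one_le_exp (1.7 : ℝ)
    have h3 : Real.exp 1.7 = Real.exp 0.85 * Real.exp 0.85 := by
      rw [← Real.exp_add]; norm_num
    have h4 : (2.7 : ℝ) ≤ Real.exp 1 := by linarith [Real.exp_one_gt_d9]
    have e : Real.exp 5 = Real.exp 1 ^ 5 := by rw [← Real.exp_nat_mul]; norm_num
    rw [e]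
    exact le_trans (by norm_num) (pow_le_pow_left₀ (by norm_num) h4 5)
  have h2 : 100 * Real.exp Z ≤ Real.exp (5 + Z) := by
    rw [Real.exp_add]
    exact mul_le_mul_of_nonneg_right h1 (Real.exp_pos _).le
  have h3 : (100 * Real.exp Z) ^ K ≤ Real.exp (K0 * (5 + Z)) := by
    refine (pow_le_pow_left₀ (by positivity) h2 K).trans ?_
    rw [← Real.exp_nat_mul, Real.exp_le_exp]
    exact mul_le_mul_of_nonneg_right (by exact_mod_cast hK) (by linarith)
  refine (mul_le_mul_of_nonneg_left h3 (Real.exp_pos _).le).trans ?_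
  rw [← Real.exp_add, Real.exp_le_exp]
  linarith

end TT

open TT

theorem q0 (hCSQ : CSQ) (hEQI : EQI) (_ : IBC) (hSCG : SCG) (_ : CPOK) : Q0 := by
  classical
  intro a
  obtain ⟨Cq, hq⟩ := hCSQ a
  obtain ⟨Ce, he⟩ := hEQI (a + 2)
  obtain ⟨K0, hK⟩ : ∃ K0 : ℕ, 2 ^ (a + 11) ≤ K0 := ⟨_, le_rfl⟩
  obtain ⟨C, hCd⟩ : ∃ C : ℕ, C = Cq + 2 * Ce + 8 * K0 + 8 := ⟨_, rfl⟩
  refine ⟨C, ?_⟩
  intro α ι κ ρ _ _ _ _ _ _ _ T Y ha hC hι hκ hρ hT _ S F c i τ Ω m hSt hi hm C1 hm1 hN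
  have hK0 : (0 : ℝ) ≤ K0 := Nat.cast_nonneg _
  have hC' : (Cq : ℝ) + 2 * Ce + 8 * K0 + 8 ≤ Y := by
    have : (C : ℝ) = Cq + 2 * Ce + 8 * K0 + 8 := by rw [hCd]; push_cast; ring
    linarith
  have q0 : (0 : ℝ) ≤ Cq := Nat.cast_nonneg _
  have e0 : (0 : ℝ) ≤ Ce := Nat.cast_nonneg _
  have Y1 : (1 : ℝ) ≤ Y := by linarith
  have pw : ∀ {x y : ℕ}, x ≤ y → Y ^ x ≤ Y ^ y := fun h => pow_le_pow_right₀ Y1 h
  have Yp : ∀ x : ℕ, Y ≤ Y ^ (x + 1) := fun x => le_self_pow₀ Y1 (by omega)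
  have m1 : 1 ≤ m := by
    have : (1 : ℝ) ≤ m := (Real.one_le_exp (by positivity)).trans hm
    exact_mod_cast this
  have ex1 : ∀ x : ℕ, Real.exp (-Y ^ x) ≤ 1 := fun x =>
    Real.exp_le_one_iff.2 (neg_nonpos.2 (by positivity))
  have hL' : Cq * Y + 8 * Y ≤ Y ^ 2 := by
    rw [sq, ← add_mul]
    exact mul_le_mul_of_nonneg_right (by linarith) (by linarith)
  have hqY : 0 ≤ Cq * Y := mul_nonneg q0 (by linarith)
  have hL : Cq * Y + 5 ≤ Y ^ 2 := by linarith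
  obtain ⟨cen, E0, hcen, hE0, hv⟩ := hq α ι κ ρ T (Y ^ (C1 + 1)) ha (by linarith [Yp C1])
    (hι.trans (Real.exp_le_exp.2 (Yp C1))) (hκ.trans (Real.exp_le_exp.2 (Yp C1))) (hρ.trans (Yp C1))
    hT (by
      refine (hSCG 1 α ι T _ _ hT (Real.exp_pos _) ?_).1 ?_
        ((hSCG 1 α ι T _ 1 hT (Real.exp_pos _) le_rfl).2.1 hN)
      · rw [← pow_mul]; exact ex1 _
      · rw [← pow_mul, Real.exp_le_exp, neg_le_neg_iff, mul_comm (C1 + 1)]
        exact pw (Nat.mul_le_mul_right _ (by omega)))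
    univ i Ω Y m (mem_univ i) Y1 hSt.dn (by
      refine le_trans ?_ hm
      have h1 : (Fintype.card ι : ℝ) + 1 ≤ Real.exp (Y + 1) := by
        have := Real.one_le_exp (show 0 ≤ Y by linarith)
        have h2 := Real.add_one_le_exp (1 : ℝ)
        have h3 := mul_le_mul_of_nonneg_left h2 (Real.exp_pos Y).le
        rw [Real.exp_add]
        linarith
      refine (mul_le_mul_of_nonneg_left h1 (Real.exp_pos _).le).trans ?_
      rw [← Real.exp_add, Real.exp_le_exp]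
      linarith) (hm1.trans (Real.exp_le_exp.2 (pw (Nat.le_succ C1))))
  rw [ex_univ] at hE0
  have hsub := sub_qt m1 hm1 hcen
  have hQ := hT.qt m1 cen
  have hNq : (T.qt i m cen).Nn 1 (Real.exp (-Y ^ (2 * Ce + 2))) := by
    refine (hSCG 1 _ _ (T.cpy i (Fin 2)) _ _ (hT.cpy i _) (Real.exp_pos _) (ex1 _)).2.2 _ _
      (by positivity) hsub ?_ (hN.cpy i (by norm_num))
    refine win_num (Y := Y) (K0 := K0) ((Nat.pow_le_pow_right (by norm_num) ?_).trans hK)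
      (by positivity) ?_
    · simp only [Fintype.card_sum, Fintype.card_fin]; omega
    · have h1 : (1 : ℝ) ≤ Y ^ C1 := one_le_pow₀ Y1
      have h2 : (K0 : ℝ) * (5 + 3 * Y ^ C1) ≤ Y ^ (C1 + 1) := by
        have k1 : (K0 : ℝ) * (5 + 3 * Y ^ C1) ≤ K0 * (8 * Y ^ C1) :=
          mul_le_mul_of_nonneg_left (by linarith) hK0
        have k2 : 8 * K0 * Y ^ C1 ≤ Y * Y ^ C1 :=
          mul_le_mul_of_nonneg_right (by linarith) (by linarith)
        rw [pow_succ Y C1]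
        linarith
      have h3 := pw (show C1 + 1 ≤ C1 + 2 * Ce + 2 by omega)
      have h4 := pw (show 2 * Ce + 2 ≤ C1 + 2 * Ce + 2 by omega)
      have h5 : 2 * Y ^ (C1 + 2 * Ce + 2) ≤ Y ^ (C1 + 2 * Ce + 2 + 1) := by
        rw [pow_succ Y (C1 + 2 * Ce + 2)]
        have : (0 : ℝ) < Y ^ (C1 + 2 * Ce + 2) := by positivity
        rw [mul_comm]
        exact mul_le_mul_of_nonneg_left (by linarith) this.le
      have h6 := pw (show C1 + 2 * Ce + 2 + 1 ≤ C * (C1 + 1) by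
        have : 2 * Ce + 3 ≤ C := by omega
        have k : C1 ≤ C * C1 := Nat.le_mul_of_pos_left _ (by omega)
        rw [Nat.mul_succ]
        omega)
      linarith
  have hσ : ∀ L : ℝ, L ≤ Cq * Y + 1 → Real.exp (-Y ^ (2 * Ce + 2)) ≤ Real.exp (-L) / 4 := by
    intro L h
    have h1 : Real.exp (-Y ^ (2 * Ce + 2)) ≤ Real.exp (-L) * Real.exp (-2) := by
      rw [← Real.exp_add, Real.exp_le_exp]
      linarith [pw (show 2 ≤ 2 * Ce + 2 by omega)]
    have h2 := mul_le_mul_of_nonneg_left exp_neg_two (Real.exp_pos (-L)).le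
    linarith
  obtain ⟨E1, s1, d1, p1⟩ := hNq.n0.prune hQ (ex1 _) (S0 := (S.erase c \ F).disjSum ∅)
    (S1 := (univ : Finset α).disjSum ∅) (disjSum_mono (subset_univ _) subset_rfl) (subset_univ _) hE0
    (hσ _ (by linarith))
  have d2 := hNq.n0.proj hQ (ex1 _) (subset_univ (ex (S.erase c))) d1
    ((hσ _ le_rfl).trans (by linarith [Real.exp_pos (-(Cq * Y + 1))]))
  have hY2 : Y ≤ Y ^ 2 := Yp 1
  have eS : S \ (S.erase c \ F) ⊆ insert c F := fun x hx => by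
    simp only [mem_sdiff, mem_erase, mem_insert] at hx ⊢
    tauto
  obtain ⟨n, E', n1, n2, d3, h3⟩ := he (α ⊕ Fin 2) (T.CV i (Fin 2)) κ ρ (T.qt i m cen) (Y ^ 2)
    (by simp only [Fintype.card_sum, Fintype.card_fin]; omega) (by linarith)
    (by
      have h1 : (Fintype.card (T.CV i (Fin 2)) : ℝ) ≤ (2 + 1) * Fintype.card ι := by
        exact_mod_cast T.card_cv i 2
      have h2 := Real.add_one_le_exp (2 : ℝ)
      have h4 : Real.exp 2 * Real.exp Y ≤ Real.exp (Y ^ 2) := by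
        rw [← Real.exp_add, Real.exp_le_exp]; linarith
      have h5 := mul_le_mul_of_nonneg_right h2 (Real.exp_pos Y).le
      linarith)
    (hκ.trans (Real.exp_le_exp.2 hY2)) (hρ.trans hY2) hQ
    (by
      refine (hSCG 1 _ _ _ _ _ hQ (Real.exp_pos _) ?_).1 ?_ hNq
      · rw [← pow_mul]; exact ex1 _
      · rw [← pow_mul, Real.exp_le_exp, neg_le_neg_iff]
        exact pw (by omega))
    (ex (S.erase c \ F)) (ex (S.erase c)) (ex S) (Sum.inl c) (fun k => T.Q i (fun _ => τ k))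
    (E1.image ((T.qt i m cen).res (ex (S.erase c)))) (by simpa [ex] using hSt.hc)
    (fun x hx => by rcases x with x | x <;> simp [ex] at hx ⊢; exact hx)
    (disjSum_mono sdiff_subset subset_rfl) (d2.mono hQ (by linarith))
    (fun k => fm_Q fun _ => (hSt.fm k).mono subset_rfl eS)
    (fun b hb k => by
      obtain ⟨Z, hZ, rfl⟩ := mem_image.1 hb
      have h := hSt.hs i hi Z (fun w => ⟨_, hv Z (s1 hZ) w, Ag.refl _ _⟩) k
      exact ((hsub.ib h).congr (ag_res _ Z).symm).mono (Real.exp_le_exp.2 hY2))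
  have hp : (Y ^ 2) ^ Ce ≤ Y ^ C := by
    rw [← pow_mul]; exact pw (by omega)
  refine ⟨cen, n, n1, n2.trans (Real.exp_le_exp.2 hp), hcen, fun _ k => (hSt.fm k).smul n, E',
    d3.mono hQ hp, fun b hb => ⟨?_, fun k => ?_⟩⟩
  · obtain ⟨⟨b1, hb1, rfl⟩, -⟩ := h3 b hb
    obtain ⟨Z, hZ, rfl⟩ := mem_image.1 hb1
    have h4 := pop_of hT m1 hE0.1 (fun X hX => by
      have := hv X hX 0
      rwa [show qv 0 = 0 by funext j; fin_cases j <;> rfl, vx_zero] at this) (p1 Z hZ)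
    refine h4.congr (hT.win m1 cen) ?_ (by linarith [pw (show 2 ≤ C by omega)])
    have h5 : (T.qt i m cen).Ag (ex (S.erase c \ F)) Z ((T.qt i m cen).res (ex (S.erase c \ F))
        ((T.qt i m cen).res (ex (S.erase c)) Z)) :=
      (((ag_res _ _).trans ((ag_res _ Z).mono (disjSum_mono sdiff_subset subset_rfl)))).symm
    have h6 := Ag.bs (T := T) h5
    rwa [ex, toLeft_disjSum] at h6
  · refine (((h3 b hb).2 k).eq fun z _ => ?_).mono (Real.exp_le_exp.2 hp)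
    simp only [Q, mul_sum]
    exact sum_congr rfl fun w _ => by ring

end Vale.Agent.P057T.Gk
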