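import Vale.Agent.P057T.Gk.Rows
import Vale.Agent.P057T.Gk.Bas

/-! Row RST: states pass to related forms. -/

set_option linter.all false

open Finset

namespace Vale.Agent.P057T.Gk

open TT

theorem rst_sg {α ι : Type} [Fintype α] [DecidableEq α] [Fintype ι] [DecidableEq ι]
    {T : TT α ι} {S0 S : Finset α} {c : α} {b : ι → ℤ} {f : Fn ι} {H : ℝ} (w : Fin 4)
    (h : T.IB S0 S c b f H) : T.IB S0 S c b (fun z => sg w * f z) H := by
  have e : sg w = 1 ∨ sg w = -1 := by
    fin_cases w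
    · left; rfl
    · right; rfl
    · right; rfl
    · left; rfl
  rcases e with e | e
  · exact h.eq fun z _ => by rw [e, one_mul]
  · exact h.neg.eq fun z _ => by rw [e, neg_one_mul]

theorem rst_qv (w : Fin 4) : (∑ k, |((qv w k : ℤ) : ℝ)|) ≤ 19 := by
  have e : ∀ k, qv w k = 0 ∨ qv w k = 1 := by
    revert w
    decide
  have h : ∀ k, |((qv w k : ℤ) : ℝ)| ≤ 1 := fun k => by
    rcases e k with e | e <;> rw [e] <;> simp
  rw [Fin.sum_univ_two]
  linarith [h 0, h 1]

theorem rst (hI : IBC) : RST := by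
  intro a
  refine ⟨4 * 100 ^ (2 ^ (a + 1)), ?_⟩
  intro α ι κ _ _ _ _ T S G c τ τ' τ'' Ω n n' H H' ha hT hc hcG hH hH' hτ hτ' hR
  refine ⟨fun i hi hS Z hZ k => ?_, fun hR' z hz k => ?_⟩
  · have hL := (hI α ι T hT).2.2.2.2.2.2.2.2.2
    have hf : T.Fm S (S \ S.erase c) (fun x => (n : ℝ) * τ k x - τ' k x) :=
      (((hτ k).smul n).sub (hτ' k)).mono subset_rfl fun x hx => by
        rw [mem_sdiff, mem_erase] at hx
        have : x = c := by
          by_contra hne
          exact hx.2 ⟨hne, hx.1⟩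
        rw [this]; exact hcG
    have hw : ∀ w ∈ (univ : Finset (Fin 4)), (T.cpy i (Fin 2)).IB (ex (S.erase c)) (ex S) (Sum.inl c) Z
        (fun x => sg w * ((n : ℝ) * τ k (T.vx i (qv w) x) - τ' k (T.vx i (qv w) x)))
        ((100 : ℝ) ^ (2 ^ (Fintype.card α + 1)) * H) := fun w _ => by
      obtain ⟨ω, hω, hag⟩ := hZ w
      exact rst_sg w (hL i (Fin 2) (qv w) (S.erase c) S c Z _ H hi (erase_subset _ _)
        (notMem_erase _ _) hf (rst_qv w) ((hR ω hω k).congr hag.symm))
    have h1 := ((hS Z hZ k).nsmul n).sub (ib_sum univ hw)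
    refine IB.mono (h1.eq fun x _ => ?_) ?_
    · unfold TT.Q
      rw [Finset.mul_sum, ← Finset.sum_sub_distrib]
      exact Finset.sum_congr rfl fun w _ => by ring
    · rw [Finset.sum_const, Finset.card_univ, Fintype.card_fin, nsmul_eq_mul]
      have h2 : (100 : ℝ) ^ (2 ^ (Fintype.card α + 1)) ≤ 100 ^ (2 ^ (a + 1)) :=
        pow_le_pow_right₀ (by norm_num) (Nat.pow_le_pow_right (by norm_num) (by omega))
      have h3 := mul_le_mul_of_nonneg_right h2 hH
      push_cast
      nlinarith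
  · have h1 := ((hR z hz k).nsmul n').add (hR' z hz k)
    exact h1.eq fun x _ => by push_cast; ring

end Vale.Agent.P057T.Gk
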