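import Vale.Agent.P057T.Gk.Rows

/-! Bounds on a small box give bounds on a large box; finitely many test pairs. -/

set_option linter.all false

open Finset

namespace Vale.Agent.P057T.Gk

namespace Scale

noncomputable section

theorem blocks {σ B : Type} [DecidableEq B] (β : σ → B) (Φ : (σ → ℝ) → ℝ)
    (P Q : B → (σ → ℝ) → Prop) (K H : ℝ)
    (hP : ∀ b y y', (∀ v, β v = b → y' v = y v) → P b y → P b y')
    (hQ : ∀ b y y', (∀ v, β v = b → y' v = y v) → Q b y → Q b y')
    (hs : ∀ b y H, Q b y → (∀ y', (∀ v, β v ≠ b → y' v = y v) → P b y' → |Φ y'| ≤ H) →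
      |Φ y| ≤ K * H)
    (h0 : ∀ y, (∀ b, P b y) → |Φ y| ≤ H) (s : Finset B) :
    ∀ y, (∀ b ∈ s, Q b y) → (∀ b, b ∉ s → P b y) → |Φ y| ≤ K ^ s.card * H := by
  induction s using Finset.induction_on with
  | empty => intro y _ h; simpa using h0 y fun b => h b (notMem_empty b)
  | insert b s hb ih =>
    intro y h1 h2
    rw [card_insert_of_notMem hb, pow_succ', mul_assoc]
    refine hs b y _ (h1 b (mem_insert_self _ _)) fun y' e p => ih y' (fun b' hb' => ?_) fun b' hb' => ?_
    · exact hQ b' y y' (fun v hv => e v fun k => hb (k ▸ hv ▸ hb')) (h1 b' (mem_insert_of_mem hb'))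
    · by_cases k : b' = b
      · exact k ▸ p
      · exact hP b' y y' (fun v hv => e v fun k1 => k (hv ▸ k1)) (h2 b' (by simp [k, hb']))

variable {α ι : Type} [Fintype α] [DecidableEq α] [Fintype ι] [DecidableEq ι] (T : TT α ι)
  (S0 S : Finset α) (c : α) (b : ι → ℤ)

def bl (v : ι × Bool) : Finset α × Bool := (T.ty v.1, v.2)

def sl (t : Bool) (v : ι) : ι × Bool := (v, if c ∈ T.ty v then t else false)

def xx (t : Bool) (y : ι × Bool → ℝ) : ι → ℝ :=
  fun v => if v ∈ T.fv S0 S then y (sl T c t v) else T.u (cz b) v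

def Ph (f : Fn ι) (y : ι × Bool → ℝ) : ℝ :=
  f (T.ψ (xx T S0 S c b false y)) - f (T.ψ (xx T S0 S c b true y))

variable {T S0 S c b}

theorem mem_fv {v : ι} : v ∈ T.fv S0 S ↔ T.ty v ⊆ S ∧ ¬ T.ty v ⊆ S0 := by simp [TT.fv]

theorem aff_psi (hT : T.Ok) {f : Fn ι} {a : α} (hf : T.Aff a f) :
    T.Aff a (fun x => f (T.ψ x)) := by
  intro x
  choose L hL using fun v => (hT.fψ v).2 a (mem_univ a) x
  obtain ⟨L', hL'⟩ := hf (T.ψ x)
  refine ⟨L'.comp (LinearMap.pi L), fun h hh => ?_⟩
  have e : T.ψ (x + h) = T.ψ x + LinearMap.pi L h := funext fun v => hL v h hh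
  show f (T.ψ (x + h)) = f (T.ψ x) + L' (LinearMap.pi L h)
  rw [e]
  refine hL' _ fun v hv => ?_
  have k := (hT.fψ v).1 (x + h) x fun w hw => by
    rw [Pi.add_apply, hh w fun k => hv (hw k), add_zero]
  have k2 := hL v h hh
  simp only at k k2
  show L v h = 0
  linarith

theorem aff_xx (hT : T.Ok) {f : Fn ι} (hf : T.Fm S (S \ S0) f) (t : Bool) (e : Finset α × Bool)
    (y : ι × Bool → ℝ) : ∃ L : (ι × Bool → ℝ) →ₗ[ℝ] ℝ, ∀ h, (∀ v, bl T v ≠ e → h v = 0) →
      f (T.ψ (xx T S0 S c b t (y + h))) = f (T.ψ (xx T S0 S c b t y)) + L h := by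
  let P : (ι × Bool → ℝ) →ₗ[ℝ] ι → ℝ := LinearMap.pi fun v =>
    if v ∈ T.fv S0 S then LinearMap.proj (sl T c t v) else 0
  have e1 : ∀ h, xx T S0 S c b t (y + h) = xx T S0 S c b t y + P h := by
    intro h
    funext v
    by_cases k : v ∈ T.fv S0 S <;> simp [xx, P, k]
  have e2 : ∀ h : ι × Bool → ℝ, (∀ v, bl T v ≠ e → h v = 0) → ∀ v, P h v ≠ 0 →
      v ∈ T.fv S0 S ∧ T.ty v = e.1 := by
    intro h hh v hv
    by_cases k : v ∈ T.fv S0 S
    · refine ⟨k, ?_⟩
      by_contra k1
      apply hv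
      simp only [P, LinearMap.pi_apply, if_pos k, LinearMap.proj_apply]
      exact hh _ fun k2 => k1 (congrArg Prod.fst k2)
    · exact absurd (by simp [P, k]) hv
  by_cases k : ∃ a ∈ e.1, a ∈ S \ S0
  · obtain ⟨a, ha, ha2⟩ := k
    obtain ⟨L, hL⟩ := aff_psi hT (hf.2 a ha2) (xx T S0 S c b t y)
    refine ⟨L.comp P, fun h hh => ?_⟩
    rw [e1]
    refine hL _ fun v hv => ?_
    by_contra k1
    exact hv ((e2 h hh v k1).2 ▸ ha)
  · refine ⟨0, fun h hh => ?_⟩
    have : P h = 0 := by
      funext v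
      by_contra k1
      obtain ⟨k2, k3⟩ := e2 h hh v k1
      obtain ⟨k4, k5⟩ := mem_fv.1 k2
      obtain ⟨a, ha, ha2⟩ := not_subset.1 k5
      exact k ⟨a, k3 ▸ ha, mem_sdiff.2 ⟨k4 ha, ha2⟩⟩
    rw [e1, this]
    simp

theorem aff_Ph (hT : T.Ok) {f : Fn ι} (hf : T.Fm S (S \ S0) f) (e : Finset α × Bool)
    (y : ι × Bool → ℝ) : ∃ L : (ι × Bool → ℝ) →ₗ[ℝ] ℝ, ∀ h, (∀ v, bl T v ≠ e → h v = 0) →
      Ph T S0 S c b f (y + h) = Ph T S0 S c b f y + L h := by
  obtain ⟨L1, h1⟩ := aff_xx (c := c) (b := b) hT hf false e y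
  obtain ⟨L2, h2⟩ := aff_xx (c := c) (b := b) hT hf true e y
  refine ⟨L1 - L2, fun h hh => ?_⟩
  unfold Ph
  rw [h1 h hh, h2 h hh, LinearMap.sub_apply]
  ring

theorem ag_xx (hT : T.Ok) (t : Bool) (y : ι × Bool → ℝ) :
    T.Ag S0 (T.ψ (xx T S0 S c b t y)) (cz b) := by
  intro v hv
  have k := (hT.fψ v).1 (xx T S0 S c b t y) (T.u (cz b)) fun w hw =>
    if_neg fun k => (mem_fv.1 k).2 (hw.trans hv)
  simp only [hT.l] at k
  exact k

theorem of_xx (hT : T.Ok) (y : ι × Bool → ℝ) :
    T.Of c (T.ψ (xx T S0 S c b false y)) (T.ψ (xx T S0 S c b true y)) := by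
  intro v hv
  refine (hT.fψ v).1 _ _ fun w hw => ?_
  have : c ∉ T.ty w := fun k => hv (hw k)
  simp [xx, sl, this]

theorem ex_y (hT : T.Ok) {f : Fn ι} (hf : T.Dep S f) {z z' : ι → ℝ} (h1 : T.Ag S0 z (cz b))
    (h2 : T.Ag S0 z' (cz b)) (h3 : T.Of c z z') {R : ℝ} (hR : 0 ≤ R)
    (h4 : ∀ v ∈ T.fv S0 S, |T.u z v| ≤ R ∧ |T.u z' v| ≤ R) :
    ∃ y : ι × Bool → ℝ, (∀ v, |y v| ≤ R) ∧ Ph T S0 S c b f y = f z - f z' := by
  let y : ι × Bool → ℝ := fun v =>
    if v.1 ∈ T.fv S0 S then (if v.2 = true then T.u z' v.1 else T.u z v.1) else 0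
  have key : ∀ (t : Bool) (w : ι → ℝ), T.Ag S0 w (cz b) →
      (∀ v ∈ T.fv S0 S, y (sl T c t v) = T.u w v) → f (T.ψ (xx T S0 S c b t y)) = f w := by
    intro t w hw hy
    conv_rhs => rw [← hT.l w]
    refine hf _ _ fun v hv => (hT.fψ v).1 _ _ fun v' hv' => ?_
    by_cases k : v' ∈ T.fv S0 S
    · rw [xx, if_pos k, hy v' k]
    · rw [xx, if_neg k]
      have k1 : T.ty v' ⊆ S0 := by
        by_contra k1
        exact k (mem_fv.2 ⟨hv'.trans hv, k1⟩)
      exact ((hT.fu v').1 _ _ fun w' hw' => hw w' (hw'.trans k1)).symm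
  refine ⟨y, fun v => ?_, ?_⟩
  · simp only [y]
    split_ifs with k k1
    · exact (h4 _ k).2
    · exact (h4 _ k).1
    · simpa using hR
  · unfold Ph
    rw [key false z h1 fun v hv => by simp [y, sl, hv], key true z' h2 fun v hv => ?_]
    by_cases k : c ∈ T.ty v
    · simp [y, sl, hv, k]
    · simp only [y, sl, hv, k, if_true, if_false]
      exact (hT.fu v).1 _ _ fun w hw => h3 w fun k1 => k (hw k1)

theorem card_bl : (univ : Finset (Finset α × Bool)).card = 2 ^ (Fintype.card α + 1) := by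
  simp [pow_succ]

end

end Scale

open Scale in
theorem scale : SCALE := by
  intro α ι _ _ _ _ T S0 S c b hT hS hc
  refine ⟨fun f l cen lo H hf hlo hl hO z z' h1 h2 h3 h4 => ?_, ?_⟩
  · obtain ⟨y, hy, e⟩ := ex_y (c := c) hT hf.1 h1 h2 h3 (R := 20) (by norm_num) fun v hv => by
      have k := h4 v hv
      simp only [TT.sc, sub_zero, abs_div] at k
      rw [div_le_one (by norm_num), div_le_one (by norm_num)] at k
      simpa using k
    rw [← e, ← card_bl]
    refine blocks (bl T) (Ph T S0 S c b f) (fun e y => ∀ v, bl T v = e → |y v - cen v.1| ≤ l v.1)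
      (fun e y => ∀ v, bl T v = e → |y v| ≤ 20) _ H
      (fun e y y' k p v hv => k v hv ▸ p v hv) (fun e y y' k p v hv => k v hv ▸ p v hv) ?_ ?_ univ y
      (fun e _ v _ => hy v) fun e he => absurd (mem_univ e) he
    · intro e y H hQ hP
      by_cases hlo2 : lo ≤ 20
      swap
      · have hv : ∀ v : ι, False := fun v => by
          linarith [(hl v).1, (hl v).2, abs_nonneg (cen v)]
        have k := hP y (fun _ _ => rfl) fun v _ => (hv v.1).elim
        have k0 : Ph T S0 S c b f y = 0 := by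
          unfold Ph
          rw [show xx T S0 S c b false y = xx T S0 S c b true y from funext fun v => (hv v).elim,
            sub_self]
        rw [k0, abs_zero] at k ⊢
        positivity
      let y0 : ι × Bool → ℝ := fun v => if bl T v = e then cen v.1 else y v
      obtain ⟨L, hL⟩ := aff_Ph (c := c) (b := b) hT hf e y0
      have a0 := hP y0 (fun v hv => if_neg hv) fun v hv => by
        simp only [y0, if_pos hv, sub_self, abs_zero]
        linarith [(hl v.1).1]
      have s0 : ∀ v, bl T v ≠ e → (y - y0) v = 0 := fun v hv => by simp [y0, hv]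
      have a1 := hP (y0 + (lo / 40) • (y - y0)) (fun v hv => by simp [y0, hv]) fun v hv => by
        simp only [y0, if_pos hv, Pi.add_apply, Pi.smul_apply, Pi.sub_apply, smul_eq_mul,
          add_sub_cancel_left, abs_mul]
        have k1 : |y v - cen v.1| ≤ 40 := by
          have := abs_sub (y v) (cen v.1)
          linarith [hQ v hv, (hl v.1).1, (hl v.1).2]
        rw [abs_of_pos (by positivity)]
        nlinarith [(hl v.1).1]
      rw [hL _ fun v hv => by simp [y0, hv], map_smul, smul_eq_mul] at a1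
      have a2 := hL _ s0
      rw [add_sub_cancel] at a2
      rw [a2, div_mul_eq_mul_div, le_div_iff₀ hlo]
      have hH : 0 ≤ H := (abs_nonneg _).trans a0
      rw [← abs_of_pos hlo, ← abs_mul]
      rw [abs_le] at a0 a1 ⊢
      constructor <;> nlinarith [a0.1, a0.2, a1.1, a1.2]
    · intro y hP
      refine hO _ _ (ag_xx hT false y) (ag_xx hT true y) (of_xx hT y) fun v hv => ?_
      have hv' : v ∈ T.fv S0 S := hv
      have l0 : 0 < l v := lt_of_lt_of_le hlo (hl v).1
      simp only [TT.sc, hT.r, xx, if_pos hv', abs_div, abs_of_pos l0, div_le_one l0]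
      exact ⟨hP _ (sl T c false v) rfl, hP _ (sl T c true v) rfl⟩
  · let E := Fintype.equivFin (Finset α × Bool → Option ι)
    let yy : (Finset α × Bool → Option ι) → ι × Bool → ℝ := fun ω v =>
      if ω (bl T v) = some v.1 then 1 else 0
    refine ⟨_, fun j => T.ψ (xx T S0 S c b false (yy (E.symm j))),
      fun j => T.ψ (xx T S0 S c b true (yy (E.symm j))), ?_, fun j => ⟨ag_xx hT _ _, ag_xx hT _ _,
      of_xx hT _, fun v hv => ?_⟩, fun f H hH hf hj z z' h1 h2 h3 h4 => ?_⟩
    · rw [Fintype.card_fun, Fintype.card_option, ← card_bl, card_univ]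
    · simp only [hT.r, xx, if_pos hv, yy]
      constructor <;> split_ifs <;> simp
    · obtain ⟨y, hy, e⟩ := ex_y (c := c) hT hf.1 h1 h2 h3 zero_le_one h4
      rw [← e, ← card_bl]
      refine blocks (bl T) (Ph T S0 S c b f)
        (fun e y => ∃ o : Option ι, ∀ v, bl T v = e → y v = if o = some v.1 then 1 else 0)
        (fun e y => ∀ v, bl T v = e → |y v| ≤ 1) _ H
        (fun e y y' k ⟨o, p⟩ => ⟨o, fun v hv => (k v hv).trans (p v hv)⟩)
        (fun e y y' k p v hv => k v hv ▸ p v hv) ?_ ?_ univ y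
        (fun e _ v _ => hy v) fun e he => absurd (mem_univ e) he
      · intro e y H hQ hP
        let y0 : ι × Bool → ℝ := fun v => if bl T v = e then 0 else y v
        obtain ⟨L, hL⟩ := aff_Ph (c := c) (b := b) hT hf e y0
        have a0 := hP y0 (fun v hv => if_neg hv) ⟨none, fun v hv => by simp [y0, hv]⟩
        have hH : 0 ≤ H := (abs_nonneg _).trans a0
        have a2 := hL (y - y0) fun v hv => by simp [y0, hv]
        rw [add_sub_cancel] at a2
        have e3 : y - y0 = ∑ i : ι, (y - y0) (i, e.2) • (Pi.single (i, e.2) 1 : ι × Bool → ℝ) := by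
          funext v
          rw [Finset.sum_apply, sum_eq_single v.1]
          · by_cases k : v.2 = e.2
            · rw [← k]; simp
            · have k1 : bl T v ≠ e := fun k2 => k (congrArg Prod.snd k2)
              rw [Pi.smul_apply, Pi.single_eq_of_ne fun k2 => k (congrArg Prod.snd k2)]
              simp [y0, k1]
          · intro i _ hi
            rw [Pi.smul_apply, Pi.single_eq_of_ne fun k2 => hi (congrArg Prod.fst k2).symm]
            simp
          · simp
        have a3 : ∀ i : ι, |(y - y0) (i, e.2) * L (Pi.single (i, e.2) 1)| ≤ 2 * H := by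
          intro i
          by_cases k : bl T (i, e.2) = e
          · have s1 : ∀ v, bl T v ≠ e → (Pi.single (i, e.2) 1 : ι × Bool → ℝ) v = 0 := fun v hv =>
              Pi.single_eq_of_ne (fun k2 : v = (i, e.2) => hv (by rw [k2]; exact k)) _
            have a4 := hP (y0 + Pi.single (i, e.2) 1) (fun v hv => by simp [y0, hv, s1 v hv])
              ⟨some i, fun v hv => by
                have k3 : v.2 = e.2 := congrArg Prod.snd hv
                simp only [y0, Pi.add_apply, if_pos hv, zero_add, Pi.single_apply,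
                  Option.some.injEq]
                refine if_congr ⟨fun k4 => by rw [k4], fun k4 => Prod.ext k4.symm k3⟩ rfl rfl⟩
            rw [hL _ s1] at a4
            have a5 : |L (Pi.single (i, e.2) 1)| ≤ 2 * H := by
              rw [abs_le] at a0 a4 ⊢
              constructor <;> linarith [a0.1, a0.2, a4.1, a4.2]
            have a6 : |(y - y0) (i, e.2)| ≤ 1 := by simpa [y0, k] using hQ _ k
            rw [abs_mul]
            nlinarith [abs_nonneg (L (Pi.single (i, e.2) 1)), abs_nonneg ((y - y0) (i, e.2))]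
          · simp [y0, k, hH]
        have a7 : |L (y - y0)| ≤ Fintype.card ι * (2 * H) := by
          rw [e3, map_sum]
          refine (abs_sum_le_sum_abs _ _).trans ?_
          have := sum_le_card_nsmul univ _ _ fun i _ => a3 i
          simpa only [map_smul, smul_eq_mul, card_univ, nsmul_eq_mul] using this
        rw [a2]
        linarith [abs_add_le (Ph T S0 S c b f y0) (L (y - y0))]
      · intro y hP
        choose ω hω using hP
        have : y = yy (E.symm (E ω)) := by
          rw [Equiv.symm_apply_apply]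
          exact funext fun v => hω _ v rfl
        rw [this]
        exact hj (E ω)

end Vale.Agent.P057T.Gk
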