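import Vale.Agent.P057T.Gk.Rows
import Vale.Agent.P057T.Gk.Bas2

/-! Typicality passes to windows and to smaller depth. -/

set_option linter.all false

open Finset

namespace Vale.Agent.P057T.Gk

open TT

namespace ScgP

variable {α ι : Type} [Fintype α] [DecidableEq α] [Fintype ι] [DecidableEq ι] {T : TT α ι}
  {l cen c r : ι → ℝ} {σ σ' : ℝ}

theorem box_iff (hl : ∀ v, 0 < l v) (z : ι → ℝ) (v : ι) :
    |(T.sc l cen).u z v - c v| ≤ r v ↔ |T.u z v - (l v * c v + cen v)| ≤ l v * r v := by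
  have e : (T.sc l cen).u z v - c v = (T.u z v - (l v * c v + cen v)) / l v := by
    show (T.u z v - cen v) / l v - c v = _
    have := (hl v).ne'
    field_simp
    ring
  rw [e, abs_div, abs_of_pos (hl v), div_le_iff₀ (hl v), mul_comm (r v)]

theorem u20 (hl : ∀ v, 0 < l v) (hc : ∀ v, |cen v| + l v ≤ 1) {z : ι → ℝ} {v : ι}
    (h : |(T.sc l cen).u z v| ≤ 20) : |T.u z v| ≤ 20 := by
  have h1 : |(T.u z v - cen v) / l v| ≤ 20 := h
  rw [abs_div, abs_of_pos (hl v), div_le_iff₀ (hl v)] at h1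
  have h3 := abs_add_le (T.u z v - cen v) (cen v)
  rw [sub_add_cancel] at h3
  linarith [hc v, abs_nonneg (cen v)]

theorem bx_sc (hl : ∀ v, 0 < l v) (hc : ∀ v, |cen v| + l v ≤ 1) (hB : ∀ v, σ ≤ l v * σ')
    (h : Bx σ' c r) : Bx σ (fun v => l v * c v + cen v) (fun v => l v * r v) := fun v => by
  refine ⟨(hB v).trans (mul_le_mul_of_nonneg_left (h v).1 (hl v).le), ?_⟩
  have k1 := abs_add_le (l v * c v) (cen v)
  rw [abs_mul, abs_of_pos (hl v)] at k1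
  have k2 := mul_le_mul_of_nonneg_left (h v).2 (hl v).le
  have k3 := hc v
  show |l v * c v + cen v| + l v * r v ≤ 20
  linarith [mul_add (l v) |c v| (r v), abs_nonneg (cen v)]

theorem fbx_sc (hT : T.Ok) (hl : ∀ v, 0 < l v) (hc : ∀ v, |cen v| + l v ≤ 1) {S0 S : Finset α}
    {b : ι → ℤ} (hb : ∀ v, T.ty v ⊆ S0 → |(T.sc l cen).u (cz b) v| ≤ 20)
    (hr : ∀ v, |c v| + r v ≤ 20) :
    (T.sc l cen).fbx S0 S b c r =
      T.fbx S0 S b (fun v => l v * c v + cen v) (fun v => l v * r v) := by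
  ext z
  unfold fbx
  simp only [mem_filter]
  rw [mem_pts hT, mem_pts (hT.sc hl cen)]
  constructor
  · rintro ⟨⟨h1, h2⟩, h3, h4⟩
    exact ⟨⟨h1, fun v hv => u20 hl hc (h2 v hv)⟩, h3, fun v hv => (box_iff hl _ v).1 (h4 v hv)⟩
  · rintro ⟨⟨h1, h2⟩, h3, h4⟩
    refine ⟨⟨h1, fun v hv => ?_⟩, h3, fun v hv => (box_iff hl _ v).2 (h4 v hv)⟩
    by_cases k : T.ty v ⊆ S0
    · rw [(hT.sc hl cen).u_ag (Ag.cz (T := T.sc l cen) h3) k]
      exact hb v k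
    · have h5 := (box_iff (T := T) (cen := cen) hl (cz z) v).2
        (h4 v (mem_filter.2 ⟨mem_univ _, hv, k⟩))
      have h6 := abs_add_le ((T.sc l cen).u (cz z) v - c v) (c v)
      rw [sub_add_cancel] at h6
      linarith [hr v]

theorem vol_eq (S0 S : Finset α) :
    (T.sc l cen).vol S0 S * ∏ v ∈ (T.sc l cen).fv S0 S, r v =
      T.vol S0 S * ∏ v ∈ T.fv S0 S, l v * r v := by
  rw [vol_sc, fv_sc, prod_mul_distrib, mul_assoc]

theorem vol_nn (hT : T.Ok) (hσ : 0 < σ) (h : Bx σ c r) (S0 S : Finset α) :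
    0 ≤ T.vol S0 S * ∏ v ∈ T.fv S0 S, r v :=
  mul_nonneg (vol_pos hT _ _).le (prod_nonneg fun v _ => hσ.le.trans (h v).1)

theorem ct_sc (hT : T.Ok) (hl : ∀ v, 0 < l v) (hc : ∀ v, |cen v| + l v ≤ 1) (hσ : 0 < σ)
    (hs : σ ≤ σ') (hB : ∀ v, σ ≤ l v * σ') {S0 S : Finset α} {b : ι → ℤ}
    (hb : ∀ v, T.ty v ⊆ S0 → |(T.sc l cen).u (cz b) v| ≤ 20) (h : Bx σ' c r)
    (h1 : T.Ct S0 S b σ (fun v => l v * c v + cen v) (fun v => l v * r v)) :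
    (T.sc l cen).Ct S0 S b σ' c r := by
  unfold Ct at h1 ⊢
  rw [fbx_sc hT hl hc hb (fun v => (h v).2), vol_eq]
  exact h1.trans (mul_le_mul_of_nonneg_right hs (vol_nn hT hσ (bx_sc hl hc hB h) _ _))

theorem eq_sc (hT : T.Ok) (hl : ∀ v, 0 < l v) (hc : ∀ v, |cen v| + l v ≤ 1) (hσ : 0 < σ)
    (hs : σ ≤ σ') (hB : ∀ v, σ ≤ l v * σ') {S0 S : Finset α} {b : ι → ℤ}
    (hb : ∀ v, T.ty v ⊆ S0 → |(T.sc l cen).u (cz b) v| ≤ 20) (h1 : T.Eq S0 S b σ) :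
    (T.sc l cen).Eq S0 S b σ' := fun c r h =>
  ct_sc hT hl hc hσ hs hB hb h (h1 _ _ (bx_sc hl hc hB h))

theorem emp (hT : T.Ok) (b : ι → ℤ) : ∀ v, T.ty v ⊆ ∅ → |(T.sc l cen).u (cz b) v| ≤ 20 :=
  fun v hv => absurd (subset_empty.1 hv) (hT.ne v).ne_empty

theorem mo_sc (hT : T.Ok) (hl : ∀ v, 0 < l v) (hc : ∀ v, |cen v| + l v ≤ 1) (hσ : 0 < σ)
    (hs : σ ≤ σ') (hB : ∀ v, σ ≤ l v * σ') {S1 : Finset α} {p p' : (ι → ℤ) → Prop}
    (hp : ∀ z, (∀ v, T.ty v ⊆ S1 → |(T.sc l cen).u (cz z) v| ≤ 20) → p z → p' z)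
    (h1 : T.Mo S1 σ p) : (T.sc l cen).Mo S1 σ' p' := by
  classical
  intro c r h
  have h2 := h1 _ _ (bx_sc hl hc hB h)
  rw [vol_eq]
  refine le_trans ?_ (h2.trans
    (mul_le_mul_of_nonneg_right hs (vol_nn hT hσ (bx_sc hl hc hB h) _ _)))
  rw [← fbx_sc hT hl hc (emp hT 0) (fun v => (h v).2)]
  refine Nat.cast_le.2 (card_le_card fun z hz => ?_)
  simp only [mem_filter] at hz ⊢
  refine ⟨hz.1, fun k => hz.2 (hp z ?_ k)⟩
  have h3 := hz.1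
  unfold fbx at h3
  simp only [mem_filter] at h3
  exact ((mem_pts (hT.sc hl cen)).1 h3.1).2

theorem n0_gen (hT : T.Ok) (hl : ∀ v, 0 < l v) (hc : ∀ v, |cen v| + l v ≤ 1) (hσ : 0 < σ)
    (hs : σ ≤ σ') (hB : ∀ v, σ ≤ l v * σ')
    (hZ : ∀ S0 S c z, S0 ⊆ S → c ∉ S0 → T.Zr S0 S c z σ⁻¹ → (T.sc l cen).Zr S0 S c z σ'⁻¹)
    (h : T.N0 σ) : (T.sc l cen).N0 σ' := by
  obtain ⟨⟨h1, h2⟩, h3, h4⟩ := h
  refine ⟨⟨fun S => eq_sc hT hl hc hσ hs hB (emp hT 0) (h1 S), fun S S1 a ha hS => ?_⟩,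
    fun S0 S S1 c r k1 k2 k3 => ?_, fun S0 S S1 c k1 k2 k3 k4 => ?_⟩
  · exact mo_sc hT hl hc hσ hs hB
      (fun z hz k => eq_sc hT hl hc hσ hs hB (fun v hv => hz v (hv.trans hS)) k) (h2 S S1 a ha hS)
  · exact mo_sc hT hl hc hσ hs hB
      (fun z hz k => ct_sc hT hl hc hσ hs hB (fun v hv => hz v (hv.trans k2)) k3 k)
      (h3 S0 S S1 _ _ k1 k2 (bx_sc hl hc hB k3))
  · exact mo_sc hT hl hc hσ hs hB (fun z _ k => hZ S0 S c z k1 k4 k) (h4 S0 S S1 c k1 k2 k3 k4)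

theorem n0_mono (hT : T.Ok) (hσ : 0 < σ) (hs : σ ≤ σ') (h : T.N0 σ) : T.N0 σ' := by
  have := n0_gen (l := fun _ => 1) (cen := fun _ => 0) hT (fun _ => one_pos) (fun _ => by simp)
    hσ hs (fun _ => by simpa using hs) (fun S0 S c z _ _ k => by
      rw [sc_one]
      exact fun I k1 k2 k3 => k I k1 k2 (k3.mono (inv_anti₀ hσ hs))) h
  rwa [sc_one] at this

theorem n0_win (hS : SCALE) (hT : T.Ok) {Z : ℝ} (hZ : 0 ≤ Z) (hA : Adm l cen Z) (hσ : 0 < σ)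
    {N : ℕ} (hN : Fintype.card α ≤ N) (hs : σ * (100 * Real.exp Z) ^ (2 ^ (N + 1)) ≤ σ')
    (h : T.N0 σ) : (T.sc l cen).N0 σ' := by
  have e1 : 1 ≤ Real.exp Z := Real.one_le_exp hZ
  have e2 : (1 : ℝ) ≤ 100 * Real.exp Z := by linarith
  have e3 : (100 * Real.exp Z) ^ (2 ^ (Fintype.card α + 1)) ≤ (100 * Real.exp Z) ^ (2 ^ (N + 1)) :=
    pow_le_pow_right₀ e2 (Nat.pow_le_pow_right two_pos (by omega))
  have e4 : 100 * Real.exp Z ≤ (100 * Real.exp Z) ^ (2 ^ (N + 1)) :=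
    le_self_pow₀ e2 (by positivity)
  have e5 : σ * Real.exp Z ≤ σ' :=
    (mul_le_mul_of_nonneg_left (by linarith) hσ.le).trans hs
  have e6 : σ ≤ σ' := (le_mul_of_one_le_right hσ.le e1).trans e5
  have e7 : 0 < σ' := hσ.trans_le e6
  refine n0_gen hT hA.pos (fun v => (hA v).2) hσ e6 (fun v => ?_) (fun S0 S c z k1 k2 k => ?_) h
  · have k1 : σ = Real.exp (-Z) * (σ * Real.exp Z) := by
      rw [Real.exp_neg]
      field_simp
    calc σ = Real.exp (-Z) * (σ * Real.exp Z) := k1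
      _ ≤ l v * σ' := mul_le_mul (hA v).1 e5 (by positivity) (hA.pos v).le
  · intro I i1 i2 i3
    have j1 := (hS α ι T S0 S c z hT k1 k2).1 I l cen (Real.exp (-Z)) σ'⁻¹ i1 (Real.exp_pos _)
      (fun v => ⟨(hA v).1, by linarith [(hA v).2]⟩) i3
    have j2 : T.Osc S0 S c z I σ⁻¹ := by
      intro x x' a1 a2 a3 a4
      refine (j1 x x' a1 a2 a3 fun v hv => ?_).trans ?_
      · have b1 := a4 v hv
        have b2 : ∀ t : ℝ, |t| ≤ 1 → |(t - 0) / 20| ≤ 1 := fun t ht => by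
          rw [sub_zero, abs_div, abs_of_pos (by norm_num : (0 : ℝ) < 20)]
          linarith
        exact ⟨b2 _ b1.1, b2 _ b1.2⟩
      · rw [Real.exp_neg, div_inv_eq_mul, mul_inv_le_iff₀ e7, ← inv_mul_le_iff₀ (inv_pos.2 hσ),
          inv_inv]
        exact (mul_le_mul_of_nonneg_left e3 hσ.le).trans hs
    exact (k I i1 i2 j2).sc hA.pos fun v => (hA v).2

theorem nn_mono (hC : CPOK) : ∀ (n : ℕ) (α ι : Type) [Fintype α] [DecidableEq α] [Fintype ι]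
    [DecidableEq ι] (T : TT α ι) (σ σ' : ℝ), T.Ok → 0 < σ → σ ≤ σ' → T.Nn n σ → T.Nn n σ' := by
  intro n
  induction n with
  | zero => intro α ι _ _ _ _ T σ σ' hT hσ hs h; exact n0_mono hT hσ hs h
  | succ n ih =>
    intro α ι _ _ _ _ T σ σ' hT hσ hs h
    exact ⟨n0_mono hT hσ hs h.1, fun i m hm =>
      ih _ _ _ σ σ' ((hC α ι T hT).1 i (Fin m)).1 hσ hs (h.2 i m hm)⟩

theorem nn_succ : ∀ (n : ℕ) (α ι : Type) [Fintype α] [DecidableEq α] [Fintype ι]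
    [DecidableEq ι] (T : TT α ι) (σ : ℝ), T.Nn (n + 1) σ → T.Nn n σ := by
  intro n
  induction n with
  | zero => intro α ι _ _ _ _ T σ h; exact h.1
  | succ n ih =>
    intro α ι _ _ _ _ T σ h
    exact ⟨h.1, fun i m hm => ih _ _ _ σ (h.2 i m hm)⟩

theorem nn_win (hC : CPOK) (hS : SCALE) : ∀ (n : ℕ) (α ι : Type) [Fintype α] [DecidableEq α]
    [Fintype ι] [DecidableEq ι] (T : TT α ι) (σ σ' Z : ℝ) (l cen : ι → ℝ) (N : ℕ), T.Ok → 0 < σ →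
    0 ≤ Z → Adm l cen Z → Fintype.card α + 8 * n ≤ N →
    σ * (100 * Real.exp Z) ^ (2 ^ (N + 1)) ≤ σ' → T.Nn n σ → (T.sc l cen).Nn n σ' := by
  intro n
  induction n with
  | zero =>
    intro α ι _ _ _ _ T σ σ' Z l cen N hT hσ hZ hA hN hs h
    exact n0_win hS hT hZ hA hσ (by omega) hs h
  | succ n ih =>
    intro α ι _ _ _ _ T σ σ' Z l cen N hT hσ hZ hA hN hs h
    refine ⟨n0_win hS hT hZ hA hσ (by omega) hs h.1, fun i m hm => ?_⟩
    have e := ((hC α ι T hT).1 i (Fin m)).2.2.2.2 l cen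
    have k := ih (α ⊕ Fin m) (T.CV i (Fin m)) (T.cpy i (Fin m)) σ σ' Z
      (Sum.elim l (fun p => l p.2.1)) (Sum.elim cen (fun _ => 0)) N
      ((hC α ι T hT).1 i (Fin m)).1 hσ hZ (fun v => ?_) ?_ hs (h.2 i m hm)
    · rw [← e] at k
      exact k
    · rcases v with v | p
      · exact hA v
      · refine ⟨(hA p.2.1).1, ?_⟩
        have := (hA p.2.1).2
        show |(0 : ℝ)| + l p.2.1 ≤ 1
        rw [abs_zero]
        linarith [abs_nonneg (cen p.2.1)]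
    · rw [Fintype.card_sum, Fintype.card_fin]
      omega

end ScgP

theorem scg (hC : CPOK) (hS : SCALE) : SCG := by
  intro n α ι _ _ _ _ T σ σ' hT hσ _
  refine ⟨ScgP.nn_mono hC n α ι T σ σ' hT hσ, ScgP.nn_succ n α ι T σ, ?_⟩
  rintro T1 Z hZ ⟨l, cen, hA, rfl⟩ hs h
  exact ScgP.nn_win hC hS n α ι T σ σ' Z l cen _ hT hσ hZ hA le_rfl hs h

end Vale.Agent.P057T.Gk
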