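import Vale.Agent.P057T.Gk.Rows
import Vale.Agent.P057T.Gk.Bas2

/-! A window in one class makes the oscillation small. -/

set_option linter.all false

open Finset

namespace Vale.Agent.P057T.Gk

open TT

namespace ShrP

variable {α ι : Type} [Fintype α] [DecidableEq α] [Fintype ι] [DecidableEq ι] {T : TT α ι}

theorem small (hT : T.Ok) {B : Finset α} {i : α} {φ : Fn ι} {b : ι → ℤ} {H t : ℝ}
    (hφ : T.Fm B {i} φ) (hO : T.Osc (B.erase i) B i b φ H) {x x' : ι → ℝ}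
    (hx : T.Ag (B.erase i) x (cz b)) (hx' : T.Ag (B.erase i) x' (cz b)) (ht : 0 ≤ t)
    (hu : ∀ v, t * |T.u x v - T.u x' v| ≤ 1) : t * |φ x - φ x'| ≤ H := by
  classical
  have ni : ∀ v, T.ty v ⊆ B.erase i → i ∉ T.ty v := fun v hv hh => notMem_erase i B (hv hh)
  let h : ι → ℝ := fun v => if T.ty v ⊆ B then x' v - x v else 0
  have hh : ∀ v, i ∉ T.ty v → h v = 0 := fun v hv => by
    simp only [h]
    split_ifs with k
    · have k' : T.ty v ⊆ B.erase i := subset_erase.2 ⟨k, hv⟩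
      rw [hx v k', hx' v k', sub_self]
    · rfl
  have ha : T.Ag B (x + h) x' := fun v hv => by
    simp only [h, Pi.add_apply, if_pos hv]
    ring
  let w : ι → ℝ := fun v => if i ∈ T.ty v then 0 else T.u x v
  let h0 : ι → ℝ := T.ψ w - x
  have e0 : x + h0 = T.ψ w := by simp [h0]
  have hh0 : ∀ v, i ∉ T.ty v → h0 v = 0 := fun v hv => by
    have k : T.Ag (T.ty v) w (T.u x) := fun v' hv' => if_neg fun k => hv (hv' k)
    simp only [h0, Pi.sub_apply]
    rw [hT.ψ_ag k subset_rfl, hT.l, sub_self]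
  have hh1 : ∀ v, i ∉ T.ty v → (h0 + t • h) v = 0 := fun v hv => by
    simp [hh v hv, hh0 v hv]
  obtain ⟨L, hL⟩ := hφ.2 i (mem_singleton_self i) x
  have e1 : L h = φ x' - φ x := by
    rw [← hφ.1 _ _ ha, hL h hh]; ring
  have key := hO (x + h0) (x + (h0 + t • h))
    (fun v hv => by rw [Pi.add_apply, hh0 v (ni v hv), add_zero]; exact hx v hv)
    (fun v hv => by rw [Pi.add_apply, hh1 v (ni v hv), add_zero]; exact hx v hv)
    (fun v hv => by rw [Pi.add_apply, Pi.add_apply, hh0 v hv, hh1 v hv])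
    (fun v hv => by
      simp only [fv, mem_filter, mem_univ, true_and] at hv
      have hi : i ∈ T.ty v := by
        by_contra k
        exact hv.2 (subset_erase.2 ⟨hv.1, k⟩)
      obtain ⟨M, hM⟩ := (hT.fu v).2 i (mem_univ i) x
      have z0 : T.u (x + h0) v = 0 := by
        rw [e0, hT.r]; exact if_pos hi
      have a0 := hM h0 hh0
      have a1 := hM h hh
      have a2 := hM _ hh1
      simp only at a0 a1 a2
      rw [hT.u_ag ha hv.1] at a1
      rw [map_add, map_smul, smul_eq_mul] at a2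
      refine ⟨by rw [z0]; simp, ?_⟩
      have e : T.u (x + (h0 + t • h)) v = -(t * (T.u x v - T.u x' v)) := by
        rw [a2]; linear_combination (-1 : ℝ) * a0 + z0 - t * a1
      rw [e, abs_neg, abs_mul, abs_of_nonneg ht]
      exact hu v)
  rw [hL _ hh0, hL _ hh1, map_add, map_smul, smul_eq_mul, e1] at key
  have e : φ x + L h0 - (φ x + (L h0 + t * (φ x' - φ x))) = t * (φ x - φ x') := by ring
  rwa [e, abs_mul, abs_of_nonneg ht] at key

theorem cell {m : ℕ} (hm : 1 ≤ m) {x : ℝ} (hx : |x| ≤ 1) :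
    ∃ k : Fin m, |x - (-1 + (2 * (k : ℝ) + 1) / m)| ≤ 1 / m := by
  have m0 : (0 : ℝ) < m := by exact_mod_cast hm
  obtain ⟨x1, x2⟩ := abs_le.1 hx
  have y0 : 0 ≤ (x + 1) * m / 2 := div_nonneg (mul_nonneg (by linarith) m0.le) two_pos.le
  have y1 : (x + 1) * m / 2 ≤ m := by nlinarith
  have fin : ∀ k : ℝ, k ≤ (x + 1) * m / 2 → (x + 1) * m / 2 ≤ k + 1 →
      |x - (-1 + (2 * k + 1) / m)| ≤ 1 / m := fun k k1 k2 => by
    have e : x - (-1 + (2 * k + 1) / m) = ((x + 1) * m - (2 * k + 1)) / m := by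
      field_simp; ring
    rw [e, abs_div, abs_of_pos m0]
    exact div_le_div_of_nonneg_right (abs_le.2 ⟨by linarith, by linarith⟩) m0.le
  by_cases k : ⌊(x + 1) * m / 2⌋₊ < m
  · exact ⟨⟨_, k⟩, fin _ (Nat.floor_le y0) (Nat.lt_floor_add_one _).le⟩
  · have k1 : (m : ℝ) ≤ (x + 1) * m / 2 :=
      (Nat.cast_le.2 (not_lt.1 k)).trans (Nat.floor_le y0)
    refine ⟨⟨m - 1, by omega⟩, fin _ ?_ ?_⟩
    · simp only [Nat.cast_sub hm]; push_cast; linarith
    · simp only [Nat.cast_sub hm]; push_cast; linarith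

theorem cen_le {m : ℕ} (k : Fin m) : |-1 + (2 * (k : ℝ) + 1) / m| + 1 / m ≤ 1 := by
  have hk : (k : ℝ) + 1 ≤ m := by exact_mod_cast k.2
  have k0 : (0 : ℝ) ≤ k := Nat.cast_nonneg _
  have m0 : (0 : ℝ) < m := by linarith
  have e : -1 + (2 * (k : ℝ) + 1) / m = (2 * k + 1 - m) / m := by field_simp; ring
  rw [e, abs_div, abs_of_pos m0, ← add_div, div_le_one m0]
  have : |2 * (k : ℝ) + 1 - m| ≤ m - 1 := abs_le.2 ⟨by linarith, by linarith⟩
  linarith

/-- a dense set is dense in one of the windows of radius `1 / m` -/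
theorem window (hT : T.Ok) {Ω : Finset (ι → ℤ)} {Y : ℝ} (hΩ : T.Dn univ Ω Y) {m : ℕ} (hm : 1 ≤ m) :
    ∃ (cen : ι → ℝ) (Ω1 : Finset (ι → ℤ)), (∀ v, |cen v| + 1 / m ≤ 1) ∧ Ω1 ⊆ Ω ∧
      (T.sc (fun _ => 1 / m) cen).Dn univ Ω1 Y ∧ ∀ z ∈ Ω1, ∀ v, |T.u (cz z) v - cen v| ≤ 1 / m := by
  classical
  have m0 : (0 : ℝ) < m := by exact_mod_cast hm
  haveI : Nonempty (Fin m) := ⟨⟨0, hm⟩⟩
  have ex : ∀ (z : ι → ℤ) (v : ι), ∃ k : Fin m, z ∈ Ω →
      |T.u (cz z) v - (-1 + (2 * (k : ℝ) + 1) / m)| ≤ 1 / m := fun z v => by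
    by_cases hz : z ∈ Ω
    · obtain ⟨k, hk⟩ := cell hm (((mem_pts hT).1 (hΩ.1 hz)).2 v (subset_univ _))
      exact ⟨k, fun _ => hk⟩
    · exact ⟨⟨0, hm⟩, fun k => absurd k hz⟩
  choose kk hk using ex
  obtain ⟨k, -, hmax⟩ := exists_max_image (univ : Finset (ι → Fin m))
    (fun k => (Ω.filter fun z => kk z = k).card) univ_nonempty
  have c1 : Ω.card ≤ m ^ Fintype.card ι * (Ω.filter fun z => kk z = k).card := by
    rw [card_eq_sum_card_fiberwise (f := kk) (t := univ) fun _ _ => mem_coe.2 (mem_univ _)]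
    refine (sum_le_card_nsmul _ _ _ fun k' hk' => hmax k' hk').trans (le_of_eq ?_)
    simp
  have w : ∀ z ∈ Ω.filter (fun z => kk z = k), ∀ v,
      |T.u (cz z) v - (-1 + (2 * (k v : ℝ) + 1) / m)| ≤ 1 / m := fun z hz v => by
    obtain ⟨h1, h2⟩ := mem_filter.1 hz
    rw [← h2]
    exact hk z v h1
  have l0 : (0 : ℝ) < 1 / m := by positivity
  refine ⟨fun v => -1 + (2 * (k v : ℝ) + 1) / m, Ω.filter fun z => kk z = k, fun v => cen_le _,
    filter_subset _ _, ⟨fun z hz => ?_, ?_⟩, w⟩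
  · refine (mem_pts (hT.sc (fun _ => l0) _)).2 ⟨fun v hv => absurd (subset_univ _) hv, fun v _ => ?_⟩
    show |(T.u (cz z) v - _) / (1 / m)| ≤ 1
    rw [abs_div, abs_of_pos l0, div_le_one l0]
    exact w z hz v
  · have f : T.fv ∅ univ = univ := by
      ext v
      simp only [fv, mem_filter, mem_univ, true_and, subset_univ, iff_true, subset_empty]
      exact (hT.ne v).ne_empty
    rw [vol_sc, f, prod_const, card_univ, ← mul_assoc, one_div, inv_pow, ← div_eq_mul_inv,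
      div_le_iff₀ (by positivity)]
    refine hΩ.2.trans ?_
    rw [mul_comm]
    exact_mod_cast c1

end ShrP

theorem shr (hG : GLU) : SHR := by
  classical
  intro a
  refine ⟨10, fun α ι κ ρ _ _ _ _ _ _ _ T Y _ hY _ _ _ hT _ B i g Ψ Ω n hi hΩ hg hΨ hR => ?_⟩
  have Y10 : (10 : ℝ) ≤ Y := by exact_mod_cast hY
  have YC : Y + 6 ≤ Y ^ 10 := by
    have h1 : Y ^ 2 ≤ Y ^ 10 := pow_le_pow_right₀ (by linarith) (by norm_num)
    nlinarith
  have e0 := Real.exp_pos Y
  have e1 : 1 ≤ Real.exp Y := Real.one_le_exp (by linarith)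
  obtain ⟨m, m1, m2⟩ : ∃ m : ℕ, 200 * Real.exp Y ≤ m ∧ (m : ℝ) ≤ Real.exp (Y ^ 10) := by
    refine ⟨⌈200 * Real.exp Y⌉₊, Nat.le_ceil _, (Nat.ceil_lt_add_one (by positivity)).le.trans ?_⟩
    refine le_trans ?_ (Real.exp_le_exp.2 YC)
    have h6 : (201 : ℝ) ≤ Real.exp 6 := by
      have h2 : (2.7 : ℝ) ≤ Real.exp 1 := le_trans (by norm_num) Real.exp_one_gt_d9.le
      have h3 : Real.exp 6 = Real.exp 1 ^ 6 := by rw [← Real.exp_nat_mul]; norm_num
      rw [h3]
      exact le_trans (by norm_num) (pow_le_pow_left₀ (by norm_num) h2 6)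
    rw [Real.exp_add]
    nlinarith
  have m0 : (0 : ℝ) < m := by linarith
  have hm : 1 ≤ m := by exact_mod_cast (show (1 : ℝ) ≤ m by linarith)
  obtain ⟨cen, Ω1, c1, c2, c3, c4⟩ := ShrP.window hT hΩ hm
  have sd : B \ B.erase i = {i} := by
    ext x
    simp only [mem_sdiff, mem_erase, mem_singleton]
    constructor
    · rintro ⟨h1, h2⟩
      by_contra k
      exact h2 ⟨k, h1⟩
    · rintro rfl
      exact ⟨hi, fun k => k.1 rfl⟩
  have ex : ∀ (r : ρ) (b : ι → ℤ), ∃ (I : Fn ι) (c : ℝ), T.Fm B {i} I ∧ T.IsI (B.erase i) b I ∧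
      ∀ z ∈ Ω1, T.Ag (B.erase i) z b → |n * g r (cz z) - Ψ r (cz z) - I (cz z) - c| ≤ 1 / 100 := by
    intro r b
    by_cases h : ∃ ω ∈ Ω1, T.Ag (B.erase i) ω b
    · obtain ⟨ω, h1, h2⟩ := h
      obtain ⟨I, k1, k2, k3⟩ := hR ω (c2 h1) r
      rw [sd] at k1
      refine ⟨I, n * g r (cz ω) - Ψ r (cz ω) - I (cz ω), k1, k2.congr h2, fun z hz hb => ?_⟩
      have k := ShrP.small hT (t := m / 2) ((((hg r).smul n).sub (hΨ r)).sub k1) k3
        (hb.trans h2.symm).cz (Ag.refl _ _) (by positivity) fun v => by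
          have q : |T.u (cz z) v - T.u (cz ω) v| ≤ 1 / m + 1 / m := by
            have e : T.u (cz z) v - T.u (cz ω) v =
              (T.u (cz z) v - cen v) - (T.u (cz ω) v - cen v) := by ring
            rw [e]
            exact (abs_sub _ _).trans (add_le_add (c4 z hz v) (c4 ω h1 v))
          refine (mul_le_mul_of_nonneg_left q (by positivity)).trans (le_of_eq ?_)
          field_simp
          norm_num
      have p0 := abs_nonneg (n * g r (cz z) - Ψ r (cz z) - I (cz z) -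
        (n * g r (cz ω) - Ψ r (cz ω) - I (cz ω)))
      by_contra hc
      rw [not_le] at hc
      nlinarith
    · exact ⟨fun _ => 0, 0, fm_const _ _ 0, isI_zero _ _, fun z hz hb => absurd ⟨z, hz, hb⟩ h⟩
  choose I c p1 p2 p3 using ex
  have ni : ∀ x ∈ ({i} : Finset α), x ∉ B.erase i := fun x hx => by
    rw [mem_singleton.1 hx]; exact notMem_erase i B
  choose J q1 q2 using fun r => hG α ι T (B.erase i) B {i} (I r) (erase_subset i B) ni (p1 r)
  choose j s1 s2 using fun r => hG α ι T (B.erase i) (B.erase i) ∅ (fun b _ => c r b) subset_rfl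
    (fun x hx => absurd hx (notMem_empty x)) fun b => fm_const _ _ _
  refine ⟨T.sc (fun _ => 1 / m) cen, Ω1, J, j, ⟨_, _, fun v => ⟨?_, c1 v⟩, rfl⟩, c2,
    ⟨c3.1, le_trans ?_ c3.2⟩, fun r => ⟨q1 r, fun z => ?_, (s1 r).1⟩, fun z hz r => ?_⟩
  · rw [Real.exp_neg, one_div]
    exact inv_anti₀ m0 m2
  · exact mul_le_mul_of_nonneg_right (Real.exp_le_exp.2 (by linarith))
      (vol_pos (hT.sc (fun _ => by positivity) _) _ _).le
  · rw [q2 r z _ (Ag.refl _ _)]
    exact p2 r _ z (ag_res _ z).symm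
  · rw [q2 r z _ (Ag.refl _ _), s2 r z _ (Ag.refl _ _)]
    exact p3 r _ z hz (ag_res _ z).symm

end Vale.Agent.P057T.Gk
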