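import Vale.Agent.P057T.Gk.Rows
import Vale.Agent.P057T.Gk.Bas

/-! Uniqueness on typical fibres. -/

set_option linter.all false

open Finset

namespace Vale.Agent.P057T.Gk

open TT

noncomputable section

namespace ZeP

variable {α ι : Type} [Fintype α] [DecidableEq α] [Fintype ι] [DecidableEq ι] {T : TT α ι}
  {S0 S1 S : Finset α} {c e : α} {b : ι → ℤ}

theorem mem_fv {v : ι} : v ∈ T.fv S0 S ↔ T.ty v ⊆ S ∧ ¬ T.ty v ⊆ S0 := by
  simp only [fv, mem_filter, mem_univ, true_and]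

theorem sub_of {v : ι} (h : T.ty v ⊆ S) (h' : v ∉ T.fv S0 S) : T.ty v ⊆ S0 := by
  by_contra k
  exact h' (mem_fv.2 ⟨h, k⟩)

theorem mem_fbx {z : ι → ℤ} {x r : ι → ℝ} : z ∈ T.fbx S0 S b x r ↔ z ∈ T.pts S 20 ∧ T.Ag S0 z b ∧
    ∀ v ∈ T.fv S0 S, |T.u (cz z) v - x v| ≤ r v := by
  classical
  unfold fbx
  simp only [mem_filter]

theorem fv_ins {v : ι} (h : v ∈ T.fv S0 (insert e S0)) : e ∈ T.ty v := by
  by_contra k
  exact (mem_fv.1 h).2 fun a ha => (mem_insert.1 ((mem_fv.1 h).1 ha)).resolve_left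
    fun h1 => k (h1 ▸ ha)

theorem surj (hT : T.Ok) (z x : ι → ℝ) :
    ∃ z' : ι → ℝ, (∀ v, v ∉ T.fv S0 S → z' v = z v) ∧ ∀ v ∈ T.fv S0 S, T.u z' v = x v := by
  obtain ⟨y, hy⟩ : ∃ y : ι → ℝ, y = fun w => if w ∈ T.fv S0 S then x w else T.u z w := ⟨_, rfl⟩
  refine ⟨fun v => if v ∈ T.fv S0 S then T.ψ y v else z v, fun v hv => if_neg hv, fun v hv => ?_⟩
  have h1 : T.Ag S (fun v => if v ∈ T.fv S0 S then T.ψ y v else z v) (T.ψ y) := fun w hw => by
    dsimp only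
    split_ifs with k
    · rfl
    · have h2 : T.Ag S0 y (T.u z) := fun t ht => by
        rw [hy]
        exact if_neg fun k1 => (mem_fv.1 k1).2 ht
      rw [hT.ψ_ag h2 (sub_of hw k), hT.l]
  rw [hT.u_ag h1 (mem_fv.1 hv).1, hT.r, hy]
  exact if_pos hv

theorem aff (hT : T.Ok) (he : ∀ v ∈ T.fv S0 S, e ∈ T.ty v) {f : Fn ι} (hf : T.Aff e f) (z : ι → ℝ) :
    ∃ l : ι → ℝ, ∀ z' : ι → ℝ, (∀ v, v ∉ T.fv S0 S → z' v = z v) →
      f z' = f z + ∑ w ∈ T.fv S0 S, l w * (T.u z' w - T.u z w) := by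
  obtain ⟨L, hL⟩ := hf z
  choose M hM using fun v => (hT.fψ v).2 e (mem_univ e) (T.u z)
  obtain ⟨Λ, hΛ⟩ : ∃ Λ : (ι → ℝ) →ₗ[ℝ] ℝ, ∀ k, Λ k = L fun v => if v ∈ T.fv S0 S then M v k else 0 :=
    ⟨L.comp (LinearMap.pi fun v => if v ∈ T.fv S0 S then M v else 0), fun k => by
      rw [LinearMap.comp_apply]
      congr 1
      funext v
      rw [LinearMap.pi_apply]
      split_ifs <;> rfl⟩
  refine ⟨fun w => Λ fun j => if w = j then 1 else 0, fun z' hz => ?_⟩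
  obtain ⟨k, hk⟩ : ∃ k : ι → ℝ, k = fun w => if w ∈ T.fv S0 S then T.u z' w - T.u z w else 0 :=
    ⟨_, rfl⟩
  have k0 : ∀ v, e ∉ T.ty v → k v = 0 := fun v hv => by
    rw [hk]
    exact if_neg fun h => hv (he v h)
  have a0 : T.Ag S0 z' z := fun v hv => hz v fun h => (mem_fv.1 h).2 hv
  have a1 : T.Ag S (T.u z') (T.u z + k) := fun v hv => by
    rw [Pi.add_apply, hk]
    dsimp only
    split_ifs with h
    · ring
    · rw [add_zero, hT.u_ag a0 (sub_of hv h)]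
  have e1 : z' = z + fun v => if v ∈ T.fv S0 S then M v k else 0 := by
    funext v
    rw [Pi.add_apply]
    split_ifs with h
    · have h1 := hM v k k0
      dsimp only at h1
      rw [← hT.ψ_ag a1 (mem_fv.1 h).1, hT.l, hT.l] at h1
      exact h1
    · rw [add_zero, hz v h]
  have e2 := hL (fun v => if v ∈ T.fv S0 S then M v k else 0) fun v hv => if_neg fun h => hv (he v h)
  rw [← e1, ← hΛ, LinearMap.pi_apply_eq_sum_univ] at e2
  rw [e2, ← sum_subset (subset_univ (T.fv S0 S)) fun v _ hv => by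
    rw [hk]; dsimp only; rw [if_neg hv, zero_smul]]
  congr 1
  refine sum_congr rfl fun v hv => ?_
  rw [hk]
  dsimp only
  rw [if_pos hv, smul_eq_mul, mul_comm]

theorem box_ne (hT : T.Ok) {σ : ℝ} (σ0 : 0 < σ) (σ1 : σ < 1) (h : T.Eq S0 S b σ) {x r : ι → ℝ}
    (hx : Bx σ x r) : (T.fbx S0 S b x r).Nonempty := by
  have h1 := (abs_le.1 (h x r hx)).1
  have h2 : 0 < T.vol S0 S * ∏ v ∈ T.fv S0 S, r v :=
    mul_pos (vol_pos hT _ _) (prod_pos fun v _ => σ0.trans_le (hx v).1)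
  have h3 : (0 : ℝ) < (T.fbx S0 S b x r).card := by nlinarith
  exact card_pos.1 (Nat.cast_pos.1 h3)

/-- one lattice: short vectors kill the linear part -/
theorem base (hT : T.Ok) (hc : c ∈ S) {σ H : ℝ} (σ0 : 0 < σ) (H1 : 1 ≤ H) (hσ : σ ≤ 1 / (10 * H))
    (h : T.Eq (S.erase c) S b σ) : T.Zr (S.erase c) S c b H := by
  intro I hI hZ hO
  have he : ∀ v ∈ T.fv (S.erase c) S, c ∈ T.ty v := fun v hv => by
    by_contra k
    exact (mem_fv.1 hv).2 fun a ha => mem_erase.2 ⟨fun h1 => k (h1 ▸ ha), (mem_fv.1 hv).1 ha⟩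
  obtain ⟨l, hl⟩ := aff hT he (hI.2 c (mem_sdiff.2 ⟨hc, notMem_erase c S⟩)) (cz b)
  have f1 : ∀ z, T.Ag (S.erase c) z (cz b) →
      I z = I (cz b) + ∑ w ∈ T.fv (S.erase c) S, l w * (T.u z w - T.u (cz b) w) := fun z hz => by
    have a1 : T.Ag S (fun v => if v ∈ T.fv (S.erase c) S then z v else cz b v) z := fun v hv => by
      dsimp only
      split_ifs with k
      · rfl
      · exact (hz v (sub_of hv k)).symm
    rw [← hI.1 _ _ a1, hl _ fun v hv => if_neg hv]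
    exact congrArg _ (sum_congr rfl fun w hw => by rw [hT.u_ag a1 (mem_fv.1 hw).1])
  have f2 : ∀ z z', T.Ag (S.erase c) z (cz b) → T.Ag (S.erase c) z' (cz b) →
      I z - I z' = ∑ w ∈ T.fv (S.erase c) S, l w * (T.u z w - T.u z' w) := fun z z' h1 h2 => by
    rw [f1 z h1, f1 z' h2, add_sub_add_left_eq_sub, ← sum_sub_distrib]
    exact sum_congr rfl fun w _ => by ring
  obtain ⟨s, hs⟩ : ∃ s : ι → ℝ, ∀ w, |s w| = 1 ∧ l w * s w = |l w| :=
    ⟨fun w => if 0 ≤ l w then 1 else -1, fun w => by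
      dsimp only
      split_ifs with k
      · rw [abs_one, mul_one, abs_of_nonneg k]; exact ⟨rfl, rfl⟩
      · rw [abs_neg, abs_one, abs_of_neg (not_le.1 k), mul_neg_one]; exact ⟨rfl, rfl⟩⟩
  obtain ⟨z1, p1, p2⟩ := surj (S0 := S.erase c) (S := S) hT (cz b) s
  obtain ⟨z0, q1, q2⟩ := surj (S0 := S.erase c) (S := S) hT (cz b) 0
  have a1 : T.Ag (S.erase c) z1 (cz b) := fun v hv => p1 v fun k => (mem_fv.1 k).2 hv
  have a0 : T.Ag (S.erase c) z0 (cz b) := fun v hv => q1 v fun k => (mem_fv.1 k).2 hv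
  have b1 := hO z1 z0 a1 a0 (fun v hv => (p1 v fun k => hv (he v k)).trans
    (q1 v fun k => hv (he v k)).symm) fun v hv => by
      rw [p2 v hv, q2 v hv, (hs v).1, Pi.zero_apply, abs_zero]
      exact ⟨le_rfl, zero_le_one⟩
  rw [f2 _ _ a1 a0, sum_congr rfl (g := fun w => |l w|) fun w hw => by
    rw [p2 w hw, q2 w hw, Pi.zero_apply, sub_zero, (hs w).2]] at b1
  have b2 := (abs_le.1 b1).2
  obtain ⟨ρ, hρ⟩ : ∃ ρ : ℝ, ρ = 1 / (10 * H) := ⟨_, rfl⟩
  have ρ0 : 0 < ρ := by rw [hρ]; positivity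
  have ρ1 : ρ * H = 1 / 10 := by rw [hρ]; field_simp
  have ρ2 : ρ ≤ 1 / 10 := by nlinarith
  rw [← hρ] at hσ
  obtain ⟨y0, h0⟩ := box_ne hT σ0 (by linarith) h (x := fun _ => 0) (r := fun _ => ρ)
    fun v => ⟨hσ, by rw [abs_zero]; linarith⟩
  obtain ⟨y1, h1⟩ := box_ne hT σ0 (by linarith) h (x := fun v => 3 * ρ * s v) (r := fun _ => ρ)
    fun v => ⟨hσ, by rw [abs_mul, (hs v).1, abs_of_pos (by linarith)]; linarith⟩
  rw [mem_fbx] at h0 h1
  obtain ⟨n0, e0⟩ := hZ y0 h0.2.1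
  obtain ⟨n1, e1⟩ := hZ y1 h1.2.1
  have f3 := f2 _ _ h1.2.1.cz h0.2.1.cz
  have t : ∀ w ∈ T.fv (S.erase c) S, ρ * |l w| ≤ l w * (T.u (cz y1) w - T.u (cz y0) w) ∧
      l w * (T.u (cz y1) w - T.u (cz y0) w) ≤ 5 * ρ * |l w| := fun w hw => by
    have c0 := abs_le.1 (h0.2.2 w hw)
    have c1 := abs_le.1 (h1.2.2 w hw)
    have c2 : |T.u (cz y1) w - T.u (cz y0) w - 3 * ρ * s w| ≤ 2 * ρ :=
      abs_le.2 ⟨by linarith [c0.2, c1.1], by linarith [c0.1, c1.2]⟩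
    have c3 : |l w * (T.u (cz y1) w - T.u (cz y0) w - 3 * ρ * s w)| ≤ |l w| * (2 * ρ) := by
      rw [abs_mul]; exact mul_le_mul_of_nonneg_left c2 (abs_nonneg _)
    have c4 := abs_le.1 c3
    have c5 : l w * (T.u (cz y1) w - T.u (cz y0) w - 3 * ρ * s w) =
        l w * (T.u (cz y1) w - T.u (cz y0) w) - 3 * ρ * |l w| := by rw [← (hs w).2]; ring
    rw [c5] at c4
    constructor <;> linarith [c4.1, c4.2]
  have t1 := sum_le_sum fun w hw => (t w hw).1
  have t2 := sum_le_sum fun w hw => (t w hw).2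
  rw [← f3, ← mul_sum, e0, e1] at t1 t2
  have t3 : ((n1 - n0 : ℤ) : ℝ) < (1 : ℤ) := by push_cast; nlinarith
  have t4 : n1 - n0 ≤ 0 := by have := Int.cast_lt.1 t3; omega
  have t5 : (n1 : ℝ) - n0 ≤ 0 := by exact_mod_cast t4
  have t6 : ∑ w ∈ T.fv (S.erase c) S, |l w| ≤ 0 := by
    by_contra k
    nlinarith [not_le.1 k]
  intro z z' h1 h2 _ _
  rw [f2 z z' h1 h2, sum_eq_zero fun w hw => ?_, abs_zero]
  have := (single_le_sum (f := fun w => |l w|) (fun _ _ => abs_nonneg _) hw).trans t6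
  rw [abs_nonpos_iff.1 this, zero_mul]

theorem cell {m : ℕ} (hm : 1 ≤ m) (x : ℝ) :
    ∃ j : ℕ, j < m ∧ (|x| ≤ 1 → |x - (-1 + (2 * j + 1) / m)| ≤ 1 / m) := by
  have m0 : (0 : ℝ) < m := Nat.cast_pos.2 hm
  by_cases hx : |x| ≤ 1
  · have h := abs_le.1 hx
    have y0 : 0 ≤ (x + 1) * m / 2 := by have : 0 ≤ x + 1 := by linarith
                                        positivity
    have key : ∀ j : ℕ, (j : ℝ) ≤ (x + 1) * m / 2 → (x + 1) * m / 2 ≤ j + 1 →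
        |x - (-1 + (2 * j + 1) / m)| ≤ 1 / m := fun j h1 h2 => by
      rw [show x - (-1 + (2 * j + 1) / m) = ((x + 1) * m - (2 * j + 1)) / m by field_simp; ring,
        abs_div, abs_of_pos m0]
      exact div_le_div_of_nonneg_right (abs_le.2 ⟨by linarith, by linarith⟩) m0.le
    by_cases k : ⌊(x + 1) * m / 2⌋₊ < m
    · exact ⟨_, k, fun _ => key _ (Nat.floor_le y0) (Nat.lt_floor_add_one _).le⟩
    · have k1 : (m : ℝ) ≤ (x + 1) * m / 2 := (Nat.le_floor_iff y0).1 (not_lt.1 k)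
      refine ⟨m - 1, by omega, fun _ => key _ ?_ ?_⟩
      · rw [Nat.cast_pred hm]; linarith
      · rw [Nat.cast_pred hm]; nlinarith
  · exact ⟨0, hm, fun h => absurd h hx⟩

/-- few points lie on a hyperplane -/
theorem hyp (hT : T.Ok) {σ : ℝ} {m : ℕ} (σ0 : 0 < σ) (hσ : σ ≤ 1 / m) (m8 : 8 ≤ m)
    (hm : 16 * (Fintype.card ι : ℝ) ≤ m) (h : T.Eq S0 S b σ) {l : ι → ℝ} {v0 : ι}
    (hv : v0 ∈ T.fv S0 S) (l0 : l v0 ≠ 0) (l1 : ∀ w ∈ T.fv S0 S, |l w| ≤ |l v0|)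
    {E : Finset (ι → ℤ)} (hE : E ⊆ T.fbx S0 S b (fun _ => 0) fun _ => 1)
    (hz : ∀ y ∈ E, ∀ y' ∈ E, ∑ w ∈ T.fv S0 S, l w * (T.u (cz y) w - T.u (cz y') w) = 0) :
    (E.card : ℝ) ≤ (1 + σ) * T.vol S0 S / 8 := by
  have m0 : (8 : ℝ) ≤ m := by exact_mod_cast m8
  have m1 : (0 : ℝ) < m := by linarith
  have m2 : (1 : ℝ) / m ≤ 1 / 8 := one_div_le_one_div_of_le (by norm_num) m0
  have m3 : (0 : ℝ) < 1 / m := by positivity
  choose j j1 j2 using cell (m := m) (by omega)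
  have ub : ∀ y ∈ E, ∀ w ∈ T.fv S0 S, |T.u (cz y) w| ≤ 1 := fun y hy w hw => by
    have := (mem_fbx.1 (hE hy)).2.2 w hw
    rwa [sub_zero] at this
  obtain ⟨J, hJ⟩ : ∃ J : (ι → ℤ) → ι → ℕ,
      J = fun y w => if w ∈ (T.fv S0 S).erase v0 then j (T.u (cz y) w) else 0 := ⟨_, rfl⟩
  obtain ⟨P, hP⟩ : ∃ P : Finset (ι → ℕ),
      P = Fintype.piFinset fun w => if w ∈ (T.fv S0 S).erase v0 then range m else {0} := ⟨_, rfl⟩
  have c1 : P.card = m ^ ((T.fv S0 S).erase v0).card := by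
    rw [hP, Fintype.card_piFinset, ← prod_const, ← univ_inter ((T.fv S0 S).erase v0), ← prod_ite_mem,
      univ_inter]
    exact prod_congr rfl fun w _ => by split_ifs <;> simp
  have c2 : E.card = ∑ t ∈ P, (E.filter fun y => J y = t).card :=
    card_eq_sum_card_fiberwise fun y _ => by
      rw [hP, hJ]
      refine mem_coe.2 (Fintype.mem_piFinset.2 fun w => ?_)
      dsimp only
      split_ifs
      · exact mem_range.2 (j1 _)
      · exact mem_singleton_self 0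
  have V0 := vol_pos hT S0 S
  have c3 : ∀ t ∈ P, ((E.filter fun y => J y = t).card : ℝ) ≤
      (1 + σ) * (T.vol S0 S * (1 / 8 * (1 / m) ^ ((T.fv S0 S).erase v0).card)) := fun t ht => by
    rcases (E.filter fun y => J y = t).eq_empty_or_nonempty with k | ⟨y0, k⟩
    · rw [k, card_empty, Nat.cast_zero]; positivity
    obtain ⟨k1, k2⟩ := mem_filter.1 k
    have tm : ∀ w, t w < m := fun w => by
      have := Fintype.mem_piFinset.1 (hP ▸ ht) w
      split_ifs at this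
      · exact mem_range.1 this
      · rw [mem_singleton.1 this]; omega
    have cl : ∀ y ∈ E, J y = t → ∀ w ∈ (T.fv S0 S).erase v0,
        |T.u (cz y) w - (-1 + (2 * t w + 1) / m)| ≤ 1 / m := fun y hy e w hw => by
      have e1 : t w = j (T.u (cz y) w) := by rw [← e, hJ]; exact if_pos hw
      rw [e1]
      exact j2 _ (ub y hy w (mem_of_mem_erase hw))
    have bx : Bx σ (fun w => if w = v0 then T.u (cz y0) v0 else -1 + (2 * t w + 1) / m)
        fun w => if w = v0 then 1 / 8 else 1 / m := fun w => by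
      dsimp only
      split_ifs
      · exact ⟨by linarith, by linarith [ub y0 k1 v0 hv]⟩
      · have h1 : ((t w : ℝ) + 1) ≤ m := by exact_mod_cast tm w
        have h2 : (2 * (t w : ℝ) + 1) / m ≤ 2 := by rw [div_le_iff₀ m1]; linarith
        have h3 : 0 ≤ (2 * (t w : ℝ) + 1) / m := by positivity
        have h4 : |-1 + (2 * (t w : ℝ) + 1) / m| ≤ 1 := abs_le.2 ⟨by linarith, by linarith⟩
        exact ⟨hσ, by linarith⟩
    have sb : (E.filter fun y => J y = t) ⊆ T.fbx S0 S b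
        (fun w => if w = v0 then T.u (cz y0) v0 else -1 + (2 * t w + 1) / m)
        fun w => if w = v0 then 1 / 8 else 1 / m := fun y hy => by
      obtain ⟨y1, y2⟩ := mem_filter.1 hy
      refine mem_fbx.2 ⟨(mem_fbx.1 (hE y1)).1, (mem_fbx.1 (hE y1)).2.1, fun w hw => ?_⟩
      split_ifs with e
      · rw [e]
        have z1 := hz y y1 y0 k1
        rw [← add_sum_erase _ _ hv] at z1
        have z2 : |∑ w ∈ (T.fv S0 S).erase v0, l w * (T.u (cz y) w - T.u (cz y0) w)| ≤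
            ((T.fv S0 S).erase v0).card • (|l v0| * (2 * (1 / m))) :=
          (abs_sum_le_sum_abs _ _).trans (sum_le_card_nsmul _ _ _ fun w hw => by
            have d1 := abs_le.1 (cl y y1 y2 w hw)
            have d2 := abs_le.1 (cl y0 k1 k2 w hw)
            rw [abs_mul]
            exact mul_le_mul (l1 w (mem_of_mem_erase hw))
              (abs_le.2 ⟨by linarith [d1.1, d2.2], by linarith [d1.2, d2.1]⟩) (abs_nonneg _)
              (abs_nonneg _))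
        rw [← neg_eq_of_add_eq_zero_right z1, abs_neg, abs_mul, nsmul_eq_mul] at z2
        have z3 : (((T.fv S0 S).erase v0).card : ℝ) ≤ Fintype.card ι :=
          Nat.cast_le.2 (card_le_univ _)
        have z4 : (((T.fv S0 S).erase v0).card : ℝ) * (2 * (1 / m)) ≤ 1 / 8 := by
          rw [← mul_assoc, mul_one_div, div_le_iff₀ m1]; linarith
        refine le_of_mul_le_mul_left (z2.trans ?_) (abs_pos.2 l0)
        rw [mul_left_comm]
        exact mul_le_mul_of_nonneg_left z4 (abs_nonneg _)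
      · exact cl y y1 y2 w (mem_erase.2 ⟨e, hw⟩)
    have e1 := (abs_le.1 (h _ _ bx)).2
    rw [← mul_prod_erase _ _ hv, if_pos rfl, prod_congr rfl (g := fun _ => (1 : ℝ) / m)
      (fun w hw => if_neg (ne_of_mem_erase hw)), prod_const] at e1
    have e2 : ((E.filter fun y => J y = t).card : ℝ) ≤ _ := Nat.cast_le.2 (card_le_card sb)
    linarith
  rw [c2, Nat.cast_sum]
  refine (sum_le_card_nsmul _ _ _ c3).trans_eq ?_
  rw [c1, nsmul_eq_mul, Nat.cast_pow, one_div (m : ℝ), inv_pow]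
  field_simp

open Classical in
/-- one class moves from the base to the fibre -/
theorem peel (hT : T.Ok) (hc : c ∉ insert e S0) (he : e ∈ S) (he0 : e ∉ S0) {σ H : ℝ} {m : ℕ}
    (σ0 : 0 < σ) (hσ : σ ≤ 1 / m) (m8 : 8 ≤ m) (hm : 16 * (Fintype.card ι : ℝ) ≤ m)
    (h : T.Eq S0 (insert e S0) b σ)
    (hb : (((T.fbx S0 (insert e S0) b (fun _ => 0) fun _ => 1).filter
      fun y => ¬ T.Zr (insert e S0) S c y H).card : ℝ) ≤ T.vol S0 (insert e S0) / 4) :
    T.Zr S0 S c b H := by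
  intro I hI hZ hO z z' h1 h2 h3 _
  have m0 : (8 : ℝ) ≤ m := by exact_mod_cast m8
  have σ1 : σ ≤ 1 / 8 := hσ.trans (one_div_le_one_div_of_le (by norm_num) m0)
  have V0 := vol_pos hT S0 (insert e S0)
  obtain ⟨E, hE⟩ : ∃ E, E = (T.fbx S0 (insert e S0) b (fun _ => 0) fun _ => 1).filter
    fun y => T.Zr (insert e S0) S c y H := ⟨_, rfl⟩
  have c1 : (1 + σ) * T.vol S0 (insert e S0) / 8 < E.card := by
    have e1 := (abs_le.1 (h (fun _ => 0) (fun _ => 1) fun v => ⟨by linarith, by norm_num⟩)).1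
    have e2 := card_filter_add_card_filter_not (s := T.fbx S0 (insert e S0) b (fun _ => 0) fun _ => 1)
      fun y => T.Zr (insert e S0) S c y H
    rw [prod_const_one, mul_one, ← e2, ← hE, Nat.cast_add] at e1
    nlinarith
  have A := hI.2 e (mem_sdiff.2 ⟨he, he0⟩)
  have A1 : T.Aff e fun x => I (x + (z' - z)) := fun x => by
    obtain ⟨L, hL⟩ := A (x + (z' - z))
    exact ⟨L, fun k hk => by rw [← hL k hk, add_right_comm]⟩
  obtain ⟨l, hl⟩ := aff (S0 := S0) (S := insert e S0) hT (fun v hv => fv_ins hv) (A1.sub A) z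
  have g : ∀ y ∈ E, I (z + (z' - z)) - I z +
      ∑ w ∈ T.fv S0 (insert e S0), l w * (T.u (cz y) w - T.u z w) = 0 := fun y hy => by
    obtain ⟨y1, y2⟩ := mem_filter.1 (hE ▸ hy)
    obtain ⟨-, y3, y4⟩ := mem_fbx.1 y1
    have o := y2 I (hI.mono subset_rfl (sdiff_subset_sdiff subset_rfl (subset_insert e S0)))
      ((hZ.congr y3.symm).up (subset_insert e S0)) fun x x' x1 x2 x3 x4 =>
        hO x x' ((x1.mono (subset_insert e S0)).trans y3.cz)
          ((x2.mono (subset_insert e S0)).trans y3.cz) x3 fun v hv => by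
          by_cases k : T.ty v ⊆ insert e S0
          · have := y4 v (mem_fv.2 ⟨k, (mem_fv.1 hv).2⟩)
            rw [sub_zero] at this
            rw [hT.u_ag x1 k, hT.u_ag x2 k]
            exact ⟨this, this⟩
          · exact x4 v (mem_fv.2 ⟨(mem_fv.1 hv).1, k⟩)
    obtain ⟨x, hx⟩ : ∃ x : ι → ℝ, x = fun v => if v ∈ T.fv S0 (insert e S0) then cz y v else z v :=
      ⟨_, rfl⟩
    have a1 : T.Ag (insert e S0) x (cz y) := fun v hv => by
      rw [hx]
      dsimp only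
      split_ifs with k
      · rfl
      · exact (h1 v (sub_of hv k)).trans (y3.cz v (sub_of hv k)).symm
    have a2 : T.Of c (x + (z' - z)) x := fun v hv => by
      rw [Pi.add_apply, Pi.sub_apply, h3 v hv, sub_self, add_zero]
    have o1 := o _ _ ((a2.ag hc).trans a1) a1 a2 fun v hv => absurd (mem_fv.1 hv).1 (mem_fv.1 hv).2
    have o2 := hl x fun v hv => by rw [hx]; exact if_neg hv
    rw [abs_nonpos_iff.1 o1] at o2
    rw [o2]
    exact congrArg _ (sum_congr rfl fun w hw => by rw [hT.u_ag a1 (mem_fv.1 hw).1])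
  have l0 : ∀ w ∈ T.fv S0 (insert e S0), l w = 0 := by
    by_contra k
    push Not at k
    obtain ⟨w, w1, w2⟩ := k
    obtain ⟨v0, v1, v2⟩ := exists_max_image (T.fv S0 (insert e S0)) (fun w => |l w|) ⟨w, w1⟩
    refine absurd (hyp hT σ0 hσ m8 hm h v1 (abs_pos.1 ((abs_pos.2 w2).trans_le (v2 w w1))) v2
      (hE ▸ filter_subset _ _) fun y hy y' hy' => ?_) (not_le.2 c1)
    have := congrArg₂ (· - ·) (g y hy) (g y' hy')
    rw [add_sub_add_left_eq_sub, ← sum_sub_distrib, sub_self] at this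
    rw [← this]
    exact sum_congr rfl fun w _ => by ring
  obtain ⟨y, hy⟩ : E.Nonempty := card_pos.1 (Nat.cast_pos.1 (lt_of_le_of_lt (by positivity) c1))
  have g1 := g y hy
  rw [sum_eq_zero fun w hw => by rw [l0 w hw, zero_mul], add_zero, add_sub_cancel] at g1
  rw [abs_sub_comm, g1, abs_zero]

open Classical in
/-- share `τ` in all boxes of radius at least `σ` -/
def Mo2 (T : TT α ι) (S1 : Finset α) (σ τ : ℝ) (p : (ι → ℤ) → Prop) : Prop :=
  ∀ c r, Bx σ c r → (((T.fbx ∅ S1 0 c r).filter (fun z => ¬ p z)).card : ℝ) ≤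
    τ * (T.vol ∅ S1 * ∏ v ∈ T.fv ∅ S1, r v)

theorem Mo2.mono (hT : T.Ok) {σ τ σ' τ' : ℝ} {p p' : (ι → ℤ) → Prop} (h : Mo2 T S1 σ τ p)
    (σ0 : 0 < σ) (h1 : σ ≤ σ') (h2 : τ ≤ τ') (h3 : ∀ z, p z → p' z) : Mo2 T S1 σ' τ' p' := by
  classical
  intro x r hx
  have hx' : Bx σ x r := fun v => ⟨h1.trans (hx v).1, (hx v).2⟩
  refine le_trans (Nat.cast_le.2 (card_le_card fun z hz => ?_)) ((h x r hx').trans
    (mul_le_mul_of_nonneg_right h2 (mul_pos (vol_pos hT _ _)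
      (prod_pos fun v _ => σ0.trans_le (hx' v).1)).le))
  rw [mem_filter] at hz ⊢
  exact ⟨hz.1, fun k => hz.2 (h3 z k)⟩

theorem eq_mono (hT : T.Ok) {σ σ' : ℝ} (σ0 : 0 < σ) (h1 : σ ≤ σ') (h : T.Eq S0 S b σ) :
    T.Eq S0 S b σ' := fun x r hx => by
  have hx' : Bx σ x r := fun v => ⟨h1.trans (hx v).1, (hx v).2⟩
  exact (h x r hx').trans (mul_le_mul_of_nonneg_right h1 (mul_pos (vol_pos hT _ _)
    (prod_pos fun v _ => σ0.trans_le (hx' v).1)).le)

open Classical in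
theorem markov (hT : T.Ok) (hS : S0 ⊆ S) {σ τ : ℝ} (σ1 : σ ≤ 1) {p : (ι → ℤ) → Prop}
    (h : Mo2 T S σ τ p) : Mo2 T S0 σ (4 * τ) fun b =>
      (((T.fbx S0 S b (fun _ => 0) fun _ => 1).filter fun y => ¬ p y).card : ℝ) ≤ T.vol S0 S / 4 := by
  intro x r hx
  have V0 := vol_pos hT S0 S
  have h1 := h (fun v => if T.ty v ⊆ S0 then x v else 0) (fun v => if T.ty v ⊆ S0 then r v else 1)
    fun v => by
      dsimp only
      split_ifs
      · exact hx v
      · exact ⟨σ1, by norm_num⟩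
  have e1 : ∏ v ∈ T.fv ∅ S, (if T.ty v ⊆ S0 then r v else 1) = ∏ v ∈ T.fv ∅ S0, r v := by
    rw [← prod_filter]
    congr 1
    ext v
    rw [mem_filter, mem_fv, mem_fv]
    exact ⟨fun k => ⟨k.2, k.1.2⟩, fun k => ⟨⟨k.1.trans hS, k.2⟩, k.1⟩⟩
  rw [e1, vol_mul hT (empty_subset S0) hS] at h1
  obtain ⟨W, hW⟩ : ∃ W, W = (T.fbx ∅ S 0 (fun v => if T.ty v ⊆ S0 then x v else 0)
    fun v => if T.ty v ⊆ S0 then r v else 1).filter fun z => ¬ p z := ⟨_, rfl⟩
  obtain ⟨B, hB⟩ : ∃ B, B = (T.fbx ∅ S0 0 x r).filter fun b => ¬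
      (((T.fbx S0 S b (fun _ => 0) fun _ => 1).filter fun y => ¬ p y).card : ℝ) ≤ T.vol S0 S / 4 :=
    ⟨_, rfl⟩
  rw [← hW] at h1
  have h2 : ∀ b ∈ B, T.vol S0 S / 4 ≤ ((W.filter fun y => T.res S0 y = b).card : ℝ) := fun b hb => by
    obtain ⟨b1, b2⟩ := mem_filter.1 (hB ▸ hb)
    obtain ⟨b3, -, b4⟩ := mem_fbx.1 b1
    refine (not_le.1 b2).le.trans (Nat.cast_le.2 (card_le_card fun y hy => ?_))
    obtain ⟨y1, y2⟩ := mem_filter.1 hy
    obtain ⟨y3, y4, y5⟩ := mem_fbx.1 y1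
    rw [hW]
    refine mem_filter.2 ⟨mem_filter.2 ⟨mem_fbx.2 ⟨y3, fun v hv =>
      absurd (subset_empty.1 hv) (hT.ne v).ne_empty, fun v hv => ?_⟩, y2⟩, ?_⟩
    · split_ifs with k
      · rw [hT.u_ag y4.cz k]
        exact b4 v (mem_fv.2 ⟨k, (mem_fv.1 hv).2⟩)
      · exact y5 v (mem_fv.2 ⟨(mem_fv.1 hv).1, k⟩)
    · funext v
      unfold res
      split_ifs with k
      · exact y4 v k
      · exact (((mem_pts hT).1 b3).1 v k).symm
  have h3 := card_nsmul_le_sum _ _ _ h2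
  rw [← Nat.cast_sum, sum_card_fiberwise_eq_card_filter, nsmul_eq_mul] at h3
  have h4 : ((W.filter fun y => T.res S0 y ∈ B).card : ℝ) ≤ W.card :=
    Nat.cast_le.2 (card_filter_le _ _)
  have h5 : (B.card : ℝ) ≤ 4 * τ * (T.vol ∅ S0 * ∏ v ∈ T.fv ∅ S0, r v) := by
    refine le_of_mul_le_mul_right (a := T.vol S0 S / 4) ?_ (by positivity)
    refine (h3.trans (h4.trans h1)).trans_eq ?_
    ring
  rw [hB] at h5
  convert h5

theorem Mo2.and {σ τ τ' : ℝ} {p p' : (ι → ℤ) → Prop} (h : Mo2 T S1 σ τ p)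
    (h' : Mo2 T S1 σ τ' p') : Mo2 T S1 σ (τ + τ') fun z => p z ∧ p' z := by
  classical
  intro x r hx
  have h1 := add_le_add (h x r hx) (h' x r hx)
  rw [← add_mul, ← Nat.cast_add] at h1
  refine le_trans (Nat.cast_le.2 (le_trans (card_le_card fun z hz => ?_) (card_union_le _ _))) h1
  simp only [mem_filter] at hz
  simp only [mem_union, mem_filter]
  exact (not_and_or.1 hz.2).imp (fun k => ⟨hz.1, k⟩) fun k => ⟨hz.1, k⟩

theorem main (hT : T.Ok) (hc : c ∈ S) {σ H : ℝ} {m : ℕ} (σ0 : 0 < σ) (H1 : 1 ≤ H)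
    (h1 : σ ≤ 1 / (10 * H)) (hσ : σ ≤ 1 / m) (m8 : 8 ≤ m) (hm : 16 * (Fintype.card ι : ℝ) ≤ m)
    (hG : T.G0 σ) (n : ℕ) : ∀ S0, S0 ⊆ S.erase c → (S.erase c \ S0).card = n →
      Mo2 T S0 σ (5 ^ n * σ) fun b => T.Zr S0 S c b H := by
  have m0 : (8 : ℝ) ≤ m := by exact_mod_cast m8
  have σ1 : σ ≤ 1 / 8 := hσ.trans (one_div_le_one_div_of_le (by norm_num) m0)
  induction n with
  | zero =>
    intro S0 k1 k2
    obtain rfl : S0 = S.erase c := k1.antisymm (sdiff_eq_empty_iff_subset.1 (card_eq_zero.1 k2))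
    exact Mo2.mono hT (hG.2 S _ c hc subset_rfl) σ0 le_rfl (by simp) fun b => base hT hc σ0 H1 h1
  | succ n ih =>
    intro S0 k1 k2
    obtain ⟨e, he⟩ : (S.erase c \ S0).Nonempty := card_pos.1 (by omega)
    obtain ⟨e1, e2⟩ := mem_sdiff.1 he
    have k3 : insert e S0 ⊆ S.erase c := insert_subset e1 k1
    have i1 := ih (insert e S0) k3 (by rw [sdiff_insert, card_erase_of_mem he, k2]; rfl)
    have i2 := hG.2 (insert e S0) S0 e (mem_insert_self e S0) (by rw [erase_insert e2])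
    rw [erase_insert e2] at i2
    have p1 : (1 : ℝ) ≤ 5 ^ n := one_le_pow₀ (by norm_num)
    exact Mo2.mono hT (Mo2.and i2 (markov hT (subset_insert e S0) (by linarith) i1)) σ0 le_rfl
      (by rw [pow_succ]; nlinarith) fun b hb => peel hT (fun k => notMem_erase c S (k3 k))
        (mem_of_mem_erase e1) e2 σ0 hσ m8 hm hb.1 hb.2

end ZeP

open ZeP

theorem zer (hR : TRF) : ZER := by
  intro a
  obtain ⟨C, hR⟩ := hR a
  refine ⟨C + 2 * a + 5, fun α ι _ _ _ _ T Y ha hY hι hT hG S0 S S1 c s1 s2 hc hc0 => ?_⟩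
  push_cast at hY hG
  have C0 : (0 : ℝ) ≤ C := Nat.cast_nonneg _
  have a0 : (0 : ℝ) ≤ a := Nat.cast_nonneg _
  have Y1 : 1 ≤ Y := by linarith
  obtain ⟨σ, hσ⟩ : ∃ σ, σ = Real.exp (-((C + 2 * a + 5) * Y)) := ⟨_, rfl⟩
  rw [← hσ] at hG
  have σ0 : 0 < σ := hσ ▸ Real.exp_pos _
  have H1 : 1 ≤ Real.exp Y := Real.one_le_exp (by linarith)
  have e4 : 17 * Real.exp Y ≤ Real.exp ((C + 2 * a + 5) * Y) := by
    have h1 : (17 : ℝ) ≤ Real.exp 4 := by
      have h2 := Real.add_one_le_exp (4 / 3)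
      have h3 := pow_le_pow_left₀ (by norm_num) h2 3
      have h4 := Real.quadratic_le_exp_of_nonneg (x := 2) (by norm_num)
      rw [show (4 : ℝ) = 2 + 2 by norm_num, Real.exp_add]
      nlinarith
    refine (mul_le_mul_of_nonneg_right h1 (Real.exp_pos _).le).trans ?_
    rw [← Real.exp_add]
    exact Real.exp_le_exp.2 (by nlinarith)
  have s3 : ∀ x : ℝ, 0 < x → x ≤ 17 * Real.exp Y → σ ≤ 1 / x := fun x x0 x1 => by
    rw [hσ, Real.exp_neg, one_div]
    exact inv_anti₀ x0 (x1.trans e4)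
  have m1 : 16 * Real.exp Y ≤ ⌈16 * Real.exp Y⌉₊ := Nat.le_ceil _
  have m2 : (⌈16 * Real.exp Y⌉₊ : ℝ) ≤ 17 * Real.exp Y := by
    linarith [Nat.ceil_lt_add_one (show 0 ≤ 16 * Real.exp Y by positivity)]
  have m3 : 8 ≤ ⌈16 * Real.exp Y⌉₊ := by
    have : ((8 : ℕ) : ℝ) ≤ ⌈16 * Real.exp Y⌉₊ := by push_cast; linarith
    exact_mod_cast this
  have k1 : S0 ⊆ S.erase c := fun x hx => mem_erase.2 ⟨fun e => hc0 (e ▸ hx), s1 hx⟩
  have r1 := main hT hc σ0 H1 (s3 _ (by positivity) (by linarith)) (s3 _ (by linarith) m2) m3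
    (by linarith) hG _ S0 k1 rfl
  have s4 : 5 ^ a * σ ≤ Real.exp (-(C * Y)) := by
    have h1 : (5 : ℝ) ≤ Real.exp 2 := by
      linarith [Real.quadratic_le_exp_of_nonneg (x := 2) (by norm_num)]
    have h2 := pow_le_pow_left₀ (by norm_num) h1 a
    rw [← Real.exp_nat_mul] at h2
    refine (mul_le_mul_of_nonneg_right h2 σ0.le).trans ?_
    rw [hσ, ← Real.exp_add]
    exact Real.exp_le_exp.2 (by nlinarith)
  have p1 : (1 : ℝ) ≤ 5 ^ a := one_le_pow₀ (by norm_num)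
  have s5 : σ ≤ Real.exp (-(C * Y)) := by nlinarith
  have s6 : 5 ^ (S.erase c \ S0).card * σ ≤ Real.exp (-(C * Y)) :=
    (mul_le_mul_of_nonneg_right (pow_le_pow_right₀ (by norm_num) ((card_le_univ _).trans ha))
      σ0.le).trans s4
  refine (hR α ι T Y ha (by linarith) hT ⟨fun S => eq_mono hT σ0 s5 (hG.1 S), fun S e he =>
    Mo2.mono hT (hG.2 S _ e he subset_rfl) σ0 s5 s5 fun _ => eq_mono hT σ0 s5⟩).2 S0 S1 _ s2
    (fun z z' hz h I i1 i2 i3 => (h I i1 (i2.congr hz.symm) (i3.congr hz.symm)).congr hz)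
    (Mo2.mono hT r1 σ0 s5 s6 fun _ h => h)

end

end Vale.Agent.P057T.Gk
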