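import Vale.Agent.P057T.Gk.Rows

/-! Typicality of all iterated copy towers. -/

set_option linter.all false

open Finset

namespace Vale.Agent.P057T.Gk

open TT

namespace ZtP

section
variable {α ι : Type} [Fintype α] [DecidableEq α] [Fintype ι] [DecidableEq ι] {T : TT α ι}
  {σ σ' : ℝ}

theorem bx_mono {c r : ι → ℝ} (h : σ ≤ σ') (b : Bx σ' c r) : Bx σ c r :=
  fun v => ⟨h.trans (b v).1, (b v).2⟩

theorem vr (hT : T.Ok) (h0 : 0 < σ) {c r : ι → ℝ} (b : Bx σ c r) (S0 S : Finset α) :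
    0 ≤ T.vol S0 S * ∏ v ∈ T.fv S0 S, r v :=
  mul_nonneg (prod_nonneg fun v _ => mul_nonneg zero_le_two (hT.pos v).le)
    (prod_nonneg fun v _ => h0.le.trans (b v).1)

theorem ct_mono (hT : T.Ok) (h0 : 0 < σ) (h : σ ≤ σ') {c r : ι → ℝ} (b : Bx σ c r) {S0 S z}
    (k : T.Ct S0 S z σ c r) : T.Ct S0 S z σ' c r :=
  le_trans k (mul_le_mul_of_nonneg_right h (vr hT h0 b _ _))

theorem eq_mono (hT : T.Ok) (h0 : 0 < σ) (h : σ ≤ σ') {S0 S z} (k : T.Eq S0 S z σ) :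
    T.Eq S0 S z σ' := fun c r b => ct_mono hT h0 h (bx_mono h b) (k c r (bx_mono h b))

theorem mo_mono (hT : T.Ok) (h0 : 0 < σ) (h : σ ≤ σ') {S} {p q : (ι → ℤ) → Prop}
    (hp : ∀ z, p z → q z) (k : T.Mo S σ p) : T.Mo S σ' q := fun c r b => by
  classical
  refine le_trans ?_ ((k c r (bx_mono h b)).trans
    (mul_le_mul_of_nonneg_right h (vr hT h0 (bx_mono h b) _ _)))
  refine Nat.cast_le.2 (card_le_card fun z hz => ?_)
  simp only [mem_filter] at hz ⊢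
  exact ⟨hz.1, fun e => hz.2 (hp z e)⟩

theorem g0_mono (hT : T.Ok) (h0 : 0 < σ) (h : σ ≤ σ') (k : T.G0 σ) : T.G0 σ' :=
  ⟨fun S => eq_mono hT h0 h (k.1 S), fun S S1 a p q =>
    mo_mono hT h0 h (fun z => eq_mono hT h0 h) (k.2 S S1 a p q)⟩

theorem n0_mono (hT : T.Ok) (h0 : 0 < σ) (h : σ ≤ σ') (k : T.N0 σ) : T.N0 σ' :=
  ⟨g0_mono hT h0 h k.1, fun S0 S S1 c r p q b => mo_mono hT h0 h
    (fun z => ct_mono hT h0 h (bx_mono h b)) (k.2.1 S0 S S1 c r p q (bx_mono h b)),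
    fun S0 S S1 c p q u v => mo_mono hT h0 h (fun z e I a1 a2 a3 => e I a1 a2
      fun x y b1 b2 b3 b4 => (a3 x y b1 b2 b3 b4).trans (inv_anti₀ h0 h)) (k.2.2 S0 S S1 c p q u v)⟩

end

theorem lv_mono (hC : CPOK) (Q : ∀ (α ι : Type) [Fintype α] [DecidableEq α] [Fintype ι]
    [DecidableEq ι], TT α ι → ℝ → Prop) {σ σ' : ℝ}
    (hQ : ∀ (α ι : Type) [Fintype α] [DecidableEq α] [Fintype ι] [DecidableEq ι] (T : TT α ι),
      T.Ok → Q α ι T σ → Q α ι T σ') (n : ℕ) :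
    ∀ (α ι : Type) [Fintype α] [DecidableEq α] [Fintype ι] [DecidableEq ι] (T : TT α ι),
      T.Ok → Lv Q n α ι T σ → Lv Q n α ι T σ' := by
  induction n with
  | zero => exact hQ
  | succ n ih =>
    intro α ι _ _ _ _ T hT k
    exact ⟨hQ α ι T hT k.1, fun i m hm => ih _ _ _ ((hC α ι T hT).1 i (Fin m)).1 (k.2 i m hm)⟩

theorem card_cv {α ι : Type} [Fintype α] [DecidableEq α] [Fintype ι] [DecidableEq ι] (T : TT α ι)
    (i : α) {m : ℕ} (hm : m ≤ 8) : Fintype.card (T.CV i (Fin m)) ≤ 9 * Fintype.card ι := by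
  have h := Fintype.card_subtype_le fun v : ι => i ∈ T.ty v
  rw [Fintype.card_sum, Fintype.card_prod, Fintype.card_fin]
  have := Nat.mul_le_mul hm h
  omega

end ZtP

open ZtP

theorem zt (hC : CPOK) (hM : MUL) (hZ : ZER) : ZT := by
  have base : ∀ a : ℕ, ∃ C : ℕ, ∀ (α ι : Type) [Fintype α] [DecidableEq α] [Fintype ι]
      [DecidableEq ι] (T : TT α ι) (Y : ℝ) (C' : ℕ), C ≤ C' → Fintype.card α ≤ a → (C' : ℝ) ≤ Y →
      (Fintype.card ι : ℝ) ≤ Real.exp Y → T.Ok → T.G0 (Real.exp (-(C' * Y))) →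
      T.N0 (Real.exp (-Y)) := fun a => by
    obtain ⟨C1, h1⟩ := hM a
    obtain ⟨C2, h2⟩ := hZ a
    refine ⟨C1 + C2 + 1, fun α ι _ _ _ _ T Y C hc ha hY hι hT k => ?_⟩
    have c0 : ((C1 + C2 + 1 : ℕ) : ℝ) ≤ C := by exact_mod_cast hc
    push_cast at c0
    have p1 : (0 : ℝ) ≤ C1 := Nat.cast_nonneg _
    have p2 : (0 : ℝ) ≤ C2 := Nat.cast_nonneg _
    have g : ∀ x : ℝ, x ≤ C → T.G0 (Real.exp (-(x * Y))) := fun x hx => g0_mono hT (Real.exp_pos _)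
      (Real.exp_le_exp.2 (neg_le_neg (mul_le_mul_of_nonneg_right hx (by linarith)))) k
    refine ⟨by simpa using g 1 (by linarith), h1 α ι T Y ha (by linarith) hT (g C1 (by linarith)), ?_⟩
    rw [← Real.exp_neg, neg_neg]
    exact h2 α ι T Y ha (by linarith) hι hT (g C2 (by linarith))
  intro a n
  induction n generalizing a with
  | zero =>
    obtain ⟨C, h⟩ := base a
    exact ⟨C, fun α ι _ _ _ _ T Y => h α ι T Y C le_rfl⟩
  | succ n ih =>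
    obtain ⟨C1, h1⟩ := base a
    obtain ⟨C2, h2⟩ := ih (a + 8)
    refine ⟨C1 + 2 * C2 + 9, fun α ι _ _ _ _ T Y ha hY hι hT k =>
      ⟨h1 α ι T Y _ (by omega) ha hY hι hT k.1, fun i m hm => ?_⟩⟩
    have hT' := ((hC α ι T hT).1 i (Fin m)).1
    push_cast at hY k
    have p1 : (0 : ℝ) ≤ C1 := Nat.cast_nonneg _
    have p2 : (0 : ℝ) ≤ C2 := Nat.cast_nonneg _
    refine lv_mono hC _ (fun _ _ _ _ _ _ T hT => n0_mono hT (Real.exp_pos (-(2 * Y)))
      (Real.exp_le_exp.2 (by linarith))) n _ _ _ hT' (h2 _ _ _ (2 * Y)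
        (by rw [Fintype.card_sum, Fintype.card_fin]; omega) (by linarith) ?_ hT' ?_)
    · have a1 : ((Fintype.card (T.CV i (Fin m)) : ℕ) : ℝ) ≤ (9 * Fintype.card ι : ℕ) :=
        Nat.cast_le.2 (card_cv T i hm)
      have a2 := Real.add_one_le_exp Y
      rw [two_mul, Real.exp_add]
      push_cast at a1
      nlinarith [Real.exp_pos Y]
    · exact lv_mono hC _ (fun _ _ _ _ _ _ T hT => g0_mono hT (Real.exp_pos _)
        (Real.exp_le_exp.2 (by nlinarith))) n _ _ _ hT' (k.2 i m hm)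

end Vale.Agent.P057T.Gk
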