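import Vale.Agent.P057T.Gk.Step2
import Vale.Agent.P057T.Gk.Cpok
import Vale.Agent.P057T.Gk.Scale
import Vale.Agent.P057T.Gk.Ibc
import Vale.Agent.P057T.Gk.Scg
import Vale.Agent.P057T.Gk.Trf
import Vale.Agent.P057T.Gk.Zer
import Vale.Agent.P057T.Gk.Zt
import Vale.Agent.P057T.Gk.Eqi
import Vale.Agent.P057T.Gk.Q0b
import Vale.Agent.P057T.Gk.Hsr
import Vale.Agent.P057T.Gk.Rst
import Vale.Agent.P057T.Gk.Arc
import Vale.Agent.P057T.Gk.Fgt1
import Vale.Agent.P057T.Gk.Petd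
import Vale.Agent.P057T.Gk.Pre
import Vale.Agent.P057T.Gk.Shr
import Vale.Agent.P057T.Gk.Fina
import Vale.Agent.P057T.Gk.Lift

/-! The composition of the closed rows; the remaining rows are hypotheses. -/

set_option linter.all false

namespace Vale.Agent.P057T.Gk.All

theorem ibc0 : IBC := ibc cpok scale

theorem scg0 : SCG := scg cpok scale

theorem zt0 : ZT := zt cpok mul0 (zer trf)

theorem rst0 : RST := rst ibc0

theorem pre0 (h1 : CSQ) (h2 : EQ1) (h3 : P1) (h4 : ONE) (h5 : FRX1) (h6 : BOG) : PRE :=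
  pre (q0 h1 (eqi h2 scg0) ibc0 scg0 cpok) (fgt1 h4 h5 scg0) h6 rst0
    (petd h3 (fgt1 h4 h5 scg0) (hsr ibc0) (arc glu) rst0 ibc0 scg0 cpok) ibc0 scg0 cpok

theorem gk2 (h1 : CSQ) (h2 : EQ1) (h3 : P1) (h4 : ONE) (h5 : FRX1) (h6 : BOG) : GK2 :=
  gk2_of cpok zt0 scg0 (pre0 h1 h2 h3 h4 h5 h6) (shr glu) fina0 (lift scale) rst0

end Vale.Agent.P057T.Gk.All
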