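import Vale.Agent.P057T.Gk.Bas2
import Vale.Agent.P057T.Gk.Trf

/-! Pruning of atypical and unpopular points. -/

set_option linter.all false

open Finset

namespace Vale.Agent.P057T.Gk

open TT

noncomputable section

namespace BogC

theorem fib {A B : Type} [DecidableEq B] (s : Finset A) (t : Finset B) (f : A → B) (K : ℝ)
    (hf : ∀ a ∈ s, f a ∈ t) (hK : ∀ b ∈ t, ((s.filter (fun a => f a = b)).card : ℝ) ≤ K) :
    (s.card : ℝ) ≤ t.card * K := by
  rw [card_eq_sum_card_fiberwise hf, Nat.cast_sum]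
  refine (sum_le_sum hK).trans ?_
  rw [sum_const, nsmul_eq_mul]

variable {α ι : Type} [Fintype α] [DecidableEq α] [Fintype ι] [DecidableEq ι] {T : TT α ι}

theorem mo_le {S : Finset α} {σ : ℝ} {p : (ι → ℤ) → Prop} {c r : ι → ℝ} (hM : T.Mo S σ p)
    (hB : Bx σ c r) (W : Finset (ι → ℤ)) (hW : ∀ z ∈ W, z ∈ T.fbx ∅ S 0 c r ∧ ¬ p z) :
    (W.card : ℝ) ≤ σ * (T.vol ∅ S * ∏ v ∈ T.fv ∅ S, r v) := by
  classical
  refine le_trans ?_ (hM c r hB)
  exact_mod_cast card_le_card fun z hz => mem_filter.2 (hW z hz)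

theorem ct_le (hT : T.Ok) {S0 S : Finset α} {b : ι → ℤ} {σ : ℝ} {c r : ι → ℝ} (s1 : σ ≤ 1)
    (hr : ∀ v, 0 < r v) (h : T.Ct S0 S b σ c r) :
    ((T.fbx S0 S b c r).card : ℝ) ≤ 2 * (T.vol S0 S * ∏ v ∈ T.fv S0 S, r v) := by
  have hp : 0 < T.vol S0 S * ∏ v ∈ T.fv S0 S, r v :=
    mul_pos (vol_pos hT _ _) (prod_pos fun v _ => hr v)
  have h1 := (abs_le.1 h).2
  nlinarith

theorem mem_box (hT : T.Ok) {S0 S : Finset α} {z b : ι → ℤ} (hz : z ∈ T.pts S 1)
    (hb : T.Ag S0 z b) : z ∈ T.fbx S0 S b 0 (fun _ => 1) :=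
  Trf.mem_fbx.2 ⟨pts_mono hT (by norm_num) hz, hb, fun v hv => by
    rw [Pi.zero_apply, sub_zero]
    exact ((mem_pts hT).1 hz).2 v (Trf.mem_fv.1 hv).1⟩

theorem ag_empty (hT : T.Ok) (z b : ι → ℤ) : T.Ag ∅ z b := fun v hv =>
  absurd (subset_empty.1 hv) (hT.ne v).ne_empty

theorem ag_of_res {S : Finset α} {z z' : ι → ℤ} (h : T.res S z = T.res S z') : T.Ag S z z' :=
  (ag_res S z).symm.trans (h ▸ ag_res S z')

theorem pw {τ : ℝ} (t0 : 0 ≤ τ) {k n : ℕ} (hk : k ≤ n) (t2 : τ * n ≤ 1) : (1 + τ) ^ k ≤ 3 := by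
  have h1 : (1 + τ) ^ k ≤ Real.exp τ ^ k :=
    pow_le_pow_left₀ (by linarith) (by linarith [Real.add_one_le_exp τ]) k
  rw [← Real.exp_nat_mul] at h1
  have h2 : (k : ℝ) * τ ≤ 1 := by
    have : (k : ℝ) ≤ n := by exact_mod_cast hk
    nlinarith
  have h3 := Real.exp_le_exp.2 h2
  have h4 := Real.exp_one_lt_d9
  linarith

end BogC

open BogC in
open Classical in
theorem prune {α ι : Type} [Fintype α] [DecidableEq α] [Fintype ι] [DecidableEq ι] (T : TT α ι)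
    (hT : T.Ok) (σ Y τ : ℝ) (hN : T.N0 σ) (s0 : 0 < σ) (s1 : σ ≤ Real.exp (-Y) / 8) (hY : 0 ≤ Y)
    (B0 B S1 : Finset α) (c : α) (h1 : B0 ⊆ B) (h2 : B0 ⊆ S1) (h3 : c ∈ S1) (h4 : c ∉ B0)
    (t0 : 0 ≤ τ) (t1 : τ ≤ 1) (t2 : τ * Fintype.card ι ≤ 1) (Ω : Finset (ι → ℤ))
    (hΩ : T.Dn univ Ω Y) :
    ∃ Ω1 ⊆ Ω, Real.exp (-Y) / 4 * T.vol ∅ univ ≤ Ω1.card ∧ ∀ z ∈ Ω1, T.Zr B0 S1 c z σ⁻¹ ∧
      ((T.fbx B0 B z 0 (fun _ => 1 + τ)).card : ℝ) ≤ 6 * T.vol B0 B ∧
      Real.exp (-Y) / 16 * T.vol B0 B ≤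
        (((Ω.filter (fun ω => T.Ag B0 ω z)).image (T.res B)).card : ℝ) := by
  have e0 := Real.exp_pos (-Y)
  have e1 : Real.exp (-Y) ≤ 1 := Real.exp_le_one_iff.2 (by linarith)
  have σ1 : σ ≤ 1 := by linarith
  have hB : Bx σ (0 : ι → ℝ) (fun _ => 1) := fun v => ⟨σ1, by simp⟩
  have hBτ : Bx σ (0 : ι → ℝ) (fun _ => 1 + τ) := fun v =>
    ⟨by linarith, by rw [Pi.zero_apply, abs_zero]; linarith⟩
  have hU : ∀ z ∈ Ω, z ∈ T.fbx ∅ univ 0 0 (fun _ => 1) := fun z hz =>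
    mem_box hT (hΩ.1 hz) (ag_empty hT z 0)
  have v1 := vol_pos hT ∅ B0
  have v2 := vol_pos hT B0 B
  have v3 := vol_pos hT B univ
  have hV : T.vol ∅ univ = T.vol ∅ B0 * (T.vol B0 B * T.vol B univ) := by
    rw [vol_mul hT (empty_subset B0) (subset_univ B0), vol_mul hT h1 (subset_univ B)]
  obtain ⟨p1, hp1⟩ : ∃ p : (ι → ℤ) → Prop, p = fun z => T.Zr B0 S1 c z σ⁻¹ := ⟨_, rfl⟩
  obtain ⟨p2, hp2⟩ : ∃ p : (ι → ℤ) → Prop, p = fun z => T.Ct B0 B z σ 0 (fun _ => 1 + τ) := ⟨_, rfl⟩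
  obtain ⟨p3, hp3⟩ : ∃ p : (ι → ℤ) → Prop, p = fun z => T.Ct B univ z σ 0 (fun _ => 1) := ⟨_, rfl⟩
  obtain ⟨p4, hp4⟩ : ∃ p : (ι → ℤ) → Prop, p = fun z => Real.exp (-Y) / 16 * T.vol B0 B ≤
      (((Ω.filter (fun ω => T.Ag B0 ω z)).image (T.res B)).card : ℝ) := ⟨_, rfl⟩
  have b1 : ((Ω.filter (fun z => ¬ p1 z)).card : ℝ) ≤ σ * T.vol ∅ univ := by
    have := mo_le (hN.2.2 B0 S1 univ c h2 (subset_univ _) h3 h4) hB (Ω.filter (fun z => ¬ p1 z))
      fun z hz => ⟨hU z (mem_filter.1 hz).1, by have := (mem_filter.1 hz).2; rwa [hp1] at this⟩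
    rwa [prod_const_one, mul_one] at this
  have b2 : ((Ω.filter (fun z => ¬ p2 z)).card : ℝ) ≤ σ * T.vol ∅ univ := by
    have := mo_le (hN.2.1 B0 B univ 0 _ h1 (subset_univ _) hBτ) hB (Ω.filter (fun z => ¬ p2 z))
      fun z hz => ⟨hU z (mem_filter.1 hz).1, by have := (mem_filter.1 hz).2; rwa [hp2] at this⟩
    rwa [prod_const_one, mul_one] at this
  have b3 : ((Ω.filter (fun z => ¬ p3 z)).card : ℝ) ≤ σ * T.vol ∅ univ := by
    have := mo_le (hN.2.1 B univ univ 0 _ (subset_univ _) (subset_univ _) hB) hB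
      (Ω.filter (fun z => ¬ p3 z))
      fun z hz => ⟨hU z (mem_filter.1 hz).1, by have := (mem_filter.1 hz).2; rwa [hp3] at this⟩
    rwa [prod_const_one, mul_one] at this
  have b4 : ((Ω.filter (fun z => p3 z ∧ ¬ p4 z)).card : ℝ) ≤
      Real.exp (-Y) / 4 * T.vol ∅ univ := by
    obtain ⟨W, hW⟩ : ∃ W, W = Ω.filter (fun z => p3 z ∧ ¬ p4 z) := ⟨_, rfl⟩
    rw [← hW]
    have mW : ∀ z ∈ W, z ∈ Ω ∧ p3 z ∧ ¬ p4 z := fun z hz => by
      rw [hW] at hz
      exact mem_filter.1 hz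
    have k0 : ((T.fbx ∅ B0 0 0 (fun _ => 1)).card : ℝ) ≤ 2 * T.vol ∅ B0 := by
      have := ct_le hT σ1 (fun _ => one_pos) (hN.1.1 B0 0 _ hB)
      rwa [prod_const_one, mul_one] at this
    have k1 := fib W (T.fbx ∅ B0 0 0 (fun _ => 1)) (T.res B0)
      (Real.exp (-Y) / 16 * T.vol B0 B * (2 * T.vol B univ))
      (fun z hz => mem_box hT (res_mem hT (hΩ.1 (mW z hz).1) (subset_univ _)) (ag_empty hT _ _))
      (fun y _ => by
        rcases (W.filter (fun a => T.res B0 a = y)).eq_empty_or_nonempty with h | ⟨z0, hz0⟩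
        · rw [h, card_empty, Nat.cast_zero]
          positivity
        · obtain ⟨m0, r0⟩ := mem_filter.1 hz0
          have u0 := (mW z0 m0).2.2
          rw [hp4] at u0
          have k2 := fib (W.filter (fun a => T.res B0 a = y))
            ((Ω.filter (fun ω => T.Ag B0 ω z0)).image (T.res B)) (T.res B) (2 * T.vol B univ)
            (fun z hz => mem_image_of_mem _ (mem_filter.2 ⟨(mW z (mem_filter.1 hz).1).1,
              ag_of_res ((mem_filter.1 hz).2.trans r0.symm)⟩))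
            (fun x _ => by
              rcases ((W.filter (fun a => T.res B0 a = y)).filter
                (fun a => T.res B a = x)).eq_empty_or_nonempty with h | ⟨z1, hz1⟩
              · rw [h, card_empty, Nat.cast_zero]
                positivity
              · obtain ⟨m1, r1⟩ := mem_filter.1 hz1
                have u1 := (mW z1 (mem_filter.1 m1).1).2.1
                rw [hp3] at u1
                have k3 := ct_le hT σ1 (fun _ => one_pos) u1
                rw [prod_const_one, mul_one] at k3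
                refine le_trans (Nat.cast_le.2 (card_le_card fun z hz => ?_)) k3
                obtain ⟨m2, r2⟩ := mem_filter.1 hz
                exact mem_box hT (hΩ.1 (mW z (mem_filter.1 m2).1).1)
                  (ag_of_res (r2.trans r1.symm)))
          exact k2.trans (mul_le_mul_of_nonneg_right (not_le.1 u0).le (by positivity)))
    refine k1.trans ((mul_le_mul_of_nonneg_right k0 (by positivity)).trans (le_of_eq ?_))
    rw [hV]
    ring
  refine ⟨Ω.filter (fun z => p1 z ∧ p2 z ∧ p3 z ∧ p4 z), filter_subset _ _, ?_, fun z hz => ?_⟩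
  · have hc : Ω ⊆ Ω.filter (fun z => p1 z ∧ p2 z ∧ p3 z ∧ p4 z) ∪ (Ω.filter (fun z => ¬ p1 z) ∪
        (Ω.filter (fun z => ¬ p2 z) ∪ (Ω.filter (fun z => ¬ p3 z) ∪
          Ω.filter (fun z => p3 z ∧ ¬ p4 z)))) := fun z hz => by
      simp only [mem_union, mem_filter]
      tauto
    have c1 := card_le_card hc
    have c2 := c1.trans ((card_union_le _ _).trans (Nat.add_le_add_left ((card_union_le _ _).trans
      (Nat.add_le_add_left ((card_union_le _ _).trans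
        (Nat.add_le_add_left (card_union_le _ _) _)) _)) _))
    have c3 := (Nat.cast_le (α := ℝ)).2 c2
    push_cast at c3
    have v0 := vol_pos hT ∅ univ
    have c4 := mul_le_mul_of_nonneg_right s1 v0.le
    have c5 := hΩ.2
    have c6 := mul_pos e0 v0
    linarith
  · obtain ⟨-, q1, q2, -, q4⟩ := mem_filter.1 hz
    rw [hp1] at q1
    rw [hp2] at q2
    rw [hp4] at q4
    refine ⟨q1, ?_, q4⟩
    have k := ct_le hT σ1 (fun _ => by linarith) q2
    rw [prod_const] at k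
    have k2 := pw t0 (card_le_univ (T.fv B0 B)) t2
    nlinarith

end

end Vale.Agent.P057T.Gk
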