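import Vale.Agent.P057T.Gk.Rows
import Vale.Agent.P057T.Gk.Bas2

/-! Rows `GLU` and `BASE`. -/

set_option linter.all false

open Finset

namespace Vale.Agent.P057T.Gk

open TT

theorem glu : GLU := by
  intro α ι _ _ _ _ T S0 S G Φ h0 hG hΦ
  have key : ∀ z z' : ι → ℝ, T.Ag S0 z z' →
      T.res S0 (fun v => round (z v)) = T.res S0 (fun v => round (z' v)) :=
    fun z z' h => res_congr fun v hv => by show round (z v) = round (z' v); rw [h v hv]
  refine ⟨fun z => Φ (T.res S0 fun v => round (z v)) z, ⟨fun z z' h => ?_, fun a ha z => ?_⟩,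
    fun b z h => ?_⟩
  · show Φ _ z = Φ _ z'
    rw [key z z' (h.mono h0)]
    exact (hΦ _).1 z z' h
  · obtain ⟨L, hL⟩ := (hΦ (T.res S0 fun v => round (z v))).2 a ha z
    refine ⟨L, fun h hh => ?_⟩
    show Φ _ (z + h) = Φ _ z + L h
    rw [key (z + h) z fun v hv => by
      rw [Pi.add_apply, hh v fun hv' => hG a ha (hv hv'), add_zero]]
    exact hL h hh
  · show Φ _ z = _
    rw [key z (cz b) h]
    congr 2
    funext v
    exact round_intCast _

theorem base0 : BASE := by
  intro a C0 s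
  refine ⟨1, ?_⟩
  intro α β _ _ Rv D0 ι κ _ _ _ T p W R W' Y S c F τ Ω _ hE hR hY _ _ hW hWW _ hb hS
  rw [Nat.cast_one] at hY
  rw [pow_one] at hWW ⊢
  have hF : S ⊆ insert c F := by
    intro x hx
    by_contra h
    rw [mem_insert, not_or] at h
    have : x ∈ S.erase c \ F := mem_sdiff.2 ⟨mem_erase.2 ⟨h.1, hx⟩, h.2⟩
    rw [card_eq_zero.1 (Nat.le_zero.1 hb)] at this
    exact notMem_empty _ this
  refine ⟨ι, inferInstance, inferInstance, T, fun x => x, Ω, 1, τ,
    hE.mono ι T p W R W' (R + Y) hR hW (by linarith) (by linarith), Mor.id T, hS.dn,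
    fun z hz => by rw [zi_id]; exact hz, le_rfl, ?_, fun k => (hS.fm k).mono subset_rfl hF,
    fun z _ k => ?_⟩
  · rw [Nat.cast_one]; exact Real.one_le_exp (by linarith)
  · refine IB.mono (H := 0) ?_ (Real.exp_pos _).le
    exact IB.eq (ind_const c 0).ibg fun x _ => by simp

theorem base (_ : CPOK) : BASE := base0

end Vale.Agent.P057T.Gk
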