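import Vale.Agent.P057T.Gk.BogD
import Vale.Agent.P057T.Gk.BogC
import Vale.Agent.P057T.Gk.Shr
import Vale.Agent.P057T.Gk.Glu
import Vale.Agent.P057T.Gk.Ibc
import Vale.Agent.P057T.Gk.Fina

/-! The row `BOG` from the fibre statement. -/

set_option linter.all false

open Finset

namespace Vale.Agent.P057T.Gk

open TT

open Classical in
/-- typical popular points -/
def PRU : Prop := ∀ (α ι : Type) [Fintype α] [DecidableEq α] [Fintype ι] [DecidableEq ι]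
  (T : TT α ι) (hT : T.Ok) (σ Y τ : ℝ) (hN : T.N0 σ) (s0 : 0 < σ) (s1 : σ ≤ Real.exp (-Y) / 8)
  (hY : 0 ≤ Y) (B0 B S1 : Finset α) (c : α) (h1 : B0 ⊆ B) (h2 : B0 ⊆ S1) (h3 : c ∈ S1)
  (h4 : c ∉ B0) (t0 : 0 ≤ τ) (t1 : τ ≤ 1) (t2 : τ * Fintype.card ι ≤ 1) (Ω : Finset (ι → ℤ))
  (hΩ : T.Dn univ Ω Y), ∃ Ω1 ⊆ Ω, Real.exp (-Y) / 4 * T.vol ∅ univ ≤ Ω1.card ∧ ∀ z ∈ Ω1,
    T.Zr B0 S1 c z σ⁻¹ ∧ ((T.fbx B0 B z 0 (fun _ => 1 + τ)).card : ℝ) ≤ 6 * T.vol B0 B ∧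
    Real.exp (-Y) / 16 * T.vol B0 B ≤
      (((Ω.filter (fun ω => T.Ag B0 ω z)).image (T.res B)).card : ℝ)

namespace BgE

theorem rnd {x : ℝ} {n : ℤ} (h : |x - n| < 1 / 2) : round x = n := by
  have h2 := abs_sub_round x
  have h3 : |((round x - n : ℤ) : ℝ)| < 1 := by
    push_cast
    rw [abs_lt] at h ⊢
    rw [abs_le] at h2
    constructor <;> linarith [h.1, h.2, h2.1, h2.2]
  have h4 : |round x - n| < 1 := by exact_mod_cast h3
  rw [Int.abs_lt_one_iff] at h4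
  omega

theorem near {M x y : ℝ} (hM : 0 < M) (h : ⌊M * Int.fract x⌋₊ = ⌊M * Int.fract y⌋₊) :
    |x - y - ((⌊x⌋ - ⌊y⌋ : ℤ) : ℝ)| ≤ 1 / M := by
  have a1 := Nat.floor_le (mul_nonneg hM.le (Int.fract_nonneg x))
  have a2 := Nat.lt_floor_add_one (M * Int.fract x)
  have b1 := Nat.floor_le (mul_nonneg hM.le (Int.fract_nonneg y))
  have b2 := Nat.lt_floor_add_one (M * Int.fract y)
  rw [h] at a1 a2
  have e : x - y - ((⌊x⌋ - ⌊y⌋ : ℤ) : ℝ) = Int.fract x - Int.fract y := by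
    push_cast
    unfold Int.fract
    ring
  rw [e, le_div_iff₀ hM, ← abs_of_pos hM, ← abs_mul, abs_le]
  constructor <;> linarith

theorem ceil_le {x y : ℝ} (h0 : 0 ≤ x) (h : x + 1 ≤ y) : (⌈x⌉₊ : ℝ) ≤ y :=
  (Nat.ceil_lt_add_one h0).le.trans h

theorem num {Y P : ℝ} (hY : 2000 ≤ Y) (hP : Y ^ 8 ≤ P) :
    2 * Y ^ 2 + 5 * Y + 1 ≤ P ∧ 32 * Y + 2 ≤ P ∧ Y + 2 + 768 * Y ^ 7 ≤ P ∧ 64 * Y ^ 6 ≤ P := by
  have h1 : (1 : ℝ) ≤ Y := by linarith
  have a1 : Y ^ 1 ≤ Y ^ 7 := pow_le_pow_right₀ h1 (by norm_num)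
  have a2 : Y ^ 2 ≤ Y ^ 7 := pow_le_pow_right₀ h1 (by norm_num)
  have a6 : Y ^ 6 ≤ Y ^ 7 := pow_le_pow_right₀ h1 (by norm_num)
  have a8 : 2000 * Y ^ 7 ≤ Y ^ 8 := by
    rw [pow_succ' Y 7]
    exact mul_le_mul_of_nonneg_right hY (by positivity)
  rw [pow_one] at a1
  refine ⟨by linarith, by linarith, by linarith, by linarith⟩

theorem e3 : (8 : ℝ) ≤ Real.exp 3 := by
  have := Real.add_one_le_exp (1 : ℝ)
  calc (8 : ℝ) = 2 ^ 3 := by norm_num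
    _ ≤ Real.exp 1 ^ 3 := pow_le_pow_left₀ (by norm_num) (by linarith) 3
    _ = _ := by rw [← Real.exp_nat_mul]; norm_num

theorem nA {Y D : ℝ} (Y2 : 2000 ≤ Y) (d0 : 0 ≤ D) (hι : D ≤ Real.exp Y) :
    Real.exp (-(2 * Y)) ≤ 1 / (D + 1) ∧ 2 * D + 1 ≤ Real.exp (2 * Y) ∧
    ∀ n v k : ℝ, 0 < v → n ≤ 6 * v → Real.exp (-Y) / 16 * v ≤ k → 2 * n ≤ Real.exp (2 * Y) * k := by
  have eY : Y + 1 ≤ Real.exp Y := Real.add_one_le_exp Y
  have e2 : Real.exp (2 * Y) = Real.exp Y * Real.exp Y := by rw [← Real.exp_add, two_mul]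
  refine ⟨?_, by nlinarith, fun n v k v0 q2 q3 => ?_⟩
  · rw [Real.exp_neg, ← one_div]
    exact one_div_le_one_div_of_le (by positivity) (by nlinarith)
  · refine le_trans ?_ (mul_le_mul_of_nonneg_left q3 (Real.exp_pos _).le)
    have k1 : Real.exp (2 * Y) * (Real.exp (-Y) / 16 * v) = Real.exp Y / 16 * v := by
      rw [e2, Real.exp_neg]
      field_simp
    rw [k1]
    nlinarith

theorem nK {Y D P K : ℝ} {n : ℕ} (Y2 : 2000 ≤ Y) (d0 : 0 ≤ D) (hD : 2 * D + 1 ≤ Real.exp (2 * Y))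
    (k1 : (n : ℝ) ≤ Y) (n1 : 2 * Y ^ 2 + 5 * Y + 1 ≤ P) (hK : K = (2 * D + 1) ^ n) :
    K * (2 * Real.exp (2 * (2 * Y)) * Real.exp Y) ≤ Real.exp P ∧
    Real.exp Y + K * (Real.exp (2 * (2 * Y)) * Real.exp Y) ≤ Real.exp P := by
  have K1 : K ≤ Real.exp (2 * Y ^ 2) := by
    rw [hK]
    refine (pow_le_pow_left₀ (by positivity) hD _).trans ?_
    rw [← Real.exp_nat_mul]
    exact Real.exp_le_exp.2 (by nlinarith)
  have K2 : K * (2 * Real.exp (2 * (2 * Y)) * Real.exp Y) ≤ Real.exp P := by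
    have k1 : (2 : ℝ) ≤ Real.exp 1 := by linarith [Real.add_one_le_exp (1 : ℝ)]
    calc _ ≤ Real.exp (2 * Y ^ 2) * (Real.exp 1 * Real.exp (2 * (2 * Y)) * Real.exp Y) := by gcongr
      _ ≤ _ := by
        rw [← Real.exp_add, ← Real.exp_add, ← Real.exp_add]
        exact Real.exp_le_exp.2 (by linarith)
  refine ⟨K2, le_trans ?_ K2⟩
  have k3 : 1 ≤ K := by
    rw [hK]
    exact one_le_pow₀ (by linarith)
  have k4 : 1 ≤ Real.exp (2 * (2 * Y)) := Real.one_le_exp (by linarith)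
  have k5 : Real.exp Y ≤ K * (Real.exp (2 * (2 * Y)) * Real.exp Y) :=
    (le_mul_of_one_le_left (Real.exp_pos _).le k4).trans
      (le_mul_of_one_le_left (by positivity) k3)
  linarith

theorem nm {Y P : ℝ} (Y2 : 2000 ≤ Y) (n2 : 32 * Y + 2 ≤ P) : ∃ m : ℕ, 1 ≤ m ∧
    Real.exp (-P) ≤ 1 / m ∧
    2 * (1 / (m : ℝ)) ≤ Real.exp (-(2 * Y)) * Real.exp (-(15 * (2 * Y))) := by
  obtain ⟨m, hm⟩ : ∃ m, m = ⌈2 * Real.exp (32 * Y)⌉₊ := ⟨_, rfl⟩
  have m1 : 2 * Real.exp (32 * Y) ≤ m := hm ▸ Nat.le_ceil _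
  have x1 : 1 ≤ Real.exp (32 * Y) := Real.one_le_exp (by linarith)
  have m0 : (0 : ℝ) < m := by linarith
  have m2 : (m : ℝ) ≤ Real.exp P := by
    rw [hm]
    refine ceil_le (by positivity) (le_trans ?_ (Real.exp_le_exp.2 n2))
    rw [Real.exp_add]
    nlinarith [Real.add_one_le_exp (2 : ℝ)]
  refine ⟨m, by exact_mod_cast m0, ?_, ?_⟩
  · rw [Real.exp_neg, ← one_div]
    exact one_div_le_one_div_of_le m0 m2
  · rw [← Real.exp_add, show -(2 * Y) + -(15 * (2 * Y)) = -(32 * Y) by ring, Real.exp_neg,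
      mul_one_div, div_le_iff₀ m0, ← div_eq_inv_mul, le_div_iff₀ (Real.exp_pos _)]
    exact m1

theorem nM {Y : ℝ} (Y2 : 2000 ≤ Y) {R : ℕ} (R1 : (R : ℝ) ≤ 64 * Y ^ 6) : ∃ M : ℕ, (0 : ℝ) < M ∧
    1 / (M : ℝ) ≤ Real.exp (-(5 * (2 * Y))) ∧ Real.exp (-(5 * (2 * Y))) ≤ 1 / 100 ∧
    (M : ℝ) ^ R ≤ Real.exp (704 * Y ^ 7) := by
  obtain ⟨M, hM⟩ : ∃ M, M = ⌈Real.exp (10 * Y)⌉₊ := ⟨_, rfl⟩
  have M1 : Real.exp (10 * Y) ≤ M := hM ▸ Nat.le_ceil _
  have x2 : 1 ≤ Real.exp (10 * Y) := Real.one_le_exp (by linarith)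
  have M0 : (0 : ℝ) < M := by linarith
  have M2 : (M : ℝ) ≤ Real.exp (11 * Y) := by
    rw [hM]
    refine ceil_le (by positivity) ?_
    rw [show 11 * Y = 10 * Y + Y by ring, Real.exp_add]
    nlinarith [Real.add_one_le_exp Y]
  refine ⟨M, M0, ?_, ?_, ?_⟩
  · rw [Real.exp_neg, ← one_div]
    exact one_div_le_one_div_of_le (Real.exp_pos _) (by rw [← mul_assoc]; norm_num; exact M1)
  · rw [Real.exp_neg, ← one_div]
    exact one_div_le_one_div_of_le (by norm_num)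
      (by linarith [Real.add_one_le_exp (5 * (2 * Y))])
  · refine (pow_le_pow_left₀ M0.le M2 _).trans ?_
    rw [← Real.exp_nat_mul]
    exact Real.exp_le_exp.2 ((mul_le_mul_of_nonneg_right R1 (by linarith)).trans
      (le_of_eq (by ring)))

theorem setG {α : Type} [DecidableEq α] {S F : Finset α} {c i : α} (hc : c ∈ S)
    (hF : F ⊆ S.erase c) (hi : i ∈ S.erase c \ F) :
    insert c F = S.erase i \ (S.erase c \ F).erase i := by
  ext x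
  have k1 := @hF x
  have k2 : x = i → x ∈ S ∧ x ≠ c ∧ x ∉ F := fun e => by
    rw [e]
    simp only [mem_sdiff, mem_erase] at hi
    exact ⟨hi.1.2, hi.1.1, hi.2⟩
  have k3 : x = c → x ∈ S := fun e => e ▸ hc
  simp only [mem_insert, mem_sdiff, mem_erase] at k1 ⊢
  tauto

variable {α ι : Type} [Fintype α] [DecidableEq α] [Fintype ι] [DecidableEq ι] {T : TT α ι}

theorem ag_of {S : Finset α} {x y : ι → ℤ} (h : T.res S x = T.res S y) : T.Ag S x y :=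
  (ag_res S x).symm.trans (h ▸ ag_res S y)

end BgE

open BgE in
theorem bog_of' (hB : BF) (hP : PRU) : BOG := by
  classical
  obtain ⟨X0, hB⟩ := hB
  intro a
  refine ⟨⌈X0⌉₊ + 2000 + 2 ^ (a + 1), fun α ι κ ρ _ _ _ _ _ _ _ T Y ha hY hι _ _ hT hN S F c i f Ω
    hc hF hi hf hR => ?_⟩
  obtain ⟨hΩ, A, Cf, hA, hC, h3, h6⟩ := hR
  have c0 : (0 : ℝ) ≤ ⌈X0⌉₊ := Nat.cast_nonneg _
  have c1 : (0 : ℝ) ≤ 2 ^ (a + 1) := by positivity
  have c2 := Nat.le_ceil X0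
  have hP8 : Y ^ 8 ≤ Y ^ (⌈X0⌉₊ + 2000 + 2 ^ (a + 1)) :=
    pow_le_pow_right₀ (by push_cast at hY; linarith) (le_add_right (by omega))
  push_cast at hY
  generalize Y ^ (⌈X0⌉₊ + 2000 + 2 ^ (a + 1)) = P at *
  have Y2 : 2000 ≤ Y := by linarith
  obtain ⟨n1, n2, n3, n4⟩ := num Y2 hP8
  have d0 : (0 : ℝ) ≤ Fintype.card ι := Nat.cast_nonneg _
  obtain ⟨τ2, dd, hq⟩ := nA Y2 d0 hι
  obtain ⟨B, hBd⟩ : ∃ B, B = S.erase c \ F := ⟨_, rfl⟩
  have cB : c ∉ B := by simp [hBd]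
  have BS' : B ⊆ S.erase c := hBd ▸ sdiff_subset
  have BS : B ⊆ S := BS'.trans (erase_subset _ _)
  have GB : ∀ x ∈ insert c F, x ∉ B := by
    intro x hx
    rcases mem_insert.1 hx with rfl | hx
    · exact cB
    · simp [hBd, hx]
  have hG : insert c F = S.erase i \ B.erase i := hBd ▸ setG hc hF hi
  rw [← hBd] at hi h3 h6
  have ic : c ≠ i := fun e => cB (e ▸ hi)
  have B0B : B.erase i ⊆ B := erase_subset _ _
  have B0S : B.erase i ⊆ S.erase i := erase_subset_erase _ BS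
  have τ0 : (0 : ℝ) < 1 / (Fintype.card ι + 1) := by positivity
  have τ1 : (1 : ℝ) / (Fintype.card ι + 1) ≤ 1 := by rw [div_le_one (by positivity)]; linarith
  obtain ⟨Ω1, s1, d1, p1⟩ := hP α ι T hT (Real.exp (-P)) Y (1 / (Fintype.card ι + 1)) hN
    (Real.exp_pos _) (by
      rw [le_div_iff₀ (by norm_num)]
      refine (mul_le_mul_of_nonneg_left e3 (Real.exp_pos _).le).trans ?_
      rw [← Real.exp_add]
      exact Real.exp_le_exp.2 (by linarith))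
    (by linarith) (B.erase i) B (S.erase i) c B0B B0S (mem_erase.2 ⟨ic, hc⟩)
    (fun k => cB (B0B k)) τ0.le τ1 (by
      rw [div_mul_eq_mul_div, div_le_one (by positivity)]; linarith) Ω hΩ
  obtain ⟨K, hK⟩ : ∃ K : ℝ, K = (2 * Fintype.card ι + 1) ^ (2 ^ (Fintype.card α + 1)) := ⟨_, rfl⟩
  obtain ⟨K2, K3⟩ := nK Y2 d0 dd (n := 2 ^ (Fintype.card α + 1)) (by
    have : (2 : ℝ) ^ (Fintype.card α + 1) ≤ 2 ^ (a + 1) :=
      pow_le_pow_right₀ (by norm_num) (by omega)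
    push_cast
    linarith) n1 hK
  obtain ⟨R, hRd⟩ : ∃ R, R = ⌊(2 * Y) ^ 6⌋₊ := ⟨_, rfl⟩
  have R1 : (R : ℝ) ≤ 64 * Y ^ 6 := by
    rw [hRd]
    exact (Nat.floor_le (by positivity)).trans (le_of_eq (by ring))
  have fib : ∀ b : ι → ℤ, ∃ (θ : Fin R → ι → ℝ) (Θ : ι → κ → Fn ι) (Cc : Fin R → κ → Fn ι),
      (∀ v k, T.Fm (S.erase i) (insert c F) (Θ v k)) ∧
      (∀ j k, T.Fm (S.erase i) (insert c F) (Cc j k)) ∧
      ∀ z ∈ Ω1, ∀ z0 ∈ Ω1, T.res (B.erase i) z = b → T.res (B.erase i) z0 = b → ∀ zz : Fin R → ℤ,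
      (∀ v, |T.u (cz z) v - T.u (cz z0) v| ≤ 1 / (Fintype.card ι + 1) * Real.exp (-(15 * (2 * Y)))) →
      (∀ j, |∑ v ∈ T.fv (B.erase i) B, θ j v * ((z v : ℝ) - z0 v) - zz j| ≤
        Real.exp (-(5 * (2 * Y)))) →
      ∀ k, T.IB (B.erase i) (S.erase i) c z
        (fun x => A (T.res B z) k x - A (T.res B z0) k x -
          ∑ v ∈ T.fv (B.erase i) B, ((z v : ℝ) - z0 v) * Θ v k x - ∑ j, (zz j : ℝ) * Cc j k x)
        (K * (Real.exp (2 * (2 * Y)) * Real.exp Y)) := by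
    intro b
    by_cases hb : ∃ z ∈ Ω1, T.res (B.erase i) z = b
    · obtain ⟨z1, hz1, rfl⟩ := hb
      obtain ⟨q1, q2, q3⟩ := p1 z1 hz1
      have v0 := vol_pos hT (B.erase i) B
      obtain ⟨θ, Θ, Cc, r1, r2, r3⟩ := hB (2 * Y) (by linarith) α ι κ T B S (insert c F) c i A Ω z1 R
        (1 / (Fintype.card ι + 1)) (Real.exp Y) K (Real.exp P) hRd hT hi BS cB hG hΩ.1 (s1 hz1)
        (by linarith) τ0 τ1 (Real.exp_pos _) hK K2 (by rwa [Real.exp_neg, inv_inv] at q1)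
        (hq _ _ _ v0 q2 q3) hA h6
      exact ⟨θ, Θ, Cc, r1, r2, fun z hz z0 hz0 e e0 zz k1 k2 k =>
        IB.congr (r3 z (s1 hz) z0 (s1 hz0) (ag_of e) (ag_of e0) zz k1 k2 k) (ag_of e).symm⟩
    · exact ⟨fun _ _ => 0, fun _ _ _ => 0, fun _ _ _ => 0, fun _ _ => fm_const _ _ 0,
        fun _ _ => fm_const _ _ 0, fun z hz _ _ e => absurd ⟨z, hz, e⟩ hb⟩
  choose θ Θ Cc fΘ fC fI using fib
  have D1 : T.Dn univ Ω1 (Y + 3) := ⟨s1.trans hΩ.1, le_trans (mul_le_mul_of_nonneg_right (by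
    rw [neg_add, Real.exp_add, Real.exp_neg 3, div_eq_mul_inv]
    exact mul_le_mul_of_nonneg_left (inv_anti₀ (by norm_num) (by linarith [e3])) (Real.exp_pos _).le)
    (vol_pos hT _ _).le) d1⟩
  obtain ⟨m, m0, m2, l3⟩ := nm Y2 n2
  obtain ⟨cen, Ω2, w1, s2, D2, w2⟩ := ShrP.window hT D1 m0
  obtain ⟨M, M0, M1, small, M2⟩ := nM Y2 R1
  let φ : (ι → ℤ) → Fin R → ℝ := fun z j =>
    ∑ v ∈ T.fv (B.erase i) B, θ (T.res (B.erase i) z) j v * z v
  obtain ⟨y, -, hy⟩ := FinaP.pig Ω2 (Fintype.piFinset fun _ : Fin R => range M)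
    ⟨fun _ => 0, Fintype.mem_piFinset.2 fun _ => mem_range.2 (by exact_mod_cast M0)⟩
    (fun z j => ⌊(M : ℝ) * Int.fract (φ z j)⌋₊) fun z _ => Fintype.mem_piFinset.2 fun j =>
      mem_range.2 ((Nat.floor_lt (mul_nonneg M0.le (Int.fract_nonneg _))).2
        (mul_lt_of_lt_one_right M0 (Int.fract_lt_one _)))
  obtain ⟨Ω3, h3d⟩ : ∃ Ω3, Ω3 = Ω2.filter fun z => (fun j => ⌊(M : ℝ) * Int.fract (φ z j)⌋₊) = y :=
    ⟨_, rfl⟩
  rw [← h3d] at hy
  have s3 : Ω3 ⊆ Ω2 := h3d ▸ filter_subset _ _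
  have col : ∀ z ∈ Ω3, ∀ j, ⌊(M : ℝ) * Int.fract (φ z j)⌋₊ = y j := fun z hz j => by
    rw [h3d] at hz
    exact congrFun (mem_filter.1 hz).2 j
  have ex0 : ∀ b : ι → ℤ, ∃ z0 : ι → ℤ, (∃ z ∈ Ω3, T.res (B.erase i) z = b) →
      z0 ∈ Ω3 ∧ T.res (B.erase i) z0 = b := fun b => by
    by_cases hb : ∃ z ∈ Ω3, T.res (B.erase i) z = b
    · obtain ⟨z, hz⟩ := hb
      exact ⟨z, fun _ => hz⟩
    · exact ⟨0, fun k => absurd k hb⟩
  choose z0 hz0 using ex0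
  have tyB : ∀ v ∈ T.fv (B.erase i) B, T.ty v ⊆ B := fun v hv => (mem_filter.1 hv).2.1
  have G0 : ∀ x ∈ insert c F, x ∉ B.erase i := fun x hx k => GB x hx (B0B k)
  have up : ∀ h : Fn ι, T.Fm (S.erase i) (insert c F) h →
      T.Fm (S.erase i) (insert i (insert c F)) h := fun h k =>
    k.ext fun x hx hs => (mem_insert.1 hx).resolve_left (ne_of_mem_erase hs)
  choose g g1 g2 using fun j : Fin R => glu α ι T (B.erase i) B {i}
    (fun b x => ∑ v ∈ T.fv (B.erase i) B, θ b j v * (x v - z0 b v)) B0B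
    (fun x hx => by rw [mem_singleton.1 hx]; exact notMem_erase _ _)
    fun b => fm_sum _ fun v hv =>
      (((fm_coord T v).mono (tyB v hv) subset_rfl).sub (fm_const _ _ _)).smul _
  choose cc c1 c2 using fun (k : κ) (j : Fin R) => glu α ι T (B.erase i) (S.erase i) (insert c F)
    (fun b => Cc b j k) B0S G0 fun b => fC b j k
  choose aa a1 a2 using fun k : κ => glu α ι T (B.erase i) S (insert i (insert c F))
    (fun b x => A (T.res B (z0 b)) k x + Cf k x +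
      ∑ v ∈ T.fv (B.erase i) B, (x v - z0 b v) * Θ b v k x) (B0B.trans BS)
    (fun x hx => (mem_insert.1 hx).elim (fun e => by rw [e]; exact notMem_erase _ _) (G0 x))
    fun b => (((up _ (hA _ k)).mono (erase_subset _ _) subset_rfl).add (hC k)).add
      (fm_sum _ fun v hv => Fm.mul ((fm_coord T v).sub (fm_const _ _ _)) (up _ (fΘ b v k))
        ((tyB v hv).trans BS) (erase_subset _ _) fun x hx => (mem_insert.1 hx).elim
          (fun e => Or.inr (by rw [e]; exact notMem_erase _ _))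
          fun e => Or.inl fun k => GB x e (tyB v hv k))
  have key : ∀ z ∈ Ω3, ∀ j, |∑ v ∈ T.fv (B.erase i) B, θ (T.res (B.erase i) z) j v *
      ((z v : ℝ) - z0 (T.res (B.erase i) z) v) -
      ((⌊φ z j⌋ - ⌊φ (z0 (T.res (B.erase i) z)) j⌋ : ℤ) : ℝ)| ≤ Real.exp (-(5 * (2 * Y))) := by
    intro z hz j
    obtain ⟨k1, k2⟩ := hz0 _ ⟨z, hz, rfl⟩
    have k3 := near M0 ((col z hz j).trans (col _ k1 j).symm)
    have k4 : φ z j - φ (z0 (T.res (B.erase i) z)) j = ∑ v ∈ T.fv (B.erase i) B,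
        θ (T.res (B.erase i) z) j v * ((z v : ℝ) - z0 (T.res (B.erase i) z) v) := by
      simp only [φ, k2, mul_sub, sum_sub_distrib]
    rw [k4] at k3
    exact k3.trans M1
  have gv : ∀ z : ι → ℤ, ∀ x : ι → ℝ, T.Ag B x (cz z) → ∀ j, g j x = ∑ v ∈ T.fv (B.erase i) B,
      θ (T.res (B.erase i) z) j v * ((z v : ℝ) - z0 (T.res (B.erase i) z) v) := by
    intro z x hx j
    rw [g2 j z x (hx.mono B0B)]
    exact sum_congr rfl fun v hv => by rw [hx v (tyB v hv)]; rfl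
  have sub : T.Sub (T.sc (fun _ => 1 / m) cen) P := ⟨_, _, fun v => ⟨m2, w1 v⟩, rfl⟩
  refine ⟨T.sc (fun _ => 1 / m) cen, Ω3, R, aa, cc, g, sub, s3.trans (s2.trans s1),
    ⟨s3.trans D2.1, ?_⟩, R1.trans n4, ⟨hBd ▸ hi, a1, c1, hBd ▸ g1, fun z hz j => ?_⟩,
    fun z hz k => sub.ib ?_⟩
  · have k1 : ((Fintype.piFinset fun _ : Fin R => range M).card : ℝ) ≤ Real.exp (704 * Y ^ 7) := by
      rw [Fintype.card_piFinset, prod_const, card_range, card_univ, Fintype.card_fin]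
      push_cast
      exact M2
    have k2 := (D2.2.trans hy).trans (mul_le_mul_of_nonneg_right k1 (Nat.cast_nonneg _))
    have v0 := vol_pos (sub.ok hT) ∅ univ
    refine le_of_mul_le_mul_left (le_trans ?_ k2) (Real.exp_pos _)
    rw [← mul_assoc, ← Real.exp_add]
    have : (1 : ℝ) ≤ Y ^ 7 := one_le_pow₀ (by linarith)
    exact mul_le_mul_of_nonneg_right (Real.exp_le_exp.2 (by linarith)) v0.le
  · rw [gv z (cz z) (Ag.refl _ _) j, rnd (((key z hz j).trans small).trans_lt (by norm_num))]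
    exact (key z hz j).trans small
  · obtain ⟨k1, k2⟩ := hz0 _ ⟨z, hz, rfl⟩
    have zΩ : z ∈ Ω := s1 (s2 (s3 hz))
    have u1 : ∀ v, |T.u (cz z) v| ≤ 1 := fun v => ((mem_pts hT).1 (hΩ.1 zΩ)).2 v (subset_univ _)
    have i1 := IB.base hT (h3 z zΩ k) BS' fun v _ => u1 v
    have i2 := IB.base hT (IB.up (fI _ z (s2 (s3 hz)) _ (s2 (s3 k1)) rfl k2
      (fun j => ⌊φ z j⌋ - ⌊φ (z0 (T.res (B.erase i) z)) j⌋) (fun v => by
        have l1 := abs_le.1 (w2 z (s3 hz) v)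
        have l2 := abs_le.1 (w2 _ (s3 k1) v)
        have l4 := mul_le_mul_of_nonneg_right τ2 (Real.exp_pos (-(15 * (2 * Y)))).le
        exact abs_le.2 ⟨by linarith [l1.1, l2.2], by linarith [l1.2, l2.1]⟩)
      (key z hz) k) (erase_subset _ _)) (B0B.trans BS') fun v _ => u1 v
    refine IB.mono (IB.eq (IB.add i1 i2) fun x hx => ?_) K3
    · have hx0 : T.Ag (B.erase i) x (cz z) := hx.mono (B0B.trans BS')
      have e1 : ∀ j, round (g j x) = ⌊φ z j⌋ - ⌊φ (z0 (T.res (B.erase i) z)) j⌋ := fun j => by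
        rw [gv z x (hx.mono BS') j]
        exact rnd (((key z hz j).trans small).trans_lt (by norm_num))
      have e2 : ∑ v ∈ T.fv (B.erase i) B, (x v - z0 (T.res (B.erase i) z) v) *
          Θ (T.res (B.erase i) z) v k x = ∑ v ∈ T.fv (B.erase i) B,
          ((z v : ℝ) - z0 (T.res (B.erase i) z) v) * Θ (T.res (B.erase i) z) v k x :=
        sum_congr rfl fun v hv => by rw [hx v ((tyB v hv).trans BS')]; rfl
      simp only [tw, a2 k z x hx0, fun j => c2 k j z x hx0, e1, e2, Nat.cast_one, one_mul,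
        mul_comm (Cc _ _ _ x)]
      ring

theorem bog_of (hB : BF) : BOG := bog_of' hB fun _ _ _ _ _ _ T => prune T

end Vale.Agent.P057T.Gk
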