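import Vale.Agent.P057T.Gk.BogB
import Vale.Agent.P057T.Gk.BogE

/-! The row `BOG`, closed. -/

namespace Vale.Agent.P057T.Gk

theorem bog : BOG := bog_of bf

end Vale.Agent.P057T.Gk
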