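import Vale.Agent.P057T.FrdH61

/-! Characters of a Freiman map on a dense part of a lattice, abstract target. -/

set_option linter.all false

open Finset
open scoped BigOperators

namespace Vale.Agent.P057T.Gk.BogA

open Vale.Agent.P057T.ExtH61 Vale.Agent.P057T.BogH81 Vale.Agent.P057T.FrdH61

noncomputable section

variable {V : Type} [AddCommGroup V] [Module ℝ V]

theorem app {G : Type} [AddCommGroup G] {g : G → V} {S : Finset G} {P : V → Prop}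
    (h6 : ∀ s t : Fin 6 → G, (∀ j, s j ∈ S ∧ t j ∈ S) → ∑ j, s j = ∑ j, t j →
      P (∑ j, g (s j) - ∑ j, g (t j)))
    {a1 a2 a3 a4 a5 a6 b1 b2 b3 b4 b5 b6 : G} (g1 : a1 ∈ S) (g2 : a2 ∈ S)
    (g3 : a3 ∈ S) (g4 : a4 ∈ S) (g5 : a5 ∈ S) (g6 : a6 ∈ S) (k1 : b1 ∈ S) (k2 : b2 ∈ S)
    (k3 : b3 ∈ S) (k4 : b4 ∈ S) (k5 : b5 ∈ S) (k6 : b6 ∈ S)
    (h : a1 + (a2 + (a3 + (a4 + (a5 + a6)))) = b1 + (b2 + (b3 + (b4 + (b5 + b6))))) :
    P (g a1 + (g a2 + (g a3 + (g a4 + (g a5 + g a6)))) -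
      (g b1 + (g b2 + (g b3 + (g b4 + (g b5 + g b6)))))) := by
  have := h6 ![a1, a2, a3, a4, a5, a6] ![b1, b2, b3, b4, b5, b6]
    (fun i => by fin_cases i <;> exact ⟨by assumption, by assumption⟩) (by
      simpa only [Fin.sum_univ_succ, Fin.sum_univ_zero, Matrix.cons_val_zero, Matrix.cons_val_succ,
        add_zero] using h)
  simpa only [Fin.sum_univ_succ, Fin.sum_univ_zero, Matrix.cons_val_zero, Matrix.cons_val_succ,
    add_zero] using this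

theorem ext_of {G : Type} [AddCommGroup G] (g : G → V) (S : Finset G) (Q : V → Prop)
    (P : G → Prop)
    (h6 : ∀ s t : Fin 6 → G, (∀ j, s j ∈ S ∧ t j ∈ S) → ∑ j, s j = ∑ j, t j →
      Q (∑ j, g (s j) - ∑ j, g (t j)))
    (hP : ∀ x, P x → ∃ s1 ∈ S, ∃ s2 ∈ S, ∃ s3 ∈ S, ∃ s4 ∈ S, x = s1 + s2 - s3 - s4) :
    ∃ Φ : G → V, (∀ x y, P x → P y → P (x + y) → Q (Φ (x + y) - Φ x - Φ y)) ∧
      ∀ s ∈ S, ∀ s' ∈ S, P (s - s') → Q (g s - g s' - Φ (s - s')) := by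
  classical
  choose! s1 h1 s2 h2 s3 h3 s4 h4 he using hP
  refine ⟨fun x => g (s1 x) + g (s2 x) - g (s3 x) - g (s4 x), fun x y hx hy hxy => ?_,
    fun s hs s' hs' hx => ?_⟩
  · have := app h6 (h1 _ hxy) (h2 _ hxy) (h3 _ hx) (h4 _ hx) (h3 _ hy) (h4 _ hy)
      (h3 _ hxy) (h4 _ hxy) (h1 _ hx) (h2 _ hx) (h1 _ hy) (h2 _ hy) (by
        have a1 := he x hx
        have a2 := he y hy
        have a3 := he _ hxy
        have a4 := (congrArg₂ (· + ·) a1 a2).symm.trans a3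
        rw [← sub_eq_zero] at a4 ⊢
        rw [← neg_eq_zero, ← a4]
        abel)
    refine (congrArg Q ?_).mp this
    beta_reduce
    abel
  · have := app h6 hs (h3 _ hx) (h4 _ hx) hs hs hs hs' (h1 _ hx) (h2 _ hx) hs hs hs (by
        have a1 := he _ hx
        generalize s1 (s - s') = u1 at a1 ⊢
        generalize s2 (s - s') = u2 at a1 ⊢
        generalize s3 (s - s') = u3 at a1 ⊢
        generalize s4 (s - s') = u4 at a1 ⊢
        rw [← sub_eq_zero] at a1 ⊢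
        rw [← a1]
        abel)
    refine (congrArg Q ?_).mp this
    beta_reduce
    abel

theorem lin_eq {n : ℕ} (L : (Fin n → ℝ) →ₗ[ℝ] V) (x : Fin n → ℤ) :
    L (cr x) = ∑ i, (x i : ℝ) • L (Pi.single i 1) := by
  simp only [← map_smul, ← map_sum]
  congr 1
  funext j
  simp [cr, Finset.sum_apply, Pi.single_apply]

theorem fib : ∃ X0 : ℝ, ∀ X : ℝ, X0 ≤ X → ∀ (R n : ℕ) (p : Seminorm ℝ (Fin n → ℝ)) (τ ε : ℝ)
    (S U0 : Finset (Fin n → ℤ)) (M E : Type) [AddCommGroup M] [Module ℝ M]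
    [NormedAddCommGroup E] [NormedSpace ℝ E] (ev : M →ₗ[ℝ] E) (J : AddSubgroup M)
    (A : (Fin n → ℤ) → M), R = ⌊X ^ 6⌋₊ → (∀ r, {g : Fin n → ℤ | p (cr g) ≤ r}.Finite) → 0 < τ →
    0 < ε → 2 * (n : ℝ) ≤ Real.exp X → S.Nonempty → 2 * (#U0 : ℝ) ≤ Real.exp X * #S →
    (∀ s ∈ S, ∀ x, p (cr x) ≤ τ → s + x ∈ U0) →
    (∀ F ∈ J, ‖ev F‖ ≤ 2 * Real.exp (2 * X) * ε → ev F = 0) →
    (∀ s t : Fin 6 → Fin n → ℤ, (∀ j, s j ∈ S ∧ t j ∈ S) → ∑ j, s j = ∑ j, t j →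
      ∃ i ∈ J, ‖ev (∑ j, A (s j) - ∑ j, A (t j) - i)‖ ≤ ε) →
    ∃ (θ : Fin R → Fin n → ℝ) (Θ : Fin n → M) (C : Fin R → M), ∀ s ∈ S, ∀ s' ∈ S,
      ∀ z : Fin R → ℤ, p (cr (s - s')) ≤ τ * Real.exp (-(15 * X)) →
      (∀ j, |∑ i, θ j i * (s - s') i - z j| ≤ Real.exp (-(5 * X))) →
      ∃ i ∈ J, ‖ev (A s - A s' - ∑ i, ((s - s') i : ℝ) • Θ i - ∑ j, (z j : ℝ) • C j - i)‖ ≤
        Real.exp (2 * X) * ε := by
  classical
  obtain ⟨X0, hA⟩ := bogz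
  refine ⟨max X0 2000, fun X hX R n p τ ε S U0 M E _ _ _ _ ev J A hR hfin hτ hε hn n1 hU hS hgap
    h6 => ?_⟩
  have hX0 : 2000 ≤ X := (le_max_right _ _).trans hX
  obtain ⟨r, θ0, hr, hθ⟩ := hA X ((le_max_left _ _).trans hX) n (fun x => p (cr x))
    (fun r => (hfin r).toFinset) τ S U0 (nrm_of p _ fun r x => by simp) hτ.le hn n1 hU hS
  have rR : r ≤ R := hR ▸ Nat.le_floor hr
  have hR' : (R : ℝ) ≤ X ^ 6 := hR ▸ Nat.floor_le (by positivity)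
  let θ : Fin R → Fin n → ℝ := fun j => if h : j.1 < r then θ0 ⟨j.1, h⟩ else 0
  let W := LinearMap.range ev
  let N : Seminorm ℝ W := normSeminorm ℝ W
  let I : AddSubgroup W := J.map ev.rangeRestrict.toAddMonoidHom
  obtain ⟨σ, hσ⟩ := ev.rangeRestrict.exists_rightInverse_of_surjective ev.range_rangeRestrict
  have hσ' : ∀ w, ev.rangeRestrict (σ w) = w := fun w => LinearMap.congr_fun hσ w
  have nr : ∀ (F : M) (e : ℝ), Nr N I e (ev.rangeRestrict F) ↔ ∃ i ∈ J, ‖ev (F - i)‖ ≤ e := by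
    intro F e
    constructor
    · rintro ⟨_, ⟨i, hi, rfl⟩, h⟩
      exact ⟨i, hi, by rw [map_sub]; exact h⟩
    · rintro ⟨i, hi, h⟩
      exact ⟨_, ⟨i, hi, rfl⟩, by rw [map_sub] at h; exact h⟩
  obtain ⟨Φ, h9, h10⟩ := ext_of (fun x => ev.rangeRestrict (A x)) S (Nr N I ε)
    (fun x => p (cr x) ≤ τ * Real.exp (-(13 * X)) ∧
      ∀ j, ∃ k : ℤ, |∑ i, θ j i * x i - k| ≤ Real.exp (-(3 * X)))
    (fun s t hs e => by
      rw [← map_sum, ← map_sum, ← map_sub, nr]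
      exact h6 s t hs e)
    (fun x hx => hθ x hx.1 fun j => by
      have := hx.2 ⟨j.1, j.2.trans_le rR⟩
      simpa only [θ, dif_pos j.2] using this)
  have hnt : 2 * (((n + R : ℕ) : ℝ) + 1) ≤ Real.exp (2 * X) := by
    push_cast
    exact num1 X n R hX0 hn hR'
  have hi : Real.exp (2 * X) * Real.exp (-(2 * X)) = 1 := by rw [← Real.exp_add]; simp
  have hi0 : 0 < Real.exp (-(2 * X)) := Real.exp_pos _
  have hi1 : Real.exp (-(2 * X)) ≤ 1 := Real.exp_le_one_iff.2 (by linarith)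
  have u1 : 2 * (((n + R : ℕ) : ℝ) + 1) * Real.exp (-(2 * X)) ≤ 1 :=
    (mul_le_mul_of_nonneg_right hnt hi0.le).trans_eq hi
  have u2 := mul_le_mul_of_nonneg_right hnt hε.le
  obtain ⟨Θ, C, hl⟩ := lin N I p θ (τ * Real.exp (-(13 * X)))
    (Real.exp (-(3 * X))) ε (Real.exp (-(2 * X))) (n + R) (by positivity) (by positivity)
    (hfin _) Φ (by simp) hε.le hi0.le u1
    (by
      rintro _ ⟨i, hi, rfl⟩ h
      exact Subtype.ext (hgap i hi (le_trans h (by linarith))))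
    (fun x y hx hy hxy => h9 x y hx hy hxy)
  refine ⟨θ, fun i => σ (Θ (Pi.single i 1)), fun j => σ (C (Pi.single j 1)),
    fun s hs s' hs' z hp hz => ?_⟩
  have k1 : Real.exp (-(15 * X)) = Real.exp (-(2 * X)) * Real.exp (-(13 * X)) := by
    rw [← Real.exp_add]; ring_nf
  have k2 : Real.exp (-(5 * X)) = Real.exp (-(2 * X)) * Real.exp (-(3 * X)) := by
    rw [← Real.exp_add]; ring_nf
  have k3 : 0 < Real.exp (-(13 * X)) := Real.exp_pos _
  have k4 : 0 < Real.exp (-(3 * X)) := Real.exp_pos _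
  rw [k1, mul_left_comm] at hp
  rw [k2] at hz
  have a1 : Nr N I _ _ := hl (s - s') z hp hz
  have a2 := h10 s hs s' hs' ⟨hp.trans (mul_le_of_le_one_left (by positivity) hi1),
    fun j => ⟨z j, (hz j).trans (mul_le_of_le_one_left k4.le hi1)⟩⟩
  rw [← nr]
  refine ((a1.add a2).mono (by linarith)).of_eq ?_
  simp only [map_sub, map_sum, map_smul, hσ']
  rw [lin_eq Θ, lin_eq C]
  abel

end

end Vale.Agent.P057T.Gk.BogA
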