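import Vale.Agent.P057T.Gk.Rows

/-! The fibre statement used by the row `BOG`. -/

set_option linter.all false

open Finset

namespace Vale.Agent.P057T.Gk

open TT

open Classical in
/-- characters over one typical popular base point -/
def BF : Prop := ∃ X0 : ℝ, ∀ X : ℝ, X0 ≤ X → ∀ (α ι κ : Type) [Fintype α] [DecidableEq α]
  [Fintype ι] [DecidableEq ι] [Fintype κ] (T : TT α ι) (B S G : Finset α) (c i : α)
  (A : (ι → ℤ) → κ → Fn ι) (Ω : Finset (ι → ℤ)) (b : ι → ℤ) (R : ℕ) (τ ε K H : ℝ),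
  R = ⌊X ^ 6⌋₊ → T.Ok → i ∈ B → B ⊆ S → c ∉ B → G = S.erase i \ B.erase i → Ω ⊆ T.pts univ 1 →
  b ∈ Ω → 2 * (Fintype.card ι : ℝ) ≤ Real.exp X → 0 < τ → τ ≤ 1 → 0 < ε →
  K = (2 * Fintype.card ι + 1) ^ (2 ^ (Fintype.card α + 1)) →
  K * (2 * Real.exp (2 * X) * ε) ≤ H → T.Zr (B.erase i) (S.erase i) c b H →
  2 * ((T.fbx (B.erase i) B b 0 (fun _ => 1 + τ)).card : ℝ) ≤
    Real.exp X * ((Ω.filter (fun ω => T.Ag (B.erase i) ω b)).image (T.res B)).card →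
  (∀ y k, T.Fm (S.erase i) G (A y k)) →
  (∀ s t : Fin 6 → ι → ℤ, (∀ j, s j ∈ Ω ∧ t j ∈ Ω) →
    (∀ j, T.Ag (B.erase i) (s j) (s 0) ∧ T.Ag (B.erase i) (t j) (s 0)) →
    T.Ag B (∑ j, s j) (∑ j, t j) → ∀ k, T.IB (B.erase i) (S.erase i) c (s 0)
      (fun x => ∑ j, A (T.res B (s j)) k x - ∑ j, A (T.res B (t j)) k x) ε) →
  ∃ (θ : Fin R → ι → ℝ) (Θ : ι → κ → Fn ι) (Cc : Fin R → κ → Fn ι),
    (∀ v k, T.Fm (S.erase i) G (Θ v k)) ∧ (∀ j k, T.Fm (S.erase i) G (Cc j k)) ∧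
    ∀ z ∈ Ω, ∀ z0 ∈ Ω, T.Ag (B.erase i) z b → T.Ag (B.erase i) z0 b → ∀ zz : Fin R → ℤ,
      (∀ v, |T.u (cz z) v - T.u (cz z0) v| ≤ τ * Real.exp (-(15 * X))) →
      (∀ j, |∑ v ∈ T.fv (B.erase i) B, θ j v * ((z v : ℝ) - z0 v) - zz j| ≤ Real.exp (-(5 * X))) →
      ∀ k, T.IB (B.erase i) (S.erase i) c b
        (fun x => A (T.res B z) k x - A (T.res B z0) k x -
          ∑ v ∈ T.fv (B.erase i) B, ((z v : ℝ) - z0 v) * Θ v k x - ∑ j, (zz j : ℝ) * Cc j k x)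
        (K * (Real.exp (2 * X) * ε))

end Vale.Agent.P057T.Gk
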