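import Vale.Agent.P057T.Gk.BogA
import Vale.Agent.P057T.Gk.BogD
import Vale.Agent.P057T.Gk.Bas2
import Vale.Agent.P057T.Gk.Scale

/-! Characters over one typical popular base point. -/

set_option linter.all false

open Finset

namespace Vale.Agent.P057T.Gk

open TT Vale.Agent.P057T.FrdH61

noncomputable section

namespace BogB

variable {α ι κ : Type} [Fintype α] [DecidableEq α] [Fintype ι] [DecidableEq ι] [Fintype κ]

def emb (W : Finset ι) (R : Type) [CommRing R] : (Fin W.card → R) →ₗ[R] ι → R where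
  toFun x v := if h : v ∈ W then x (W.equivFin ⟨v, h⟩) else 0
  map_add' x y := by
    funext v
    by_cases h : v ∈ W <;> simp [h]
  map_smul' r x := by
    funext v
    by_cases h : v ∈ W <;> simp [h]

def el (W : Finset ι) (j : Fin W.card) : ι := (W.equivFin.symm j).1

theorem el_mem (W : Finset ι) (j : Fin W.card) : el W j ∈ W := (W.equivFin.symm j).2

theorem ex_el {W : Finset ι} {v : ι} (h : v ∈ W) : ∃ j, el W j = v :=
  ⟨W.equivFin ⟨v, h⟩, by simp [el]⟩

theorem emb_el (W : Finset ι) (R : Type) [CommRing R] (x : Fin W.card → R) (j : Fin W.card) :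
    emb W R x (el W j) = x j := by
  show (if h : el W j ∈ W then x (W.equivFin ⟨el W j, h⟩) else 0) = _
  rw [dif_pos (el_mem W j)]
  simp [el]

theorem emb_not {W : Finset ι} (R : Type) [CommRing R] (x : Fin W.card → R) {v : ι} (h : v ∉ W) :
    emb W R x v = 0 := dif_neg h

theorem sum_el (W : Finset ι) (f : ι → ℝ) : ∑ v ∈ W, f v = ∑ j, f (el W j) := by
  rw [← sum_coe_sort W f]
  exact (Equiv.sum_comp W.equivFin.symm (fun v => f v.1)).symm

def MM (T : TT α ι) (κ : Type) (S G : Finset α) : Submodule ℝ (κ → Fn ι) where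
  carrier := {F | ∀ k, T.Fm S G (F k)}
  add_mem' h h' k := (h k).add (h' k)
  zero_mem' _ := fm_const _ _ 0
  smul_mem' r _ h k := (h k).smul r

def JJ (T : TT α ι) (κ : Type) (S G S0 : Finset α) (b : ι → ℤ) : AddSubgroup (MM T κ S G) where
  carrier := {F | ∀ k, T.IsI S0 b (F.1 k)}
  add_mem' h h' k := (h k).add (h' k)
  zero_mem' _ := isI_zero _ _
  neg_mem' h k := (h k).neg

def ev (T : TT α ι) (κ : Type) (S G : Finset α) {n : ℕ} (p q : Fin n → ι → ℝ) :
    MM T κ S G →ₗ[ℝ] κ → Fin n → ℝ where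
  toFun F k j := F.1 k (p j) - F.1 k (q j)
  map_add' F F' := by
    funext k j
    simp only [Submodule.coe_add, Pi.add_apply]
    ring
  map_smul' r F := by
    funext k j
    simp only [Submodule.coe_smul, Pi.smul_apply, smul_eq_mul, RingHom.id_apply]
    ring

theorem ev_le {T : TT α ι} {S G : Finset α} {n : ℕ} {p q : Fin n → ι → ℝ} {F : MM T κ S G} {e : ℝ}
    (he : 0 ≤ e) : ‖ev T κ S G p q F‖ ≤ e ↔ ∀ k j, |F.1 k (p j) - F.1 k (q j)| ≤ e := by
  simp only [pi_norm_le_iff_of_nonneg he]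
  rfl

end BogB

open BogB in
theorem bf : BF := by
  classical
  obtain ⟨X0, hX0⟩ := BogA.fib
  refine ⟨X0, fun X hX α ι κ _ _ _ _ _ T B S G c i A Ω b R τ ε K H hR hT hi hBS hc hG hΩ hb hι τ0 τ1
    ε0 hK hH hZ hpop hA h6 => ?_⟩
  obtain ⟨B0, hB0⟩ : ∃ B0, B0 = B.erase i := ⟨_, rfl⟩
  obtain ⟨S1, hS1⟩ : ∃ S1, S1 = S.erase i := ⟨_, rfl⟩
  have i0 : ∀ v, T.ty v ⊆ B → ¬ T.ty v ⊆ B0 → i ∈ T.ty v := fun v h1 h2 => by
    by_contra h3
    exact h2 (hB0 ▸ subset_erase.2 ⟨h1, h3⟩)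
  have b0 : B0 ⊆ B := hB0 ▸ erase_subset _ _
  have b1 : B0 ⊆ S1 := hB0 ▸ hS1 ▸ erase_subset_erase _ hBS
  rw [← hB0] at hG hZ hpop h6 ⊢
  rw [← hS1] at hG hZ hA h6 ⊢
  subst hG
  obtain ⟨W, hW⟩ : ∃ W, W = T.fv B0 B := ⟨_, rfl⟩
  have mW : ∀ v, v ∈ W ↔ T.ty v ⊆ B ∧ ¬ T.ty v ⊆ B0 := fun v => by simp [hW, TT.fv]
  rw [← hW]
  let pt : (Fin W.card → ℤ) → ι → ℤ := fun x => T.res B0 b + emb W ℤ x
  let prj : (ι → ℤ) → Fin W.card → ℤ := fun z j => z (el W j)
  have pt_el : ∀ x j, pt x (el W j) = x j := fun x j => by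
    show T.res B0 b (el W j) + _ = _
    rw [emb_el, TT.res, if_neg ((mW _).1 (el_mem W j)).2, zero_add]
  have pt_ag : ∀ x, T.Ag B0 (pt x) b := fun x v hv => by
    show T.res B0 b v + _ = _
    rw [emb_not ℤ x (fun h => ((mW _).1 h).2 hv), add_zero, ag_res B0 b v hv]
  have pt_0 : ∀ x v, ¬ T.ty v ⊆ B → pt x v = 0 := fun x v hv => by
    show T.res B0 b v + _ = _
    rw [emb_not ℤ x (fun h => hv ((mW _).1 h).1), add_zero, TT.res, if_neg fun h => hv (h.trans b0)]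
  have pt_prj : ∀ z, T.Ag B0 z b → pt (prj z) = T.res B z := fun z hz => by
    funext v
    by_cases h1 : T.ty v ⊆ B
    · rw [ag_res B z v h1]
      by_cases h2 : T.ty v ⊆ B0
      · rw [pt_ag _ v h2, hz v h2]
      · obtain ⟨j, rfl⟩ := ex_el ((mW v).2 ⟨h1, h2⟩)
        exact pt_el _ j
    · rw [pt_0 _ v h1, TT.res, if_neg h1]
  choose L hL using fun v => (hT.fu v).2 i (mem_univ i) (cz (T.res B0 b))
  let U : (Fin W.card → ℝ) →ₗ[ℝ] Fin W.card → ℝ := LinearMap.pi fun j => L (el W j) ∘ₗ emb W ℝ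
  let p : Seminorm ℝ (Fin W.card → ℝ) := (normSeminorm ℝ _).comp U
  have hu : ∀ x j, T.u (cz (pt x)) (el W j) = T.u (cz (T.res B0 b)) (el W j) + U (cr x) j := by
    intro x j
    have e : cz (pt x) = cz (T.res B0 b) + emb W ℝ (cr x) := by
      funext v
      by_cases h : v ∈ W
      · obtain ⟨j, rfl⟩ := ex_el h
        simp only [cz, pt, Pi.add_apply, emb_el, cr, Int.cast_add]
      · simp only [cz, pt, Pi.add_apply, emb_not _ _ h, add_zero]
    rw [e]
    exact hL _ _ fun v hv => emb_not ℝ _ fun h => hv (i0 v ((mW v).1 h).1 ((mW v).1 h).2)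
  have hp : ∀ x r, 0 ≤ r → (p x ≤ r ↔ ∀ j, |U x j| ≤ r) := fun x r hr =>
    pi_norm_le_iff_of_nonneg hr
  have ub : ∀ z ∈ Ω, ∀ v, |T.u (cz z) v| ≤ 1 := fun z hz v =>
    ((mem_pts hT).1 (hΩ hz)).2 v (subset_univ _)
  have bd : ∀ x (r : ℝ), 1 ≤ r → (∀ j, |T.u (cz (pt x)) (el W j)| ≤ r) → pt x ∈ T.PS B r := by
    intro x r hr h
    refine ⟨pt_0 x, fun v h1 => ?_⟩
    by_cases h2 : T.ty v ⊆ B0
    · rw [hT.u_ag (pt_ag x).cz h2]
      exact (ub b hb v).trans hr
    · obtain ⟨j, rfl⟩ := ex_el ((mW v).2 ⟨h1, h2⟩)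
      exact h j
  have hfin : ∀ r, {g : Fin W.card → ℤ | p (cr g) ≤ r}.Finite := by
    intro r
    have inj : Function.Injective pt := fun x y e => funext fun j => by
      rw [← pt_el x j, e, pt_el]
    refine ((hT.fin B (1 + ‖T.u (cz (T.res B0 b))‖ + |r|)).preimage inj.injOn).subset
      fun g hg => bd g _ (by linarith [norm_nonneg (T.u (cz (T.res B0 b))), abs_nonneg r])
        fun j => ?_
    rw [hu]
    have a1 := (hp _ _ (abs_nonneg r)).1 (le_trans hg (le_abs_self r)) j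
    have a2 : |T.u (cz (T.res B0 b)) (el W j)| ≤ _ := norm_le_pi_norm (T.u (cz (T.res B0 b))) _
    linarith [abs_add_le (T.u (cz (T.res B0 b)) (el W j)) (U (cr g) j)]
  have ur : ∀ z, T.Ag B0 z b → ∀ j, T.u (cz (pt (prj z))) (el W j) = T.u (cz z) (el W j) :=
    fun z hz j => by rw [pt_prj z hz, hT.u_ag (ag_res B z).cz ((mW _).1 (el_mem W j)).1]
  obtain ⟨n0, P, Q, -, hPQ, hsc⟩ := (scale α ι T B0 S1 c b hT b1 fun h => hc (b0 h)).2
  rw [← hK] at hsc
  have toN : ∀ (F : MM T κ S1 (S1 \ B0)) (e : ℝ), 0 ≤ e → (∀ k, T.IB B0 S1 c b (F.1 k) e) →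
      ∃ I ∈ JJ T κ S1 (S1 \ B0) B0 b, ‖ev T κ _ _ P Q (F - I)‖ ≤ e := by
    intro F e he h
    choose I h1 h2 h3 using h
    exact ⟨⟨I, h1⟩, h2, (ev_le he).2 fun k j =>
      h3 k _ _ (hPQ j).1 (hPQ j).2.1 (hPQ j).2.2.1 (hPQ j).2.2.2⟩
  have ofN : ∀ (F : MM T κ S1 (S1 \ B0)) (e : ℝ), 0 ≤ e → ‖ev T κ _ _ P Q F‖ ≤ e →
      ∀ k, T.Osc B0 S1 c b (F.1 k) (K * e) := fun F e he h k =>
    hsc _ e he (F.2 k) ((ev_le he).1 h k)
  obtain ⟨θ, Θ, C, hfib⟩ := hX0 X hX R W.card p τ ε ((Ω.filter fun ω => T.Ag B0 ω b).image prj)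
    ((T.fbx B0 B b 0 fun _ => 1 + τ).image prj) (MM T κ S1 (S1 \ B0)) (κ → Fin n0 → ℝ)
    (ev T κ _ _ P Q) (JJ T κ S1 (S1 \ B0) B0 b) (fun x => ⟨A (pt x), hA _⟩) hR hfin τ0 ε0
    (le_trans (by gcongr; exact_mod_cast card_le_univ W) hι)
    ⟨_, mem_image_of_mem _ (mem_filter.2 ⟨hb, Ag.refl _ _⟩)⟩
    (by
      refine le_trans (by gcongr; exact card_image_le) (hpop.trans ?_)
      gcongr
      refine le_trans (card_le_card fun y hy => ?_) (card_image_le (f := pt))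
      obtain ⟨z, hz, rfl⟩ := mem_image.1 hy
      exact mem_image.2 ⟨_, mem_image_of_mem prj hz, pt_prj z (mem_filter.1 hz).2⟩)
    (by
      intro s hs x hx
      obtain ⟨z, hz, rfl⟩ := mem_image.1 hs
      have k : ∀ j, |T.u (cz (pt (prj z + x))) (el W j)| ≤ 1 + τ := fun j => by
        have a1 := ur z (mem_filter.1 hz).2 j
        have a2 := ub z (mem_filter.1 hz).1 (el W j)
        have a3 := (hp _ _ τ0.le).1 hx j
        rw [hu] at a1
        rw [hu, cr_add, map_add, Pi.add_apply, ← add_assoc, a1]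
        exact (abs_add_le _ _).trans (add_le_add a2 a3)
      refine mem_image.2 ⟨pt (prj z + x), mem_filter.2 ⟨(mem_pts hT).2 (bd _ 20 (by norm_num)
        fun j => (k j).trans (by linarith)), pt_ag _, fun v hv => ?_⟩, funext fun j => pt_el _ j⟩
      obtain ⟨j, rfl⟩ := ex_el (hW ▸ hv : v ∈ W)
      simpa using k j)
    (by
      intro F hF h
      funext k j
      have a1 := hZ _ (F.2 k) (hF k) ((ofN F _ (by positivity) h k).mono hH) _ _ (hPQ j).1
        (hPQ j).2.1 (hPQ j).2.2.1 fun v hv => by simp [TT.fv] at hv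
      exact abs_nonpos_iff.1 a1)
    (by
      intro s t hst e
      choose zs h1 h2 using fun j => mem_image.1 (hst j).1
      choose zt h3 h4 using fun j => mem_image.1 (hst j).2
      have g1 := fun j => mem_filter.1 (h1 j)
      have g3 := fun j => mem_filter.1 (h3 j)
      refine toN _ ε ε0.le fun k => ((h6 zs zt (fun j => ⟨(g1 j).1, (g3 j).1⟩)
        (fun j => ⟨(g1 j).2.trans (g1 0).2.symm, (g3 j).2.trans (g1 0).2.symm⟩)
        (fun v hv => ?_) k).congr (g1 0).2).eq fun x _ => ?_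
      · simp only [Finset.sum_apply]
        by_cases h2' : T.ty v ⊆ B0
        · exact sum_congr rfl fun j _ => by rw [(g1 j).2 v h2', (g3 j).2 v h2']
        · obtain ⟨j0, rfl⟩ := ex_el ((mW v).2 ⟨hv, h2'⟩)
          have := congrFun e j0
          simp only [Finset.sum_apply, ← h2, ← h4] at this
          exact this
      · simp only [Submodule.coe_sub, Submodule.coe_sum, Pi.sub_apply, Finset.sum_apply, ← h2, ← h4,
          pt_prj _ (g1 _).2, pt_prj _ (g3 _).2])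
  refine ⟨fun j => emb W ℝ (θ j), fun v => if h : v ∈ W then (Θ (W.equivFin ⟨v, h⟩)).1 else 0,
    fun j => (C j).1, fun v k => ?_, fun j => (C j).2, fun z hz z0 hz0 a1 a2 zz k1 k2 k => ?_⟩
  · by_cases h : v ∈ W
    · simp only [dif_pos h]
      exact (Θ _).2 k
    · simp only [dif_neg h]
      exact fm_const _ _ 0
  · obtain ⟨I, hI, hN⟩ := hfib _ (mem_image_of_mem prj (mem_filter.2 ⟨hz, a1⟩)) _
      (mem_image_of_mem prj (mem_filter.2 ⟨hz0, a2⟩)) zz
      ((hp _ _ (by positivity)).2 fun j => by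
        have e1 := ur z a1 j
        have e2 := ur z0 a2 j
        rw [hu] at e1 e2
        rw [cr_sub, map_sub, Pi.sub_apply, show U (cr (prj z)) j - U (cr (prj z0)) j =
          T.u (cz z) (el W j) - T.u (cz z0) (el W j) by linarith]
        exact k1 _)
      (fun j => by
        have := k2 j
        rw [sum_el] at this
        simpa only [emb_el, Pi.sub_apply, Int.cast_sub] using this)
    refine ⟨I.1 k, I.2 k, hI k, (ofN _ _ (by positivity) hN k).eq fun x _ => ?_⟩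
    have e : ∀ j, (if h : el W j ∈ W then (Θ (W.equivFin ⟨el W j, h⟩)).1 else 0) = (Θ j).1 :=
      fun j => by rw [dif_pos (el_mem W j)]; simp [el]
    beta_reduce
    rw [sum_el W]
    simp only [Submodule.coe_sub, Submodule.coe_sum, Submodule.coe_smul, Pi.sub_apply,
      Finset.sum_apply, Pi.smul_apply, smul_eq_mul, pt_prj _ a1, pt_prj _ a2, e, Int.cast_sub, prj]

end

end Vale.Agent.P057T.Gk
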