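import Vale.Agent.P057T.Gk.Glu
import Vale.Agent.P057T.Gk.Ibc

/-! Arcs and gluing for the row `BOG`. -/

set_option linter.all false

open Finset

namespace Vale.Agent.P057T.Gk

open TT

namespace BogF

variable {α ι κ : Type} [Fintype α] [DecidableEq α] [Fintype ι] [DecidableEq ι] {T : TT α ι}

theorem rnd {x : ℝ} {n : ℤ} (h : |x - n| ≤ 1 / 100) : round x = n := by
  obtain ⟨h1, h2⟩ := abs_le.1 h
  rw [round_eq, Int.floor_eq_iff]
  constructor <;> linarith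

theorem arcs (hT : T.Ok) {S : Finset α} {Ω : Finset (ι → ℤ)} {Y L : ℝ} (hΩ : T.Dn S Ω Y)
    (R M : ℕ) (hM : 1 ≤ M) (hL : (M : ℝ) ≤ Real.exp L) (φ : (ι → ℤ) → Fin R → ℝ) :
    ∃ Ω3 ⊆ Ω, T.Dn S Ω3 (Y + R * L) ∧ ∀ z ∈ Ω3, ∀ z0 ∈ Ω3, ∀ j,
      |φ z j - φ z0 j - ((⌊φ z j⌋ - ⌊φ z0 j⌋ : ℤ) : ℝ)| ≤ 1 / M := by
  classical
  have m0 : (0 : ℝ) < M := by exact_mod_cast hM
  haveI : Nonempty (Fin M) := ⟨⟨0, hM⟩⟩
  have ex : ∀ (z : ι → ℤ) (j : Fin R), ∃ k : Fin M,
      (k : ℝ) ≤ M * Int.fract (φ z j) ∧ M * Int.fract (φ z j) ≤ k + 1 := fun z j => by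
    have f0 : 0 ≤ (M : ℝ) * Int.fract (φ z j) := mul_nonneg m0.le (Int.fract_nonneg _)
    have f1 : (M : ℝ) * Int.fract (φ z j) < M := by
      have := mul_lt_mul_of_pos_left (Int.fract_lt_one (φ z j)) m0
      rwa [mul_one] at this
    exact ⟨⟨⌊(M : ℝ) * Int.fract (φ z j)⌋₊, (Nat.floor_lt f0).2 f1⟩, Nat.floor_le f0,
      (Nat.lt_floor_add_one _).le⟩
  choose kk hk using ex
  obtain ⟨k, -, hmax⟩ := exists_max_image (univ : Finset (Fin R → Fin M))
    (fun k => (Ω.filter fun z => kk z = k).card) univ_nonempty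
  have c1 : Ω.card ≤ M ^ R * (Ω.filter fun z => kk z = k).card := by
    rw [card_eq_sum_card_fiberwise (f := kk) (t := univ) fun _ _ => mem_coe.2 (mem_univ _)]
    refine (sum_le_card_nsmul _ _ _ fun k' hk' => hmax k' hk').trans (le_of_eq ?_)
    simp
  refine ⟨Ω.filter fun z => kk z = k, filter_subset _ _,
    ⟨(filter_subset _ _).trans hΩ.1, ?_⟩, fun z hz z0 hz0 j => ?_⟩
  · have c2 : (Ω.card : ℝ) ≤ (M : ℝ) ^ R * (Ω.filter fun z => kk z = k).card := by
      exact_mod_cast c1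
    have c3 : (M : ℝ) ^ R ≤ Real.exp (R * L) := by
      rw [Real.exp_nat_mul]
      exact pow_le_pow_left₀ m0.le hL R
    have c4 := (hΩ.2.trans c2).trans (mul_le_mul_of_nonneg_right c3 (Nat.cast_nonneg _))
    have e : Real.exp (-(Y + R * L)) * T.vol ∅ S =
        (Real.exp (R * L))⁻¹ * (Real.exp (-Y) * T.vol ∅ S) := by
      rw [neg_add, Real.exp_add, Real.exp_neg (R * L)]
      ring
    rw [e, inv_mul_le_iff₀ (Real.exp_pos _)]
    exact c4
  · have a1 := hk z j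
    have a2 := hk z0 j
    rw [(mem_filter.1 hz).2] at a1
    rw [(mem_filter.1 hz0).2] at a2
    have e : φ z j - φ z0 j - ((⌊φ z j⌋ - ⌊φ z0 j⌋ : ℤ) : ℝ) =
        Int.fract (φ z j) - Int.fract (φ z0 j) := by
      rw [Int.cast_sub]
      unfold Int.fract
      ring
    rw [e, le_div_iff₀ m0, ← abs_of_pos m0, ← abs_mul, abs_le]
    constructor <;> nlinarith [a1.1, a1.2, a2.1, a2.2]

theorem bfin (hT : T.Ok) {S F : Finset α} {c i : α} (hi : i ∈ S.erase c \ F) {f : κ → Fn ι}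
    {Ω : Finset (ι → ℤ)} (hΩ : Ω ⊆ T.pts univ 1) {R : ℕ} (A : (ι → ℤ) → κ → Fn ι) (C : κ → Fn ι)
    (θ : (ι → ℤ) → Fin R → ι → ℝ) (Θ : (ι → ℤ) → ι → κ → Fn ι)
    (Cc : (ι → ℤ) → Fin R → κ → Fn ι) {H H2 : ℝ}
    (hA : ∀ y k, T.Fm (S.erase i) (insert c F) (A y k))
    (hC : ∀ k, T.Fm S (insert i (insert c F)) (C k))
    (hΘ : ∀ b v k, T.Fm (S.erase i) (insert c F) (Θ b v k))
    (hCc : ∀ b j k, T.Fm (S.erase i) (insert c F) (Cc b j k))
    (h1 : ∀ z ∈ Ω, ∀ k, T.IB (S.erase c \ F) S c z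
      (fun x => f k x - A (T.res (S.erase c \ F) z) k x - C k x) H)
    (h2 : ∀ z ∈ Ω, ∀ z0 ∈ Ω, T.Ag ((S.erase c \ F).erase i) z z0 → ∃ zz : Fin R → ℤ,
      (∀ j, |∑ v ∈ T.fv ((S.erase c \ F).erase i) (S.erase c \ F),
        θ (T.res ((S.erase c \ F).erase i) z) j v * ((z v : ℝ) - z0 v) - zz j| ≤ 1 / 100) ∧
      ∀ k, T.IB ((S.erase c \ F).erase i) (S.erase i) c z
        (fun x => A (T.res (S.erase c \ F) z) k x - A (T.res (S.erase c \ F) z0) k x -
          ∑ v ∈ T.fv ((S.erase c \ F).erase i) (S.erase c \ F),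
            ((z v : ℝ) - z0 v) * Θ (T.res ((S.erase c \ F).erase i) z) v k x -
          ∑ j, (zz j : ℝ) * Cc (T.res ((S.erase c \ F).erase i) z) j k x) H2) :
    ∃ (a : κ → Fn ι) (cc : κ → Fin R → Fn ι) (g : Fin R → Fn ι), T.WD S c F i a cc g Ω ∧
      T.Rel S c 1 f (tw a cc g) Ω (H + H2) := by
  classical
  have nG : ∀ x ∈ insert c F, x ∉ S.erase c \ F := fun x hx hb => by
    rcases mem_insert.1 hx with rfl | hx
    · exact notMem_erase _ _ (mem_sdiff.1 hb).1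
    · exact (mem_sdiff.1 hb).2 hx
  generalize hB : S.erase c \ F = B at *
  have BS : B ⊆ S.erase c := hB ▸ sdiff_subset
  have BS' : B ⊆ S := BS.trans (erase_subset _ _)
  have B0 : B.erase i ⊆ B := erase_subset _ _
  have ex : ∀ b : ι → ℤ, ∃ w : ι → ℤ, (∃ z ∈ Ω, T.res (B.erase i) z = b) →
      w ∈ Ω ∧ T.res (B.erase i) w = b := fun b => by
    by_cases h : ∃ z ∈ Ω, T.res (B.erase i) z = b
    · obtain ⟨z, hz⟩ := h
      exact ⟨z, fun _ => hz⟩
    · exact ⟨0, fun k => absurd k h⟩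
  choose w hw using ex
  have co : ∀ (G : Finset α) (b : ι → ℤ), ∀ v ∈ T.fv (B.erase i) B,
      T.Fm B G (fun x => x v - (w b v : ℝ)) := fun G b v hv =>
    ((T.fm_coord v).mono (mem_fv.1 hv).1 subset_rfl).sub (fm_const _ _ _)
  have n1 : ∀ x ∈ ({i} : Finset α), x ∉ B.erase i := fun x hx => by
    rw [mem_singleton.1 hx]; exact notMem_erase i B
  have n2 : ∀ x ∈ insert c F, x ∉ B.erase i := fun x hx hb => nG x hx (B0 hb)
  have n3 : ∀ x ∈ insert i (insert c F), x ∉ B.erase i := fun x hx => by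
    rcases mem_insert.1 hx with rfl | hx
    · exact notMem_erase _ _
    · exact n2 x hx
  have up : ∀ φ : Fn ι, T.Fm (S.erase i) (insert c F) φ →
      T.Fm (S.erase i) (insert i (insert c F)) φ := fun φ h => h.ext fun x hx hs => by
    rcases mem_insert.1 hx with rfl | hx
    · exact absurd hs (notMem_erase _ _)
    · exact hx
  choose g g1 g2 using fun j => glu α ι T (B.erase i) B {i}
    (fun b x => ∑ v ∈ T.fv (B.erase i) B, θ b j v * (x v - (w b v : ℝ))) B0 n1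
    fun b => fm_sum _ fun v hv => (co _ b v hv).smul _
  choose cc c1 c2 using fun k j => glu α ι T (B.erase i) (S.erase i) (insert c F)
    (fun b => Cc b j k) (erase_subset_erase i BS') n2 fun b => hCc b j k
  choose a a1 a2 using fun k => glu α ι T (B.erase i) S (insert i (insert c F))
    (fun b x => A (T.res B (w b)) k x + C k x +
      ∑ v ∈ T.fv (B.erase i) B, (x v - (w b v : ℝ)) * Θ b v k x) (B0.trans BS') n3
    fun b => (((up _ (hA _ k)).mono (erase_subset _ _) subset_rfl).add (hC k)).add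
      (fm_sum _ fun v hv => Fm.mul (co _ b v hv) (up _ (hΘ b v k)) BS' (erase_subset _ _)
        fun x hx => by
          rcases mem_insert.1 hx with rfl | hx
          · exact Or.inr (notMem_erase _ _)
          · exact Or.inl (nG x hx))
  have key : ∀ z ∈ Ω, w (T.res (B.erase i) z) ∈ Ω ∧
      T.Ag (B.erase i) z (w (T.res (B.erase i) z)) := fun z hz => by
    obtain ⟨k1, k2⟩ := hw _ ⟨z, hz, rfl⟩
    refine ⟨k1, (ag_res _ z).symm.trans ?_⟩
    have k3 := ag_res (T := T) (B.erase i) (w (T.res (B.erase i) z))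
    rwa [k2] at k3
  have gv : ∀ (z : ι → ℤ) (x : ι → ℝ), T.Ag B x (cz z) → ∀ j, g j x =
      ∑ v ∈ T.fv (B.erase i) B, θ (T.res (B.erase i) z) j v *
        ((z v : ℝ) - w (T.res (B.erase i) z) v) := fun z x hx j => by
    rw [g2 j z x (hx.mono B0)]
    exact sum_congr rfl fun v hv => by rw [hx v (mem_fv.1 hv).1]; rfl
  refine ⟨a, cc, g, ⟨hB ▸ hi, a1, c1, hB ▸ g1, fun z hz j => ?_⟩, fun z hz k => ?_⟩
  · obtain ⟨zz, z1, -⟩ := h2 z hz _ (key z hz).1 (key z hz).2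
    have := z1 j
    rw [← gv z (cz z) (Ag.refl _ _) j] at this
    rw [rnd this]
    exact this
  · obtain ⟨zz, z1, z2⟩ := h2 z hz _ (key z hz).1 (key z hz).2
    have hb : ∀ v, |T.u (cz z) v| ≤ 1 := fun v => ((mem_pts hT).1 (hΩ hz)).2 v (subset_univ _)
    refine IB.eq (IB.add ((h1 z hz k).base hT BS fun v _ => hb v)
      (((z2 k).up (erase_subset _ _)).base hT (B0.trans BS) fun v _ => hb v)) fun x hx => ?_
    have e1 : ∀ j, cc k j x * (round (g j x) : ℝ) =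
        (zz j : ℝ) * Cc (T.res (B.erase i) z) j k x := fun j => by
      have := z1 j
      rw [← gv z x (hx.mono BS) j] at this
      rw [rnd this, c2 k j z x (hx.mono (B0.trans BS)), mul_comm]
    have e2 : ∑ v ∈ T.fv (B.erase i) B, (x v - (w (T.res (B.erase i) z) v : ℝ)) *
        Θ (T.res (B.erase i) z) v k x = ∑ v ∈ T.fv (B.erase i) B,
        ((z v : ℝ) - w (T.res (B.erase i) z) v) * Θ (T.res (B.erase i) z) v k x :=
      sum_congr rfl fun v hv => by rw [hx v ((mem_fv.1 hv).1.trans BS)]; rfl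
    show _ = ((1 : ℕ) : ℝ) * f k x - (a k x + ∑ j, cc k j x * (round (g j x) : ℝ))
    rw [sum_congr rfl fun j _ => e1 j, a2 k z x (hx.mono (B0.trans BS)), e2]
    push_cast
    ring

end BogF

end Vale.Agent.P057T.Gk
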