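import Vale.Agent.P057T.Gk.Bas3

/-! Counting in marginal towers: upper bounds, projections, the law of quadruples. -/

set_option linter.all false

open Finset

namespace Vale.Agent.P057T.Gk.TT

noncomputable section

variable {α ι : Type} [Fintype α] [DecidableEq α] [Fintype ι] [DecidableEq ι] {T : TT α ι}

theorem bx01 {σ : ℝ} (h : σ ≤ 1) : Bx (ι := ι) σ (fun _ => 0) (fun _ => 1) := fun _ =>
  ⟨h, by norm_num⟩

theorem ag_empty (hT : T.Ok) {R : Type} (x y : ι → R) : T.Ag ∅ x y := fun v hv =>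
  absurd (subset_empty.1 hv) (hT.ne v).ne_empty

theorem mem_fbx01 (hT : T.Ok) {S0 S : Finset α} {b z : ι → ℤ} (hz : z ∈ T.pts S 1)
    (hb : T.Ag S0 z b) : z ∈ T.fbx S0 S b (fun _ => 0) (fun _ => 1) := by
  classical
  unfold fbx
  rw [mem_filter]
  refine ⟨pts_mono hT (by norm_num) hz, hb, fun v hv => ?_⟩
  rw [sub_zero]
  exact ((mem_pts hT).1 hz).2 v (mem_filter.1 hv).2.1

theorem Ct.le51 {S0 S : Finset α} {b : ι → ℤ} {σ : ℝ} (hT : T.Ok) (h1 : σ ≤ 1)
    (h : T.Ct S0 S b σ (fun _ => 0) (fun _ => 1)) :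
    ((T.fbx S0 S b (fun _ => 0) (fun _ => 1)).card : ℝ) ≤ 2 * T.vol S0 S := by
  unfold Ct at h
  simp only [prod_const_one, mul_one] at h
  have := (abs_le.1 h).2
  nlinarith [vol_pos hT S0 S]

/-- the number of points of the unit cell -/
theorem card_pts_le {σ : ℝ} (hT : T.Ok) (hN : T.N0 σ) (h1 : σ ≤ 1) (S : Finset α) :
    ((T.pts S 1).card : ℝ) ≤ 2 * T.vol ∅ S := by
  refine le_trans ?_ (Ct.le51 hT h1 (hN.1.1 S _ _ (bx01 h1)))
  exact_mod_cast card_le_card fun z hz => mem_fbx01 hT hz (ag_empty hT _ _)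

open Classical in
/-- fibres of a map that determines the part in `S0` -/
theorem fib_le {σ : ℝ} (hT : T.Ok) (hN : T.N0 σ) (h1 : σ ≤ 1) {S0 S1 : Finset α} (hS : S0 ⊆ S1)
    {β : Type} (φ : (ι → ℤ) → β) (A : Finset (ι → ℤ)) (hA : A ⊆ T.pts S1 1)
    (hφ : ∀ z ∈ A, ∀ z' ∈ A, φ z = φ z' → T.Ag S0 z z') :
    (A.card : ℝ) ≤ 2 * T.vol S0 S1 * (A.image φ).card + σ * T.vol ∅ S1 := by
  let p : (ι → ℤ) → Prop := fun z => T.Ct S0 S1 z σ (fun _ => 0) (fun _ => 1)
  have hb := hN.2.1 S0 S1 S1 _ _ hS hS (bx01 h1) _ _ (bx01 h1)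
  simp only [prod_const_one, mul_one] at hb
  have h2 : ((A.filter fun z => ¬ p z).card : ℝ) ≤ σ * T.vol ∅ S1 := by
    refine le_trans ?_ hb
    apply Nat.cast_le.2
    apply card_le_card
    intro z hz
    rw [mem_filter] at hz ⊢
    exact ⟨mem_fbx01 hT (hA hz.1) (ag_empty hT _ _), hz.2⟩
  have h3 : ((A.filter p).card : ℝ) ≤ (A.image φ).card * (2 * T.vol S0 S1) := by
    rw [card_eq_sum_card_fiberwise (f := φ) (s := A.filter p) (t := A.image φ)
      (fun z hz => mem_coe.2 (mem_image_of_mem _ (mem_filter.1 (mem_coe.1 hz)).1))]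
    push_cast
    rw [← nsmul_eq_mul]
    apply sum_le_card_nsmul
    intro q _
    rcases ((A.filter p).filter fun z => φ z = q).eq_empty_or_nonempty with h | ⟨z0, hz0⟩
    · rw [h]
      simp only [card_empty, Nat.cast_zero]
      nlinarith [vol_pos hT S0 S1]
    · rw [mem_filter, mem_filter] at hz0
      refine le_trans ?_ (Ct.le51 hT h1 hz0.1.2)
      apply Nat.cast_le.2
      apply card_le_card
      intro z hz
      rw [mem_filter, mem_filter] at hz
      exact mem_fbx01 hT (hA hz.1.1) (hφ z hz.1.1 z0 hz0.1.1 (hz.2.trans hz0.2.symm))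
  have h4 : (A.card : ℝ) = (A.filter p).card + (A.filter fun z => ¬ p z).card := by
    exact_mod_cast (card_filter_add_card_filter_not p).symm
  linarith

open Classical in
/-- small fibres -/
theorem sparse {β γ : Type} (φ : γ → β) (A : Finset γ) (P : Finset β) {t : ℝ} (ht : 0 ≤ t)
    (hP : ∀ z ∈ A, φ z ∈ P) (hA : ∀ z ∈ A, ((A.filter fun z' => φ z' = φ z).card : ℝ) ≤ t) :
    (A.card : ℝ) ≤ P.card * t := by
  rw [card_eq_sum_card_fiberwise (f := φ) (s := A) (t := P) (fun z hz => mem_coe.2 (hP z (mem_coe.1 hz)))]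
  push_cast
  rw [← nsmul_eq_mul]
  apply sum_le_card_nsmul
  intro q _
  rcases (A.filter fun z => φ z = q).eq_empty_or_nonempty with h | ⟨z0, hz0⟩
  · rw [h]; simpa using ht
  · rw [mem_filter] at hz0
    rw [← hz0.2]
    exact hA z0 hz0.1

open Classical in
/-- large fibres -/
theorem dense_fib {β γ : Type} (φ : γ → β) (A : Finset γ) (P : Finset β) {t : ℝ}
    (hA : ∀ q ∈ P, t ≤ ((A.filter fun z => φ z = q).card : ℝ)) :
    P.card * t ≤ ((A.filter fun z => φ z ∈ P).card : ℝ) := by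
  rw [card_eq_sum_card_fiberwise (f := φ) (s := A.filter fun z => φ z ∈ P) (t := P)
    (fun z hz => mem_coe.2 (mem_filter.1 (mem_coe.1 hz)).2)]
  push_cast
  rw [← nsmul_eq_mul]
  apply card_nsmul_le_sum
  intro q hq
  refine (hA q hq).trans (le_of_eq ?_)
  congr 2
  ext z
  simp only [mem_filter]
  constructor
  · rintro ⟨a, b⟩
    exact ⟨⟨a, b ▸ hq⟩, b⟩
  · rintro ⟨⟨a, _⟩, b⟩
    exact ⟨a, b⟩

theorem exp_two (L : ℝ) : 4 * Real.exp (-(L + 2)) ≤ Real.exp (-L) := by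
  have h1 : Real.exp (-L) = Real.exp (-(L + 2)) * (Real.exp 1 * Real.exp 1) := by
    rw [← Real.exp_add, ← Real.exp_add]; congr 1; ring
  have h2 := Real.add_one_le_exp (1 : ℝ)
  have h3 : 4 ≤ Real.exp 1 * Real.exp 1 := by nlinarith
  rw [h1]
  nlinarith [Real.exp_pos (-(L + 2))]

theorem Dn.up51 {S : Finset α} {A : Finset (ι → ℤ)} {L L' : ℝ} (hT : T.Ok) (h : T.Dn S A L)
    (hL : L ≤ L') : T.Dn S A L' :=
  ⟨h.1, le_trans (mul_le_mul_of_nonneg_right (Real.exp_le_exp.2 (by linarith))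
    (vol_pos hT _ _).le) h.2⟩

open Classical in
/-- the image of a dense set is large -/
theorem img_ge {σ L : ℝ} (hT : T.Ok) (hN : T.N0 σ) (hL : 0 ≤ L) (hσ : σ ≤ Real.exp (-(L + 2)))
    {S0 S1 : Finset α} (hS : S0 ⊆ S1) {β : Type} (φ : (ι → ℤ) → β) {A : Finset (ι → ℤ)}
    (hA : T.Dn S1 A L) (hφ : ∀ z ∈ A, ∀ z' ∈ A, φ z = φ z' → T.Ag S0 z z') :
    Real.exp (-(L + 2)) * T.vol ∅ S0 ≤ (A.image φ).card := by
  have h1 : σ ≤ 1 := hσ.trans (Real.exp_le_one_iff.2 (by linarith))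
  have h2 := fib_le hT hN h1 hS φ A hA.1 hφ
  have h3 := hA.2
  have h4 := exp_two L
  have h5 := vol_mul hT (empty_subset S0) hS
  have p0 := vol_pos hT ∅ S0
  have p1 := vol_pos hT S0 S1
  have p2 := vol_pos hT ∅ S1
  have h6 : 2 * (Real.exp (-(L + 2)) * T.vol ∅ S0) * T.vol S0 S1 ≤
      2 * (A.image φ).card * T.vol S0 S1 := by
    have : σ * T.vol ∅ S1 ≤ Real.exp (-(L + 2)) * T.vol ∅ S1 :=
      mul_le_mul_of_nonneg_right hσ p2.le
    have e : 2 * (Real.exp (-(L + 2)) * T.vol ∅ S0) * T.vol S0 S1 =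
        2 * (Real.exp (-(L + 2)) * T.vol ∅ S1) := by rw [h5]; ring
    rw [e]
    nlinarith [Real.exp_pos (-(L + 2))]
  have := le_of_mul_le_mul_right h6 p1
  linarith

open Classical in
/-- projection of a dense set -/
theorem Dn.prj {σ L : ℝ} (hT : T.Ok) (hN : T.N0 σ) (hL : 0 ≤ L) (hσ : σ ≤ Real.exp (-(L + 2)))
    {S0 S1 : Finset α} (hS : S0 ⊆ S1) {A : Finset (ι → ℤ)} (hA : T.Dn S1 A L) :
    T.Dn S0 (A.image (T.res S0)) (L + 2) := by
  refine ⟨fun z hz => ?_, ?_⟩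
  · obtain ⟨x, hx, rfl⟩ := mem_image.1 hz
    exact res_mem hT (hA.1 hx) hS
  · convert img_ge hT hN hL hσ hS (T.res S0) hA fun z _ z' _ e =>
      (ag_res S0 z).symm.trans (e ▸ ag_res S0 z')

open Classical in
/-- pruning: remove the points whose image lies in a small set -/
theorem Dn.prune {σ L : ℝ} (hT : T.Ok) (hN : T.N0 σ) (hL : 0 ≤ L) (hσ : σ ≤ Real.exp (-(L + 2)))
    {S0 S1 : Finset α} (hS : S0 ⊆ S1) {β : Type} (φ : (ι → ℤ) → β) {A : Finset (ι → ℤ)}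
    (hA : T.Dn S1 A L) (hφ : ∀ z ∈ A, ∀ z' ∈ A, φ z = φ z' → T.Ag S0 z z') (p : (ι → ℤ) → Prop)
    (hp : (((A.filter fun z => ¬ p z).image φ).card : ℝ) ≤
      2 * Real.exp (-(L + 4)) * T.vol ∅ S0) : T.Dn S1 (A.filter p) (L + 2) := by
  have h1 : σ ≤ 1 := hσ.trans (Real.exp_le_one_iff.2 (by linarith))
  refine ⟨(filter_subset _ _).trans hA.1, ?_⟩
  have h2 := fib_le hT hN h1 hS φ (A.filter fun z => ¬ p z) ((filter_subset _ _).trans hA.1)
    fun z hz z' hz' => hφ z (mem_filter.1 hz).1 z' (mem_filter.1 hz').1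
  have h3 := hA.2
  have h4 := exp_two L
  have h4' := exp_two (L + 2)
  have e4 : L + 2 + 2 = L + 4 := by ring
  rw [e4] at h4'
  have h5 := vol_mul hT (empty_subset S0) hS
  have p0 := vol_pos hT ∅ S0
  have p1 := vol_pos hT S0 S1
  have p2 := vol_pos hT ∅ S1
  have h6 : (A.card : ℝ) = (A.filter p).card + (A.filter fun z => ¬ p z).card := by
    exact_mod_cast (card_filter_add_card_filter_not p).symm
  have h7 : 2 * T.vol S0 S1 * (((A.filter fun z => ¬ p z).image φ).card : ℝ) ≤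
      4 * Real.exp (-(L + 4)) * T.vol ∅ S1 := by
    have := mul_le_mul_of_nonneg_left hp (by linarith : 0 ≤ 2 * T.vol S0 S1)
    rw [h5]
    linarith
  have h8 : σ * T.vol ∅ S1 ≤ Real.exp (-(L + 2)) * T.vol ∅ S1 :=
    mul_le_mul_of_nonneg_right hσ p2.le
  have h9 := mul_le_mul_of_nonneg_right h4 p2.le
  have h10 := mul_le_mul_of_nonneg_right h4' p2.le
  nlinarith [mul_pos (Real.exp_pos (-(L + 2))) p2]

/-! ### the law of quadruples and the window of the first vertex -/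

section
variable {i : α} {m : ℕ} {cen : T.CV i (Fin 2) → ℝ}

theorem ql_pos (hm : 1 ≤ m) (x : T.CV i (Fin 2)) : 0 < T.ql i m x := by
  have : (0 : ℝ) < m := by exact_mod_cast hm
  rcases x with v | p
  · simp only [ql, Sum.elim_inl]
    split_ifs <;> positivity
  · simp only [ql, Sum.elim_inr]
    split_ifs <;> positivity

theorem ql_ge (hm : 1 ≤ m) {Z : ℝ} (hZ : (m : ℝ) ≤ Real.exp Z) (x : T.CV i (Fin 2)) :
    Real.exp (-(3 * Z)) ≤ T.ql i m x := by
  have h1 : (1 : ℝ) ≤ m := by exact_mod_cast hm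
  have h3 : Real.exp (-(3 * Z)) ≤ ((m : ℝ) ^ 3)⁻¹ := by
    rw [Real.exp_neg]
    apply inv_anti₀ (by positivity)
    have : Real.exp (3 * Z) = Real.exp Z ^ 3 := by
      rw [← Real.exp_nat_mul]; norm_num
    rw [this]
    exact pow_le_pow_left₀ (by positivity) hZ 3
  have h4 : ∀ n ≤ 3, ((m : ℝ) ^ 3)⁻¹ ≤ ((m : ℝ) ^ n)⁻¹ := fun n hn =>
    inv_anti₀ (by positivity) (pow_le_pow_right₀ h1 hn)
  rcases x with v | p
  · simp only [ql, Sum.elim_inl]
    split_ifs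
    · exact h3
    · simpa using h3.trans (h4 0 (by norm_num))
  · simp only [ql, Sum.elim_inr]
    split_ifs
    · exact h3.trans (h4 2 (by norm_num))
    · simpa using h3.trans (h4 1 (by norm_num))

theorem ok_qt (hT : T.Ok) (hm : 1 ≤ m) : (T.qt i m cen).Ok := (hT.cpy i _).sc (ql_pos hm) _

theorem ok_win (hT : T.Ok) (hm : 1 ≤ m) : (T.win i m cen).Ok :=
  hT.sc (fun v => ql_pos (T := T) (i := i) hm (Sum.inl v)) _

theorem sub_qt (hm : 1 ≤ m) {Z : ℝ} (hZ : (m : ℝ) ≤ Real.exp Z) (hc : T.Cen i m cen) :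
    (T.cpy i (Fin 2)).Sub (T.qt i m cen) (3 * Z) :=
  ⟨_, _, fun x => ⟨ql_ge hm hZ x, hc x⟩, rfl⟩

theorem sub_win (hm : 1 ≤ m) {Z : ℝ} (hZ : (m : ℝ) ≤ Real.exp Z) (hc : T.Cen i m cen) :
    T.Sub (T.win i m cen) (3 * Z) :=
  ⟨_, _, fun v => ⟨ql_ge (T := T) (i := i) hm hZ (Sum.inl v), hc (Sum.inl v)⟩, rfl⟩

theorem bs_mem (hT : T.Ok) (hm : 1 ≤ m) {S : Finset (α ⊕ Fin 2)} {Z : T.CV i (Fin 2) → ℤ}
    (hZ : Z ∈ (T.qt i m cen).pts S 1) : T.bs i Z ∈ (T.win i m cen).pts S.toLeft 1 := by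
  rw [mem_pts (ok_qt hT hm)] at hZ
  rw [mem_pts (ok_win hT hm)]
  exact ⟨fun v hv => hZ.1 (Sum.inl v) fun h => hv ((ty_inl_sub (T := T) (i := i) (κ := Fin 2)).1 h),
    fun v hv => hZ.2 (Sum.inl v) ((ty_inl_sub (T := T) (i := i) (κ := Fin 2)).2 hv)⟩

theorem inl_sub {P : Finset α} {Q : Finset (Fin 2)} {v : ι} :
    (T.qt i m cen).ty (Sum.inl v) ⊆ P.disjSum Q ↔ T.ty v ⊆ P := by
  have := ty_inl_sub (T := T) (i := i) (κ := Fin 2) (v := v) (S := P.disjSum Q)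
  rw [toLeft_disjSum] at this
  exact this

theorem inr_not {P : Finset α} {p : Fin 2 × {v : ι // i ∈ T.ty v}} :
    ¬ (T.qt i m cen).ty (Sum.inr p) ⊆ P.disjSum ∅ := fun h => by
  have := ((ty_inr_sub (T := T) (i := i) (κ := Fin 2)).1 h).2
  simp at this

theorem vol_qt (P : Finset α) :
    (T.qt i m cen).vol ∅ (P.disjSum ∅) = (T.win i m cen).vol ∅ P := by
  have e0 : (∅ : Finset (α ⊕ Fin 2)) = (∅ : Finset α).disjSum ∅ := by simp
  unfold vol
  symm
  refine prod_bij (fun v _ => Sum.inl v) ?_ ?_ ?_ ?_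
  · intro v hv
    simp only [fv, mem_filter, mem_univ, true_and] at hv ⊢
    refine ⟨inl_sub.2 hv.1, fun h => hv.2 ?_⟩
    rw [e0] at h
    exact (inl_sub (T := T) (i := i) (m := m) (cen := cen)).1 h
  · intro a _ b _ h
    exact Sum.inl_injective h
  · rintro (v | p) hv
    · simp only [fv, mem_filter, mem_univ, true_and] at hv
      refine ⟨v, ?_, rfl⟩
      simp only [fv, mem_filter, mem_univ, true_and]
      refine ⟨(inl_sub (T := T) (i := i) (m := m) (cen := cen)).1 hv.1, fun h => hv.2 ?_⟩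
      rw [e0]
      exact inl_sub.2 h
    · simp only [fv, mem_filter, mem_univ, true_and] at hv
      exact absurd hv.1 inr_not
  · intro v _
    rfl

theorem ag_of_bs {R : Type} [CommRing R] {P : Finset α} {Z Z' : T.CV i (Fin 2) → R}
    (h : T.Ag P (T.bs i Z) (T.bs i Z')) : (T.qt i m cen).Ag (P.disjSum ∅) Z Z' := by
  rintro (v | p) hv
  · exact h v (inl_sub.1 hv)
  · exact absurd hv inr_not

theorem ex_toLeft (S : Finset α) : (ex S).toLeft = S := by simp [ex]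

theorem ex_erase (S : Finset α) (c : α) : (ex S).erase (Sum.inl c) = ex (S.erase c) := by
  ext (a | k) <;> simp [ex]

theorem ex_mono {S S' : Finset α} (h : S ⊆ S') : ex S ⊆ ex S' := disjSum_mono h subset_rfl

theorem sub_ex (S : Finset α) : S.disjSum (∅ : Finset (Fin 2)) ⊆ ex S :=
  disjSum_mono subset_rfl (empty_subset _)

theorem inl_mem_ex {S : Finset α} {c : α} : Sum.inl c ∈ ex S ↔ c ∈ S := by simp [ex]

theorem inr_mem_ex {S : Finset α} (k : Fin 2) : Sum.inr k ∈ ex S := by simp [ex]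

end

end

end Vale.Agent.P057T.Gk.TT
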