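import Vale.Agent.P057T.Gk.Num
import Vale.Agent.P057T.Gk.Ibc

/-! Counting in typical towers: projections and popular fibres. -/

set_option linter.all false

open Finset

namespace Vale.Agent.P057T.Gk

namespace TT

variable {α ι : Type} [Fintype α] [DecidableEq α] [Fintype ι] [DecidableEq ι] {T : TT α ι}
  {S0 S1 S : Finset α} {σ : ℝ}

theorem bx_one (hσ : σ ≤ 1) : Bx σ (fun _ : ι => 0) (fun _ => 1) :=
  fun _ => ⟨hσ, by norm_num⟩

theorem mem_fbx_one (hT : T.Ok) {b z : ι → ℤ} (hz : z ∈ T.pts S 1) (hb : T.Ag S0 z b) :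
    z ∈ T.fbx S0 S b (fun _ => 0) (fun _ => 1) := by
  unfold fbx
  simp only [mem_filter]
  refine ⟨pts_mono hT (by norm_num) hz, hb, fun v hv => ?_⟩
  rw [sub_zero]
  exact ((mem_pts hT).1 hz).2 v (mem_fv.1 hv).1

theorem Ok.ag_empty (hT : T.Ok) {R : Type} (x y : ι → R) : T.Ag ∅ x y := fun v hv =>
  absurd (subset_empty.1 hv) (hT.ne v).ne_empty

theorem Ct.le (hT : T.Ok) (hσ : σ ≤ 1) {b : ι → ℤ}
    (h : T.Ct S0 S b σ (fun _ => 0) (fun _ => 1)) {A : Finset (ι → ℤ)}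
    (hA : ∀ z ∈ A, z ∈ T.pts S 1 ∧ T.Ag S0 z b) : (A.card : ℝ) ≤ 2 * T.vol S0 S := by
  have h1 : (A.card : ℝ) ≤ (T.fbx S0 S b (fun _ => 0) (fun _ => 1)).card := by
    exact_mod_cast card_le_card fun z hz => mem_fbx_one hT (hA z hz).1 (hA z hz).2
  unfold Ct at h
  rw [prod_const_one, mul_one] at h
  have h2 := (abs_le.1 h).2
  have h3 := vol_pos hT S0 S
  nlinarith

theorem G0.card_pts (hT : T.Ok) (hσ : σ ≤ 1) (h : T.G0 σ) (S : Finset α) :
    ((T.pts S 1).card : ℝ) ≤ 2 * T.vol ∅ S :=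
  (h.1 S _ _ (bx_one hσ)).le hT hσ fun z hz => ⟨hz, hT.ag_empty _ _⟩

open Classical in
theorem Mo.one (hT : T.Ok) (hσ : σ ≤ 1) {p : (ι → ℤ) → Prop} (h : T.Mo S1 σ p)
    {A : Finset (ι → ℤ)} (hA : A ⊆ T.pts S1 1) :
    ((A.filter fun z => ¬ p z).card : ℝ) ≤ σ * T.vol ∅ S1 := by
  have h1 := h _ _ (bx_one hσ)
  rw [prod_const_one, mul_one] at h1
  refine le_trans ?_ h1
  exact_mod_cast card_le_card fun z hz => mem_filter.2
    ⟨mem_fbx_one hT (hA (mem_filter.1 hz).1) (hT.ag_empty _ _), (mem_filter.1 hz).2⟩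

/-- counting through a projection -/
theorem N0.cnt (hT : T.Ok) (hσ : σ ≤ 1) (h : T.N0 σ) (h0 : S0 ⊆ S) {Ω A : Finset (ι → ℤ)}
    (hΩ : Ω ⊆ T.pts S 1) (hA : ∀ z ∈ Ω, T.res S0 z ∈ A) :
    (Ω.card : ℝ) ≤ σ * T.vol ∅ S + A.card * (2 * T.vol S0 S) := by
  classical
  have h1 := (h.2.1 S0 S S _ _ h0 h0 (bx_one hσ)).one hT hσ hΩ
  have h2 := card_filter_add_card_filter_not (s := Ω)
    (fun z => T.Ct S0 S z σ (fun _ => 0) (fun _ => 1))
  have h3 : ((Ω.filter fun z => T.Ct S0 S z σ (fun _ => 0) (fun _ => 1)).card : ℝ) ≤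
      A.card * (2 * T.vol S0 S) := by
    rw [card_eq_sum_card_fiberwise (f := T.res S0) (t := A)
      fun z hz => hA z (mem_filter.1 hz).1, Nat.cast_sum, ← nsmul_eq_mul]
    refine sum_le_card_nsmul _ _ _ fun b _ => ?_
    rcases ((Ω.filter fun z => T.Ct S0 S z σ (fun _ => 0) (fun _ => 1)).filter
      fun z => T.res S0 z = b).eq_empty_or_nonempty with e | ⟨z0, hz0⟩
    · rw [e, card_empty, Nat.cast_zero]
      exact (mul_pos two_pos (vol_pos hT _ _)).le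
    · obtain ⟨k1, k2⟩ := mem_filter.1 hz0
      refine (mem_filter.1 k1).2.le hT hσ fun z hz => ?_
      obtain ⟨j1, j2⟩ := mem_filter.1 hz
      refine ⟨hΩ (mem_filter.1 j1).1, (ag_res S0 z).symm.trans ?_⟩
      rw [j2, ← k2]
      exact ag_res S0 z0
  have h4 : (Ω.card : ℝ) = ((Ω.filter fun z => T.Ct S0 S z σ (fun _ => 0) (fun _ => 1)).card : ℝ) +
      ((Ω.filter fun z => ¬ T.Ct S0 S z σ (fun _ => 0) (fun _ => 1)).card : ℝ) := by
    exact_mod_cast h2.symm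
  have h5 : ((Ω.filter fun z => ¬ T.Ct S0 S z σ (fun _ => 0) (fun _ => 1)).card : ℝ) ≤
      σ * T.vol ∅ S := by
    refine le_trans (le_of_eq ?_) h1
    congr 2
  linarith

theorem exp_neg_two : Real.exp (-2) ≤ 1 / 4 := by
  have h := Real.add_one_le_exp (1 : ℝ)
  have e : Real.exp (-2) = (Real.exp 1 * Real.exp 1)⁻¹ := by
    rw [← Real.exp_add, ← Real.exp_neg]; norm_num
  rw [e, one_div]
  exact inv_anti₀ (by norm_num) (by nlinarith)

theorem exp_neg_one : Real.exp (-1) ≤ 1 / 2 := by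
  have h := Real.add_one_le_exp (1 : ℝ)
  rw [Real.exp_neg, one_div]
  exact inv_anti₀ (by norm_num) (by linarith)

/-- the projection of a dense set is dense -/
theorem N0.proj (hT : T.Ok) (hσ : σ ≤ 1) (h : T.N0 σ) (h0 : S0 ⊆ S) {Ω : Finset (ι → ℤ)} {L : ℝ}
    (hΩ : T.Dn S Ω L) (hL : σ ≤ Real.exp (-L) / 2) : T.Dn S0 (Ω.image (T.res S0)) (L + 2) := by
  refine ⟨fun b hb => ?_, ?_⟩
  · obtain ⟨z, hz, rfl⟩ := mem_image.1 hb
    exact res_mem hT (hΩ.1 hz) h0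
  · have h1 := h.cnt hT hσ h0 hΩ.1 fun z hz => mem_image_of_mem (T.res S0) hz
    have h2 := hΩ.2
    rw [vol_mul hT (empty_subset S0) h0] at h1 h2
    have p1 := vol_pos hT ∅ S0
    have p2 := vol_pos hT S0 S
    have p3 := Real.exp_pos (-L)
    rw [neg_add, Real.exp_add]
    have h3 : Real.exp (-L) / 4 * T.vol ∅ S0 ≤ ((Ω.image (T.res S0)).card : ℝ) := by
      refine le_of_mul_le_mul_right ?_ p2
      have := mul_le_mul_of_nonneg_right hL (mul_pos p1 p2).le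
      nlinarith
    have h4 := mul_le_mul_of_nonneg_left exp_neg_two p3.le
    have h5 := mul_le_mul_of_nonneg_right h4 p1.le
    linarith

open Classical in
/-- few points have an unpopular fibre -/
theorem G0.unpop (hT : T.Ok) (hσ : σ ≤ 1) (h : T.G0 σ) (h0 : S0 ⊆ S) {A : Finset (ι → ℤ)}
    (hA : A ⊆ T.pts S 1) {η : ℝ} (hη : 0 ≤ η) :
    ((A.filter fun x => ((A.filter fun y => T.Ag S0 y x).card : ℝ) < η * T.vol S0 S).card : ℝ) ≤
      2 * η * T.vol ∅ S := by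
  rw [card_eq_sum_card_fiberwise (f := T.res S0) (t := T.pts S0 1)
    fun z hz => res_mem hT (hA (mem_filter.1 hz).1) h0, Nat.cast_sum]
  have p2 := vol_pos hT S0 S
  refine (sum_le_card_nsmul _ _ (η * T.vol S0 S) fun b _ => ?_).trans ?_
  · rcases ((A.filter fun x => ((A.filter fun y => T.Ag S0 y x).card : ℝ) < η * T.vol S0 S).filter
      fun z => T.res S0 z = b).eq_empty_or_nonempty with e | ⟨z0, hz0⟩
    · rw [e, card_empty, Nat.cast_zero]
      positivity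
    · obtain ⟨k1, k2⟩ := mem_filter.1 hz0
      refine le_trans ?_ (mem_filter.1 k1).2.le
      exact_mod_cast card_le_card fun z hz => by
        obtain ⟨j1, j2⟩ := mem_filter.1 hz
        refine mem_filter.2 ⟨(mem_filter.1 j1).1, (ag_res S0 z).symm.trans ?_⟩
        rw [j2, ← k2]
        exact ag_res S0 z0
  · rw [nsmul_eq_mul, vol_mul hT (empty_subset S0) h0]
    have := mul_le_mul_of_nonneg_right (h.card_pts hT hσ S0) (mul_nonneg hη p2.le)
    linarith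

open Classical in
/-- prune the points whose projection to `S1` has an unpopular fibre over `S0` -/
theorem N0.prune (hT : T.Ok) (hσ : σ ≤ 1) (h : T.N0 σ) (h0 : S0 ⊆ S1) (h1 : S1 ⊆ S)
    {Ω : Finset (ι → ℤ)} {L : ℝ} (hΩ : T.Dn S Ω L) (hL : σ ≤ Real.exp (-L) / 4) :
    ∃ Ω1 ⊆ Ω, T.Dn S Ω1 (L + 1) ∧ ∀ z ∈ Ω1, Real.exp (-(L + 4)) * T.vol S0 S1 ≤
      (((Ω.image (T.res S1)).filter fun y => T.Ag S0 y z).card : ℝ) := by
  set A := Ω.image (T.res S1) with hA
  have hAs : A ⊆ T.pts S1 1 := fun b hb => by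
    obtain ⟨z, hz, rfl⟩ := mem_image.1 hb
    exact res_mem hT (hΩ.1 hz) h1
  set η := Real.exp (-(L + 4)) with hη
  refine ⟨Ω.filter fun z => η * T.vol S0 S1 ≤ ((A.filter fun y => T.Ag S0 y z).card : ℝ),
    filter_subset _ _, ⟨(filter_subset _ _).trans hΩ.1, ?_⟩, fun z hz => (mem_filter.1 hz).2⟩
  have k1 := h.1.unpop hT hσ h0 hAs (Real.exp_pos (-(L + 4))).le
  have k2 := h.cnt hT hσ h1 (Ω := Ω.filter fun z =>
      ¬ η * T.vol S0 S1 ≤ ((A.filter fun y => T.Ag S0 y z).card : ℝ))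
    (A := A.filter fun x => ((A.filter fun y => T.Ag S0 y x).card : ℝ) < η * T.vol S0 S1)
    ((filter_subset _ _).trans hΩ.1) fun z hz => by
      obtain ⟨j1, j2⟩ := mem_filter.1 hz
      refine mem_filter.2 ⟨mem_image_of_mem _ j1, lt_of_le_of_lt ?_ (not_le.1 j2)⟩
      refine Nat.cast_le.2 (card_le_card fun y hy => ?_)
      obtain ⟨i1, i2⟩ := mem_filter.1 hy
      exact mem_filter.2 ⟨i1, Ag.trans i2 ((ag_res S1 z).mono h0)⟩
  have k3 := card_filter_add_card_filter_not (s := Ω)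
    (fun z => η * T.vol S0 S1 ≤ ((A.filter fun y => T.Ag S0 y z).card : ℝ))
  have k4 : (Ω.card : ℝ) = ((Ω.filter fun z =>
      η * T.vol S0 S1 ≤ ((A.filter fun y => T.Ag S0 y z).card : ℝ)).card : ℝ) +
      ((Ω.filter fun z =>
      ¬ η * T.vol S0 S1 ≤ ((A.filter fun y => T.Ag S0 y z).card : ℝ)).card : ℝ) := by
    exact_mod_cast k3.symm
  have k5 := hΩ.2
  have p1 := vol_pos hT ∅ S1
  have p2 := vol_pos hT S1 S
  have p3 := Real.exp_pos (-L)
  have p4 := vol_pos hT ∅ S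
  have k6 := mul_le_mul_of_nonneg_right k1 (mul_pos two_pos p2).le
  have e1 : 2 * η * T.vol ∅ S1 * (2 * T.vol S1 S) = 4 * η * T.vol ∅ S := by
    rw [vol_mul hT (empty_subset S1) h1]; ring
  have e2 : 4 * η ≤ Real.exp (-L) / 4 := by
    have : η = Real.exp (-L) * (Real.exp (-2) * Real.exp (-2)) := by
      rw [hη, ← Real.exp_add, ← Real.exp_add]; congr 1; ring
    have q1 := exp_neg_two
    have q2 := Real.exp_pos (-2)
    have q3 : Real.exp (-2) * Real.exp (-2) ≤ 1 / 16 := by nlinarith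
    rw [this]
    nlinarith
  have e3 : Real.exp (-(L + 1)) ≤ Real.exp (-L) / 2 := by
    rw [neg_add, Real.exp_add]
    have := exp_neg_one
    nlinarith
  have q1 := mul_le_mul_of_nonneg_right e2 p4.le
  have q2 := mul_le_mul_of_nonneg_right e3 p4.le
  have q3 := mul_le_mul_of_nonneg_right hL p4.le
  rw [← hη] at k6
  linarith

end TT

end Vale.Agent.P057T.Gk
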