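import Mathlib

/-! Counting quadruples: two Cauchy-Schwarz steps, and cells of an interval. -/

set_option linter.all false

open Finset

namespace Vale.Agent.P057T.Gk.CsH46

noncomputable section

theorem cs {α β : Type} [DecidableEq α] [DecidableEq β] (s : Finset α) (f : α → β) :
    (s.card : ℝ) ^ 2 ≤
      (s.image f).card * (((s ×ˢ s).filter (fun p => f p.1 = f p.2)).card : ℝ) := by
  have h1 : (s.card : ℝ) = ∑ b ∈ s.image f, ((s.filter (fun a => f a = b)).card : ℝ) := by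
    exact_mod_cast card_eq_sum_card_image f s
  have h2 : (((s ×ˢ s).filter (fun p => f p.1 = f p.2)).card : ℝ) =
      ∑ b ∈ s.image f, ((s.filter (fun a => f a = b)).card : ℝ) ^ 2 := by
    have h3 := card_eq_sum_card_fiberwise (f := fun p : α × α => f p.1)
      (s := (s ×ˢ s).filter (fun p => f p.1 = f p.2)) (t := s.image f) (fun p hp => by
        have := mem_filter.1 (mem_coe.1 hp)
        exact mem_coe.2 (mem_image_of_mem _ (mem_product.1 this.1).1))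
    rw [h3]
    push_cast
    refine sum_congr rfl fun b _ => ?_
    rw [sq, ← Nat.cast_mul, ← card_product]
    congr 2
    ext p
    simp only [mem_filter, mem_product]
    constructor
    · rintro ⟨⟨⟨a1, a2⟩, a3⟩, a4⟩
      exact ⟨⟨a1, a4⟩, a2, a3 ▸ a4⟩
    · rintro ⟨⟨a1, a2⟩, a3, a4⟩
      exact ⟨⟨⟨a1, a3⟩, a2.trans a4.symm⟩, a2⟩
  rw [h2]
  conv_lhs => rw [h1]
  exact sq_sum_le_card_mul_sum_sq

theorem fib_le {α β : Type} [DecidableEq β] (s : Finset α) (f : α → β) (K : ℝ)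
    (h : ∀ b ∈ s.image f, ((s.filter (fun a => f a = b)).card : ℝ) ≤ K) :
    (s.card : ℝ) ≤ (s.image f).card * K := by
  have h1 : (s.card : ℝ) = ∑ b ∈ s.image f, ((s.filter (fun a => f a = b)).card : ℝ) := by
    exact_mod_cast card_eq_sum_card_image f s
  rw [h1, ← nsmul_eq_mul]
  exact sum_le_card_nsmul _ _ _ h

theorem quad {G B1 B2 B3 : Type} [AddCommGroup G] [DecidableEq G] [DecidableEq B1]
    [DecidableEq B2] [DecidableEq B3] (Ω : Finset G) (κ1 : G → B1) (κ2 : G → B2) (κ3 : G → B3)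
    (t3 : Finset B3) (n1 n2 K : ℝ) (hK : 0 ≤ K) (ht : t3.Nonempty) (h3 : ∀ z ∈ Ω, κ3 z ∈ t3)
    (h1 : ((Ω.image κ1).card : ℝ) ≤ n1) (h2 : ((Ω.image κ2).card : ℝ) ≤ n2)
    (hH : ∀ y ∈ Ω, ∃ H : Finset G, (H.card : ℝ) ≤ K ∧
      ∀ z ∈ Ω, ∀ z' ∈ Ω, κ2 z = κ2 y → κ1 z = κ1 z' → z' - z ∈ H) :
    ∃ t ∈ t3, ∃ Q : Finset (G × G × G),
      (Ω.card : ℝ) ^ 4 ≤ n1 ^ 2 * (n2 * K) * t3.card * Q.card ∧
      ∀ q ∈ Q, q.1 ∈ Ω ∧ q.2.1 ∈ Ω ∧ q.2.2 ∈ Ω ∧ q.2.1 + q.2.2 - q.1 ∈ Ω ∧ κ3 q.1 = t ∧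
        κ2 q.1 = κ2 q.2.1 ∧ κ1 q.1 = κ1 q.2.2 := by
  set P := (Ω ×ˢ Ω).filter (fun p => κ1 p.1 = κ1 p.2) with hP
  have mP : ∀ p ∈ P, p.1 ∈ Ω ∧ p.2 ∈ Ω ∧ κ1 p.1 = κ1 p.2 := fun p hp =>
    ⟨(mem_product.1 (mem_filter.1 hp).1).1, (mem_product.1 (mem_filter.1 hp).1).2,
      (mem_filter.1 hp).2⟩
  have a1 : (Ω.card : ℝ) ^ 2 ≤ n1 * P.card :=
    (cs Ω κ1).trans (mul_le_mul_of_nonneg_right h1 (Nat.cast_nonneg _))
  set π : G × G → B2 × G := fun p => (κ2 p.1, p.2 - p.1) with hπ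
  have a2 : ((P.image π).card : ℝ) ≤ n2 * K := by
    refine (fib_le (P.image π) Prod.fst K fun b hb => ?_).trans
      (mul_le_mul_of_nonneg_right (le_trans ?_ h2) hK)
    · obtain ⟨x, hx, rfl⟩ := mem_image.1 hb
      obtain ⟨p, hp, rfl⟩ := mem_image.1 hx
      obtain ⟨H, hH1, hH2⟩ := hH p.1 (mP p hp).1
      refine le_trans ?_ hH1
      refine Nat.cast_le.2 (card_le_card_of_injOn Prod.snd (fun x hx => ?_) fun x hx y hy e => ?_)
      · obtain ⟨hx1, hx2⟩ := mem_filter.1 (mem_coe.1 hx)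
        obtain ⟨p', hp', rfl⟩ := mem_image.1 hx1
        exact mem_coe.2 (hH2 _ (mP p' hp').1 _ (mP p' hp').2.1 hx2 (mP p' hp').2.2)
      · exact Prod.ext ((mem_filter.1 (mem_coe.1 hx)).2.trans
          (mem_filter.1 (mem_coe.1 hy)).2.symm) e
    · refine Nat.cast_le.2 (card_le_card fun b hb => ?_)
      obtain ⟨x, hx, rfl⟩ := mem_image.1 hb
      obtain ⟨p, hp, rfl⟩ := mem_image.1 hx
      exact mem_image_of_mem _ (mP p hp).1
  set R := (P ×ˢ P).filter (fun p => π p.1 = π p.2) with hR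
  have mR : ∀ r ∈ R, r.1 ∈ P ∧ r.2 ∈ P ∧ κ2 r.1.1 = κ2 r.2.1 ∧ r.1.2 - r.1.1 = r.2.2 - r.2.1 :=
    fun r hr => ⟨(mem_product.1 (mem_filter.1 hr).1).1, (mem_product.1 (mem_filter.1 hr).1).2,
      congrArg Prod.fst (mem_filter.1 hr).2, congrArg Prod.snd (mem_filter.1 hr).2⟩
  have a3 : (P.card : ℝ) ^ 2 ≤ n2 * K * R.card :=
    (cs P π).trans (mul_le_mul_of_nonneg_right a2 (Nat.cast_nonneg _))
  have hc : (0 : ℝ) < t3.card := by exact_mod_cast ht.card_pos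
  obtain ⟨t, ht1, ht2⟩ := exists_le_card_fiber_of_nsmul_le_card_of_maps_to
    (s := R) (t := t3) (f := fun r => κ3 r.1.1) (b := (R.card : ℝ) / t3.card)
    (fun r hr => h3 _ (mP _ (mR r hr).1).1) ht (by
      rw [nsmul_eq_mul, mul_div_cancel₀ _ hc.ne'])
  rw [div_le_iff₀ hc] at ht2
  refine ⟨t, ht1, (R.filter (fun r => κ3 r.1.1 = t)).image fun r => (r.1.1, r.2.1, r.1.2), ?_, ?_⟩
  · rw [card_image_of_injOn]
    · have hn1 : 0 ≤ n1 := (Nat.cast_nonneg _).trans h1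
      have hn2 : 0 ≤ n2 := (Nat.cast_nonneg _).trans h2
      calc (Ω.card : ℝ) ^ 4 = ((Ω.card : ℝ) ^ 2) ^ 2 := by ring
        _ ≤ (n1 * P.card) ^ 2 := pow_le_pow_left₀ (by positivity) a1 2
        _ = n1 ^ 2 * (P.card : ℝ) ^ 2 := by ring
        _ ≤ n1 ^ 2 * (n2 * K * R.card) := by gcongr
        _ ≤ n1 ^ 2 * (n2 * K * (((R.filter (fun r => κ3 r.1.1 = t)).card : ℝ) * t3.card)) := by
            gcongr
        _ = _ := by ring
    · intro x hx y hy e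
      have e1 : x.1.1 = y.1.1 := congrArg (fun u : G × G × G => u.1) e
      have e2 : x.2.1 = y.2.1 := congrArg (fun u => u.2.1) e
      have e3 : x.1.2 = y.1.2 := congrArg (fun u => u.2.2) e
      have f1 := (mR x (mem_filter.1 (mem_coe.1 hx)).1).2.2.2
      have f2 := (mR y (mem_filter.1 (mem_coe.1 hy)).1).2.2.2
      refine Prod.ext (Prod.ext e1 e3) (Prod.ext e2 ?_)
      rw [e1, e2, e3, f2] at f1
      exact (sub_left_inj.1 f1).symm
  · intro q hq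
    obtain ⟨r, hr, rfl⟩ := mem_image.1 hq
    obtain ⟨hr1, hr2⟩ := mem_filter.1 hr
    obtain ⟨b1, b2, b3, b4⟩ := mR r hr1
    refine ⟨(mP _ b1).1, (mP _ b2).1, (mP _ b1).2.1, ?_, hr2, b3, (mP _ b1).2.2⟩
    have : r.2.1 + r.1.2 - r.1.1 = r.2.2 := by
      rw [add_sub_assoc, b4]
      abel
    show r.2.1 + r.1.2 - r.1.1 ∈ Ω
    rw [this]
    exact (mP _ b2).2.1

/-- the number of the cell of `x` -/
def jx (M : ℕ) (x : ℝ) : ℕ := min (M - 1) ⌊(x + 1) * M / 2⌋₊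

/-- the centre of the block number `q` of `K` cells -/
def ce (M K q : ℕ) : ℝ := -1 + (2 * q + 1) * K / M

theorem jx_lt {M : ℕ} (hM : 1 ≤ M) (x : ℝ) : jx M x < M :=
  (min_le_left _ _).trans_lt (by omega)

theorem jx_spec {M : ℕ} (hM : 1 ≤ M) {x : ℝ} (hx : |x| ≤ 1) :
    2 * (jx M x : ℝ) ≤ (x + 1) * M ∧ (x + 1) * M ≤ 2 * (jx M x + 1) := by
  obtain ⟨h1, h2⟩ := abs_le.1 hx
  have hM0 : (0 : ℝ) ≤ M := Nat.cast_nonneg _
  have h0 : 0 ≤ (x + 1) * M / 2 := by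
    have : 0 ≤ x + 1 := by linarith
    positivity
  constructor
  · have h3 : (jx M x : ℝ) ≤ ⌊(x + 1) * M / 2⌋₊ := Nat.cast_le.2 (min_le_right _ _)
    have h4 := Nat.floor_le h0
    linarith
  · unfold jx
    rcases le_total (M - 1) ⌊(x + 1) * M / 2⌋₊ with h | h
    · rw [min_eq_left h, Nat.cast_sub hM]
      push_cast
      nlinarith
    · rw [min_eq_right h]
      have := Nat.lt_floor_add_one ((x + 1) * M / 2)
      linarith

theorem blk {M K j : ℕ} (hM : 1 ≤ M) (hK : 1 ≤ K) {x : ℝ} (h1 : 2 * (j : ℝ) ≤ (x + 1) * M)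
    (h2 : (x + 1) * M ≤ 2 * (j + 1)) : |x - ce M K (j / K)| ≤ K / M := by
  have hM0 : (0 : ℝ) < M := by exact_mod_cast hM
  have a1 : ((j / K : ℕ) : ℝ) * K ≤ j := by exact_mod_cast Nat.div_mul_le_self j K
  have a2 : (j : ℝ) + 1 ≤ ((j / K : ℕ) + 1) * K := by
    have := Nat.lt_div_mul_add (a := j) hK
    have h3 : j + 1 ≤ (j / K + 1) * K := by
      rw [add_mul, one_mul]
      omega
    exact_mod_cast h3
  have e : x - ce M K (j / K) = ((x + 1) * M - (2 * (j / K : ℕ) + 1) * K) / M := by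
    unfold ce
    field_simp
    ring
  rw [e, abs_div, abs_of_pos hM0]
  refine div_le_div_of_nonneg_right (abs_le.2 ⟨?_, ?_⟩) hM0.le <;> nlinarith

theorem near {M K : ℕ} (hM : 1 ≤ M) (hK : 1 ≤ K) {x : ℝ} (hx : |x| ≤ 1) :
    |x - ce M K (jx M x / K)| ≤ K / M := blk hM hK (jx_spec hM hx).1 (jx_spec hM hx).2

theorem ce_mul {M : ℕ} (hM : 1 ≤ M) (j : ℕ) : (ce M 1 j + 1) * M = 2 * j + 1 := by
  have hM0 : (0 : ℝ) < M := by exact_mod_cast hM
  unfold ce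
  field_simp
  push_cast
  ring

theorem ce_near {M K : ℕ} (hM : 1 ≤ M) (hK : 1 ≤ K) (j : ℕ) :
    |ce M 1 j - ce M K (j / K)| ≤ K / M :=
  blk hM hK (by rw [ce_mul hM]; linarith) (by rw [ce_mul hM]; linarith)

theorem ce_in {M j : ℕ} (hj : j < M) : |ce M 1 j| + 1 / M ≤ 1 := by
  have hM : 1 ≤ M := by omega
  have hM0 : (0 : ℝ) < M := by exact_mod_cast hM
  have h1 : (j : ℝ) + 1 ≤ M := by exact_mod_cast hj
  have h2 := ce_mul hM j
  have h3 : (0 : ℝ) ≤ j := Nat.cast_nonneg _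
  have h4 : 1 / (M : ℝ) * M = 1 := by field_simp
  have : |ce M 1 j| ≤ 1 - 1 / M := by
    refine abs_le.2 ⟨?_, ?_⟩
    · refine le_of_mul_le_mul_right ?_ hM0
      nlinarith
    · refine le_of_mul_le_mul_right ?_ hM0
      nlinarith
  linarith

/-- the loss in one coordinate -/
theorem loss {k : ℕ} (hk : 1 ≤ k) :
    ((k : ℝ) + 1 + 2) ^ 2 * (((k : ℝ) + 1) ^ 2 + 3 * (k + 1)) *
      ((((k * (k + 2) : ℕ) : ℝ) + k) / ((k + 1) ^ 3 : ℕ)) * ((k + 1) ^ 3 : ℕ) ≤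
      ((k : ℝ) + 1) ^ 6 * Real.exp (8 / (k + 1)) := by
  set m : ℝ := k + 1 with hm
  have hm0 : 0 < m := by positivity
  have hk0 : (0 : ℝ) ≤ k := Nat.cast_nonneg _
  have e1 : ((((k * (k + 2) : ℕ) : ℝ) + k) / ((k + 1) ^ 3 : ℕ)) * ((k + 1) ^ 3 : ℕ) =
      (k : ℝ) * (k + 2) + k := by
    rw [div_mul_cancel₀]
    · push_cast
      ring
    · positivity
  rw [mul_assoc, e1]
  have b : ∀ c : ℝ, m + c ≤ m * Real.exp (c / m) := by
    intro c
    have := Real.add_one_le_exp (c / m)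
    calc m + c = m * (c / m + 1) := by field_simp; ring
      _ ≤ _ := mul_le_mul_of_nonneg_left this hm0.le
  have c1 : (m + 2) ^ 2 ≤ (m * Real.exp (2 / m)) ^ 2 := pow_le_pow_left₀ (by positivity) (b 2) 2
  have c2 : m ^ 2 + 3 * m ≤ m * (m * Real.exp (3 / m)) := by
    have := mul_le_mul_of_nonneg_left (b 3) hm0.le
    nlinarith
  have c3 : (k : ℝ) * (k + 2) + k ≤ m * (m * Real.exp (1 / m)) := by
    have := mul_le_mul_of_nonneg_left (b 1) hm0.le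
    nlinarith
  calc (m + 2) ^ 2 * (m ^ 2 + 3 * m) * ((k : ℝ) * (k + 2) + k)
      ≤ (m * Real.exp (2 / m)) ^ 2 * (m * (m * Real.exp (3 / m))) *
        (m * (m * Real.exp (1 / m))) := by gcongr
    _ = m ^ 6 * (Real.exp (2 / m) * Real.exp (2 / m) * Real.exp (3 / m) * Real.exp (1 / m)) := by
        ring
    _ = _ := by
        rw [← Real.exp_add, ← Real.exp_add, ← Real.exp_add]
        congr 2
        ring

theorem div1 {k j : ℕ} (hk : 1 ≤ k) (hj : j < (k + 1) ^ 3) : j / (k * (k + 2)) < k + 1 + 2 := by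
  rw [Nat.div_lt_iff_lt_mul (by positivity)]
  nlinarith

theorem div2 {k j : ℕ} (hk : 1 ≤ k) (hj : j < (k + 1) ^ 3) : j / k < (k + 1) ^ 2 + 3 * (k + 1) := by
  rw [Nat.div_lt_iff_lt_mul (by positivity)]
  nlinarith

end

end Vale.Agent.P057T.Gk.CsH46
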