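import Vale.Agent.P057T.Gk.Rows
import Vale.Agent.P057T.Gk.Bas2
import Vale.Agent.P057T.Gk.Csq0

/-! Row CSQ: many quadruples in one window. -/

set_option linter.all false

open Finset

namespace Vale.Agent.P057T.Gk

open TT

noncomputable section

namespace CsH46

variable {α ι : Type} [Fintype α] [DecidableEq α] [Fintype ι] [DecidableEq ι] {T : TT α ι}
  {S1 : Finset α} {i : α}

theorem memW (v : ι) : v ∈ T.fv (S1.erase i) S1 ↔ T.ty v ⊆ S1 ∧ i ∈ T.ty v := by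
  simp only [fv, mem_filter, mem_univ, true_and, subset_erase]
  tauto

theorem mem0 (hT : T.Ok) (S : Finset α) (v : ι) : v ∈ T.fv ∅ S ↔ T.ty v ⊆ S := by
  simp only [fv, mem_filter, mem_univ, true_and, subset_empty]
  exact ⟨fun h => h.1, fun h => ⟨h, (hT.ne v).ne_empty⟩⟩

theorem of_res (hT : T.Ok) {z z' : ι → ℤ} (hz : z ∈ T.pts S1 1) (hz' : z' ∈ T.pts S1 1)
    (h : T.res (S1.erase i) z = T.res (S1.erase i) z') : T.Of i z z' := by
  intro v hv
  by_cases h1 : T.ty v ⊆ S1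
  · have h2 : T.ty v ⊆ S1.erase i := subset_erase.2 ⟨h1, hv⟩
    have := congrFun h v
    simpa only [res, if_pos h2] using this
  · rw [((mem_pts hT).1 hz).1 v h1, ((mem_pts hT).1 hz').1 v h1]

theorem aff_diff {f : Fn ι} (hf : T.Aff i f) {y z h : ι → ℝ} (h1 : T.Of i z y)
    (h2 : ∀ v, i ∉ T.ty v → h v = 0) : f (y + h) - f y = f (z + h) - f z := by
  obtain ⟨L, hL⟩ := hf y
  have a : ∀ v, i ∉ T.ty v → (z - y) v = 0 := fun v hv => by rw [Pi.sub_apply, h1 v hv, sub_self]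
  have b1 := hL h h2
  have b2 := hL (z - y) a
  have b3 := hL (z - y + h) fun v hv => by rw [Pi.add_apply, a v hv, h2 v hv, add_zero]
  rw [add_sub_cancel] at b2
  rw [← add_assoc, add_sub_cancel, map_add] at b3
  linarith

theorem ct_le (hT : T.Ok) {S0 S : Finset α} {b : ι → ℤ} {σ ρ : ℝ} {c : ι → ℝ} (hσ : σ ≤ 1)
    (hρ : 0 ≤ ρ) (h : T.Ct S0 S b σ c fun _ => ρ) :
    ((T.fbx S0 S b c fun _ => ρ).card : ℝ) ≤ 2 * (T.vol S0 S * ρ ^ (T.fv S0 S).card) := by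
  unfold Ct at h
  rw [prod_const] at h
  have h0 : 0 ≤ T.vol S0 S * ρ ^ (T.fv S0 S).card :=
    mul_nonneg (vol_pos hT _ _).le (pow_nonneg hρ _)
  have h1 := (abs_le.1 h).2
  nlinarith

theorem mem_fbx0 (hT : T.Ok) {S : Finset α} {z : ι → ℤ} (hz : z ∈ T.pts S 1) :
    z ∈ T.fbx ∅ S 0 0 fun _ => 1 := by
  classical
  unfold fbx
  rw [mem_filter]
  refine ⟨pts_mono hT (by norm_num) hz, fun v hv => ?_, fun v hv => ?_⟩
  · exact absurd (subset_empty.1 hv) (hT.ne v).ne_empty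
  · rw [Pi.zero_apply, sub_zero]
    exact ((mem_pts hT).1 hz).2 v ((mem0 hT S v).1 hv)

/-- numbers of the blocks -/
def ix (T : TT α ι) (W : Finset ι) (M K : ℕ) (z : ι → ℤ) : ι → ℕ :=
  fun v => if v ∈ W then jx M (T.u (cz z) v) / K else 0

def bx (W : Finset ι) (n : ℕ) : Finset (ι → ℕ) :=
  Fintype.piFinset fun v => if v ∈ W then range n else {0}

theorem bx_card (W : Finset ι) (n : ℕ) : (bx W n).card = n ^ W.card := by
  unfold bx
  rw [Fintype.card_piFinset]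
  have : ∀ v, (if v ∈ W then range n else {0} : Finset ℕ).card = if v ∈ W then n else 1 := by
    intro v
    split_ifs <;> simp
  simp only [this]
  rw [prod_ite_mem, univ_inter, prod_const]

theorem ix_mem (W : Finset ι) {M K n : ℕ} (hM : 1 ≤ M) (h : ∀ j < M, j / K < n) (z : ι → ℤ) :
    ix T W M K z ∈ bx W n := by
  refine Fintype.mem_piFinset.2 fun v => ?_
  unfold ix
  split_ifs
  · exact mem_range.2 (h _ (jx_lt hM _))
  · exact mem_singleton_self _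

theorem img_le (hT : T.Ok) {σ : ℝ} (hσ : σ ≤ 1) (hE : T.Eq ∅ (S1.erase i) 0 σ)
    {Ω : Finset (ι → ℤ)} (hΩ : Ω ⊆ T.pts S1 1) (W : Finset ι) {M K n : ℕ} (hM : 1 ≤ M)
    (h : ∀ j < M, j / K < n) :
    ((Ω.image fun z => (T.res (S1.erase i) z, ix T W M K z)).card : ℝ) ≤
      2 * T.vol ∅ (S1.erase i) * (n : ℝ) ^ W.card := by
  have h1 : (Ω.image fun z => (T.res (S1.erase i) z, ix T W M K z)) ⊆
      (T.fbx ∅ (S1.erase i) 0 0 fun _ => 1) ×ˢ bx W n := by
    intro x hx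
    obtain ⟨z, hz, rfl⟩ := mem_image.1 hx
    exact mem_product.2 ⟨mem_fbx0 hT (res_mem hT (hΩ hz) (erase_subset _ _)), ix_mem W hM h z⟩
  have h2 := ct_le hT hσ zero_le_one (hE 0 (fun _ => 1) fun v => ⟨hσ, by norm_num⟩)
  rw [one_pow, mul_one] at h2
  have h3 := card_le_card h1
  rw [card_product, bx_card] at h3
  have h4 : ((Ω.image fun z => (T.res (S1.erase i) z, ix T W M K z)).card : ℝ) ≤
      ((T.fbx ∅ (S1.erase i) 0 0 fun _ => 1).card : ℝ) * (n : ℝ) ^ W.card := by exact_mod_cast h3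
  exact h4.trans (mul_le_mul_of_nonneg_right h2 (by positivity))

theorem cz_add (x y : ι → ℤ) : cz (x + y) = cz x + cz y := by
  funext v
  simp [cz]

theorem diff_le (hT : T.Ok) {σ : ℝ} (hσ : σ ≤ 1) {M k K : ℕ} (hM : 1 ≤ M) (hk : 1 ≤ k)
    (hK : 1 ≤ K) (h1 : σ ≤ (((k * K : ℕ) : ℝ) + k) / M) (h2 : (((k * K : ℕ) : ℝ) + k) / M ≤ 1)
    {y : ι → ℤ} (hy : y ∈ T.pts S1 1) (hE : T.Eq (S1.erase i) S1 y σ) :
    ∃ H : Finset (ι → ℤ), (H.card : ℝ) ≤ 2 * (T.vol (S1.erase i) S1 *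
      ((((k * K : ℕ) : ℝ) + k) / M) ^ (T.fv (S1.erase i) S1).card) ∧
      ∀ z ∈ T.pts S1 1, ∀ z' ∈ T.pts S1 1, T.Of i z y → T.Of i z z' →
        ix T (T.fv (S1.erase i) S1) M k z = ix T (T.fv (S1.erase i) S1) M k y →
        ix T (T.fv (S1.erase i) S1) M (k * K) z = ix T (T.fv (S1.erase i) S1) M (k * K) z' →
        z' - z ∈ H := by
  classical
  set ρ : ℝ := (((k * K : ℕ) : ℝ) + k) / M with hρ
  have hρ0 : 0 ≤ ρ := by positivity
  have hkK : 1 ≤ k * K := Nat.mul_pos hk hK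
  have hρ1 : ρ = ((k * K : ℕ) : ℝ) / M + (k : ℝ) / M := add_div _ _ _
  set c : ι → ℝ := fun v => if v ∈ T.fv (S1.erase i) S1 then T.u (cz y) v +
    (ce M (k * K) (jx M (T.u (cz y) v) / (k * K)) - ce M k (jx M (T.u (cz y) v) / k)) else 0
    with hc
  have hcb : ∀ v, |c v| ≤ 2 := by
    intro v
    simp only [hc]
    split_ifs with hv
    · have a0 := ((mem_pts hT).1 hy).2 v ((memW v).1 hv).1
      have a1 := abs_le.1 (near hM hkK a0)
      have a2 := abs_le.1 (near hM hk a0)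
      have a3 := abs_le.1 a0
      refine abs_le.2 ⟨?_, ?_⟩ <;> linarith
    · norm_num
  have hB : Bx σ c fun _ => ρ := fun v => ⟨h1, by have := hcb v; linarith⟩
  refine ⟨(T.fbx (S1.erase i) S1 y c fun _ => ρ).image fun x => x - y,
    (Nat.cast_le.2 card_image_le).trans (ct_le hT hσ hρ0 (hE c _ hB)), ?_⟩
  intro z hz z' hz' o1 o2 e1 e2
  refine mem_image.2 ⟨y + (z' - z), ?_, add_sub_cancel_left _ _⟩
  have hh : ∀ v, i ∉ T.ty v → (z' - z) v = 0 := fun v hv => by rw [Pi.sub_apply, o2 v hv, sub_self]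
  have hag : T.Ag (S1.erase i) (y + (z' - z)) y := fun v hv => by
    rw [Pi.add_apply, hh v (subset_erase.1 hv).2, add_zero]
  have hW : ∀ v ∈ T.fv (S1.erase i) S1, |T.u (cz (y + (z' - z))) v - c v| ≤ ρ := by
    intro v hv
    have hv1 := ((memW v).1 hv).1
    have b := aff_diff ((hT.fu v).2 i (mem_univ i)) (y := cz y) (z := cz z) (h := cz (z' - z))
      o1.cz fun v hv => by simp only [cz, hh v hv, Int.cast_zero]
    rw [← cz_add, ← cz_add, add_sub_cancel] at b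
    have f1 := congrFun e1 v
    have f2 := congrFun e2 v
    simp only [ix, if_pos hv] at f1 f2
    have f3 : jx M (T.u (cz z) v) / (k * K) = jx M (T.u (cz y) v) / (k * K) := by
      rw [← Nat.div_div_eq_div_mul, ← Nat.div_div_eq_div_mul, f1]
    have a1 := abs_le.1 (near hM hkK (((mem_pts hT).1 hz').2 v hv1))
    have a2 := abs_le.1 (near hM hk (((mem_pts hT).1 hz).2 v hv1))
    rw [← f2, f3] at a1
    rw [f1] at a2
    simp only [hc, if_pos hv]
    refine abs_le.2 ⟨?_, ?_⟩ <;> linarith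
  unfold fbx
  rw [mem_filter]
  refine ⟨(mem_pts hT).2 ⟨fun v hv => ?_, fun v hv => ?_⟩, hag, hW⟩
  · rw [Pi.add_apply, Pi.sub_apply, ((mem_pts hT).1 hy).1 v hv, ((mem_pts hT).1 hz).1 v hv,
      ((mem_pts hT).1 hz').1 v hv]
    rfl
  · by_cases hv' : i ∈ T.ty v
    · have a1 := abs_le.1 (hW v ((memW v).2 ⟨hv, hv'⟩))
      have a2 := abs_le.1 (hcb v)
      refine abs_le.2 ⟨?_, ?_⟩ <;> linarith
    · rw [hT.u_ag hag.cz (subset_erase.2 ⟨hv, hv'⟩)]
      exact (((mem_pts hT).1 hy).2 v hv).trans (by norm_num)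

theorem sub_l (S : Finset α) : S.disjSum (∅ : Finset (Fin 2)) ⊆ ex S1 ↔ S ⊆ S1 :=
  ⟨fun h a ha => inl_mem_disjSum.1 (h (inl_mem_disjSum.2 ha)),
    fun h => disjSum_mono h (subset_univ _)⟩

theorem sub_r (hi : i ∈ S1) (S : Finset α) (k : Fin 2) :
    (S.erase i).disjSum ({k} : Finset (Fin 2)) ⊆ ex S1 ↔ S ⊆ S1 := by
  refine ⟨fun h a ha => ?_, fun h => disjSum_mono ((erase_subset _ _).trans h) (subset_univ _)⟩
  by_cases e : a = i
  · rw [e]
    exact hi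
  · exact inl_mem_disjSum.1 (h (inl_mem_disjSum.2 (mem_erase.2 ⟨e, ha⟩)))

theorem prod_cv (hT : T.Ok) (hC : (T.cpy i (Fin 2)).Ok) (hi : i ∈ S1) (g1 : ι → ℝ)
    (g2 : Fin 2 → ι → ℝ) :
    ∏ x ∈ (T.cpy i (Fin 2)).fv ∅ (ex S1), Sum.elim g1 (fun p => g2 p.1 p.2.1) x =
      (∏ v ∈ T.fv ∅ S1, g1 v) *
        ((∏ v ∈ T.fv (S1.erase i) S1, g2 0 v) * ∏ v ∈ T.fv (S1.erase i) S1, g2 1 v) := by
  have e0 : ∀ (g : ι → ℝ), ∏ v ∈ T.fv (S1.erase i) S1, g v =
      ∏ v : {v : ι // i ∈ T.ty v}, if T.ty v.1 ⊆ S1 then g v.1 else 1 := by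
    intro g
    rw [← prod_subtype (univ.filter fun v => i ∈ T.ty v) (by simp)
      (fun v => if T.ty v ⊆ S1 then g v else 1), ← prod_filter, filter_filter]
    refine prod_congr ?_ fun _ _ => rfl
    ext v
    rw [memW]
    simp only [mem_filter, mem_univ, true_and]
    exact and_comm
  rw [← univ_inter ((T.cpy i (Fin 2)).fv ∅ (ex S1)), ← prod_ite_mem, Fintype.prod_sum_type,
    Fintype.prod_prod_type, Fin.prod_univ_two, e0, e0, ← univ_inter (T.fv ∅ S1), ← prod_ite_mem]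
  congr 1
  · refine prod_congr rfl fun v _ => if_congr ?_ rfl rfl
    rw [mem0 hC, mem0 hT]
    exact sub_l _
  · congr 1
    · refine prod_congr rfl fun v _ => if_congr ?_ rfl rfl
      rw [mem0 hC]
      exact sub_r hi _ 0
    · refine prod_congr rfl fun v _ => if_congr ?_ rfl rfl
      rw [mem0 hC]
      exact sub_r hi _ 1

theorem vol_qt (hT : T.Ok) (hC : (T.cpy i (Fin 2)).Ok) (hi : i ∈ S1) (m : ℕ)
    (cen : T.CV i (Fin 2) → ℝ) :
    (T.qt i m cen).vol ∅ (ex S1) = T.vol ∅ (S1.erase i) * T.vol (S1.erase i) S1 ^ 3 *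
      (((m : ℝ) ^ 6)⁻¹) ^ (T.fv (S1.erase i) S1).card := by
  have e1 : (T.qt i m cen).vol ∅ (ex S1) = ∏ x ∈ (T.cpy i (Fin 2)).fv ∅ (ex S1),
      Sum.elim (fun v => 2 * T.dv v * if i ∈ T.ty v then ((m : ℝ) ^ 3)⁻¹ else 1)
        (fun p => (fun (k : Fin 2) (v : ι) => 2 * T.dv v *
          if k = 0 then ((m : ℝ) ^ 2)⁻¹ else (m : ℝ)⁻¹) p.1 p.2.1) x := by
    refine prod_congr rfl fun x _ => ?_
    rcases x with v | p
    · exact (mul_assoc _ _ _).symm
    · exact (mul_assoc _ _ _).symm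
  have e2 : (T.fv ∅ S1).filter (fun v => i ∈ T.ty v) = T.fv (S1.erase i) S1 := by
    ext v
    rw [mem_filter, memW, mem0 hT]
  have e3 := vol_mul hT (empty_subset (S1.erase i)) (erase_subset i S1)
  have e5 : ∀ c : ℝ, ∏ v ∈ T.fv (S1.erase i) S1, 2 * T.dv v * c =
      T.vol (S1.erase i) S1 * c ^ (T.fv (S1.erase i) S1).card := by
    intro c
    rw [prod_mul_distrib, prod_const c]
    rfl
  have e6 : ∀ c : ℝ, ∏ v ∈ T.fv ∅ S1, (2 * T.dv v * if i ∈ T.ty v then c else 1) =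
      T.vol ∅ S1 * c ^ (T.fv (S1.erase i) S1).card := by
    intro c
    rw [prod_mul_distrib, ← prod_filter, e2, prod_const c]
    rfl
  rw [e1, prod_cv hT hC hi _ (fun (k : Fin 2) (v : ι) => 2 * T.dv v *
    if k = 0 then ((m : ℝ) ^ 2)⁻¹ else (m : ℝ)⁻¹), e5, e5, e6, if_pos rfl, if_neg (by decide)]
  have e4 : ((m : ℝ) ^ 6)⁻¹ = ((m : ℝ) ^ 3)⁻¹ * (((m : ℝ) ^ 2)⁻¹ * (m : ℝ)⁻¹) := by
    rw [← mul_inv, ← mul_inv]
    congr 1
    ring
  rw [e3, e4, mul_pow, mul_pow]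
  ring

/-- the point of the copy tower attached to three vertices -/
def pk (T : TT α ι) (i : α) (q : (ι → ℤ) × (ι → ℤ) × (ι → ℤ)) : T.CV i (Fin 2) → ℤ :=
  Sum.elim q.1 fun p => if p.1 = 0 then (q.2.1 - q.1) p.2.1 else (q.2.2 - q.1) p.2.1

theorem pk_h0 {q : (ι → ℤ) × (ι → ℤ) × (ι → ℤ)} (h : T.Of i q.1 q.2.1) :
    T.hc i (pk T i q) 0 = q.2.1 - q.1 := by
  funext v
  unfold hc
  split_ifs with hv
  · rfl
  · rw [Pi.sub_apply, h v hv, sub_self]

theorem pk_h1 {q : (ι → ℤ) × (ι → ℤ) × (ι → ℤ)} (h : T.Of i q.1 q.2.2) :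
    T.hc i (pk T i q) 1 = q.2.2 - q.1 := by
  funext v
  unfold hc
  split_ifs with hv
  · rfl
  · rw [Pi.sub_apply, h v hv, sub_self]

theorem hc_cz (Z : T.CV i (Fin 2) → ℤ) (k : Fin 2) : T.hc i (cz Z) k = cz (T.hc i Z k) := by
  funext v
  by_cases hv : i ∈ T.ty v
  · simp only [hc, cz, dif_pos hv]
  · simp only [hc, cz, dif_neg hv, Int.cast_zero]

theorem fin_num {L N V0 V X P Q : ℝ} (hL : 1 ≤ L) (h0 : 0 < V0) (hV : 0 < V) (hX : 0 < X)
    (hQ : 0 ≤ Q) (hN : Real.exp (-L) / 2 * (V0 * V) ≤ N) (hP : P ≤ X * Real.exp 8)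
    (h : N ^ 4 ≤ 16 * V0 ^ 3 * V * P * Q) : Real.exp (-(20 * L)) * (V0 * V ^ 3 * X⁻¹) ≤ Q := by
  have a1 : (Real.exp (-L) / 2 * (V0 * V)) ^ 4 ≤ N ^ 4 := pow_le_pow_left₀ (by positivity) hN 4
  have a2 : 16 * V0 ^ 3 * V * P * Q ≤ 16 * V0 ^ 3 * V * (X * Real.exp 8) * Q := by gcongr
  have a3 : (256 : ℝ) ≤ Real.exp 8 := by
    have h2 : (2 : ℝ) ≤ Real.exp 1 := by
      have := Real.add_one_le_exp 1
      linarith
    have h3 := pow_le_pow_left₀ (by norm_num) h2 8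
    rw [← Real.exp_nat_mul] at h3
    norm_num at h3
    exact h3
  have a4 : Real.exp (-(20 * L)) * (Real.exp 8 * Real.exp 8) ≤ Real.exp (-L) ^ 4 := by
    rw [← Real.exp_add, ← Real.exp_add, ← Real.exp_nat_mul, Real.exp_le_exp]
    push_cast
    linarith
  have a5 : Real.exp (-(20 * L)) * (256 * Real.exp 8) ≤ Real.exp (-L) ^ 4 :=
    le_trans (by gcongr) a4
  have hc : 0 < 16 * V0 ^ 3 * V * (X * Real.exp 8) := by positivity
  refine le_of_mul_le_mul_left (le_trans ?_ ((a1.trans h).trans a2)) hc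
  have e : 16 * V0 ^ 3 * V * (X * Real.exp 8) * (Real.exp (-(20 * L)) * (V0 * V ^ 3 * X⁻¹)) =
      Real.exp (-(20 * L)) * (256 * Real.exp 8) * ((V0 * V) ^ 4 / 16) := by
    field_simp
    ring
  rw [e]
  calc _ ≤ Real.exp (-L) ^ 4 * ((V0 * V) ^ 4 / 16) := by gcongr
    _ = _ := by ring

theorem alg (V0 V A B C D Q : ℝ) (n : ℕ) :
    (2 * V0 * A ^ n) ^ 2 * (2 * V0 * B ^ n * (2 * (V * C ^ n))) * D ^ n * Q =
      16 * V0 ^ 3 * V * (A ^ 2 * B * C * D) ^ n * Q := by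
  simp only [mul_pow]
  ring

end CsH46

open CsH46 in
theorem csq (hK : CPOK) : CSQ := by
  intro a
  refine ⟨20, fun α ι κ ρ _ _ _ _ _ _ _ T Y _ hY _ _ _ hT hN S1 i Ω L m hi hL hΩ hm1 hm2 => ?_⟩
  classical
  have hC : (T.cpy i (Fin 2)).Ok := ((hK α ι T hT).1 i (Fin 2)).1
  have hG : T.G0 (Real.exp (-Y ^ 20)) := hN.1.1
  set σ := Real.exp (-Y ^ 20) with hσ
  have hY' : (20 : ℝ) ≤ Y := by exact_mod_cast hY
  have hm1' : Real.exp (20 * L) * (Fintype.card ι + 1) ≤ m := by exact_mod_cast hm1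
  have hc0 : (0 : ℝ) ≤ Fintype.card ι := Nat.cast_nonneg _
  have hE1 : 20 * L + 1 ≤ Real.exp (20 * L) := Real.add_one_le_exp _
  have hmL : Real.exp (20 * L) ≤ m := by nlinarith [Real.exp_pos (20 * L)]
  have hmc : (Fintype.card ι : ℝ) + 1 ≤ m := by nlinarith
  have hLY : 20 * L ≤ Y := Real.exp_le_exp.1 (hmL.trans hm2)
  obtain ⟨k, rfl⟩ : ∃ k, m = k + 1 := ⟨m - 1, by
    have : 1 ≤ m := by
      have : (1 : ℝ) ≤ m := by linarith
      exact_mod_cast this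
    omega⟩
  have hk : 1 ≤ k := by
    have h1 : (2 : ℝ) ≤ ((k + 1 : ℕ) : ℝ) := by linarith
    have h2 : 2 ≤ k + 1 := by exact_mod_cast h1
    omega
  have hk' : (1 : ℝ) ≤ k := by exact_mod_cast hk
  have hm : ((k + 1 : ℕ) : ℝ) = k + 1 := by push_cast; rfl
  have hσY : σ ≤ Real.exp (-Y) := by
    rw [hσ, Real.exp_le_exp, neg_le_neg_iff]
    exact le_self_pow₀ (by linarith) (by norm_num)
  have hσm : σ ≤ ((k : ℝ) + 1)⁻¹ := by
    refine hσY.trans ?_
    rw [Real.exp_neg, ← hm]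
    exact inv_anti₀ (by positivity) hm2
  have hσ1 : σ ≤ 1 := hσm.trans (inv_le_one_of_one_le₀ (by linarith))
  have hσL : σ ≤ Real.exp (-L) / 2 := by
    have h1 : Real.exp (-Y) * 2 ≤ Real.exp (-Y) * Real.exp 1 := by
      have := Real.add_one_le_exp 1
      exact mul_le_mul_of_nonneg_left (by linarith) (Real.exp_pos _).le
    rw [← Real.exp_add] at h1
    have h2 : Real.exp (-Y + 1) ≤ Real.exp (-L) := Real.exp_le_exp.2 (by linarith)
    linarith
  set M : ℕ := (k + 1) ^ 3 with hM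
  have hM1 : 1 ≤ M := Nat.one_le_pow _ _ (by omega)
  have hMr : (M : ℝ) = ((k : ℝ) + 1) ^ 3 := by rw [hM]; push_cast; rfl
  have hkK : 1 ≤ k * (k + 2) := Nat.mul_pos hk (by omega)
  have r3 : (1 : ℝ) / M = (((k : ℝ) + 1) ^ 3)⁻¹ := by rw [hMr, one_div]
  have r2 : (k : ℝ) / M + 1 / M = (((k : ℝ) + 1) ^ 2)⁻¹ := by
    rw [hMr]
    field_simp
  have r1 : ((k * (k + 2) : ℕ) : ℝ) / M + 1 / M = ((k : ℝ) + 1)⁻¹ := by
    rw [hMr]
    push_cast
    field_simp
    ring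
  have r0 : (0 : ℝ) < 1 / M := by positivity
  have r4 : 1 / (M : ℝ) ≤ (k : ℝ) / M := by gcongr
  have i1 : ((k : ℝ) + 1)⁻¹ ≤ 1 / 2 := by
    rw [one_div]
    exact inv_anti₀ (by norm_num) (by linarith)
  have i2 : (((k : ℝ) + 1) ^ 2)⁻¹ ≤ 1 / 2 := by
    rw [one_div]
    exact inv_anti₀ (by norm_num) (by nlinarith)
  set W := T.fv (S1.erase i) S1 with hW
  set Ω' := Ω.filter fun z => T.Eq (S1.erase i) S1 z σ with hΩ'
  have hsub : Ω' ⊆ T.pts S1 1 := (filter_subset _ _).trans hΩ.1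
  have hv := vol_mul hT (empty_subset (S1.erase i)) (erase_subset i S1)
  have hbig : Real.exp (-L) / 2 * (T.vol ∅ (S1.erase i) * T.vol (S1.erase i) S1) ≤ Ω'.card := by
    have h1 := hG.2 S1 S1 i hi (erase_subset _ _) 0 (fun _ => 1) fun v => ⟨hσ1, by norm_num⟩
    rw [prod_const_one, mul_one] at h1
    have h2 : ((Ω.filter fun z => ¬ T.Eq (S1.erase i) S1 z σ).card : ℝ) ≤ σ * T.vol ∅ S1 := by
      refine le_trans (Nat.cast_le.2 (card_le_card fun z hz => ?_)) h1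
      rw [mem_filter] at hz ⊢
      exact ⟨mem_fbx0 hT (hΩ.1 hz.1), hz.2⟩
    have h3 : (Ω'.card : ℝ) + (Ω.filter fun z => ¬ T.Eq (S1.erase i) S1 z σ).card = Ω.card := by
      exact_mod_cast card_filter_add_card_filter_not _
    have h4 := hΩ.2
    have h5 := mul_le_mul_of_nonneg_right hσL (vol_pos hT ∅ S1).le
    rw [← hv]
    linarith
  obtain ⟨t, ht, Q, hQ1, hQ2⟩ := quad Ω'
    (fun z => (T.res (S1.erase i) z, ix T W M (k * (k + 2)) z))
    (fun z => (T.res (S1.erase i) z, ix T W M k z)) (ix T W M 1) (bx W M) _ _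
    (2 * (T.vol (S1.erase i) S1 * ((((k * (k + 2) : ℕ) : ℝ) + k) / M) ^ W.card))
    (by have := vol_pos hT (S1.erase i) S1; positivity)
    ⟨_, ix_mem (T := T) W hM1 (fun j hj => (Nat.div_one j).trans_lt hj) 0⟩
    (fun z _ => ix_mem W hM1 (fun j hj => (Nat.div_one j).trans_lt hj) z)
    (img_le hT hσ1 (hG.1 _) hsub W hM1 fun j hj => div1 hk hj)
    (img_le hT hσ1 (hG.1 _) hsub W hM1 fun j hj => div2 hk hj)
    (fun y hy => by
      obtain ⟨H, h1, h2⟩ := diff_le hT hσ1 hM1 hk (K := k + 2) (by omega)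
        (by rw [add_div]; linarith) (by rw [add_div]; linarith) (hsub hy) (mem_filter.1 hy).2
      refine ⟨H, h1, fun z hz z' hz' e1 e2 => h2 z (hsub hz) z' (hsub hz') ?_ ?_
        (congrArg Prod.snd e1) (congrArg Prod.snd e2)⟩
      · exact of_res hT (hsub hz) (hsub hy) (congrArg Prod.fst e1)
      · exact of_res hT (hsub hz) (hsub hz') (congrArg Prod.fst e2))
  have htM : ∀ v, t v < M := by
    intro v
    have := Fintype.mem_piFinset.1 ht v
    split_ifs at this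
    · exact mem_range.1 this
    · rw [mem_singleton.1 this]
      exact hM1
  have o1 : ∀ q ∈ Q, T.Of i q.1 q.2.1 := fun q hq =>
    of_res hT (hsub (hQ2 q hq).1) (hsub (hQ2 q hq).2.1) (congrArg Prod.fst (hQ2 q hq).2.2.2.2.2.1)
  have o2 : ∀ q ∈ Q, T.Of i q.1 q.2.2 := fun q hq =>
    of_res hT (hsub (hQ2 q hq).1) (hsub (hQ2 q hq).2.2.1)
      (congrArg Prod.fst (hQ2 q hq).2.2.2.2.2.2)
  have hl : ∀ x, 0 < T.ql i (k + 1) x := by
    intro x
    rcases x with v | p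
    · show 0 < if i ∈ T.ty v then (((k + 1 : ℕ) : ℝ) ^ 3)⁻¹ else 1
      split_ifs <;> positivity
    · show 0 < if p.1 = 0 then (((k + 1 : ℕ) : ℝ) ^ 2)⁻¹ else ((k + 1 : ℕ) : ℝ)⁻¹
      split_ifs <;> positivity
  refine ⟨Sum.elim (fun v => if i ∈ T.ty v then ce M 1 (t v) else 0) fun p =>
    if p.1 = 0 then ce M k (t p.2.1 / k) - ce M 1 (t p.2.1)
    else ce M (k * (k + 2)) (t p.2.1 / (k * (k + 2))) - ce M 1 (t p.2.1), Q.image (pk T i),
    fun x => ?_, ⟨fun Z hZ => ?_, ?_⟩, fun Z hZ w => ?_⟩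
  · rcases x with v | p
    · show |if i ∈ T.ty v then ce M 1 (t v) else 0| +
        (if i ∈ T.ty v then (((k + 1 : ℕ) : ℝ) ^ 3)⁻¹ else 1) ≤ 1
      split_ifs
      · rw [hm, ← r3]
        exact ce_in (htM v)
      · norm_num
    · show |if p.1 = 0 then ce M k (t p.2.1 / k) - ce M 1 (t p.2.1)
          else ce M (k * (k + 2)) (t p.2.1 / (k * (k + 2))) - ce M 1 (t p.2.1)| +
        (if p.1 = 0 then (((k + 1 : ℕ) : ℝ) ^ 2)⁻¹ else ((k + 1 : ℕ) : ℝ)⁻¹) ≤ 1
      split_ifs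
      · have := ce_near hM1 hk (t p.2.1)
        rw [abs_sub_comm, hm]
        linarith
      · have := ce_near hM1 hkK (t p.2.1)
        rw [abs_sub_comm, hm]
        linarith
  · obtain ⟨q, hq, rfl⟩ := mem_image.1 hZ
    obtain ⟨b0, b1, b2, -, b4, b5, b6⟩ := hQ2 q hq
    have p0 := (mem_pts hT).1 (hsub b0)
    have p1 := (mem_pts hT).1 (hsub b1)
    have p2 := (mem_pts hT).1 (hsub b2)
    have jt : ∀ v ∈ W, jx M (T.u (cz q.1) v) = t v := by
      intro v hv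
      have := congrFun b4 v
      simpa only [ix, if_pos hv, Nat.div_one] using this
    have n0 : ∀ v ∈ W, |T.u (cz q.1) v - ce M 1 (t v)| ≤ 1 / M := by
      intro v hv
      have := near hM1 le_rfl (p0.2 v ((memW v).1 hv).1)
      rw [Nat.div_one, jt v hv, Nat.cast_one] at this
      exact this
    refine (mem_pts (hC.sc hl _)).2 ⟨fun x hx => ?_, fun x hx => ?_⟩
    · rcases x with v | ⟨k', v, hv⟩
      · exact p0.1 v fun h => hx ((sub_l _).2 h)
      · have h1 : ¬ T.ty v ⊆ S1 := fun h => hx ((sub_r hi _ k').2 h)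
        show (if k' = 0 then (q.2.1 - q.1) v else (q.2.2 - q.1) v) = 0
        rw [Pi.sub_apply, Pi.sub_apply, p0.1 v h1, p1.1 v h1, p2.1 v h1, sub_self, ite_self]
    · refine (abs_div _ _).trans_le ?_
      rw [abs_of_pos (hl x), div_le_one (hl x)]
      rcases x with v | ⟨k', v, hv⟩
      · have h1 : T.ty v ⊆ S1 := (sub_l _).1 hx
        show |T.u (cz q.1) v - if i ∈ T.ty v then ce M 1 (t v) else 0| ≤
          if i ∈ T.ty v then (((k + 1 : ℕ) : ℝ) ^ 3)⁻¹ else 1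
        split_ifs with hv
        · rw [hm, ← r3]
          exact n0 v ((memW v).2 ⟨h1, hv⟩)
        · rw [sub_zero]
          exact p0.2 v h1
      · have h1 : T.ty v ⊆ S1 := (sub_r hi _ k').1 hx
        have hvW : v ∈ W := (memW v).2 ⟨h1, hv⟩
        have a0 := abs_le.1 (n0 v hvW)
        show |T.u (cz q.1 + T.hc i (cz (pk T i q)) k') v - T.u (cz q.1) v -
          (if k' = 0 then ce M k (t v / k) - ce M 1 (t v)
          else ce M (k * (k + 2)) (t v / (k * (k + 2))) - ce M 1 (t v))| ≤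
          if k' = 0 then (((k + 1 : ℕ) : ℝ) ^ 2)⁻¹ else ((k + 1 : ℕ) : ℝ)⁻¹
        rw [hc_cz, ← cz_add]
        by_cases e : k' = 0
        · subst e
          rw [if_pos rfl, if_pos rfl, pk_h0 (o1 q hq), add_sub_cancel, hm]
          have f1 := congrFun (congrArg Prod.snd b5) v
          simp only [ix, if_pos hvW] at f1
          have a1 := abs_le.1 (near hM1 hk (p1.2 v h1))
          rw [← f1, jt v hvW] at a1
          refine abs_le.2 ⟨?_, ?_⟩ <;> linarith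
        · have e' : k' = 1 := by omega
          subst e'
          rw [if_neg e, if_neg e, pk_h1 (o2 q hq), add_sub_cancel, hm]
          have f1 := congrFun (congrArg Prod.snd b6) v
          simp only [ix, if_pos hvW] at f1
          have a1 := abs_le.1 (near hM1 hkK (p2.2 v h1))
          rw [← f1, jt v hvW] at a1
          refine abs_le.2 ⟨?_, ?_⟩ <;> linarith
  · rw [vol_qt hT hC hi, card_image_of_injOn, inv_pow, hm]
    · refine fin_num (P := (((k : ℝ) + 1 + 2) ^ 2 * (((k : ℝ) + 1) ^ 2 + 3 * (k + 1)) *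
        ((((k * (k + 2) : ℕ) : ℝ) + k) / M) * M) ^ W.card) hL (vol_pos hT _ _) (vol_pos hT _ _)
        (by positivity) (Nat.cast_nonneg _) hbig ?_ (hQ1.trans (le_of_eq ?_))
      · refine (pow_le_pow_left₀ (by positivity) (loss hk) _).trans ?_
        rw [mul_pow, ← Real.exp_nat_mul]
        refine mul_le_mul_of_nonneg_left (Real.exp_le_exp.2 ?_) (by positivity)
        have h1 : (W.card : ℝ) ≤ Fintype.card ι := by exact_mod_cast card_le_univ _
        rw [← mul_div_assoc, div_le_iff₀ (by positivity)]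
        linarith
      · rw [bx_card]
        push_cast
        exact alg _ _ _ _ _ _ _ _
    · intro x hx y hy e
      have e0 : x.1 = y.1 := congrArg (T.bs i) e
      have e1 := congrArg (fun Z => T.hc i Z 0) e
      have e2 := congrArg (fun Z => T.hc i Z 1) e
      simp only [pk_h0 (o1 x hx), pk_h0 (o1 y hy), pk_h1 (o2 x hx), pk_h1 (o2 y hy), e0,
        sub_left_inj] at e1 e2
      exact Prod.ext e0 (Prod.ext e1 e2)
  · obtain ⟨q, hq, rfl⟩ := mem_image.1 hZ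
    obtain ⟨b0, b1, b2, b3, -⟩ := hQ2 q hq
    have e : T.vx i (qv w) (pk T i q) =
        q.1 + (qv w 0 • (q.2.1 - q.1) + qv w 1 • (q.2.2 - q.1)) := by
      funext v
      unfold vx
      rw [Fin.sum_univ_two, pk_h0 (o1 q hq), pk_h1 (o2 q hq)]
      rfl
    rw [e]
    refine filter_subset _ _ (?_ : _ ∈ Ω')
    fin_cases w
    · simpa [qv] using b0
    · simpa [qv] using b1
    · simpa [qv] using b2
    · convert b3 using 1
      simp [qv]
      abel

end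

end Vale.Agent.P057T.Gk
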