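import Mathlib

/-!
Relative global structure theorem on typed towers (notes 4473, 4559).
Towers are charts on real points, forms are functions, cells are sharp boxes, the
distinguished class `c` is handled through oscillation along the class `c`.
-/

set_option linter.all false

open Finset

namespace Vale.Agent.P057T.Gk

noncomputable section

/-- typed tower: types, chart, inverse chart, density of lattice points per variable -/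
structure TT (α ι : Type) where
  ty : ι → Finset α
  u : (ι → ℝ) → ι → ℝ
  ψ : (ι → ℝ) → ι → ℝ
  dv : ι → ℝ

abbrev Fn (ι : Type) : Type := (ι → ℝ) → ℝ

def cz {ι : Type} (z : ι → ℤ) : ι → ℝ := fun v => (z v : ℝ)

namespace TT

variable {α ι : Type} [Fintype α] [DecidableEq α] [Fintype ι] [DecidableEq ι] (T : TT α ι)

/-- agree on the variables with type inside `S` -/
def Ag {R : Type} (S : Finset α) (z z' : ι → R) : Prop := ∀ v, T.ty v ⊆ S → z v = z' v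
/-- agree off the class `c` -/
def Of {R : Type} (c : α) (z z' : ι → R) : Prop := ∀ v, c ∉ T.ty v → z v = z' v
def res (S : Finset α) (z : ι → ℤ) : ι → ℤ := fun v => if T.ty v ⊆ S then z v else 0

def Dep (S : Finset α) (f : Fn ι) : Prop := ∀ z z', T.Ag S z z' → f z = f z'
def Aff (a : α) (f : Fn ι) : Prop :=
  ∀ z, ∃ L : (ι → ℝ) →ₗ[ℝ] ℝ, ∀ h, (∀ v, a ∉ T.ty v → h v = 0) → f (z + h) = f z + L h
/-- depends on the types inside `S`, affine in every class of `G` -/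
def Fm (S G : Finset α) (f : Fn ι) : Prop := T.Dep S f ∧ ∀ a ∈ G, T.Aff a f
def Ind (c : α) (f : Fn ι) : Prop := ∀ z z', T.Of c z z' → f z = f z'

def PS (S : Finset α) (K : ℝ) : Set (ι → ℤ) :=
  {z | (∀ v, ¬ T.ty v ⊆ S → z v = 0) ∧ ∀ v, T.ty v ⊆ S → |T.u (cz z) v| ≤ K}

structure Ok : Prop where
  ne : ∀ v, (T.ty v).Nonempty
  fu : ∀ v, T.Fm (T.ty v) univ (fun z => T.u z v)
  fψ : ∀ v, T.Fm (T.ty v) univ (fun x => T.ψ x v)
  l : ∀ z, T.ψ (T.u z) = z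
  r : ∀ x, T.u (T.ψ x) = x
  pos : ∀ v, 0 < T.dv v
  fin : ∀ S K, (T.PS S K).Finite

open Classical in
/-- integer points of the marginal tower on `S` in the cell of radius `K` -/
def pts (S : Finset α) (K : ℝ) : Finset (ι → ℤ) :=
  if h : (T.PS S K).Finite then h.toFinset else ∅

/-- the variables of the fibre of `S` over `S0` -/
def fv (S0 S : Finset α) : Finset ι := univ.filter (fun v => T.ty v ⊆ S ∧ ¬ T.ty v ⊆ S0)
def vol (S0 S : Finset α) : ℝ := ∏ v ∈ T.fv S0 S, 2 * T.dv v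

open Classical in
def fbx (S0 S : Finset α) (b : ι → ℤ) (c r : ι → ℝ) : Finset (ι → ℤ) :=
  (T.pts S 20).filter (fun z => T.Ag S0 z b ∧ ∀ v ∈ T.fv S0 S, |T.u (cz z) v - c v| ≤ r v)

def Bx (σ : ℝ) (c r : ι → ℝ) : Prop := ∀ v, σ ≤ r v ∧ |c v| + r v ≤ 20

/-- the box has the expected number of points -/
def Ct (S0 S : Finset α) (b : ι → ℤ) (σ : ℝ) (c r : ι → ℝ) : Prop :=
  |((T.fbx S0 S b c r).card : ℝ) - T.vol S0 S * ∏ v ∈ T.fv S0 S, r v| ≤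
    σ * (T.vol S0 S * ∏ v ∈ T.fv S0 S, r v)

/-- every box of the fibre over `b` has the expected number of points -/
def Eq (S0 S : Finset α) (b : ι → ℤ) (σ : ℝ) : Prop := ∀ c r, Bx σ c r → T.Ct S0 S b σ c r

/-- oscillation along `c` over `b`; the chart is bounded on the fibre of `S'` -/
def Osc (S0 S' : Finset α) (c : α) (b : ι → ℤ) (f : Fn ι) (H : ℝ) : Prop :=
  ∀ z z' : ι → ℝ, T.Ag S0 z (cz b) → T.Ag S0 z' (cz b) → T.Of c z z' →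
    (∀ v ∈ T.fv S0 S', |T.u z v| ≤ 1 ∧ |T.u z' v| ≤ 1) → |f z - f z'| ≤ H

def IsI (S0 : Finset α) (b : ι → ℤ) (I : Fn ι) : Prop :=
  ∀ z : ι → ℤ, T.Ag S0 z b → ∃ n : ℤ, I (cz z) = n

def IBg (S0 S S' : Finset α) (c : α) (b : ι → ℤ) (f : Fn ι) (H : ℝ) : Prop :=
  ∃ I : Fn ι, T.Fm S (S \ S0) I ∧ T.IsI S0 b I ∧ T.Osc S0 S' c b (fun z => f z - I z) H

/-- integer plus bounded on the fibre of `S` over `b` (base classes `S0`) -/
def IB (S0 S : Finset α) (c : α) (b : ι → ℤ) (f : Fn ι) (H : ℝ) : Prop := T.IBg S0 S S c b f H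

/-- no bounded integer form sees the class `c` -/
def Zr (S0 S : Finset α) (c : α) (b : ι → ℤ) (H : ℝ) : Prop :=
  ∀ I : Fn ι, T.Fm S (S \ S0) I → T.IsI S0 b I → T.Osc S0 S c b I H → T.Osc S0 S0 c b I 0

open Classical in
/-- in every box of the marginal tower on `S1` all but a share `σ` of the points have `p` -/
def Mo (S1 : Finset α) (σ : ℝ) (p : (ι → ℤ) → Prop) : Prop :=
  ∀ c r, Bx σ c r → (((T.fbx ∅ S1 0 c r).filter (fun z => ¬ p z)).card : ℝ) ≤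
    σ * (T.vol ∅ S1 * ∏ v ∈ T.fv ∅ S1, r v)

/-- global counts, and typical one class fibres (lattices) are equidistributed -/
def G0 (σ : ℝ) : Prop :=
  (∀ S, T.Eq ∅ S 0 σ) ∧
  ∀ S S1 a, a ∈ S → S.erase a ⊆ S1 → T.Mo S1 σ (fun z => T.Eq (S.erase a) S z σ)

def N0 (σ : ℝ) : Prop :=
  T.G0 σ ∧
  (∀ S0 S S1 c r, S0 ⊆ S → S0 ⊆ S1 → Bx σ c r → T.Mo S1 σ (fun z => T.Ct S0 S z σ c r)) ∧
  ∀ S0 S S1 c, S0 ⊆ S → S0 ⊆ S1 → c ∈ S → c ∉ S0 → T.Mo S1 σ (fun z => T.Zr S0 S c z σ⁻¹)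

/-- window -/
def sc (l cen : ι → ℝ) : TT α ι where
  ty := T.ty
  u := fun z v => (T.u z v - cen v) / l v
  ψ := fun x => T.ψ (fun v => l v * x v + cen v)
  dv := fun v => T.dv v * l v

def Adm (l cen : ι → ℝ) (Z : ℝ) : Prop := ∀ v, Real.exp (-Z) ≤ l v ∧ |cen v| + l v ≤ 1

def Sub (T' : TT α ι) (Z : ℝ) : Prop := ∃ l cen, Adm l cen Z ∧ T' = T.sc l cen

/-- variables of the tower with copies of the class `i` -/
abbrev CV (i : α) (κ : Type) : Type := ι ⊕ κ × {v : ι // i ∈ T.ty v}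

section
variable {κ : Type} [Fintype κ] [DecidableEq κ] {R : Type} [CommRing R]

/-- the increment number `k` -/
def hc (i : α) (Z : T.CV i κ → R) (k : κ) : ι → R :=
  fun v => if h : i ∈ T.ty v then Z (Sum.inr (k, ⟨v, h⟩)) else 0
def bs (i : α) (Z : T.CV i κ → R) : ι → R := fun v => Z (Sum.inl v)
/-- a vertex -/
def vx (i : α) (ε : κ → ℤ) (Z : T.CV i κ → R) : ι → R :=
  fun v => Z (Sum.inl v) + ∑ k, (ε k : R) * T.hc i Z k v

def cm (i : α) (m : (ι → ℝ) → ι → ℝ) (Z : T.CV i κ → ℝ) : T.CV i κ → ℝ :=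
  Sum.elim (m (T.bs i Z)) (fun p => m (T.bs i Z + T.hc i Z p.1) p.2.1 - m (T.bs i Z) p.2.1)
end

/-- copies (increments) of the class `i` -/
def cpy (i : α) (κ : Type) [Fintype κ] [DecidableEq κ] : TT (α ⊕ κ) (T.CV i κ) where
  ty := Sum.elim (fun v => (T.ty v).disjSum ∅) (fun p => ((T.ty p.2.1).erase i).disjSum {p.1})
  u := T.cm i T.u
  ψ := T.cm i T.ψ
  dv := Sum.elim T.dv (fun p => T.dv p.2.1)

end TT

/-- a property for all iterated copy towers -/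
def Lv (Q : ∀ (α ι : Type) [Fintype α] [DecidableEq α] [Fintype ι] [DecidableEq ι],
    TT α ι → ℝ → Prop) : ℕ → ∀ (α ι : Type) [Fintype α] [DecidableEq α] [Fintype ι]
    [DecidableEq ι], TT α ι → ℝ → Prop
  | 0 => Q
  | n + 1 => fun α ι _ _ _ _ T σ => Q α ι T σ ∧
      ∀ (i : α) (m : ℕ), m ≤ 8 → Lv Q n (α ⊕ Fin m) (T.CV i (Fin m)) (T.cpy i (Fin m)) σ

namespace TT

variable {α ι : Type} [Fintype α] [DecidableEq α] [Fintype ι] [DecidableEq ι] (T : TT α ι)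

def Gn (n : ℕ) (σ : ℝ) : Prop := Lv (fun _ _ _ _ _ _ T σ => T.G0 σ) n α ι T σ
def Nn (n : ℕ) (σ : ℝ) : Prop := Lv (fun _ _ _ _ _ _ T σ => T.N0 σ) n α ι T σ

/-- dense set of points of the marginal tower on `S` -/
def Dn (S : Finset α) (Ω : Finset (ι → ℤ)) (Y : ℝ) : Prop :=
  Ω ⊆ T.pts S 1 ∧ Real.exp (-Y) * T.vol ∅ S ≤ Ω.card

def qv : Fin 4 → Fin 2 → ℤ := ![![0, 0], ![1, 0], ![0, 1], ![1, 1]]
def sg : Fin 4 → ℝ := ![1, -1, -1, 1]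
/-- signed sum over a quadruple -/
def Q (i : α) (f : Fin 4 → Fn ι) : Fn (T.CV i (Fin 2)) := fun Z => ∑ w, sg w * f w (T.vx i (qv w) Z)

def ex (S : Finset α) : Finset (α ⊕ Fin 2) := S.disjSum univ

variable {κ : Type}

/-- the hereditary property in the direction `i` -/
def HS (S : Finset α) (c : α) (τ : κ → Fn ι) (Ω : Finset (ι → ℤ)) (i : α) (H : ℝ) : Prop :=
  ∀ Z : T.CV i (Fin 2) → ℤ, (∀ w, ∃ ω ∈ Ω, T.Ag (S.erase c) (T.vx i (qv w) Z) ω) → ∀ k,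
    (T.cpy i (Fin 2)).IB (ex (S.erase c)) (ex S) (Sum.inl c) Z (T.Q i (fun _ => τ k)) H

/-- state: full in the classes of `F`, base classes `S.erase c \ F` -/
structure St (S : Finset α) (c : α) (F : Finset α) (τ : κ → Fn ι) (Ω : Finset (ι → ℤ))
    (Y : ℝ) : Prop where
  hc : c ∈ S
  hF : F ⊆ S.erase c
  fm : ∀ k, T.Fm S (insert c F) (τ k)
  dn : T.Dn univ Ω Y
  hs : ∀ i ∈ S.erase c \ F, T.HS S c τ Ω i (Real.exp Y)

def Rel (S : Finset α) (c : α) (n : ℕ) (τ τ' : κ → Fn ι) (Ω : Finset (ι → ℤ)) (H : ℝ) : Prop :=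
  ∀ z ∈ Ω, ∀ k, T.IB (S.erase c) S c z (fun x => n * τ k x - τ' k x) H

/-- the window of the first vertex -/
def win (i : α) (m : ℕ) (cen : T.CV i (Fin 2) → ℝ) : TT α ι :=
  T.sc (fun v => if i ∈ T.ty v then ((m : ℝ) ^ 3)⁻¹ else 1) (fun v => cen (Sum.inl v))

def ql (i : α) (m : ℕ) : T.CV i (Fin 2) → ℝ :=
  Sum.elim (fun v => if i ∈ T.ty v then ((m : ℝ) ^ 3)⁻¹ else 1)
    (fun p => if p.1 = 0 then ((m : ℝ) ^ 2)⁻¹ else (m : ℝ)⁻¹)

/-- the law of quadruples: first vertex narrow, then the two increments -/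
def qt (i : α) (m : ℕ) (cen : T.CV i (Fin 2) → ℝ) : TT (α ⊕ Fin 2) (T.CV i (Fin 2)) :=
  (T.cpy i (Fin 2)).sc (T.ql i m) cen

def Cen (i : α) (m : ℕ) (cen : T.CV i (Fin 2) → ℝ) : Prop := ∀ x, |cen x| + T.ql i m x ≤ 1

open Classical in
/-- the fibre of `Ω` over `b` is dense -/
def Pop (B : Finset α) (Ω : Finset (ι → ℤ)) (b : ι → ℤ) (Y : ℝ) : Prop :=
  Real.exp (-Y) * T.vol B univ ≤ ((Ω.filter (fun ω => ω ∈ T.pts univ 1 ∧ T.Ag B ω b)).card : ℝ)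

/-- many good base quadruples -/
def QS (S : Finset α) (c : α) (F : Finset α) (i : α) (f : Fin 4 → κ → Fn ι) (Ω : Finset (ι → ℤ))
    (m : ℕ) (cen : T.CV i (Fin 2) → ℝ) (Y : ℝ) : Prop :=
  T.Cen i m cen ∧ (∀ w k, T.Fm S (insert c F) (f w k)) ∧
  ∃ E, (T.qt i m cen).Dn (ex (S.erase c \ F)) E Y ∧ ∀ Z ∈ E,
    (T.win i m cen).Pop (S.erase c \ F) Ω (T.bs i Z) Y ∧ ∀ k,
      (T.qt i m cen).IB (ex (S.erase c \ F)) (ex S) (Sum.inl c) Z (T.Q i (fun w => f w k)) (Real.exp Y)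

/-- energy in the fixed group -/
def ES (S : Finset α) (c : α) (F : Finset α) (i : α) (f : κ → Fn ι) (Ω : Finset (ι → ℤ))
    (m : ℕ) (cen : T.CV i (Fin 2) → ℝ) (Y : ℝ) : Prop :=
  T.Cen i m cen ∧ ∃ (A A2 A3 : (ι → ℤ) → κ → Fn ι) (C : κ → Fn ι) (E : Finset (T.CV i (Fin 2) → ℤ)),
    (∀ y k, T.Fm (S.erase i) (insert c F) (A y k) ∧ T.Fm (S.erase i) (insert c F) (A2 y k) ∧
      T.Fm (S.erase i) (insert c F) (A3 y k)) ∧
    (∀ k, T.Fm S (insert i (insert c F)) (C k)) ∧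
    (T.qt i m cen).Dn ((S.erase c \ F).disjSum {0}) E Y ∧ ∀ Z ∈ E,
      (T.win i m cen).Pop (S.erase c \ F) Ω (T.bs i Z) Y ∧ ∀ k,
        (T.win i m cen).IB (S.erase c \ F) S c (T.bs i Z)
          (fun x => f k x - A (T.bs i Z) k x - C k x) (Real.exp Y) ∧
        T.IB ((S.erase c \ F).erase i) (S.erase i) c (T.bs i Z)
          (fun x => A (T.bs i Z) k x - A2 (T.bs i Z + T.hc i Z 0) k x -
            A3 (T.res ((S.erase c \ F).erase i) (T.bs i Z) + T.hc i Z 0) k x) (Real.exp Y)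

/-- all relations of length six hold in the fixed group -/
def R6 (S : Finset α) (c : α) (F : Finset α) (i : α) (f : κ → Fn ι) (Ω : Finset (ι → ℤ))
    (Y : ℝ) : Prop :=
  T.Dn univ Ω Y ∧ ∃ (A : (ι → ℤ) → κ → Fn ι) (C : κ → Fn ι),
    (∀ y k, T.Fm (S.erase i) (insert c F) (A y k)) ∧
    (∀ k, T.Fm S (insert i (insert c F)) (C k)) ∧
    (∀ z ∈ Ω, ∀ k, T.IB (S.erase c \ F) S c z
      (fun x => f k x - A (T.res (S.erase c \ F) z) k x - C k x) (Real.exp Y)) ∧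
    ∀ s t : Fin 6 → ι → ℤ, (∀ j, s j ∈ Ω ∧ t j ∈ Ω) →
      (∀ j, T.Ag ((S.erase c \ F).erase i) (s j) (s 0) ∧ T.Ag ((S.erase c \ F).erase i) (t j) (s 0)) →
      T.Ag (S.erase c \ F) (∑ j, s j) (∑ j, t j) → ∀ k,
      T.IB ((S.erase c \ F).erase i) (S.erase i) c (s 0)
        (fun x => ∑ j, A (T.res (S.erase c \ F) (s j)) k x - ∑ j, A (T.res (S.erase c \ F) (t j)) k x)
        (Real.exp Y)

variable {ρ : Type} [Fintype ρ]

/-- a form with wild coordinates -/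
def tw (a : κ → Fn ι) (cc : κ → ρ → Fn ι) (g : ρ → Fn ι) : κ → Fn ι :=
  fun k z => a k z + ∑ r, cc k r z * (round (g r z) : ℝ)

structure WD (S : Finset α) (c : α) (F : Finset α) (i : α) (a : κ → Fn ι) (cc : κ → ρ → Fn ι)
    (g : ρ → Fn ι) (Ω : Finset (ι → ℤ)) : Prop where
  hi : i ∈ S.erase c \ F
  fa : ∀ k, T.Fm S (insert i (insert c F)) (a k)
  fc : ∀ k r, T.Fm (S.erase i) (insert c F) (cc k r)
  fg : ∀ r, T.Fm (S.erase c \ F) {i} (g r)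
  arc : ∀ z ∈ Ω, ∀ r, |g r (cz z) - round (g r (cz z))| ≤ 1 / 100

def lc (K : ρ → ℤ) (g : ρ → Fn ι) : Fn ι := fun z => ∑ r, (K r : ℝ) * g r z

/-- linear algebra of one direction -/
structure LAD (k : ρ → ρ → ℤ) (D0 : ℕ) (p l ζ : ρ → ρ → ℤ) (Y : ℝ) : Prop where
  d1 : 1 ≤ D0
  d2 : (D0 : ℝ) ≤ Real.exp Y
  bd : ∀ s r, |(k s r : ℝ)| ≤ Real.exp Y ∧ |(p s r : ℝ)| ≤ Real.exp Y ∧
    |(l s r : ℝ)| ≤ Real.exp Y ∧ |(ζ s r : ℝ)| ≤ Real.exp Y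
  ort : ∀ s j, ∑ r, k s r * ζ j r = 0
  id : ∀ (m : ρ → ℤ) (r : ρ), (D0 : ℤ) * m r =
    ∑ s, (∑ r', k s r' * m r') * p s r + ∑ j, (∑ r', l j r' * m r') * ζ j r

end TT

section Mor
variable {α ι ι' : Type} [Fintype α] [DecidableEq α] [Fintype ι] [DecidableEq ι] [Fintype ι']
  [DecidableEq ι']

def zi (π : (ι' → ℝ) → ι → ℝ) (z : ι' → ℤ) : ι → ℤ := fun v => round (π (cz z) v)

/-- morphism of towers -/
structure Mor (T' : TT α ι') (T : TT α ι) (π : (ι' → ℝ) → ι → ℝ) : Prop where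
  int : ∀ z : ι' → ℤ, π (cz z) = cz (zi π z)
  fm : ∀ v, T'.Fm (T.ty v) univ (fun z => π z v)
  cel : ∀ (S : Finset α) (z : ι' → ℝ), (∀ v, T'.ty v ⊆ S → |T'.u z v| ≤ 1) →
    ∀ v, T.ty v ⊆ S → |T.u (π z) v| ≤ 1
end Mor

/-- a class of towers with a reserve `W` and a count `R` of added coordinates -/
abbrev RV (α β : Type) [Fintype α] [DecidableEq α] : Type 1 :=
  ∀ (ι : Type) [Fintype ι] [DecidableEq ι], TT α ι → ((ι → ℝ) → β) → ℝ → ℝ → Prop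

/-- what the class of towers has to provide -/
structure Env {α β : Type} [Fintype α] [DecidableEq α] (Rv : RV α β) (C0 : ℕ) (D0 : ℝ) : Prop where
  ok : ∀ (ι : Type) [Fintype ι] [DecidableEq ι] (T : TT α ι) p W R, Rv ι T p W R →
    T.Ok ∧ 0 ≤ R ∧ (Fintype.card ι : ℝ) ≤ D0 + R ∧ T.Gn 3 (Real.exp (-W))
  mono : ∀ (ι : Type) [Fintype ι] [DecidableEq ι] (T : TT α ι) p W R W' R', Rv ι T p W R →
    1 ≤ W' → W' ≤ W → R ≤ R' → Rv ι T p W' R'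
  win : ∀ (ι : Type) [Fintype ι] [DecidableEq ι] (T T' : TT α ι) p W R W' Y, Rv ι T p W R →
    (C0 : ℝ) ≤ Y → D0 + R ≤ Real.exp Y → 1 ≤ W' → (Y + W') ^ C0 ≤ W → T.Sub T' Y → Rv ι T' p W' R
  add : ∀ (ι : Type) [Fintype ι] [DecidableEq ι] (T : TT α ι) p W R W' Y (ρ : Type) [Fintype ρ]
    (e : Finset α) (Ψ : ρ → Fn ι) (Ω : Finset (ι → ℤ)), Rv ι T p W R → (C0 : ℝ) ≤ Y →
    D0 + R ≤ Real.exp Y → (Fintype.card ρ : ℝ) ≤ Y → 1 ≤ W' → (Y + W') ^ C0 ≤ W →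
    (∀ r, T.Fm e e (Ψ r)) → T.Dn univ Ω Y →
    ∃ (ι' : Type) (_ : Fintype ι') (_ : DecidableEq ι') (T' : TT α ι') (π : (ι' → ℝ) → ι → ℝ)
      (Ω' : Finset (ι' → ℤ)) (ζ : ρ → Fn ι') (s : ρ → ℝ), Rv ι' T' (fun z => p (π z)) W' (R + Y ^ C0) ∧
      Mor T' T π ∧ T'.Dn univ Ω' (Y ^ C0) ∧ (∀ z ∈ Ω', zi π z ∈ Ω) ∧
      (∀ r, T'.Fm e e (ζ r) ∧ ∀ z : ι' → ℤ, ∃ n : ℤ, ζ r (cz z) = n) ∧
      ∀ z ∈ Ω', ∀ r, |Ψ r (π (cz z)) - ζ r (cz z) - s r| ≤ 1 / 100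

/-- the theorem for states with at most `s` classes and at most `b` base classes -/
def GKs (a C0 s b : ℕ) : Prop :=
  ∃ C : ℕ, ∀ (α β : Type) [Fintype α] [DecidableEq α] (Rv : RV α β) (D0 : ℝ) (ι κ : Type)
    [Fintype ι] [DecidableEq ι] [Fintype κ] (T : TT α ι) (p : (ι → ℝ) → β) (W R W' Y : ℝ)
    (S : Finset α) (c : α) (F : Finset α) (τ : κ → Fn ι) (Ω : Finset (ι → ℤ)),
    Fintype.card α ≤ a → Env Rv C0 D0 → Rv ι T p W R → (C : ℝ) ≤ Y → D0 + R ≤ Real.exp Y →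
    (Fintype.card κ : ℝ) ≤ Real.exp Y → 1 ≤ W' → (Y + W') ^ C ≤ W → S.card ≤ s →
    (S.erase c \ F).card ≤ b → T.St S c F τ Ω Y →
    ∃ (ι' : Type) (_ : Fintype ι') (_ : DecidableEq ι') (T' : TT α ι') (π : (ι' → ℝ) → ι → ℝ)
      (Ω' : Finset (ι' → ℤ)) (n : ℕ) (P : κ → Fn ι'), Rv ι' T' (fun z => p (π z)) W' (R + Y ^ C) ∧
      Mor T' T π ∧ T'.Dn univ Ω' (Y ^ C) ∧ (∀ z ∈ Ω', zi π z ∈ Ω) ∧ 1 ≤ n ∧
      (n : ℝ) ≤ Real.exp (Y ^ C) ∧ (∀ k, T'.Fm S S (P k)) ∧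
      T'.Rel S c n (fun k z => τ k (π z)) P Ω' (Real.exp (Y ^ C))

/-- the main statement -/
def GK : Prop := ∀ a C0 : ℕ, GKs a C0 a a

end

end Vale.Agent.P057T.Gk
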