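import Vale.Agent.P057T.Gk.Rows
import Vale.Agent.P057T.Gk.Bas2

/-! Monotonicity and small calculus for the assembly rows. -/

set_option linter.all false

open Finset

namespace Vale.Agent.P057T.Gk

open TT

noncomputable section

namespace H82

variable {α ι κ ρ : Type} [Fintype α] [DecidableEq α] [Fintype ι] [DecidableEq ι] [Fintype ρ]
  {T T1 : TT α ι} {S F B : Finset α} {c i j : α} {Ω Ω' : Finset (ι → ℤ)} {Y Y' H H' Z : ℝ}

theorem pw (hY : 2 ≤ Y) {a b : ℕ} (h : a ≤ b) : Y ^ a ≤ Y ^ b :=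
  pow_le_pow_right₀ (by linarith) h

theorem pw1 (hY : 2 ≤ Y) {b : ℕ} (h : 1 ≤ b) : Y ≤ Y ^ b := by simpa using pw hY h

theorem mulpw (hY : 2 ≤ Y) {t : ℝ} (ht : t ≤ Y) {a b : ℕ} (h : a < b) : t * Y ^ a ≤ Y ^ b :=
  calc t * Y ^ a ≤ Y * Y ^ a := mul_le_mul_of_nonneg_right ht (by positivity)
    _ = Y ^ (a + 1) := by ring
    _ ≤ _ := pw hY h

theorem ex_mono (h : Y ≤ Y') : Real.exp Y ≤ Real.exp Y' := Real.exp_le_exp.2 h

theorem exn_mono (h : Y ≤ Y') : Real.exp (-Y') ≤ Real.exp (-Y) := Real.exp_le_exp.2 (by linarith)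

theorem dn_mono (hT : T.Ok) {E : Finset (ι → ℤ)} (h : T.Dn S E Y) (hY : Y ≤ Y') : T.Dn S E Y' :=
  ⟨h.1, (mul_le_mul_of_nonneg_right (exn_mono hY) (vol_pos hT _ _).le).trans h.2⟩

theorem pop_mono (hT : T.Ok) {b : ι → ℤ} (h : T.Pop B Ω b Y) (hY : Y ≤ Y') : T.Pop B Ω b Y' :=
  (mul_le_mul_of_nonneg_right (exn_mono hY) (vol_pos hT _ _).le).trans h

theorem hs_mono {τ : κ → Fn ι} (h : T.HS S c τ Ω i H) (hΩ : Ω' ⊆ Ω) (hH : H ≤ H') :
    T.HS S c τ Ω' i H' := fun Z hZ k =>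
  IB.mono (h Z (fun w => by obtain ⟨ω, h1, h2⟩ := hZ w; exact ⟨ω, hΩ h1, h2⟩) k) hH

theorem rel_mono {τ τ' : κ → Fn ι} {n : ℕ} (h : T.Rel S c n τ τ' Ω H) (hΩ : Ω' ⊆ Ω)
    (hH : H ≤ H') : T.Rel S c n τ τ' Ω' H' := fun z hz k => IB.mono (h z (hΩ hz) k) hH

theorem rel_sub {τ τ' : κ → Fn ι} {n : ℕ} (hs : T.Sub T1 Z) (h : T.Rel S c n τ τ' Ω H) :
    T1.Rel S c n τ τ' Ω H := fun z hz k => hs.ib (h z hz k)

theorem r6_mono (hT : T.Ok) {f : κ → Fn ι} (h : T.R6 S c F i f Ω Y) (hY : Y ≤ Y') :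
    T.R6 S c F i f Ω Y' := by
  obtain ⟨h0, A, C, h1, h2, h3, h4⟩ := h
  exact ⟨dn_mono hT h0 hY, A, C, h1, h2, fun z hz k => IB.mono (h3 z hz k) (ex_mono hY),
    fun s t a b d k => IB.mono (h4 s t a b d k) (ex_mono hY)⟩

theorem lad_mono {k p l ζ : ρ → ρ → ℤ} {D0 : ℕ} (h : LAD k D0 p l ζ Y) (hY : Y ≤ Y') :
    LAD k D0 p l ζ Y' :=
  ⟨h.d1, h.d2.trans (ex_mono hY), fun s r => ⟨(h.bd s r).1.trans (ex_mono hY),
    (h.bd s r).2.1.trans (ex_mono hY), (h.bd s r).2.2.1.trans (ex_mono hY),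
    (h.bd s r).2.2.2.trans (ex_mono hY)⟩, h.ort, h.id⟩

theorem st_mono (hT : T.Ok) {τ : κ → Fn ι} (h : T.St S c F τ Ω Y) (hY : Y ≤ Y') :
    T.St S c F τ Ω Y' :=
  ⟨h.hc, h.hF, h.fm, dn_mono hT h.dn hY, fun i hi => hs_mono (h.hs i hi) subset_rfl (ex_mono hY)⟩

theorem ql_pos (i : α) {m : ℕ} (hm : 1 ≤ m) (x : T.CV i (Fin 2)) : 0 < T.ql i m x := by
  have : (0 : ℝ) < m := by exact_mod_cast hm
  rcases x with v | p
  · simp only [ql, Sum.elim_inl]; split_ifs <;> positivity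
  · simp only [ql, Sum.elim_inr]; split_ifs <;> positivity

theorem win_sub {m : ℕ} {cen : T.CV i (Fin 2) → ℝ} (hm : 1 ≤ m) (hZ : (m : ℝ) ≤ Real.exp Z)
    (h : T.Cen i m cen) : T.Sub (T.win i m cen) (3 * Z) := by
  have h1 : (1 : ℝ) ≤ m := by exact_mod_cast hm
  have h0 : 0 ≤ Z := by
    by_contra k
    have := Real.exp_lt_exp.2 (not_le.1 k)
    rw [Real.exp_zero] at this
    linarith
  refine ⟨_, _, fun v => ⟨?_, h (Sum.inl v)⟩, rfl⟩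
  simp only [ql, Sum.elim_inl]
  split_ifs
  · rw [Real.exp_neg]
    refine inv_anti₀ (by positivity) ?_
    calc (m : ℝ) ^ 3 ≤ Real.exp Z ^ 3 := by gcongr
      _ = _ := by rw [← Real.exp_nat_mul]; norm_num
  · exact Real.exp_le_one_iff.2 (by linarith)

theorem qs_mono (hC : CPOK) (hT : T.Ok) {f : Fin 4 → κ → Fn ι} {m : ℕ} (hm : 1 ≤ m)
    {cen : T.CV i (Fin 2) → ℝ} (h : T.QS S c F i f Ω m cen Y) (hY : Y ≤ Y') :
    T.QS S c F i f Ω m cen Y' := by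
  obtain ⟨h1, h2, E, h3, h4⟩ := h
  have k1 : (T.qt i m cen).Ok := (((hC α ι T hT).1 i (Fin 2)).1).sc (ql_pos i hm) cen
  have k2 : (T.win i m cen).Ok := hT.sc (fun v => ql_pos i hm (Sum.inl v)) _
  exact ⟨h1, h2, E, dn_mono k1 h3 hY, fun Z hZ => ⟨pop_mono k2 (h4 Z hZ).1 hY,
    fun k => IB.mono ((h4 Z hZ).2 k) (ex_mono hY)⟩⟩

variable {a : κ → Fn ι} {cc : κ → ρ → Fn ι} {g g' : ρ → Fn ι}

theorem wd_sub (hs : T.Sub T1 Z) (h : T.WD S c F i a cc g Ω) (hΩ : Ω' ⊆ Ω) :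
    T1.WD S c F i a cc g Ω' :=
  ⟨h.hi, fun k => hs.fm.2 (h.fa k), fun k r => hs.fm.2 (h.fc k r), fun r => hs.fm.2 (h.fg r),
    fun z hz => h.arc z (hΩ hz)⟩

theorem wd_fm (h : T.WD S c F i a cc g Ω) (k : κ) : T.Fm S (insert c F) (tw a cc g k) := by
  have hB : S.erase c \ F ⊆ S := sdiff_subset.trans (erase_subset _ _)
  refine Fm.add ((h.fa k).mono subset_rfl (subset_insert _ _)) (fm_sum _ fun r _ => ?_)
  have d : T.Dep (S.erase c \ F) fun z => (round (g r z) : ℝ) :=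
    (h.fg r).1.comp fun x => (round x : ℝ)
  refine ⟨Dep.op ((h.fc k r).1.mono (erase_subset _ _)) (d.mono hB) (· * ·), fun b hb => ?_⟩
  refine Aff.mul ((h.fc k r).2 b hb) (d.ind ?_)
  rcases mem_insert.1 hb with rfl | hb
  · simp
  · simp [hb]

theorem lc_fm {G : Finset α} (h : ∀ r, T.Fm S G (g r)) (K : ρ → ℤ) : T.Fm S G (lc K g) :=
  fm_sum _ fun r _ => (h r).smul _

theorem of_vx {κ' : Type} [Fintype κ'] [DecidableEq κ'] (ε : κ' → ℤ) {x x' : T.CV j κ' → ℝ}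
    (h : (T.cpy j κ').Of (Sum.inl i) x x') : T.Of i (T.vx j ε x) (T.vx j ε x') := by
  intro v hv
  unfold vx
  rw [h (Sum.inl v) (by simpa [cpy] using hv)]
  refine congrArg _ (sum_congr rfl fun k _ => ?_)
  unfold hc
  split_ifs with h1
  · rw [h (Sum.inr (k, ⟨v, h1⟩)) (by simp [cpy, hv])]
  · rfl

theorem hs_ind {τ τ' : κ → Fn ι} (h : T.HS B i τ Ω j H)
    (e : ∀ s, T.Ind i fun x => τ' s x - τ s x) : T.HS B i τ' Ω j H := by
  intro Z hZ k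
  have h1 : (T.cpy j (Fin 2)).Ind (Sum.inl i)
      (T.Q j fun _ => fun x => τ' k x - τ k x) := fun x x' hx =>
    sum_congr rfl fun w _ => congrArg _ (e k _ _ (of_vx _ hx))
  have h2 := IBg.mono (IBg.add (h Z hZ k) h1.ibg) (add_zero H).le
  refine IBg.eq h2 fun x _ => ?_
  simp only [Q, ← sum_add_distrib]
  exact sum_congr rfl fun w _ => by ring

theorem hs_lc (h : T.HS B i g Ω j H) (hH : 0 ≤ H) (K : κ → ρ → ℤ) {M : ℝ}
    (hK : ∀ s r, |(K s r : ℝ)| ≤ M) :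
    T.HS B i (fun s => lc (K s) g) Ω j (Fintype.card ρ * (M * H)) := by
  intro Z hZ s
  have h1 := ibg_sum univ fun r (_ : r ∈ univ) => IBg.mono (IBg.zsmul (h Z hZ r) (K s r))
    (mul_le_mul_of_nonneg_right (hK s r) hH)
  rw [sum_const, card_univ, nsmul_eq_mul] at h1
  refine IBg.eq h1 fun x _ => ?_
  simp only [Q, lc, mul_sum]
  rw [sum_comm]
  exact sum_congr rfl fun w _ => sum_congr rfl fun r _ => by ring

/-- typicality passes to a window -/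
theorem nn_sub (hS : SCG) {n A : ℕ} (hT : T.Ok) (hA : Fintype.card α ≤ A) (hY : 6 ≤ Y)
    (hY2 : (2 : ℝ) ^ (A + 8 * n + 1) ≤ Y) {e e' C : ℕ} (he : 1 ≤ e) (h1 : e + 2 < C) (h2 : e' < C)
    (hs : T.Sub T1 (Y ^ e)) (h : T.Nn n (Real.exp (-Y ^ C))) : T1.Nn n (Real.exp (-Y ^ e')) := by
  have y2 : 2 ≤ Y := by linarith
  have p0 : 0 ≤ Y ^ e := by positivity
  refine (hS n α ι T _ _ hT (Real.exp_pos _) (Real.exp_le_one_iff.2 ?_)).2.2 T1 _ p0 hs ?_ h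
  · have : 0 ≤ Y ^ e' := by positivity
    linarith
  · have a1 : (100 : ℝ) ≤ Real.exp 5 := by
      have := Real.add_one_le_exp (5 / 4 : ℝ)
      have e5 : Real.exp 5 = Real.exp (5 / 4) ^ 4 := by rw [← Real.exp_nat_mul]; norm_num
      have h4 := Real.quadratic_le_exp_of_nonneg (x := 5 / 4) (by norm_num)
      rw [e5]
      calc (100 : ℝ) ≤ (16 / 5) ^ 4 := by norm_num
        _ ≤ _ := by
          gcongr
          have := Real.sum_le_exp_of_nonneg (x := 5 / 4) (by norm_num) 4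
          simp [Finset.sum_range_succ, Nat.factorial] at this
          linarith
    have a2 : 100 * Real.exp (Y ^ e) ≤ Real.exp (2 * Y ^ e) := by
      have : 5 ≤ Y ^ e := le_trans (by linarith) (pw1 y2 he)
      calc _ ≤ Real.exp 5 * Real.exp (Y ^ e) := by gcongr
        _ = Real.exp (5 + Y ^ e) := (Real.exp_add _ _).symm
        _ ≤ _ := ex_mono (by linarith)
    have a3 : ((2 ^ (Fintype.card α + 8 * n + 1) : ℕ) : ℝ) ≤ Y := by
      push_cast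
      exact (pow_le_pow_right₀ one_le_two (by omega)).trans hY2
    calc _ ≤ Real.exp (-Y ^ C) * Real.exp (2 * Y ^ e) ^ (2 ^ (Fintype.card α + 8 * n + 1)) := by
          gcongr
      _ = Real.exp (-Y ^ C + (2 ^ (Fintype.card α + 8 * n + 1) : ℕ) * (2 * Y ^ e)) := by
          rw [← Real.exp_nat_mul, ← Real.exp_add]
      _ ≤ _ := by
          refine ex_mono ?_
          obtain ⟨C', rfl⟩ : ∃ C', C = C' + 1 := ⟨C - 1, by omega⟩
          have b1 : 2 * Y ^ e ≤ Y ^ (e + 1) := mulpw y2 y2 (by omega)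
          have b2 : ((2 ^ (Fintype.card α + 8 * n + 1) : ℕ) : ℝ) * (2 * Y ^ e) ≤ Y ^ C' :=
            (mul_le_mul_of_nonneg_left b1 (by positivity)).trans (mulpw y2 a3 (by omega))
          have b3 : Y ^ e' ≤ Y ^ C' := pw y2 (by omega)
          have b4 : 2 * Y ^ C' ≤ Y ^ (C' + 1) := mulpw y2 y2 (by omega)
          linarith

theorem nn_mono (hS : SCG) {n : ℕ} (hT : T.Ok) (hY : 2 ≤ Y) {e C : ℕ} (h1 : e ≤ C)
    (h : T.Nn n (Real.exp (-Y ^ C))) : T.Nn n (Real.exp (-Y ^ e)) := by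
  have : 0 ≤ Y ^ e := by positivity
  exact (hS n α ι T _ _ hT (Real.exp_pos _) (Real.exp_le_one_iff.2 (by linarith))).1
    (exn_mono (pw hY h1)) h

theorem nn_down (hS : SCG) {n : ℕ} (hT : T.Ok) {σ : ℝ} (h0 : 0 < σ) (h : T.Nn (n + 1) σ) :
    T.Nn n σ := (hS n α ι T σ 1 hT h0 le_rfl).2.1 h

theorem ex_m (hY : 2 ≤ Y) {e : ℕ} (he : 1 ≤ e) : ∃ m : ℕ, 1 ≤ m ∧ Real.exp (Y ^ e) ≤ m ∧
    (m : ℝ) ≤ Real.exp (Y ^ (e + 1)) := by
  refine ⟨⌈Real.exp (Y ^ e)⌉₊, Nat.ceil_pos.2 (Real.exp_pos _), Nat.le_ceil _, ?_⟩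
  have h1 := (Nat.ceil_lt_add_one (Real.exp_pos (Y ^ e)).le).le
  have h2 : 1 ≤ Real.exp (Y ^ e) := Real.one_le_exp (by positivity)
  have h3 : 2 * Y ^ e ≤ Y ^ (e + 1) := mulpw hY hY (by omega)
  have h4 := pw1 hY he
  have h5 := Real.add_one_le_exp (Y ^ e)
  calc _ ≤ Real.exp (Y ^ e) * Real.exp (Y ^ e) := by nlinarith
    _ = Real.exp (2 * Y ^ e) := by rw [← Real.exp_add]; ring_nf
    _ ≤ _ := ex_mono h3

end H82

end

end Vale.Agent.P057T.Gk
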