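import Vale.Agent.P057T.Gk.DropD
import Vale.Agent.P057T.Gk.Q0
import Vale.Agent.P057T.Gk.PetdA

/-! Row DROP. -/

set_option linter.all false

open Finset

namespace Vale.Agent.P057T.Gk

open TT H82

noncomputable section

namespace Dp

variable {α ι : Type} [Fintype α] [DecidableEq α] [Fintype ι] [DecidableEq ι] {T : TT α ι}
  {S00 S : Finset α} {a e : α} {f I I0 : Fn ι} {H : ℝ}

theorem sub_er {t : Finset α} : t ⊆ S.erase a ↔ t ⊆ S ∧ a ∉ t := subset_erase

theorem sd : S \ S.erase e ⊆ {e} := fun x hx => by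
  simp only [mem_sdiff, mem_erase, mem_singleton] at hx ⊢; tauto

/-- forget the variables which see `a` -/
def mx {R : Type} [Zero R] (T : TT α ι) (S : Finset α) (a e : α) (b z : ι → R) : ι → R :=
  fun v => if T.ty v ⊆ S.erase a then z v else if T.ty v ⊆ S.erase e then b v else 0

theorem mx_ag {R : Type} [Zero R] {b z : ι → R} (h : T.Ag ((S.erase a).erase e) z b) :
    T.Ag (S.erase e) (mx T S a e b z) b := fun v hv => by
  unfold mx
  split_ifs with h1
  · exact h v (sub_er.2 ⟨h1, (sub_er.1 hv).2⟩)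
  · rfl

theorem mx_ag' {R : Type} [Zero R] (b z : ι → R) : T.Ag (S.erase a) (mx T S a e b z) z :=
  fun v hv => if_pos hv

/-- an integer part which ignores the variables seeing `a` and `e` descends -/
theorem desc (hT : T.Ok) (h0 : S00 ⊆ S.erase a) (he : e ∈ S) (hf : T.Dep S00 f) {b : ι → ℤ}
    (h1 : T.Fm S (S \ S.erase e) I) (h2 : T.IsI (S.erase e) b I)
    (h3 : T.Osc (S.erase e) S e b (fun z => f z - I z) H)
    (h4 : ∀ z z', T.Ag (S.erase e) z (cz b) → T.Ag (S.erase e) z' (cz b) → T.Of a z z' →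
      T.Of e z z' → I z = I z') :
    T.IB ((S.erase a).erase e) (S.erase a) e b f H := by
  classical
  refine ⟨fun z => I (mx T S a e (cz b) z), ⟨fun z z' hz => congrArg I (funext fun v => ?_),
    fun c hc z => ?_⟩, fun z hz => ?_, fun z z' k1 k2 k3 k4 => ?_⟩
  · unfold mx
    split_ifs with h
    · exact hz v h
    · rfl
    · rfl
  · obtain rfl := mem_singleton.1 (sd hc)
    obtain ⟨L, hL⟩ := h1.2 c (by simp [he]) (mx T S a c (cz b) z)
    refine ⟨L.comp (LinearMap.pi fun v => if T.ty v ⊆ S.erase a then LinearMap.proj v else 0),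
      fun h hh => ?_⟩
    rw [LinearMap.comp_apply, ← hL _ fun v hv => by
      rw [LinearMap.pi_apply]; split_ifs <;> simp [hh v hv]]
    refine congrArg I (funext fun v => ?_)
    rw [Pi.add_apply, LinearMap.pi_apply]
    unfold mx
    split_ifs <;> simp
  · obtain ⟨n, hn⟩ := h2 _ (mx_ag hz)
    refine ⟨n, Eq.trans (congrArg I (funext fun v => ?_)) hn⟩
    simp only [mx, cz]
    split_ifs <;> simp
  · let y : (ι → ℝ) → ι → ℝ := fun z => T.ψ fun v =>
      if a ∈ T.ty v ∧ e ∈ T.ty v then 0 else T.u (mx T S a e (cz b) z) v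
    have y1 : ∀ z v, ¬ (a ∈ T.ty v ∧ e ∈ T.ty v) → y z v = mx T S a e (cz b) z v := fun z v hv => by
      rw [← congrFun (hT.l (mx T S a e (cz b) z)) v]
      exact hT.ψ_ag (S := T.ty v) (fun w hw => if_neg fun h => hv ⟨hw h.1, hw h.2⟩) subset_rfl
    have y2 : ∀ z, T.Ag ((S.erase a).erase e) z (cz b) → T.Ag (S.erase e) (y z) (cz b) :=
      fun z hz v hv => (y1 z v fun h => (sub_er.1 hv).2 h.2).trans (mx_ag hz v hv)
    have y3 : ∀ z, T.Ag ((S.erase a).erase e) z (cz b) →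
        f z - I (mx T S a e (cz b) z) = f (y z) - I (y z) := fun z hz => by
      rw [h4 (y z) _ (y2 z hz) (mx_ag hz) (fun v hv => y1 z v fun h => hv h.1)
        fun v hv => y1 z v fun h => hv h.2, hf (y z) z fun v hv =>
          (y1 z v fun h => (sub_er.1 (hv.trans h0)).2 h.1).trans (mx_ag' _ z v (hv.trans h0))]
    have y4 : ∀ z, (∀ v ∈ T.fv ((S.erase a).erase e) (S.erase a), |T.u z v| ≤ 1) →
        ∀ v ∈ T.fv (S.erase e) S, |T.u (y z) v| ≤ 1 := fun z hz v hv => by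
      obtain ⟨v1, v2⟩ := mem_fv.1 hv
      have v3 : e ∈ T.ty v := by_contra fun h => v2 (sub_er.2 ⟨v1, h⟩)
      rw [hT.r]
      split_ifs with h
      · simp
      · have v4 : T.ty v ⊆ S.erase a := sub_er.2 ⟨v1, fun k => h ⟨k, v3⟩⟩
        rw [hT.u_ag (mx_ag' _ z) v4]
        exact hz v (mem_fv.2 ⟨v4, fun k => (sub_er.1 k).2 v3⟩)
    show |f z - I (mx T S a e (cz b) z) - (f z' - I (mx T S a e (cz b) z'))| ≤ H
    rw [y3 z k1, y3 z' k2]
    refine h3 _ _ (y2 z k1) (y2 z' k2) (fun v hv => ?_) fun v hv =>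
      ⟨y4 z (fun v hv => (k4 v hv).1) v hv, y4 z' (fun v hv => (k4 v hv).2) v hv⟩
    rw [y1 z v fun h => hv h.2, y1 z' v fun h => hv h.2]
    unfold mx
    rw [k3 v hv]

theorem vx1 {R : Type} [CommRing R] (Z : T.CV a (Fin 2) → R) (v : ι) :
    T.vx a (qv 1) Z v = Z (Sum.inl v) + T.hc a Z 0 v := by
  simp [vx, qv, Fin.sum_univ_two]

theorem vx0 {R : Type} [CommRing R] (Z : T.CV a (Fin 2) → R) : T.vx a (qv 0) Z = T.bs a Z := by
  rw [show qv 0 = 0 by funext j; fin_cases j <;> rfl, vx_zero]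

/-- uniqueness on the quadruple tower -/
theorem ign (ha : a ∈ S.erase e) {Z : T.CV a (Fin 2) → ℤ}
    (h : (T.cpy a (Fin 2)).Osc (ex (S.erase e)) (ex (S.erase e)) (Sum.inl e) Z
      (fun x => I0 (T.vx a (qv 0) x) - I (T.vx a (qv 1) x)) 0) (z z' : ι → ℝ)
    (k1 : T.Ag (S.erase e) z (cz (T.vx a (qv 1) Z))) (k2 : T.Ag (S.erase e) z' (cz (T.vx a (qv 1) Z)))
    (k3 : T.Of a z z') (k4 : T.Of e z z') : I z = I z' := by
  let x : (ι → ℝ) → T.CV a (Fin 2) → ℝ := fun z => Sum.elim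
    (fun v => if a ∈ T.ty v then cz Z (Sum.inl v) else z v)
    fun p => if p.1 = 0 then z p.2.1 - cz Z (Sum.inl p.2.1) else cz Z (Sum.inr p)
  have x1 : ∀ z, T.vx a (qv 1) (x z) = z := fun z => funext fun v => by
    rw [vx1]
    by_cases hv : a ∈ T.ty v
    · rw [hc_of _ _ hv]; simp [x, hv]
    · rw [hc_not _ _ hv]; simp [x, hv]
  have x2 : ∀ z, T.Ag (S.erase e) z (cz (T.vx a (qv 1) Z)) →
      (T.cpy a (Fin 2)).Ag (ex (S.erase e)) (x z) (cz Z) := by
    rintro z hz (v | ⟨k, v, hv⟩) hx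
    · rw [ty_inl_sub, ex, toLeft_disjSum] at hx
      show (if a ∈ T.ty v then cz Z (Sum.inl v) else z v) = _
      split_ifs with hv
      · rfl
      · rw [hz v hx, cz_vx, vx1, hc_not _ _ hv, add_zero]
    · rw [ty_inr_sub, ex, toLeft_disjSum] at hx
      show (if k = 0 then z v - cz Z (Sum.inl v) else cz Z (Sum.inr (k, ⟨v, hv⟩))) = _
      split_ifs with hk
      · rw [hz v ((subset_insert_iff.2 hx.1).trans (by rw [insert_eq_of_mem ha])), cz_vx, vx1,
          hc_of _ _ hv, add_sub_cancel_left, hk]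
      · rfl
  have x3 : T.bs a (x z) = T.bs a (x z') := funext fun v => by
    show (if a ∈ T.ty v then cz Z (Sum.inl v) else z v) = if a ∈ T.ty v then cz Z (Sum.inl v) else z' v
    split_ifs with hv
    · rfl
    · exact k3 v hv
  have := h (x z) (x z') (x2 z k1) (x2 z' k2) (by
    rintro (v | ⟨k, v, hv⟩) hx
    · exact congrFun x3 v
    · have : e ∉ T.ty v := fun k => hx (by simp [ty_inr, k, (ne_of_mem_erase ha).symm])
      show (if k = 0 then z v - _ else _) = if k = 0 then z' v - _ else _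
      rw [k4 v this]) fun v hv => absurd (mem_fv.1 hv).1 (mem_fv.1 hv).2
  simp only [x1, vx0, x3, abs_nonpos_iff] at this
  linarith

theorem osc (hS : SCALE) (hT : T.Ok) (ha : a ∈ S.erase e) (hf : T.Fm S (S \ S.erase e) f)
    {Z : T.CV a (Fin 2) → ℤ} (w : Fin 4) (h1 : T.Fm S (S \ S.erase e) I)
    (h3 : T.Osc (S.erase e) S e (T.vx a (qv w) Z) (fun z => f z - I z) H) :
    (T.cpy a (Fin 2)).Osc (ex (S.erase e)) (ex S) (Sum.inl e) Z
      (fun x => f (T.vx a (qv w) x) - I (T.vx a (qv w) x))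
      ((100 : ℝ) ^ (2 ^ (Fintype.card α + 1)) * H) := by
  have k := (hS α ι T _ S e (T.vx a (qv w) Z) hT (erase_subset _ _) (notMem_erase _ _)).1
    (fun z => f z - I z) (fun _ => 1) (fun _ => 0) 1 H (hf.sub h1) one_pos
    (fun _ => ⟨le_rfl, by norm_num⟩) (by rw [sc_one]; exact h3)
  rw [div_one] at k
  exact Osc.vx (f := fun z => f z - I z) hT ha (by
    fin_cases w <;> simp [qv, Fin.sum_univ_two] <;> norm_num) k

theorem one (hS : SCALE) (hT : T.Ok) (h0 : S00 ⊆ S.erase a) (he : e ∈ S00) (ha : a ∈ S)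
    (hf : T.Fm S00 {e} f) {m : ℕ} (hm : 1 ≤ m) {cen : T.CV a (Fin 2) → ℝ} (hc : T.Cen a m cen)
    {Z : T.CV a (Fin 2) → ℤ} {K : ℝ} (hK : 2 * ((100 : ℝ) ^ (2 ^ (Fintype.card α + 1)) * H) ≤ K)
    (hZ : (T.qt a m cen).Zr (ex (S.erase e)) (ex S) (Sum.inl e) Z K)
    (b0 : T.IB (S.erase e) S e (T.vx a (qv 0) Z) f H) (b1 : T.IB (S.erase e) S e (T.vx a (qv 1) Z) f H) :
    T.IB ((S.erase a).erase e) (S.erase a) e (T.vx a (qv 1) Z) f H := by
  obtain ⟨I0, p1, p2, p3⟩ := b0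
  obtain ⟨I, q1, q2, q3⟩ := b1
  have ha' : a ∈ S.erase e := mem_erase.2 ⟨(ne_of_mem_erase (h0 he)).symm, ha⟩
  have hf' : T.Fm S (S \ S.erase e) f := hf.mono (h0.trans (erase_subset _ _)) sd
  refine desc hT h0 (mem_of_mem_erase (h0 he)) hf.1 q1 q2 q3 (ign (I0 := I0) ha' ?_)
  have k := hZ (fun x => I0 (T.vx a (qv 0) x) - I (T.vx a (qv 1) x))
    ((p1.vx_sdiff (qv 0)).sub (q1.vx_sdiff (qv 1))) (IsI.sub p2.vx q2.vx) (Osc.sc
      ((((osc hS hT ha' hf' 1 q1 q3).sub (osc hS hT ha' hf' 0 p1 p3)).eq fun x _ => by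
        rw [hf.1.ind (sub_er.1 h0).2 _ _ ((of_vx (qv 1) x).trans (of_vx (qv 0) x).symm)]
        ring).mono (by linarith)) (ql_pos hm) hc)
  exact fun x x' k1 k2 k3 _ => k x x' k1 k2 k3 fun v hv => absurd (mem_fv.1 hv).1 (mem_fv.1 hv).2

theorem num {Y : ℝ} {n : ℕ} (hY : 6 ≤ Y) (hn : (n : ℝ) ≤ Y) :
    2 * ((100 : ℝ) ^ n * Real.exp Y) ≤ (Real.exp (-Y ^ 3))⁻¹ := by
  have h1 := win_num (Y := Y) (Z := 0) (A := 0) (B := 5 * Y) (K := n) (K0 := n) le_rfl le_rfl
    (by linarith)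
  rw [Real.exp_zero, mul_one, neg_zero, Real.exp_zero, Real.exp_neg,
    inv_mul_le_iff₀ (Real.exp_pos _), mul_one] at h1
  have h2 : (2 : ℝ) ≤ Real.exp Y := by linarith [Real.add_one_le_exp Y]
  rw [← Real.exp_neg, neg_neg]
  calc _ ≤ Real.exp Y * (Real.exp (5 * Y) * Real.exp Y) := by gcongr
    _ = Real.exp (7 * Y) := by rw [← Real.exp_add, ← Real.exp_add]; ring_nf
    _ ≤ _ := ex_mono (by nlinarith [mul_nonneg (sub_nonneg.2 hY) (sq_nonneg Y), sq_nonneg (Y - 6)])

end Dp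

open Dp

theorem drop (hQ : CSQ) (hG : SCG) (hS : SCALE) (_ : CPOK) : DROP := by
  classical
  intro A
  obtain ⟨Cq, hq⟩ := hQ A
  obtain ⟨K, hK⟩ : ∃ K : ℕ, (K : ℝ) = 2 ^ (A + 3) := ⟨2 ^ (A + 3), by push_cast; rfl⟩
  refine ⟨3 * Cq + K + A + 8, ?_⟩
  intro α ι κ ρ _ _ _ _ _ _ _ T Y hA hC hι hκ hρ hT hN S00 S e f E h0 he hE hf hI
  push_cast at hC
  rw [hK] at hC
  have c0 : (0 : ℝ) ≤ Cq := Nat.cast_nonneg _
  have c1 : (0 : ℝ) ≤ A := Nat.cast_nonneg _
  have c2 : (0 : ℝ) < 2 ^ (A + 3) := by positivity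
  have y6 : 6 ≤ Y := by linarith
  have y2 : 2 ≤ Y := by linarith
  obtain ⟨m, m1, m2, m3⟩ := ex_m y2 (e := 2) one_le_two
  have p3 : Y ≤ Y ^ (2 + 1) := pw1 y2 (by norm_num)
  have hYY : Cq * (2 * Y) + Y + 1 ≤ Y ^ 2 := by nlinarith
  have key : ∀ D : Finset α, D ⊆ S \ S00 → ∃ E' ⊆ E, T.Dn (S.erase e) E' (Y + D.card) ∧
      ∀ b ∈ E', ∀ k, T.IB ((S \ D).erase e) (S \ D) e b (f k) (Real.exp Y) := by
    intro D
    induction D using Finset.induction_on with
    | empty => exact fun _ => ⟨E, subset_rfl, by simpa using hE, by simpa using hI⟩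
    | insert a D haD ih =>
      intro hD
      obtain ⟨E1, s1, d1, i1⟩ := ih ((subset_insert _ _).trans hD)
      obtain ⟨a1, a2⟩ := mem_sdiff.1 (hD (mem_insert_self a D))
      have hDc : (D.card : ℝ) ≤ A := by exact_mod_cast (card_le_univ D).trans hA
      have hD0 : (0 : ℝ) ≤ D.card := Nat.cast_nonneg _
      rw [card_insert_of_notMem haD, sdiff_insert]
      push_cast
      rw [← add_assoc]
      let P : (ι → ℤ) → Prop := fun b =>
        ∀ k, T.IB (((S \ D).erase a).erase e) ((S \ D).erase a) e b (f k) (Real.exp Y)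
      by_cases hb : Real.exp (-(Y + D.card + 1)) * T.vol ∅ (S.erase e) ≤ (E1.filter fun b => ¬ P b).card
      swap
      · refine ⟨E1.filter P, (filter_subset _ _).trans s1, ⟨(filter_subset _ _).trans d1.1, ?_⟩,
          fun b hb => (mem_filter.1 hb).2⟩
        have h1 : ((E1.filter P).card : ℝ) + (E1.filter fun b => ¬ P b).card = E1.card := by
          exact_mod_cast card_filter_add_card_filter_not P
        have h2 : Real.exp (-(Y + D.card + 1)) ≤ Real.exp (-(Y + D.card)) * (1 / 2) := by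
          rw [neg_add, Real.exp_add]
          exact mul_le_mul_of_nonneg_left exp_neg_one (Real.exp_pos _).le
        have h3 := mul_le_mul_of_nonneg_right h2 (vol_pos hT ∅ (S.erase e)).le
        linarith [d1.2]
      exfalso
      have hL : Cq * (Y + D.card + 1) ≤ Cq * (2 * Y) := mul_le_mul_of_nonneg_left (by linarith) c0
      obtain ⟨cen, E0, hcen, hE0, hv⟩ := hq α ι κ ρ T (Y ^ (2 + 1)) hA (by linarith)
        (hι.trans (ex_mono p3)) (hκ.trans (ex_mono p3)) (hρ.trans p3) hT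
        (by rw [← pow_mul]; exact nn_mono hG hT y2 (by omega) hN) (S.erase e) a
        (E1.filter fun b => ¬ P b) (Y + D.card + 1) m
        (mem_erase.2 ⟨fun h => a2 (h ▸ he), a1⟩) (by linarith) ⟨(filter_subset _ _).trans d1.1, hb⟩
        (by
          refine le_trans ?_ m2
          have h1 : (Fintype.card ι : ℝ) + 1 ≤ Real.exp (Y + 1) := by
            have := Real.one_le_exp (show 0 ≤ Y by linarith)
            have h3 := mul_le_mul_of_nonneg_left (Real.add_one_le_exp (1 : ℝ)) (Real.exp_pos Y).le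
            rw [Real.exp_add]
            linarith
          refine (mul_le_mul_of_nonneg_left h1 (Real.exp_pos _).le).trans ?_
          rw [← Real.exp_add, Real.exp_le_exp]
          linarith) m3
      have hQ := hT.qt m1 cen
      have hNq : (T.qt a m cen).Nn 0 (Real.exp (-Y ^ 3)) :=
        nn_sub hG (A := A + 2) (e := 4) (hT.cpy a _)
          (by simp only [Fintype.card_sum, Fintype.card_fin]; omega) y6 (by norm_num; linarith)
          (by norm_num) (by omega) (by omega)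
          ((sub_qt m1 m3 hcen).mono (mulpw y2 (by linarith) (by norm_num))) (hN.cpy a (by norm_num))
      have h1 := (hNq.n0.2.2 (ex ((S \ D).erase e)) (ex (S \ D)) (ex (S.erase e)) (Sum.inl e)
        (disjSum_mono (erase_subset _ _) subset_rfl)
        (disjSum_mono (erase_subset_erase _ sdiff_subset) subset_rfl)
        (by simpa [ex] using ⟨h0 he, fun h => (mem_sdiff.1 (hD (mem_insert_of_mem h))).2 he⟩)
        (by simp [ex])).one hQ (Real.exp_le_one_iff.2 (neg_nonpos.2 (by positivity))) hE0.1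
      obtain ⟨Z, hZ, hZr⟩ : ∃ Z ∈ E0, (T.qt a m cen).Zr (ex ((S \ D).erase e)) (ex (S \ D))
          (Sum.inl e) Z (Real.exp (-Y ^ 3))⁻¹ := by
        by_contra hc
        push Not at hc
        rw [filter_true_of_mem hc] at h1
        have h2 := le_of_mul_le_mul_right (hE0.2.trans h1) (vol_pos hQ _ _)
        rw [Real.exp_le_exp] at h2
        have : 2 * Y ^ 2 ≤ Y ^ 3 := mulpw y2 y2 (by norm_num)
        nlinarith
      refine (mem_filter.1 (hv Z hZ 1)).2 fun k => one hS hT (fun x hx => ?_) he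
        (mem_sdiff.2 ⟨a1, haD⟩) (hf k) m1 hcen (num y6 ?_) hZr
        (i1 _ (mem_filter.1 (hv Z hZ 0)).1 k) (i1 _ (mem_filter.1 (hv Z hZ 1)).1 k)
      · exact mem_erase.2 ⟨fun h => a2 (h ▸ hx), mem_sdiff.2
          ⟨h0 hx, fun h => (mem_sdiff.1 (hD (mem_insert_of_mem h))).2 hx⟩⟩
      · push_cast
        exact (pow_le_pow_right₀ one_le_two (by omega)).trans (by linarith : (2 : ℝ) ^ (A + 3) ≤ Y)
  obtain ⟨E', s, d, i⟩ := key _ subset_rfl
  rw [Finset.sdiff_sdiff_eq_self h0] at i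
  have hc : (((S \ S00).card : ℕ) : ℝ) ≤ A := by exact_mod_cast (card_le_univ _).trans hA
  have hp : Y ^ 2 ≤ Y ^ (3 * Cq + K + A + 8) := pw y2 (by omega)
  have : 0 ≤ Cq * (2 * Y) := by positivity
  have : 2 * Y ≤ Y ^ 2 := by nlinarith
  exact ⟨E', s, dn_mono hT d (by linarith), fun b hb k => (i b hb k).mono (ex_mono (by linarith))⟩

end

end Vale.Agent.P057T.Gk
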