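import Vale.Agent.P057T.Gk.Rows

/-! Row statement DROP. -/

set_option linter.all false

namespace Vale.Agent.P057T.Gk

open TT

/-- a form that only sees `S00` has its integer part on `S00` -/
def DROP : Prop := AT 1 fun C α ι κ _ _ _ _ _ _ _ _ T Y =>
  ∀ (S00 S : Finset α) (e : α) (f : κ → Fn ι) (E : Finset (ι → ℤ)), S00 ⊆ S → e ∈ S00 →
    T.Dn (S.erase e) E Y → (∀ k, T.Fm S00 {e} (f k)) →
    (∀ b ∈ E, ∀ k, T.IB (S.erase e) S e b (f k) (Real.exp Y)) →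
    ∃ E' ⊆ E, T.Dn (S.erase e) E' (Y ^ C) ∧
      ∀ b ∈ E', ∀ k, T.IB (S00.erase e) S00 e b (f k) (Real.exp (Y ^ C))

end Vale.Agent.P057T.Gk
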