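import Vale.Agent.P057T.Gk.EqwD
import Vale.Agent.P057T.Gk.Bas3

/-! The row `ELIM`. -/

set_option linter.all false

open Finset

namespace Vale.Agent.P057T.Gk

open TT

noncomputable section

namespace El

variable {α ι : Type} [Fintype α] [DecidableEq α] [Fintype ι] [DecidableEq ι] {T : TT α ι}

theorem mfv {S0 S : Finset α} {v : ι} : v ∈ T.fv S0 S ↔ T.ty v ⊆ S ∧ ¬ T.ty v ⊆ S0 := by
  simp [TT.fv]

theorem age (hT : T.Ok) {R : Type} (x y : ι → R) : T.Ag ∅ x y := fun v hv =>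
  absurd (subset_empty.1 hv) (hT.ne v).ne_empty

variable {κ : Type} [Fintype κ] [DecidableEq κ] {i : α}

theorem inl_sub {P : Finset α} {Q : Finset κ} {v : ι} :
    (T.cpy i κ).ty (Sum.inl v) ⊆ P.disjSum Q ↔ T.ty v ⊆ P := by
  rw [ty_inl_sub, toLeft_disjSum]

theorem inr_not {P : Finset α} {p : κ × {v : ι // i ∈ T.ty v}} :
    ¬ (T.cpy i κ).ty (Sum.inr p) ⊆ P.disjSum ∅ := fun h => by
  have := (ty_inr_sub.1 h).2
  simp at this

theorem fv_cpy (P : Finset α) :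
    (T.cpy i κ).fv ∅ (P.disjSum ∅) = (T.fv ∅ P).map Function.Embedding.inl := by
  have e0 : (∅ : Finset (α ⊕ κ)) = (∅ : Finset α).disjSum ∅ := by simp
  ext x
  rcases x with v | p
  · rw [mfv, e0, inl_sub, inl_sub, ← mfv]
    exact (mem_map' Function.Embedding.inl).symm
  · rw [mfv]
    refine ⟨fun h => absurd h.1 inr_not, fun h => ?_⟩
    obtain ⟨v, _, hv⟩ := mem_map.1 h
    exact absurd hv Sum.inl_ne_inr

/-- typicality over the base of a copy tower is typicality in the tower -/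
theorem mo_dn (hT : T.Ok) {P : Finset α} {σ : ℝ} (h1 : σ ≤ 1) {p : (T.CV i κ → ℤ) → Prop}
    (h : (T.cpy i κ).Mo (P.disjSum ∅) σ p) : T.Mo P σ fun b => p (Sum.elim b fun _ => 0) := by
  classical
  intro c r hb
  have h2 := h (Sum.elim c fun _ => 0) (Sum.elim r fun _ => 1) (by
    rintro (v | q)
    · exact hb v
    · exact ⟨h1, by norm_num⟩)
  unfold vol at h2 ⊢
  rw [fv_cpy, prod_map, prod_map] at h2
  refine le_trans ?_ h2
  refine Nat.cast_le.2 (card_le_card_of_injOn (fun b => Sum.elim b fun _ => 0) (fun b hb => ?_)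
    fun b _ b' _ hh => funext fun v => congrFun hh (Sum.inl v))
  obtain ⟨k1, k2⟩ := mem_filter.1 (mem_coe.1 hb)
  unfold fbx at k1
  obtain ⟨k3, _, k4⟩ := mem_filter.1 k1
  obtain ⟨k5, k6⟩ := (mem_pts hT).1 k3
  refine mem_coe.2 (mem_filter.2 ⟨?_, k2⟩)
  unfold fbx
  refine mem_filter.2 ⟨(mem_pts (hT.cpy i κ)).2 ⟨?_, ?_⟩, age (hT.cpy i κ) _ _, ?_⟩
  · rintro (v | q) hv
    · exact k5 v fun hh => hv (inl_sub.2 hh)
    · rfl
  · rintro (v | q) hv
    · exact k6 v (inl_sub.1 hv)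
    · exact absurd hv inr_not
  · intro x hx
    rw [fv_cpy] at hx
    obtain ⟨v, hv, rfl⟩ := mem_map.1 hx
    exact k4 v hv

theorem mo_all (hT : T.Ok) {P A : Finset α} {σ σ' : ℝ} (h0 : 0 < σ) (h1 : σ ≤ σ')
    (h2 : A.card * σ ≤ σ') {p : α → (ι → ℤ) → Prop} {q : (ι → ℤ) → Prop}
    (h : ∀ a ∈ A, T.Mo P σ (p a)) (hq : ∀ z, (∀ a ∈ A, p a z) → q z) : T.Mo P σ' q := by
  classical
  intro c r hb
  have hb' : Bx σ c r := fun v => ⟨h1.trans (hb v).1, (hb v).2⟩
  have hV : 0 ≤ T.vol ∅ P * ∏ v ∈ T.fv ∅ P, r v :=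
    mul_nonneg (vol_pos hT _ _).le (prod_nonneg fun v _ => h0.le.trans (hb' v).1)
  have k1 : ((T.fbx ∅ P 0 c r).filter fun z => ¬ q z) ⊆
      A.biUnion fun a => (T.fbx ∅ P 0 c r).filter fun z => ¬ p a z := fun z hz => by
    obtain ⟨a1, a2⟩ := mem_filter.1 hz
    by_contra hc
    refine a2 (hq z fun a ha => ?_)
    by_contra h3
    exact hc (mem_biUnion.2 ⟨a, ha, mem_filter.2 ⟨a1, h3⟩⟩)
  have k2 := (card_le_card k1).trans card_biUnion_le
  have k3 : (((T.fbx ∅ P 0 c r).filter fun z => ¬ q z).card : ℝ) ≤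
      ∑ a ∈ A, (((T.fbx ∅ P 0 c r).filter fun z => ¬ p a z).card : ℝ) := by exact_mod_cast k2
  have k4 := sum_le_sum fun a ha => h a ha c r hb'
  rw [sum_const, nsmul_eq_mul, ← mul_assoc] at k4
  convert k3.trans (le_trans _ (k4.trans (mul_le_mul_of_nonneg_right h2 hV)))
  exact le_of_eq (by congr)

/-- set the variables that meet `A` to zero -/
def kl (T : TT α ι) (A : Finset α) (w : ι → ℝ) : ι → ℝ :=
  fun v => if Disjoint (T.ty v) A then w v else 0

variable {S00 S0 : Finset α} {e a : α} {b : ι → ℤ} {f I : Fn ι} {H K : ℝ}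

/-- one class -/
theorem one (hS : SCALE) (hT : T.Ok) (h0 : S00 ⊆ S0) (he : e ∈ S00) (ha : a ∉ S00)
    (hf : T.Fm S00 {e} f) (hI : T.Fm S0 (S0 \ S00.erase e) I) (hi : T.IsI (S00.erase e) b I)
    (ho : T.Osc (S00.erase e) S0 e b (fun z => f z - I z) H)
    (hK : 2 * ((100 : ℝ) ^ (2 ^ (Fintype.card α + 1)) * H) ≤ K)
    (hz : (T.cpy a (Fin 1)).Zr ((S00.erase e).disjSum ∅) (S0.disjSum univ) (Sum.inl e)
      (Sum.elim b fun _ => 0) K)
    (w w' : ι → ℝ) (h1 : T.Ag (S00.erase e) w (cz b)) (h2 : T.Ag (S00.erase e) w' (cz b))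
    (h3 : T.Of e w w') : I w - I w' = I (kl T {a} w) - I (kl T {a} w') := by
  have hB : S00.erase e ⊆ S0 := (erase_subset _ _).trans h0
  have haB : a ∉ S00.erase e := fun h => ha (mem_of_mem_erase h)
  have hf' : T.Fm S0 (S0 \ S00.erase e) f :=
    (hf.ext (G' := S0 \ S00.erase e) fun x hx hs => by
      by_contra h
      exact (mem_sdiff.1 hx).2 (mem_erase.2 ⟨fun hh => h (mem_singleton.2 hh), hs⟩)).mono h0
        subset_rfl
  have hs := (hS α ι T _ S0 e b hT hB (notMem_erase _ _)).1 (fun z => f z - I z) (fun _ => 1)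
    (fun _ => 0) 1 H (hf'.sub hI) one_pos (fun _ => ⟨le_rfl, by norm_num⟩) (by rwa [sc_one])
  rw [div_one] at hs
  have fm : ∀ ε : Fin 1 → ℤ, (T.cpy a (Fin 1)).Fm (S0.disjSum univ)
      (S0.disjSum univ \ (S00.erase e).disjSum ∅) (fun Z => I (T.vx a ε Z)) := fun ε =>
    hI.vx ε (by rw [toLeft_disjSum]) (fun k _ => inr_mem_disjSum.2 (mem_univ k))
      (fun x hx hs => mem_sdiff.2 ⟨hs, fun h => (mem_sdiff.1 hx).2 (by simpa using h)⟩)
      (fun _ _ hs => mem_sdiff.2 ⟨hs, haB⟩)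
  have ag : ∀ {R : Type} [CommRing R] (ε : Fin 1 → ℤ) (Z : T.CV a (Fin 1) → R) (y : ι → R),
      (T.cpy a (Fin 1)).Ag ((S00.erase e).disjSum ∅) Z (Sum.elim y fun _ => 0) →
      T.Ag (S00.erase e) (T.vx a ε Z) y := fun ε Z y hZ =>
    ((of_vx ε Z).ag haB).trans fun v hv => hZ (Sum.inl v) (inl_sub.2 hv)
  have cb : cz (Sum.elim b fun _ => 0 : T.CV a (Fin 1) → ℤ) = Sum.elim (cz b) fun _ => 0 := by
    funext x
    rcases x with v | q
    · rfl
    · exact Int.cast_zero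
  have key := hz (fun Z => I (T.vx a 1 Z) - I (T.vx a 0 Z)) ((fm 1).sub (fm 0)) (fun Z hZ => by
    obtain ⟨n1, k1⟩ := hi _ (ag 1 Z b hZ)
    obtain ⟨n0, k0⟩ := hi _ (ag 0 Z b hZ)
    exact ⟨n1 - n0, by beta_reduce; rw [← cz_vx, ← cz_vx, k1, k0, Int.cast_sub]⟩) (fun Z Z' k1 k2 k3 k4 => by
    rw [cb] at k1 k2
    have bd : ∀ (ε : Fin 1 → ℤ) (X : T.CV a (Fin 1) → ℝ), (ε = 1 ∨ ε = 0) →
        (∀ x ∈ (T.cpy a (Fin 1)).fv ((S00.erase e).disjSum ∅) (S0.disjSum univ),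
          |(T.cpy a (Fin 1)).u X x| ≤ 1) → ∀ v ∈ T.fv (S00.erase e) S0,
        |(T.sc (fun _ => 20) (fun _ => 0)).u (T.vx a ε X) v| ≤ 1 := by
      intro ε X hε hX v hv
      obtain ⟨v1, v2⟩ := mfv.1 hv
      have b1 := hX (Sum.inl v) (mfv.2 ⟨inl_sub.2 v1, fun h => v2 (inl_sub.1 h)⟩)
      have b2 : |T.hc a ((T.cpy a (Fin 1)).u X) 0 v| ≤ 1 := by
        by_cases hv : a ∈ T.ty v
        · rw [hc_of _ _ hv]
          exact hX _ (mfv.2 ⟨ty_inr_sub.2 ⟨by
            rw [toLeft_disjSum]; exact (erase_subset _ _).trans v1, by simp⟩, inr_not⟩)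
        · rw [hc_not _ _ hv, abs_zero]; exact zero_le_one
      show |(T.u (T.vx a ε X) v - 0) / 20| ≤ 1
      rw [hT.u_vx, sub_zero, abs_div, div_le_one (by norm_num)]
      unfold vx
      rw [Fin.sum_univ_one]
      obtain ⟨c1, c2⟩ := abs_le.1 b1
      obtain ⟨c3, c4⟩ := abs_le.1 b2
      rw [abs_of_pos (by norm_num : (0 : ℝ) < 20), abs_le]
      rcases hε with rfl | rfl
      · simp only [Pi.one_apply, Int.cast_one, one_mul]
        constructor <;> linarith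
      · simp only [Pi.zero_apply, Int.cast_zero, zero_mul]
        constructor <;> linarith
    have t : ∀ ε : Fin 1 → ℤ, (ε = 1 ∨ ε = 0) → |f (T.vx a ε Z) - I (T.vx a ε Z) -
        (f (T.vx a ε Z') - I (T.vx a ε Z'))| ≤ (100 : ℝ) ^ (2 ^ (Fintype.card α + 1)) * H :=
      fun ε hε => hs _ _ (ag ε Z _ k1) (ag ε Z' _ k2) (Of.vx k3 ε) fun v hv =>
        ⟨bd ε Z hε (fun x hx => (k4 x hx).1) v hv, bd ε Z' hε (fun x hx => (k4 x hx).2) v hv⟩
    have ff : ∀ X : T.CV a (Fin 1) → ℝ, f (T.vx a 1 X) = f (T.vx a 0 X) := fun X =>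
      hf.1.ind ha _ _ ((of_vx 1 X).trans (of_vx 0 X).symm)
    obtain ⟨t1, t2⟩ := abs_le.1 (t 1 (Or.inl rfl))
    obtain ⟨t3, t4⟩ := abs_le.1 (t 0 (Or.inr rfl))
    rw [ff, ff] at t1 t2
    rw [abs_le]
    constructor <;> linarith)
  have v0 : ∀ x : ι → ℝ, T.vx a 0 (Sum.elim (kl T {a} x) fun p => x p.2.1 : T.CV a (Fin 1) → ℝ) =
      kl T {a} x := fun x => vx_zero _
  have v1 : ∀ x : ι → ℝ, T.vx a 1 (Sum.elim (kl T {a} x) fun p => x p.2.1 : T.CV a (Fin 1) → ℝ) =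
      x := fun x => by
    funext v
    unfold vx
    rw [Fin.sum_univ_one]
    by_cases hv : a ∈ T.ty v
    · rw [hc_of _ _ hv]
      simp [kl, hv]
    · rw [hc_not _ _ hv]
      simp [kl, hv]
  have ag2 : ∀ x : ι → ℝ, T.Ag (S00.erase e) x (cz b) → (T.cpy a (Fin 1)).Ag
      ((S00.erase e).disjSum ∅) (Sum.elim (kl T {a} x) fun p => x p.2.1)
      (cz (Sum.elim b fun _ => 0)) := by
    rintro x hx (v | q) hv
    · have hv' := inl_sub.1 hv
      exact (if_pos (disjoint_singleton_right.2 fun h => haB (hv' h))).trans (hx v hv')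
    · exact absurd hv inr_not
  have k := key _ _ (ag2 w h1) (ag2 w' h2) (by
    rintro (v | q) hv
    · have : e ∉ T.ty v := by simpa [ty_inl] using hv
      show kl T {a} w v = kl T {a} w' v
      unfold kl
      rw [h3 v this]
    · refine h3 q.2.1 fun h => hv ?_
      rw [ty_inr]
      exact inl_mem_disjSum.2 (mem_erase.2 ⟨fun hh => ha (hh ▸ he), h⟩))
    (fun x hx => absurd (mfv.1 hx).1 (mfv.1 hx).2)
  simp only [v0, v1] at k
  linarith [abs_nonpos_iff.1 k]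

theorem many {B A : Finset α} (hA : ∀ a ∈ A, a ∉ B)
    (h : ∀ a ∈ A, ∀ w w' : ι → ℝ, T.Ag B w (cz b) → T.Ag B w' (cz b) → T.Of e w w' →
      I w - I w' = I (kl T {a} w) - I (kl T {a} w'))
    (w w' : ι → ℝ) (h1 : T.Ag B w (cz b)) (h2 : T.Ag B w' (cz b)) (h3 : T.Of e w w') :
    I w - I w' = I (kl T A w) - I (kl T A w') := by
  induction A using Finset.induction_on with
  | empty =>
    have : ∀ x, kl T ∅ x = x := fun x => funext fun v => if_pos (disjoint_empty_right _)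
    rw [this, this]
  | insert a A _ ih =>
    have e1 : ∀ x, kl T (insert a A) x = kl T {a} (kl T A x) := fun x => funext fun v => by
      simp only [kl, disjoint_insert_right, disjoint_singleton_right]
      by_cases k1 : a ∈ T.ty v <;> simp [k1]
    have e2 : ∀ x, T.Ag B x (cz b) → T.Ag B (kl T A x) (cz b) := fun x hx v hv =>
      (if_pos (disjoint_right.2 fun c hc hh => hA c (mem_insert_of_mem hc) (hv hh))).trans (hx v hv)
    rw [ih (fun c hc => hA c (mem_insert_of_mem hc)) fun c hc => h c (mem_insert_of_mem hc), e1, e1]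
    refine h a (mem_insert_self _ _) _ _ (e2 w h1) (e2 w' h2) fun v hv => ?_
    unfold kl
    rw [h3 v hv]

/-- cut to the types inside `S` -/
def ct (T : TT α ι) (S : Finset α) (w : ι → ℝ) : ι → ℝ := fun v => if T.ty v ⊆ S then w v else 0

theorem ag_ct (S : Finset α) (w : ι → ℝ) : T.Ag S (ct T S w) w := fun v hv => if_pos hv

theorem fin (hT : T.Ok) (h0 : S00 ⊆ S0) (he : e ∈ S00) (hf : T.Fm S00 {e} f)
    (hI : T.Fm S0 (S0 \ S00.erase e) I) (hi : T.IsI (S00.erase e) b I)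
    (ho : T.Osc (S00.erase e) S0 e b (fun z => f z - I z) H)
    (h : ∀ w w' : ι → ℝ, T.Ag (S00.erase e) w (cz b) → T.Ag (S00.erase e) w' (cz b) → T.Of e w w' →
      I w - I w' = I (kl T (S0 \ S00) w) - I (kl T (S0 \ S00) w')) :
    T.IB (S00.erase e) S00 e b f H := by
  have hB : S00.erase e ⊆ S00 := erase_subset _ _
  refine ⟨fun z => I (ct T S00 z), ⟨fun z z' hz => ?_, fun x hx z => ?_⟩, fun z hz => ?_,
    fun z z' k1 k2 k3 k4 => ?_⟩
  · show I (ct T S00 z) = I (ct T S00 z')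
    congr 1
    funext v
    unfold ct
    split_ifs with hv
    · exact hz v hv
    · rfl
  · obtain ⟨L, hL⟩ := hI.2 x (mem_sdiff.2 ⟨h0 (mem_sdiff.1 hx).1, (mem_sdiff.1 hx).2⟩) (ct T S00 z)
    refine ⟨L.comp (LinearMap.pi fun v => if T.ty v ⊆ S00 then LinearMap.proj v else 0),
      fun k hk => ?_⟩
    have e1 : ct T S00 (z + k) = ct T S00 z + ct T S00 k := by
      funext v
      simp only [ct, Pi.add_apply]
      split_ifs <;> simp
    have e2 : (LinearMap.pi fun v => if T.ty v ⊆ S00 then (LinearMap.proj v : (ι → ℝ) →ₗ[ℝ] ℝ)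
        else 0) k = ct T S00 k := by
      funext v
      simp only [ct, LinearMap.pi_apply]
      split_ifs <;> simp
    show I (ct T S00 (z + k)) = I (ct T S00 z) + L _
    rw [e1, e2]
    refine hL _ fun v hv => ?_
    unfold ct
    rw [hk v hv, ite_self]
  · have e1 : ct T S00 (cz z) = cz (T.res S00 z) := by
      funext v
      simp only [ct, cz, res]
      split_ifs <;> simp
    show ∃ n : ℤ, I (ct T S00 (cz z)) = n
    rw [e1]
    exact hi _ (((ag_res S00 z).mono hB).trans hz)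
  · have a1 : ∀ x : ι → ℝ, T.Ag S00 (T.ψ (ct T S00 (T.u x))) x := fun x v hv => by
      rw [hT.ψ_ag (ag_ct S00 (T.u x)) hv, hT.l]
    have a2 : ∀ x : ι → ℝ, I (kl T (S0 \ S00) (T.ψ (ct T S00 (T.u x)))) = I (ct T S00 x) :=
      fun x => hI.1 _ _ fun v hv => by
        unfold kl
        by_cases k : T.ty v ⊆ S00
        · rw [if_pos (disjoint_left.2 fun c hc hh => (mem_sdiff.1 hh).2 (k hc)), a1 x v k]
          exact (if_pos k).symm
        · rw [if_neg fun hd => k fun c hc => by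
            by_contra hh
            exact disjoint_left.1 hd hc (mem_sdiff.2 ⟨hv hc, hh⟩)]
          exact (if_neg k).symm
    have a3 : T.Of e (T.ψ (ct T S00 (T.u z))) (T.ψ (ct T S00 (T.u z'))) := fun v hv =>
      hT.ψ_ag (S := T.ty v) (fun x hx => by
        unfold ct
        rw [hT.u_ag (k3.ag hv) hx]) subset_rfl
    have a4 := ((a1 z).mono hB).trans k1
    have a5 := ((a1 z').mono hB).trans k2
    have a6 := ho _ _ a4 a5 a3 fun v hv => by
      rw [hT.r, hT.r]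
      unfold ct
      split_ifs with k
      · exact k4 v (mfv.2 ⟨k, (mfv.1 hv).2⟩)
      · simp
    have a7 := h _ _ a4 a5 a3
    rw [a2, a2] at a7
    simp only at a6
    rw [hf.1 _ _ (a1 z), hf.1 _ _ (a1 z')] at a6
    show |f z - I (ct T S00 z) - (f z' - I (ct T S00 z'))| ≤ H
    rw [abs_le] at a6 ⊢
    constructor <;> linarith [a6.1, a6.2]

theorem num {a C : ℕ} {Y : ℝ} (hC : C = 5 * 2 ^ (a + 1) + a + 2) (hY : (C : ℝ) ≤ Y) :
    Y + (5 * 2 ^ (a + 1) + a + 1) ≤ Y ^ C := by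
  have c2 : 2 ≤ C := by omega
  have c0 : (C : ℝ) = 5 * 2 ^ (a + 1) + a + 2 := by rw [hC]; push_cast; ring
  have c1 : (2 : ℝ) ≤ C := by exact_mod_cast c2
  have h1 : Y ^ 2 ≤ Y ^ C := pow_le_pow_right₀ (by linarith) c2
  nlinarith

end El

open El in
theorem elim (hS : SCALE) : ELIM := by
  intro a
  refine ⟨5 * 2 ^ (a + 1) + a + 2, ?_⟩
  intro α ι κ ρ _ _ _ _ _ _ _ T Y ha hY _ _ _ hT hN S00 S0 e h0 he
  have hn := num rfl hY
  generalize Y ^ (5 * 2 ^ (a + 1) + a + 2) = W at hn hN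
  have p0 : (0 : ℝ) ≤ 2 ^ (a + 1) := by positivity
  have a0 : (0 : ℝ) ≤ a := Nat.cast_nonneg _
  have Y0 : 0 ≤ Y := le_trans (Nat.cast_nonneg _) hY
  have hB : S00.erase e ⊆ S0 := (erase_subset _ _).trans h0
  refine mo_all (A := S0 \ S00) (σ := Real.exp (-W)) hT (Real.exp_pos _)
    (Real.exp_le_exp.2 (by linarith)) ?_ (p := fun x b => (T.cpy x (Fin 1)).Zr
      ((S00.erase e).disjSum ∅) (S0.disjSum univ) (Sum.inl e) (Sum.elim b fun _ => 0)
      (Real.exp (-W))⁻¹) (fun x _ => ?_) ?_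
  · have b1 : (((S0 \ S00).card : ℕ) : ℝ) ≤ Real.exp a := by
      have : (((S0 \ S00).card : ℕ) : ℝ) ≤ a := by exact_mod_cast (card_le_univ _).trans ha
      linarith [Real.add_one_le_exp (a : ℝ)]
    refine (mul_le_mul_of_nonneg_right b1 (Real.exp_pos _).le).trans ?_
    rw [← Real.exp_add]
    exact Real.exp_le_exp.2 (by linarith)
  · exact mo_dn hT (Real.exp_le_one_iff.2 (by linarith))
      ((hN.2 x 1 (by norm_num)).2.2 _ _ _ _ (disjSum_mono hB (empty_subset _)) subset_rfl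
        (inl_mem_disjSum.2 (h0 he)) (by simp))
  · rintro b hb f hf ⟨I, hI, hi, ho⟩
    refine fin hT h0 he hf hI hi ho (many (fun x hx h => (mem_sdiff.1 hx).2 (mem_of_mem_erase h))
      fun x hx => one hS hT h0 he (mem_sdiff.1 hx).2 hf hI hi ho ?_ (hb x hx))
    have b1 : (100 : ℝ) ≤ Real.exp 5 := by
      have c1 : (2.7 : ℝ) ≤ Real.exp 1 := by linarith [Real.exp_one_gt_d9]
      have c2 := pow_le_pow_left₀ (by norm_num) c1 5
      rw [← Real.exp_nat_mul] at c2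
      norm_num at c2
      linarith
    have b2 : (100 : ℝ) ^ (2 ^ (Fintype.card α + 1)) ≤ Real.exp (5 * 2 ^ (a + 1)) := by
      refine (pow_le_pow_right₀ (by norm_num) (Nat.pow_le_pow_right (by norm_num)
        (Nat.add_le_add_right ha 1))).trans ((pow_le_pow_left₀ (by norm_num) b1 _).trans ?_)
      rw [← Real.exp_nat_mul]
      push_cast
      rw [mul_comm]
    have b3 : (2 : ℝ) ≤ Real.exp 1 := by linarith [Real.add_one_le_exp (1 : ℝ)]
    rw [Real.exp_neg, inv_inv]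
    refine (mul_le_mul b3 (mul_le_mul_of_nonneg_right b2 (Real.exp_pos _).le) (by positivity)
      (by positivity)).trans ?_
    rw [← Real.exp_add, ← Real.exp_add]
    exact Real.exp_le_exp.2 (by linarith)

end

end Vale.Agent.P057T.Gk
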