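import Vale.Agent.P057T.Gk.Eq1e

/-! One class moves from the base to the fibre. -/

set_option linter.all false

open Finset

namespace Vale.Agent.P057T.Gk

open TT

namespace E1

variable {α ι : Type} [Fintype α] [DecidableEq α] [Fintype ι] [DecidableEq ι] {T : TT α ι}

open Classical in
theorem mo_le (hT : T.Ok) {B : Finset α} {σ : ℝ} {p : (ι → ℤ) → Prop} (h : T.Mo B σ p) (h1 : σ ≤ 1)
    {E : Finset (ι → ℤ)} (hE : E ⊆ T.pts B 1) :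
    ((E.filter fun z => ¬ p z).card : ℝ) ≤ σ * T.vol ∅ B := by
  have h2 := h (fun _ => 0) (fun _ => 1) fun v => ⟨h1, by norm_num⟩
  rw [prod_const_one, mul_one] at h2
  refine le_trans ?_ h2
  refine Nat.cast_le.2 (card_le_card fun z hz => ?_)
  obtain ⟨k1, k2⟩ := mem_filter.1 hz
  obtain ⟨k3, k4⟩ := (mem_pts hT).1 (hE k1)
  refine mem_filter.2 ⟨(mem_fbx hT).2 ⟨⟨k3, fun v hv => (k4 v hv).trans (by norm_num)⟩,
    fun v hv => ?_, fun v hv => ?_⟩, k2⟩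
  · exact absurd (subset_empty.1 hv) (hT.ne v).ne_empty
  · rw [sub_zero]; exact k4 v (mem_filter.1 hv).2.1

theorem q_zero {e : α} {f : Fn ι} (h : T.Aff e f) (x : T.CV e (Fin 2) → ℝ) :
    T.Q e (fun _ => f) x = 0 := by
  unfold Q
  simp only [h.at_vx, Fin.sum_univ_four, Fin.sum_univ_two]
  simp [qv, sg]
  ring

theorem nums (x P W m : ℝ) (hx : 20 ≤ x) (hP : 1 ≤ P) (hW : P * x ^ 20 ≤ W) (hm0 : 6 * x ≤ m)
    (hm1 : m ≤ 6 * x + 1) :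
    W⁻¹ ≤ x⁻¹ / 4 ∧ W⁻¹ ≤ 1 / 2 ∧ 6 < (m + 1) * x⁻¹ ∧ m * (x ^ 5)⁻¹ ≤ x⁻¹ / x ^ 2 ∧
    x ^ 2 * (5 * W⁻¹) * (2 * m * (x ^ 2) ^ 2) ≤ (x ^ 5)⁻¹ ∧ P * (3 * m ^ 3 * (2 * x)) ≤ W ∧
    m ≤ W ∧ m * W⁻¹ ≤ x⁻¹ / 2 ∧ ∀ n : ℝ, 0 ≤ n → n ≤ m →
      n * x + (n * x + P * (n * (2 * (2 * x) / (x ^ 5)⁻¹ * (x ^ 2 * 2)))) ≤ W := by
  have x0 : 0 < x := by linarith
  have x1 : 1 ≤ x := by linarith
  have pw : ∀ a b : ℕ, a ≤ b → x ^ a ≤ x ^ b := fun a b h => pow_le_pow_right₀ x1 h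
  have hm : m ≤ x ^ 2 := by nlinarith
  have m0 : 0 ≤ m := by linarith
  have p20 : x ^ 20 ≤ W := le_trans (le_mul_of_one_le_left (by positivity) hP) hW
  have W0 : 0 < W := lt_of_lt_of_le (by positivity) p20
  have c : ∀ (k : ℝ) (a : ℕ), k ≤ 20 → a + 1 ≤ 20 → k * x ^ a ≤ x ^ 20 := fun k a h1 h2 =>
    le_trans (by rw [pow_succ, mul_comm]; gcongr; linarith) (pw (a + 1) 20 h2)
  have d : ∀ s : ℝ, s ≤ W → s * W⁻¹ ≤ 1 := fun s hs => by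
    rw [← div_eq_mul_inv, div_le_one W0]; exact hs
  have xi : 0 < x⁻¹ := inv_pos.2 x0
  have xx : x * x⁻¹ = 1 := mul_inv_cancel₀ x0.ne'
  refine ⟨?_, ?_, ?_, ?_, ?_, ?_, ?_, ?_, fun n n0 n1 => ?_⟩
  · have h1 := d _ ((c 4 1 (by norm_num) (by norm_num)).trans p20)
    calc W⁻¹ = (4 * x ^ 1 * W⁻¹) * (x⁻¹ / 4) := by field_simp
      _ ≤ 1 * (x⁻¹ / 4) := by gcongr
      _ = _ := one_mul _
  · have h1 := d _ ((c 2 0 (by norm_num) (by norm_num)).trans p20)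
    linarith
  · calc (6 : ℝ) = 6 * x * x⁻¹ := by rw [mul_assoc, xx, mul_one]
      _ < _ := by gcongr; linarith
  · calc m * (x ^ 5)⁻¹ ≤ x ^ 2 * (x ^ 5)⁻¹ := by gcongr
      _ = _ := by field_simp
  · have h1 := d _ ((c 10 13 (by norm_num) (by norm_num)).trans p20)
    calc x ^ 2 * (5 * W⁻¹) * (2 * m * (x ^ 2) ^ 2) ≤
          x ^ 2 * (5 * W⁻¹) * (2 * x ^ 2 * (x ^ 2) ^ 2) := by gcongr
      _ = (10 * x ^ 13 * W⁻¹) * (x ^ 5)⁻¹ := by field_simp; ring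
      _ ≤ 1 * (x ^ 5)⁻¹ := by gcongr
      _ = _ := one_mul _
  · refine le_trans (mul_le_mul_of_nonneg_left ?_ (by linarith)) hW
    calc 3 * m ^ 3 * (2 * x) ≤ 3 * (x ^ 2) ^ 3 * (2 * x) := by gcongr
      _ = 6 * x ^ 7 := by ring
      _ ≤ _ := c 6 7 (by norm_num) (by norm_num)
  · exact hm.trans ((pw 2 20 (by norm_num)).trans p20)
  · have h1 := d _ ((c 2 3 (by norm_num) (by norm_num)).trans p20)
    calc m * W⁻¹ ≤ x ^ 2 * W⁻¹ := by gcongr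
      _ = (2 * x ^ 3 * W⁻¹) * (x⁻¹ / 2) := by field_simp
      _ ≤ 1 * (x⁻¹ / 2) := by gcongr
      _ = _ := one_mul _
  · have h1 : n ≤ x ^ 2 := n1.trans hm
    have h2 : n * x ≤ P * x ^ 10 :=
      calc n * x ≤ x ^ 2 * x := by gcongr
        _ = x ^ 3 := by ring
        _ ≤ x ^ 10 := pw 3 10 (by norm_num)
        _ ≤ _ := le_mul_of_one_le_left (by positivity) hP
    have h3 : P * (n * (2 * (2 * x) / (x ^ 5)⁻¹ * (x ^ 2 * 2))) ≤ 8 * (P * x ^ 10) :=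
      calc _ ≤ P * (x ^ 2 * (2 * (2 * x) / (x ^ 5)⁻¹ * (x ^ 2 * 2))) := by gcongr
        _ = _ := by field_simp; ring
    have h4 := mul_le_mul_of_nonneg_left (c 10 10 (by norm_num) (by norm_num))
      (by linarith : 0 ≤ P)
    linarith

theorem sq_ge (x D : ℝ) (hx : 20 ≤ x) (h0 : 0 ≤ D) (hD : D ≤ x) : D + 1 ≤ x ^ 2 ∧ 2 * D + 1 ≤ x ^ 2 := by
  constructor <;> nlinarith

theorem q_le (x D : ℝ) (k K : ℕ) (hx : 20 ≤ x) (h0 : 0 ≤ D) (hD : D ≤ x) (hk : k ≤ K) :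
    (2 * D + 1) ^ k ≤ x ^ (2 * K) :=
  calc _ ≤ (x ^ 2) ^ k := pow_le_pow_left₀ (by positivity) (sq_ge x D hx h0 hD).2 _
    _ ≤ (x ^ 2) ^ K := pow_le_pow_right₀ (one_le_pow₀ (by linarith)) hk
    _ = _ := by rw [← pow_mul]

end E1

open E1

theorem eq1 (hM : MOV) (hS : SCALE) (hG : SCG) : EQ1 := by
  classical
  intro a
  obtain ⟨C1, hM⟩ := hM a
  obtain ⟨K, hK⟩ : ∃ K, K = 2 ^ (a + 1) := ⟨_, rfl⟩
  obtain ⟨C, hC⟩ : ∃ C, C = C1 + 2 * K + 20 := ⟨_, rfl⟩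
  refine ⟨C, ?_⟩
  intro α ι κ ρ _ _ _ _ _ _ _ T Y ha hCY hι hκ hρ hT hN S0 S c e f E hc h0 he hE hf hI
  have hC' : (C : ℝ) = C1 + 2 * K + 20 := by rw [hC]; push_cast; ring
  have K0 : (0 : ℝ) ≤ K := Nat.cast_nonneg _
  have C0 : (0 : ℝ) ≤ C1 := Nat.cast_nonneg _
  have hY : 20 ≤ Y := by linarith
  have pw : ∀ a b : ℕ, a ≤ b → Y ^ a ≤ Y ^ b := fun a b h => pow_le_pow_right₀ (by linarith) h
  obtain ⟨Y1, hY1⟩ : ∃ x, x = Y ^ (C1 + 1) := ⟨_, rfl⟩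
  have b1 : Y ≤ Y1 := by simpa [hY1] using pw 1 (C1 + 1) (by omega)
  have b2 : Y ^ C1 ≤ Y1 := hY1 ▸ pw _ _ (by omega)
  have b3 : (2 * K + 20) * Y1 ≤ Y ^ C := by
    have h1 := pw (C1 + 1 + 1) C (by omega)
    rw [pow_succ, ← hY1] at h1
    exact le_trans (by rw [mul_comm]; exact mul_le_mul_of_nonneg_left (by linarith) (by linarith)) h1
  have b4 : Y ^ C1 ≤ Y ^ C := pw _ _ (by omega)
  have hN1 : T.Nn 1 (Real.exp (-Y ^ C1)) :=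
    (hG 1 α ι T _ _ hT (Real.exp_pos _) (Real.exp_le_one_iff.2 (by
      have : 0 ≤ Y ^ C1 := by positivity
      linarith))).1 (Real.exp_le_exp.2 (by linarith)) hN
  obtain ⟨lam, E', hl0, hl1, hE', hfib⟩ := hM α ι κ ρ T Y ha (by linarith) hι hκ hρ hT hN1 S0 S c e
    (fun _ => f) E hc h0 he hE (fun _ k => (hf k).mono subset_rfl (subset_insert _ _))
    (fun Z _ k x _ => q_zero ((hf k).2 e (mem_insert_self _ _)) x) hI
  obtain ⟨x, hx⟩ : ∃ x, x = Real.exp Y1 := ⟨_, rfl⟩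
  obtain ⟨W, hW⟩ : ∃ x, x = Real.exp (Y ^ C) := ⟨_, rfl⟩
  have x20 : 20 ≤ x := by rw [hx]; linarith [Real.add_one_le_exp Y1]
  have x0 : 0 < x := by linarith
  have hPW : x ^ (2 * K) * x ^ 20 ≤ W := by
    rw [← pow_add, hx, hW, ← Real.exp_nat_mul]
    exact Real.exp_le_exp.2 (by push_cast; exact b3)
  have hσ : Real.exp (-Y ^ C) = W⁻¹ := by rw [hW, Real.exp_neg]
  have W0 : 0 < W := hW ▸ Real.exp_pos _
  have hδ : x⁻¹ ≤ Real.exp (-Y ^ C1) := by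
    rw [hx, ← Real.exp_neg]; exact Real.exp_le_exp.2 (by linarith)
  have hH : Real.exp (Y ^ C1) ≤ x := hx ▸ Real.exp_le_exp.2 b2
  have hιx : (Fintype.card ι : ℝ) ≤ x := hι.trans (hx ▸ Real.exp_le_exp.2 b1)
  obtain ⟨m, hm⟩ : ∃ m, m = ⌈6 * x⌉₊ := ⟨_, rfl⟩
  have m0 : 6 * x ≤ m := hm ▸ Nat.le_ceil _
  have m1 : (m : ℝ) ≤ 6 * x + 1 := hm ▸ (Nat.ceil_lt_add_one (by linarith)).le
  have m2 : 1 ≤ m := by
    have : (1 : ℝ) ≤ m := by linarith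
    exact_mod_cast this
  obtain ⟨n1, n2, n3, n4, n5, n6, n7, n8, n9⟩ := nums x (x ^ (2 * K)) W m x20
    (one_le_pow₀ (by linarith)) hPW m0 m1
  have xi : 0 < x⁻¹ := inv_pos.2 x0
  rw [hσ] at hN
  have hce : c ≠ e := fun k => notMem_erase c S (h0 (k ▸ he))
  have hS0 : S0 ⊆ S := h0.trans (erase_subset _ _)
  have hc0 : c ∉ S0 := fun k => notMem_erase c S (h0 k)
  have g1 := mo_le hT (hN.1.1.2 S0 (S0.erase e) e he subset_rfl) (by linarith) hE'.1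
  have g2 := mo_le hT (hN.1.2.2 (S0.erase e) (S.erase e) (S0.erase e) c
    (erase_subset_erase e hS0) subset_rfl (mem_erase.2 ⟨hce, hc⟩)
    fun k => hc0 (erase_subset _ _ k)) (by linarith) hE'.1
  obtain ⟨E2, hE2⟩ : ∃ E2, E2 = E'.filter fun z => T.Eq (S0.erase e) S0 z W⁻¹ ∧
    T.Zr (S0.erase e) (S.erase e) c z W⁻¹⁻¹ := ⟨_, rfl⟩
  have hv := vol_pos hT ∅ (S0.erase e)
  have g3 : x⁻¹ / 2 * T.vol ∅ (S0.erase e) ≤ E2.card := by
    have h1 : E' ⊆ E2 ∪ ((E'.filter fun z => ¬ T.Eq (S0.erase e) S0 z W⁻¹) ∪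
        (E'.filter fun z => ¬ T.Zr (S0.erase e) (S.erase e) c z W⁻¹⁻¹)) := by
      intro z hz
      simp only [hE2, mem_union, mem_filter]
      tauto
    have h2 := (card_le_card h1).trans ((card_union_le _ _).trans
      (add_le_add le_rfl (card_union_le _ _)))
    have h3 : (E'.card : ℝ) ≤ E2.card + (((E'.filter fun z => ¬ T.Eq (S0.erase e) S0 z W⁻¹).card : ℝ) +
        ((E'.filter fun z => ¬ T.Zr (S0.erase e) (S.erase e) c z W⁻¹⁻¹).card : ℝ)) := by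
      exact_mod_cast h2
    have h4 := mul_le_mul_of_nonneg_right hδ hv.le
    have h5 := mul_le_mul_of_nonneg_right n1 hv.le
    linarith [hE'.2]
  have hall : ∀ b ∈ E2, ∃ n : ℕ, n ∈ Icc 1 m ∧ (∃ y ∈ E, T.res (S0.erase e) y = b) ∧
      ∀ k, T.IB (S0.erase e) S c b (fun z => n * f k z) W := by
    intro b hb
    rw [hE2] at hb
    obtain ⟨k1, k2, k3⟩ := mem_filter.1 hb
    obtain ⟨cen, Sb, M, j1, j2, j3, j4, j5, j6⟩ := hfib b k1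
    have hl : 0 < lam := lt_of_lt_of_le (Real.exp_pos _) hl0
    have hpos : 0 < T.vol (S0.erase e) S0 * ∏ v ∈ T.fv (S0.erase e) S0, lam :=
      mul_pos (vol_pos hT _ _) (prod_pos fun _ _ => hl)
    have hne : Sb.Nonempty := by
      have h1 : (0 : ℝ) < Sb.card := lt_of_lt_of_le (mul_pos (Real.exp_pos _) hpos) j4
      exact card_pos.1 (by exact_mod_cast h1)
    obtain ⟨n, i1, i2, i3⟩ := fibre hS hT h0 he (fun k z => f k z - M k z)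
      (fun k => (hf k).sub (j5 k).1) b cen Sb lam x⁻¹ W⁻¹ x (x ^ 2) (x ^ (2 * K)) (x ^ 5)⁻¹ m j1
      (by linarith) hl1 j3 (j2.trans hE.1) hne
      ((mul_le_mul_of_nonneg_right hδ hpos.le).trans j4) (fun y hy k => (j6 y hy k).mono hH) k2 k3
      (sq_ge x _ x20 (Nat.cast_nonneg _) hιx).1 (q_le x _ _ K x20 (Nat.cast_nonneg _) hιx
        (hK ▸ Nat.pow_le_pow_right (by norm_num) (Nat.succ_le_succ ha)))
      (inv_pos.2 W0) n2 m2 n3 (by positivity)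
      (n4.trans (div_le_div_of_nonneg_right (hδ.trans hl0) (by positivity))) n5 x0.le
      (by rw [inv_inv]; exact n6)
    obtain ⟨y, hy⟩ := hne
    refine ⟨n, mem_Icc.2 ⟨i1, i2⟩, ⟨y, j2 hy, ?_⟩, fun k => ?_⟩
    · rw [res_congr ((mem_fbx hT).1 (j3 hy)).2.1]
      funext v
      by_cases hv : T.ty v ⊆ S0.erase e
      · exact if_pos hv
      · exact (if_neg hv).trans (((mem_pts hT).1 (hE'.1 k1)).1 v hv).symm
    · have h1 : T.IB (S0.erase e) S c b (fun z => n * M k z) (n * x) :=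
        IBg.nsmul (((j5 k).2.mono hH).ibg) n
      refine ((h1.add (i3 k)).eq fun z _ => by ring).mono ?_
      exact n9 n (Nat.cast_nonneg n) (by exact_mod_cast i2)
  choose! nn hn1 hn2 hn3 using hall
  obtain ⟨n, hn, hcard⟩ := exists_le_card_fiber_of_nsmul_le_card_of_maps_to (M := ℝ)
    (b := W⁻¹ * T.vol ∅ (S0.erase e)) hn1 ⟨1, mem_Icc.2 ⟨le_rfl, m2⟩⟩ (by
      rw [Nat.card_Icc, Nat.add_sub_cancel, nsmul_eq_mul, ← mul_assoc]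
      exact (mul_le_mul_of_nonneg_right n8 hv.le).trans g3)
  obtain ⟨i1, i2⟩ := mem_Icc.1 hn
  refine ⟨n, E2.filter fun z => nn z = n, i1, ?_, ⟨?_, ?_⟩, fun b hb => ?_⟩
  · rw [← hW]; exact le_trans (by exact_mod_cast i2) n7
  · exact (filter_subset _ _).trans (hE2 ▸ (filter_subset _ _).trans hE'.1)
  · rw [hσ]; exact hcard
  · obtain ⟨k1, k2⟩ := mem_filter.1 hb
    refine ⟨hn2 b k1, fun k => ?_⟩
    rw [← hW, ← k2]; exact hn3 b k1 k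

end Vale.Agent.P057T.Gk
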