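import Vale.Agent.P057T.GapH21
import Vale.Agent.P057T.Gk.Defs

/-! A lattice with many short vectors: a map that is locally near a discrete group. -/

set_option linter.all false

open Finset

namespace Vale.Agent.P057T.Gk.E1

variable {A : Type} [Fintype A] [DecidableEq A]

theorem enorm_le (x : EuclideanSpace ℝ A) (r D : ℝ) (hr : 0 ≤ r) (hD : (Fintype.card A : ℝ) + 1 ≤ D)
    (h : ∀ v, |x v| ≤ r) : ‖x‖ ≤ D * r := by
  have h0 : (0 : ℝ) ≤ Fintype.card A := Nat.cast_nonneg _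
  have h1 : ‖x‖ ^ 2 ≤ (D * r) ^ 2 := by
    rw [EuclideanSpace.real_norm_sq_eq]
    calc ∑ v, x v ^ 2 ≤ ∑ _v : A, r ^ 2 := sum_le_sum fun v _ => by
          rw [← sq_abs]; exact pow_le_pow_left₀ (abs_nonneg _) (h v) 2
      _ = Fintype.card A * r ^ 2 := by simp
      _ ≤ D ^ 2 * r ^ 2 := mul_le_mul_of_nonneg_right (by nlinarith) (sq_nonneg r)
      _ = _ := by ring
  exact (pow_le_pow_iff_left₀ (norm_nonneg _) (mul_nonneg (by linarith) hr) two_ne_zero).1 h1

theorem meetF {G : Type} [AddCommGroup G] [DecidableEq G] (Sb X : Finset G) (h : G) (m : ℕ)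
    (hin : ∀ y ∈ Sb, ∀ t : ℕ, t ≤ m → y + t • h ∈ X) (hc : X.card < (m + 1) * Sb.card) :
    ∃ t : ℕ, 1 ≤ t ∧ t ≤ m ∧ ∃ y ∈ Sb, y + t • h ∈ Sb := by
  by_contra hn
  push Not at hn
  have key : ∀ (a b : ℕ) (y y' : G), a < b → b ≤ m → y ∈ Sb → y' ∈ Sb →
      y + a • h = y' + b • h → False := by
    intro a b y y' h1 h2 h3 h4 h5
    refine hn (b - a) (by omega) (by omega) y' h4 ?_
    have e : y' + (b - a) • h = y := by
      have h6 : b • h = (b - a) • h + a • h := by rw [← add_nsmul]; congr 1; omega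
      rw [h6, ← add_assoc] at h5
      exact (add_right_cancel h5).symm
    rw [e]; exact h3
  have h1 : (range (m + 1) ×ˢ Sb).card ≤ X.card := by
    refine card_le_card_of_injOn (fun p => p.2 + p.1 • h) (fun p hp => ?_) fun p hp p' hp' e => ?_
    · obtain ⟨k1, k2⟩ := mem_product.1 (mem_coe.1 hp)
      exact mem_coe.2 (hin _ k2 _ (by have := mem_range.1 k1; omega))
    · obtain ⟨k1, k2⟩ := mem_product.1 (mem_coe.1 hp)
      obtain ⟨k3, k4⟩ := mem_product.1 (mem_coe.1 hp')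
      have k5 := mem_range.1 k1
      have k6 := mem_range.1 k3
      have e' : p.2 + p.1 • h = p'.2 + p'.1 • h := e
      rcases lt_trichotomy p.1 p'.1 with k | k | k
      · exact (key _ _ _ _ k (by omega) k2 k4 e').elim
      · rw [k] at e'
        exact Prod.ext k (add_right_cancel e')
      · exact (key _ _ _ _ k (by omega) k4 k2 e'.symm).elim
  rw [card_product, card_range] at h1
  omega

theorem latt {V : Type} [SeminormedAddCommGroup V] [NormedSpace ℝ V]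
    (Φ : (A → ℝ) ≃ₗ[ℝ] (A → ℝ)) (σ η H Hs D : ℝ) (m : ℕ) (hm : 1 ≤ m) (hσ : 0 < σ) (hη : 0 < η)
    (hD : (Fintype.card A : ℝ) + 1 ≤ D) (hs : D * (5 * σ) * (2 * m * D ^ 2) ≤ η)
    (hfin : ∀ R : ℝ, {c : A → ℤ | ∀ v, |Φ (cz c) v| ≤ R}.Finite)
    (hden : ∀ s : A → ℝ, (∀ v, |s v| ≤ 1) → ∃ c : A → ℤ, ∀ v, |Φ (cz c) v - 3 * σ * s v| ≤ 2 * σ)
    (I : AddSubgroup V) (L : (A → ℝ) →ₗ[ℝ] V) (hU : ∀ x ∈ I, ‖x‖ ≤ Hs → x = 0)
    (hH : 3 * (m : ℝ) ^ 3 * H ≤ Hs)
    (hL : ∀ c : A → ℤ, (∀ v, |Φ (cz c) v| ≤ η) →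
      ∃ t : ℕ, 1 ≤ t ∧ t ≤ m ∧ ∃ x ∈ I, ‖(t : ℝ) • L (cz c) - x‖ ≤ H) :
    ∃ (n : ℕ) (γ : A → V), 1 ≤ n ∧ n ≤ m ∧ (∀ v, γ v ∈ I) ∧ ∀ (y : A → ℝ) (r : ℝ), 0 ≤ r →
      (∀ v, |Φ y v| ≤ r) → ‖(n : ℝ) • L y - ∑ v, y v • γ v‖ ≤ n * (2 * H / η * (D * r)) := by
  obtain ⟨Ψ, hΨ⟩ : ∃ Ψ : (A → ℝ) ≃ₗ[ℝ] EuclideanSpace ℝ A, ∀ y v, Ψ y v = Φ y v :=
    ⟨Φ.trans (WithLp.linearEquiv 2 ℝ (A → ℝ)).symm, fun _ _ => rfl⟩
  have hcz : ∀ c d : A → ℤ, cz (c + d) = cz c + cz d := fun c d => by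
    funext v; simp [cz]
  let Λ : Submodule ℤ (EuclideanSpace ℝ A) :=
    { carrier := {x | ∃ c : A → ℤ, x = Ψ (cz c)}
      add_mem' := by
        rintro _ _ ⟨c, rfl⟩ ⟨d, rfl⟩
        exact ⟨c + d, by rw [hcz, map_add]⟩
      zero_mem' := ⟨0, by
        have : (cz (0 : A → ℤ)) = 0 := by funext v; simp [cz]
        rw [this, map_zero]⟩
      smul_mem' := by
        rintro k _ ⟨c, rfl⟩
        refine ⟨k • c, ?_⟩
        have : cz (k • c) = (k : ℝ) • cz c := by funext v; simp [cz]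
        rw [this, map_smul, Int.cast_smul_eq_zsmul] }
  have hΛ : ∀ x, x ∈ Λ ↔ ∃ c : A → ℤ, x = Ψ (cz c) := fun x => Iff.rfl
  have hap : ∀ (x : EuclideanSpace ℝ A) v, |x v| ≤ ‖x‖ := fun x v => by
    simpa using PiLp.norm_apply_le x v
  have h0 : (0 : ℝ) ≤ Fintype.card A := Nat.cast_nonneg _
  have hD1 : 1 ≤ D := by linarith
  have hm' : (1 : ℝ) ≤ m := by exact_mod_cast hm
  have hfr : (Module.finrank ℝ (EuclideanSpace ℝ A) : ℝ) ≤ D := by
    rw [finrank_euclideanSpace]; linarith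
  obtain ⟨B, hB⟩ : ∃ B : ℝ, B = 2 * m * D ^ 2 := ⟨_, rfl⟩
  have hB2 : 2 * D ≤ B := by rw [hB]; nlinarith
  have hB0 : 0 < B := by linarith
  have htop : Submodule.span ℝ {x | x ∈ Λ ∧ ‖x‖ ≤ η / B ^ (0 + 1)} = ⊤ := by
    by_contra hne
    obtain ⟨φ, hφ0, hφ⟩ := Submodule.exists_le_ker_of_lt_top _ (lt_top_iff_ne_top.2 hne)
    let a : A → ℝ := fun v => φ (Ψ (Φ.symm (Pi.single v 1)))
    have hexp : ∀ y, φ (Ψ y) = ∑ v, Φ y v * a v := by
      intro y
      have e : y = ∑ v, Φ y v • Φ.symm (Pi.single v 1) := by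
        apply Φ.injective
        rw [map_sum]
        simp only [map_smul, LinearEquiv.apply_symm_apply]
        exact pi_eq_sum_univ' _
      conv_lhs => rw [e]
      simp only [map_sum, map_smul, smul_eq_mul, a]
    obtain ⟨c, hc⟩ := hden (fun v => if 0 ≤ a v then 1 else -1) (fun v => by
      split_ifs <;> simp)
    have hmem : Ψ (cz c) ∈ LinearMap.ker φ := by
      refine hφ (Submodule.subset_span ⟨⟨c, rfl⟩, ?_⟩)
      rw [zero_add, pow_one, le_div_iff₀ hB0, hB]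
      refine le_trans (mul_le_mul_of_nonneg_right (enorm_le _ (5 * σ) D (by linarith) hD
        fun v => ?_) (by positivity)) hs
      rw [hΨ]
      have h1 := abs_le.1 (hc v)
      rw [abs_le]
      split_ifs at h1 <;> constructor <;> linarith [h1.1, h1.2]
    have h1 : ∑ v, σ * |a v| ≤ ∑ v, Φ (cz c) v * a v := sum_le_sum fun v _ => by
      have h1 := abs_le.1 (hc v)
      split_ifs at h1 with h2
      · rw [abs_of_nonneg h2]; exact mul_le_mul_of_nonneg_right (by linarith [h1.1]) h2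
      · rw [abs_of_neg (not_le.1 h2)]; nlinarith [h1.2, not_le.1 h2]
    rw [← hexp, LinearMap.mem_ker.1 hmem] at h1
    have h2 : ∀ v, a v = 0 := by
      intro v
      have h3 : σ * |a v| ≤ ∑ v, σ * |a v| :=
        single_le_sum (f := fun v => σ * |a v|) (fun v _ => by positivity) (mem_univ v)
      have h4 : |a v| ≤ 0 := by nlinarith [abs_nonneg (a v)]
      exact abs_nonpos_iff.1 h4
    refine hφ0 (LinearMap.ext fun x => ?_)
    rw [← Ψ.apply_symm_apply x, hexp]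
    simp [h2]
  obtain ⟨s, a, b, e, k, h1, h2, h3, h4, h5, h6, h7, -, -, h10, h11⟩ :=
    H21.gap Λ (fun R => ((hfin R).image fun c => Ψ (cz c)).subset (by
        rintro _ ⟨⟨c, rfl⟩, hx⟩
        exact ⟨c, fun v => by rw [← hΨ]; exact (hap _ v).trans hx, rfl⟩))
      (top_le_iff.1 (htop ▸ Submodule.span_mono fun x hx => hx.1)) 0 η B hη (by linarith)
      (by linarith) (by rw [htop, finrank_top, add_zero])
  have hb : b = 0 := by omega
  subst hb
  have hsp : ∀ x, x ∈ Submodule.span ℝ (Set.range e) := fun x => (h10 x).1 fun i => i.elim0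
  let g : Module.Basis (Fin a) ℝ (EuclideanSpace ℝ A) := Module.Basis.mk h5 fun x _ => hsp x
  have hg : ∀ j, g j = e j := fun j => Module.Basis.mk_apply _ _ j
  have ha : (a : ℝ) ≤ D := le_trans (by exact_mod_cast h3) hfr
  have hr3 : 2 * ((a : ℝ) * (m * (D * (η / B)))) ≤ η := by
    calc 2 * ((a : ℝ) * (m * (D * (η / B)))) ≤ 2 * (D * (m * (D * (η / B)))) := by gcongr
      _ = B * (η / B) := by rw [hB]; ring
      _ = η := by field_simp
  have hpos : 0 ≤ (a : ℝ) * (D * (η / B)) := by positivity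
  obtain ⟨io, n, hn1, hn2, hio1, hio2⟩ := Lv.lochom g I (L.comp Ψ.symm.toLinearMap) H Hs η
    (D * (η / B)) m hm hη hU hH (fun j => by
      rw [hg]
      have hs0 : 0 ≤ s := le_trans (by positivity) h1
      exact (h7 j).trans (mul_le_mul hfr (div_le_div_of_nonneg_right h2 hB0.le)
        (div_nonneg hs0 hB0.le) (by linarith)))
    (by rw [Fintype.card_fin]; nlinarith) (by rw [Fintype.card_fin]; nlinarith)
    (fun c hc => by
      have hx : Lv.pt g c ∈ Λ := by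
        unfold Lv.pt
        exact Λ.sum_mem fun j _ => H21.zmem Λ (by rw [hg]; exact h6 j) _
      obtain ⟨d, hd⟩ := hx
      rw [hd] at hc ⊢
      simpa using hL d fun v => by rw [← hΨ]; exact (hap _ v).trans hc)
  refine ⟨n, fun v => (n : ℝ) • io (Ψ (Pi.single v 1)), hn1, hn2, fun v => ?_, fun y r hr hy => ?_⟩
  · have hx : Ψ (Pi.single v 1) ∈ Λ := ⟨Pi.single v 1, by
      congr 1; funext w; simp [cz, Pi.single_apply]⟩
    obtain ⟨c, hc⟩ := (Submodule.mem_span_range_iff_exists_fun ℤ).1 (h11 _ hx (hsp _))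
    have e' : Ψ (Pi.single v 1) = Lv.pt g c := by
      rw [← hc]; unfold Lv.pt
      exact sum_congr rfl fun j _ => by rw [hg, Int.cast_smul_eq_zsmul]
    show (n : ℝ) • io (Ψ (Pi.single v 1)) ∈ I
    rw [e']; exact hio1 c
  · have e' : ∑ v, y v • (n : ℝ) • io (Ψ (Pi.single v 1)) = (n : ℝ) • io (Ψ y) := by
      conv_rhs => rw [pi_eq_sum_univ' y]
      simp only [map_sum, map_smul, smul_sum]
      exact sum_congr rfl fun v _ => smul_comm _ _ _
    rw [e', ← smul_sub, norm_smul, Real.norm_natCast]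
    refine mul_le_mul_of_nonneg_left ?_ (Nat.cast_nonneg _)
    have h8 := hio2 (Ψ y)
    simp only [LinearMap.comp_apply, LinearEquiv.coe_coe, LinearEquiv.symm_apply_apply] at h8
    have hH0 : 0 ≤ H := by
      obtain ⟨t, -, -, x, -, hx⟩ := hL 0 fun v => by
        have : (cz (0 : A → ℤ)) = 0 := by funext v; simp [cz]
        rw [this, map_zero]; simpa using hη.le
      exact (norm_nonneg _).trans hx
    exact h8.trans (mul_le_mul_of_nonneg_left
      (enorm_le _ r D hr hD fun v => by rw [hΨ]; exact hy v) (by positivity))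

end Vale.Agent.P057T.Gk.E1
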