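import Vale.Agent.P057T.Gk.Rows
import Vale.Agent.P057T.Gk.Bas3

/-! Replacing variables; the part of a form in the unbounded variables. -/

set_option linter.all false

open Finset

namespace Vale.Agent.P057T.Gk.E1

open TT

variable {α ι : Type} [Fintype α] [DecidableEq α] [Fintype ι] [DecidableEq ι] {T : TT α ι}

/-- replace the variables of `K` -/
def rep {R : Type} (K : Finset ι) (Y z : ι → R) : ι → R := fun v => if v ∈ K then Y v else z v

theorem rep_in {R : Type} {K : Finset ι} {Y z : ι → R} {v : ι} (h : v ∈ K) : rep K Y z v = Y v :=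
  if_pos h
theorem rep_out {R : Type} {K : Finset ι} {Y z : ι → R} {v : ι} (h : v ∉ K) : rep K Y z v = z v :=
  if_neg h

theorem cz_rep (K : Finset ι) (Y z : ι → ℤ) : cz (rep K Y z) = rep K (cz Y) (cz z) := by
  funext v
  by_cases h : v ∈ K <;> simp [cz, rep, h]

theorem cz_zero : cz (0 : ι → ℤ) = 0 := by funext v; simp [cz]

theorem of_rep {R : Type} {c : α} (K : Finset ι) (Y : ι → R) {z z' : ι → R} (h : T.Of c z z') :
    T.Of c (rep K Y z) (rep K Y z') := fun v hv => by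
  by_cases k : v ∈ K
  · rw [rep_in k, rep_in k]
  · rw [rep_out k, rep_out k, h v hv]

theorem aff_rep {a : α} {f : Fn ι} (h : T.Aff a f) (K : Finset ι) (Y : ι → ℝ) :
    T.Aff a (fun z => f (rep K Y z)) := by
  intro z
  obtain ⟨L, hL⟩ := h (rep K Y z)
  let P : (ι → ℝ) →ₗ[ℝ] (ι → ℝ) :=
    { toFun := fun x => rep K 0 x
      map_add' := fun x y => by funext v; by_cases k : v ∈ K <;> simp [rep, k]
      map_smul' := fun r x => by funext v; by_cases k : v ∈ K <;> simp [rep, k] }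
  refine ⟨L.comp P, fun x hx => ?_⟩
  have e : rep K Y (z + x) = rep K Y z + rep K 0 x := by
    funext v; by_cases k : v ∈ K <;> simp [rep, k]
  show f (rep K Y (z + x)) = f (rep K Y z) + L (rep K 0 x)
  rw [e]
  refine hL _ fun v hv => ?_
  by_cases k : v ∈ K
  · exact rep_in k
  · rw [rep_out k]; exact hx v hv

theorem fm_rep {S S' G : Finset α} {f : Fn ι} (h : T.Fm S G f) (K : Finset ι) (Y : ι → ℝ)
    (hK : ∀ v, T.ty v ⊆ S → v ∉ K → T.ty v ⊆ S') : T.Fm S' G (fun z => f (rep K Y z)) :=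
  ⟨fun z z' hz => h.1 _ _ fun v hv => by
    by_cases k : v ∈ K
    · rw [rep_in k, rep_in k]
    · rw [rep_out k, rep_out k, hz v (hK v hv k)], fun a ha => aff_rep (h.2 a ha) K Y⟩

theorem dir {S S0 : Finset α} {β : Fn ι} (h : T.Fm S (S \ S0) β) {v : ι} (hv : ¬ T.ty v ⊆ S0)
    (z : ι → ℝ) (r : ℝ) : ∃ l : ℝ, ∀ t : ℝ, β (Function.update z v (t * r)) =
      β (Function.update z v 0) + t * l := by
  by_cases hS : T.ty v ⊆ S
  · obtain ⟨a, ha, ha'⟩ := not_subset.1 hv
    obtain ⟨L, hL⟩ := h.2 a (mem_sdiff.2 ⟨hS ha, ha'⟩) (Function.update z v 0)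
    refine ⟨L (Pi.single v r), fun t => ?_⟩
    have e : Function.update z v (t * r) = Function.update z v 0 + t • Pi.single v r := by
      funext w
      by_cases k : w = v
      · subst k; simp
      · simp [Function.update_of_ne k, Pi.single_eq_of_ne k]
    rw [e, hL _ fun w hw => by
      have k : w ≠ v := fun k => hw (k ▸ ha)
      simp [Pi.single_eq_of_ne k], map_smul, smul_eq_mul]
  · refine ⟨0, fun t => ?_⟩
    rw [mul_zero, add_zero]
    refine h.1 _ _ fun w hw => ?_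
    have k : w ≠ v := fun k => hS (k ▸ hw)
    rw [Function.update_of_ne k, Function.update_of_ne k]

theorem wp1 (hT : T.Ok) {S S0 : Finset α} {c e : α} {y : ι → ℤ} {β : Fn ι} {H : ℝ}
    (h : T.Fm S (S \ S0) β) (ho : T.Osc S0 (S.erase e) c y β H) (K : Finset ι)
    (hK : ∀ v ∈ K, e ∈ T.ty v ∧ ¬ T.ty v ⊆ S0) :
    ∀ z z' : ι → ℝ, T.Ag S0 z (cz y) → T.Ag S0 z' (cz y) → T.Of c z z' →
      (∀ v ∈ T.fv S0 (S.erase e), |T.u z v| ≤ 1 ∧ |T.u z' v| ≤ 1) →
      β z - β z' = β (rep K 0 z) - β (rep K 0 z') := by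
  induction K using Finset.induction_on with
  | empty =>
    intro z z' _ _ _ _
    have e0 : ∀ x : ι → ℝ, rep ∅ 0 x = x := fun x => by funext v; simp [rep]
    rw [e0, e0]
  | insert v K hv ih =>
    intro z z' h1 h2 h3 h4
    obtain ⟨k1, k2⟩ := hK v (mem_insert_self _ _)
    have a1 : ∀ (x : ι → ℝ) (r : ℝ), T.Ag S0 x (cz y) → T.Ag S0 (Function.update x v r) (cz y) := by
      intro x r hx w hw
      have k : w ≠ v := fun k => k2 (k ▸ hw)
      rw [Function.update_of_ne k]; exact hx w hw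
    have a2 : ∀ (x : ι → ℝ) (r : ℝ), ∀ w ∈ T.fv S0 (S.erase e),
        T.u (Function.update x v r) w = T.u x w := by
      intro x r w hw
      refine hT.u_ag (S := S.erase e) (fun w' hw' => ?_) (mem_filter.1 hw).2.1
      have k : w' ≠ v := fun k => notMem_erase e S (hw' (k ▸ k1))
      rw [Function.update_of_ne k]
    have a3 : ∀ t : ℝ, T.Of c (Function.update z v (t * z v)) (Function.update z' v (t * z' v)) := by
      intro t w hw
      by_cases k : w = v
      · subst k; rw [Function.update_self, Function.update_self, h3 w hw]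
      · rw [Function.update_of_ne k, Function.update_of_ne k, h3 w hw]
    have a4 : ∀ t : ℝ, |β (Function.update z v (t * z v)) - β (Function.update z' v (t * z' v))| ≤ H :=
      fun t => ho _ _ (a1 _ _ h1) (a1 _ _ h2) (a3 t) fun w hw => by
        rw [a2 _ _ w hw, a2 _ _ w hw]; exact h4 w hw
    obtain ⟨l, hl⟩ := dir h k2 z (z v)
    obtain ⟨l', hl'⟩ := dir h k2 z' (z' v)
    have hll : l - l' = 0 := by
      by_contra hne
      have b0 := abs_le.1 (a4 0)
      have b1 := abs_le.1 (a4 ((2 * H + 1) / (l - l')))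
      rw [hl, hl'] at b0 b1
      have b2 : (2 * H + 1) / (l - l') * l - (2 * H + 1) / (l - l') * l' = 2 * H + 1 := by
        rw [← mul_sub]; field_simp
      linarith [b0.1, b1.2]
    have b3 := hl 1
    have b4 := hl' 1
    rw [one_mul, Function.update_eq_self, one_mul] at b3 b4
    have b5 := ih (fun w hw => hK w (mem_insert_of_mem hw)) (Function.update z v 0)
      (Function.update z' v 0) (a1 _ _ h1) (a1 _ _ h2) (by simpa using a3 0) fun w hw => by
        rw [a2 _ _ w hw, a2 _ _ w hw]; exact h4 w hw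
    have e0 : ∀ x : ι → ℝ, rep (insert v K) 0 x = rep K 0 (Function.update x v 0) := by
      intro x; funext w
      by_cases k : w = v
      · subst k; simp [rep]
      · simp [rep, k]
    rw [e0, e0]
    linarith

/-- no oscillation on the unit box means no oscillation at all -/
theorem osc0 (hS : SCALE) (hT : T.Ok) {S S0 : Finset α} {c : α} {y : ι → ℤ} {γ : Fn ι}
    (h0 : S0 ⊆ S) (hc : c ∉ S0) (h : T.Fm S (S \ S0) γ) (ho : T.Osc S0 S c y γ 0)
    (z z' : ι → ℝ) (h1 : T.Ag S0 z (cz y)) (h2 : T.Ag S0 z' (cz y)) (h3 : T.Of c z z') :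
    γ z = γ z' := by
  obtain ⟨R, hR⟩ : ∃ R : ℝ, R = 1 + ‖T.u z‖ + ‖T.u z'‖ := ⟨_, rfl⟩
  have n1 := norm_nonneg (T.u z)
  have n2 := norm_nonneg (T.u z')
  have hR1 : 1 ≤ R := by linarith
  have hR0 : 0 < R := by linarith
  have key := (hS α ι (T.sc (fun _ => R) (fun _ => 0)) S0 S c y (hT.sc (fun _ => hR0) _) h0 hc).1
    γ (fun _ => R⁻¹) (fun _ => 0) R⁻¹ 0 h (inv_pos.2 hR0)
    (fun v => ⟨le_rfl, by
      have := inv_le_one_of_one_le₀ hR1
      rw [abs_zero]; linarith⟩)
    (fun x x' k1 k2 k3 k4 => ho x x' k1 k2 k3 fun v hv => by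
      have k5 := k4 v hv
      have e0 : ∀ s : ℝ, ((s - 0) / R - 0) / R⁻¹ = s := fun s => by field_simp; ring
      simp only [TT.sc, e0] at k5
      exact k5)
  have b : ∀ s : ℝ, |s| ≤ R → |((s - 0) / R - 0) / 20| ≤ 1 := by
    intro s hs
    rw [sub_zero, sub_zero, abs_div, abs_div, abs_of_pos hR0, abs_of_pos (by norm_num : (0 : ℝ) < 20)]
    have : |s| / R ≤ 1 := (div_le_one hR0).2 hs
    linarith
  have k := key z z' h1 h2 h3 fun v _ =>
    ⟨b _ (by have := norm_le_pi_norm (T.u z) v; rw [Real.norm_eq_abs] at this; linarith),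
      b _ (by have := norm_le_pi_norm (T.u z') v; rw [Real.norm_eq_abs] at this; linarith)⟩
  rw [mul_zero] at k
  exact sub_eq_zero.1 (abs_nonpos_iff.1 k)

theorem wp (hS : SCALE) (hT : T.Ok) {S S0 : Finset α} {c e : α} {y : ι → ℤ} {β : Fn ι} {H : ℝ}
    (h0 : S0 ⊆ S) (hc : c ∉ S0) (h : T.Fm S (S \ S0) β) (ho : T.Osc S0 (S.erase e) c y β H)
    (K : Finset ι) (hK : ∀ v ∈ K, e ∈ T.ty v ∧ ¬ T.ty v ⊆ S0) (z z' : ι → ℝ)
    (h1 : T.Ag S0 z (cz y)) (h2 : T.Ag S0 z' (cz y)) (h3 : T.Of c z z') :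
    β z - β (rep K 0 z) = β z' - β (rep K 0 z') :=
  osc0 hS hT h0 hc (γ := fun z => β z - β (rep K 0 z)) (h.sub (fm_rep h K 0 fun _ hv _ => hv))
    (fun x x' k1 k2 k3 k4 => by
      have k5 := wp1 hT h ho K hK x x' k1 k2 k3 fun v hv => k4 v (by
        simp only [fv, mem_filter, mem_univ, true_and] at hv ⊢
        exact ⟨hv.1.trans (erase_subset _ _), hv.2⟩)
      rw [abs_nonpos_iff]
      linarith) z z' h1 h2 h3

end Vale.Agent.P057T.Gk.E1
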