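import Vale.Agent.P057T.Gk.Eq1a
import Vale.Agent.P057T.Gk.Eq1b

/-! One fibre: the chart of the one class lattice. -/

set_option linter.all false

open Finset

namespace Vale.Agent.P057T.Gk.E1

open TT

variable {α ι : Type} [Fintype α] [DecidableEq α] [Fintype ι] [DecidableEq ι] {T : TT α ι}

/-- extension by zero -/
def ez {R : Type} [Zero R] (A : Finset ι) (y : A → R) : ι → R :=
  fun v => if h : v ∈ A then y ⟨v, h⟩ else 0

theorem ez_in {R : Type} [Zero R] {A : Finset ι} (y : A → R) (v : A) : ez A y v = y v :=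
  dif_pos v.2
theorem ez_out {R : Type} [Zero R] {A : Finset ι} (y : A → R) {v : ι} (h : v ∉ A) :
    ez A y v = 0 := dif_neg h

/-- extension by zero as a linear map -/
def eL (A : Finset ι) : (A → ℝ) →ₗ[ℝ] (ι → ℝ) where
  toFun := ez A
  map_add' := fun x y => by funext v; by_cases k : v ∈ A <;> simp [ez, k]
  map_smul' := fun r x => by funext v; by_cases k : v ∈ A <;> simp [ez, k]

theorem cz_ez (A : Finset ι) (c : A → ℤ) : cz (ez A c) = ez A (cz c) := by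
  funext v; by_cases k : v ∈ A <;> simp [ez, cz, k]

theorem memA {S0 : Finset α} {e : α} {v : ι} :
    v ∈ T.fv (S0.erase e) S0 ↔ T.ty v ⊆ S0 ∧ e ∈ T.ty v := by
  simp only [fv, mem_filter, mem_univ, true_and, subset_erase]
  tauto

theorem subB {S0 : Finset α} {e : α} {v : ι} (h : T.ty v ⊆ S0) (h' : v ∉ T.fv (S0.erase e) S0) :
    T.ty v ⊆ S0.erase e := subset_erase.2 ⟨h, fun k => h' (memA.2 ⟨h, k⟩)⟩

theorem notA {S0 : Finset α} {e : α} {v : ι} (h : T.ty v ⊆ S0.erase e) :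
    v ∉ T.fv (S0.erase e) S0 := fun k => (mem_filter.1 k).2.2 h

/-- the difference to the base point -/
def dd (A : Finset ι) (y0 z : ι → ℝ) : A → ℝ := fun v => z v - y0 v

theorem ag_dd {S0 : Finset α} {e : α} {y0 z : ι → ℝ} (h : T.Ag (S0.erase e) z y0) :
    T.Ag S0 z (y0 + ez (T.fv (S0.erase e) S0) (dd _ y0 z)) := by
  intro v hv
  by_cases k : v ∈ T.fv (S0.erase e) S0
  · have := ez_in (dd (T.fv (S0.erase e) S0) y0 z) ⟨v, k⟩
    rw [Pi.add_apply, this]; simp [dd]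
  · rw [Pi.add_apply, ez_out _ k, add_zero, h v (subB hv k)]

theorem chart (hT : T.Ok) (S0 : Finset α) (e : α) (y0 : ι → ℝ) :
    ∃ Φ : (T.fv (S0.erase e) S0 → ℝ) ≃ₗ[ℝ] (T.fv (S0.erase e) S0 → ℝ),
      ∀ z : ι → ℝ, T.Ag (S0.erase e) z y0 → ∀ v : T.fv (S0.erase e) S0,
        T.u z v = T.u y0 v + Φ (dd _ y0 z) v := by
  choose Lu hLu using fun v : ι => (hT.fu v).2 e (mem_univ e) y0
  have hs : ∀ (y : T.fv (S0.erase e) S0 → ℝ) v, e ∉ T.ty v → ez _ y v = 0 :=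
    fun y v hv => ez_out y fun k => hv (memA.1 k).2
  let Φ0 : (T.fv (S0.erase e) S0 → ℝ) →ₗ[ℝ] (T.fv (S0.erase e) S0 → ℝ) :=
    LinearMap.pi fun v => (Lu v).comp (eL _)
  have h0 : ∀ y (v : T.fv (S0.erase e) S0), T.u (y0 + ez _ y) v = T.u y0 v + Φ0 y v :=
    fun y v => hLu v _ (hs y)
  have hinj : Function.Injective Φ0 := by
    rw [injective_iff_map_eq_zero]
    intro y hy
    have h1 : T.Ag S0 (T.u (y0 + ez _ y)) (T.u y0) := by
      intro v hv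
      by_cases k : v ∈ T.fv (S0.erase e) S0
      · have := h0 y ⟨v, k⟩
        rw [hy] at this
        simpa using this
      · refine hT.u_ag (S := S0.erase e) (fun w hw => ?_) (subB hv k)
        rw [Pi.add_apply, ez_out _ (notA hw), add_zero]
    funext v
    have h2 := hT.ψ_ag h1 (memA.1 v.2).1
    rw [hT.l, hT.l, Pi.add_apply, ez_in] at h2
    simpa using h2
  refine ⟨LinearEquiv.ofInjectiveEndo Φ0 hinj, fun z hz v => ?_⟩
  rw [hT.u_ag (ag_dd hz) (memA.1 v.2).1, h0]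
  rfl

theorem mem_fbx (hT : T.Ok) {S0 S : Finset α} {b z : ι → ℤ} {c r : ι → ℝ} :
    z ∈ T.fbx S0 S b c r ↔ ((∀ v, ¬ T.ty v ⊆ S → z v = 0) ∧ ∀ v, T.ty v ⊆ S → |T.u (cz z) v| ≤ 20) ∧
      T.Ag S0 z b ∧ ∀ v ∈ T.fv S0 S, |T.u (cz z) v - c v| ≤ r v := by
  classical
  unfold fbx
  rw [@mem_filter _ _ (_), mem_pts hT]

theorem dd_add (A : Finset ι) (y0 : ι → ℝ) (y : ι → ℤ) (t : ℕ) (c : A → ℤ) :
    dd A y0 (cz (y + t • ez A c)) = dd A y0 (cz y) + (t : ℝ) • cz c := by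
  funext v
  have := ez_in c v
  simp only [dd, cz, Pi.add_apply, Pi.smul_apply, this, smul_eq_mul]
  rw [nsmul_eq_mul]
  push_cast; ring

section
variable (hT : T.Ok) {S0 : Finset α} {e : α} {y0 b : ι → ℤ} (hy : y0 ∈ T.pts S0 1)
  (hb : T.Ag (S0.erase e) y0 b) (Φ : (T.fv (S0.erase e) S0 → ℝ) ≃ₗ[ℝ] (T.fv (S0.erase e) S0 → ℝ))
  (hΦ : ∀ z : ι → ℝ, T.Ag (S0.erase e) z (cz y0) → ∀ v : T.fv (S0.erase e) S0,
    T.u z v = T.u (cz y0) v + Φ (dd _ (cz y0) z) v)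
include hT hy hΦ

theorem fin_of (R : ℝ) : {c : T.fv (S0.erase e) S0 → ℤ | ∀ v, |Φ (cz c) v| ≤ R}.Finite := by
  obtain ⟨y1, y2⟩ := (mem_pts hT).1 hy
  refine ((hT.fin S0 (1 + |R|)).image fun z (v : T.fv (S0.erase e) S0) => z v - y0 v).subset ?_
  intro c hc
  have a1 : T.Ag (S0.erase e) (cz (y0 + 1 • ez _ c)) (cz y0) := fun w hw => by
    simp [cz, ez_out _ (notA hw)]
  refine ⟨y0 + 1 • ez _ c, ⟨fun v hv => ?_, fun v hv => ?_⟩, ?_⟩
  · have k : v ∉ T.fv (S0.erase e) S0 := fun k => hv (memA.1 k).1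
    simp [y1 v hv, ez_out _ k]
  · by_cases k : v ∈ T.fv (S0.erase e) S0
    · have h1 := hΦ _ a1 ⟨v, k⟩
      have h2 : dd (T.fv (S0.erase e) S0) (cz y0) (cz y0) = 0 := by funext w; simp [dd]
      rw [dd_add, h2, zero_add, Nat.cast_one, one_smul ℝ] at h1
      show |T.u _ ((⟨v, k⟩ : T.fv (S0.erase e) S0) : ι)| ≤ _
      rw [h1]
      exact (abs_add_le _ _).trans (add_le_add (y2 v hv) ((hc _).trans (le_abs_self R)))
    · rw [hT.u_ag a1 (subB hv k)]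
      linarith [y2 v hv, abs_nonneg R]
  · funext v
    simp [ez_in]

include hb

theorem den_of {σ : ℝ} (h0 : 0 < σ) (h1 : σ ≤ 1 / 2) (hE : T.Eq (S0.erase e) S0 b σ)
    (s : T.fv (S0.erase e) S0 → ℝ) (hs : ∀ v, |s v| ≤ 1) :
    ∃ c : T.fv (S0.erase e) S0 → ℤ, ∀ v, |Φ (cz c) v - 3 * σ * s v| ≤ 2 * σ := by
  obtain ⟨y1, y2⟩ := (mem_pts hT).1 hy
  have h2 := hE (ez _ fun v => T.u (cz y0) v + 3 * σ * s v) (fun _ => σ) fun v => ⟨le_rfl, by
    by_cases k : v ∈ T.fv (S0.erase e) S0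
    · have e1 := ez_in (fun v : T.fv (S0.erase e) S0 => T.u (cz y0) v + 3 * σ * s v) ⟨v, k⟩
      rw [e1]
      have e2 := abs_add_le (T.u (cz y0) v) (3 * σ * s ⟨v, k⟩)
      rw [abs_mul, abs_of_pos (by linarith : 0 < 3 * σ)] at e2
      have e3 := mul_le_mul_of_nonneg_left (hs ⟨v, k⟩) (by linarith : 0 ≤ 3 * σ)
      linarith [y2 v (memA.1 k).1]
    · rw [ez_out _ k, abs_zero]; linarith⟩
  have h3 : 0 < T.vol (S0.erase e) S0 * ∏ v ∈ T.fv (S0.erase e) S0, σ :=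
    mul_pos (vol_pos hT _ _) (prod_pos fun _ _ => h0)
  have h4 := (abs_le.1 h2).1
  have h5 : (0 : ℝ) < (T.fbx (S0.erase e) S0 b (ez _ fun v => T.u (cz y0) v + 3 * σ * s v)
      fun _ => σ).card := by nlinarith
  obtain ⟨z, hz⟩ := card_pos.1 (by exact_mod_cast h5)
  obtain ⟨-, z2, z3⟩ := (mem_fbx hT).1 hz
  refine ⟨fun v => z v - y0 v, fun v => ?_⟩
  have e1 : (cz fun v : T.fv (S0.erase e) S0 => z v - y0 v) = dd _ (cz y0) (cz z) := by
    funext w; simp [cz, dd]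
  have e2 := z3 v v.2
  rw [ez_in, hΦ _ (z2.trans hb.symm).cz v] at e2
  rw [e1]
  have e3 := abs_le.1 e2
  rw [abs_le]
  constructor <;> linarith [e3.1, e3.2]

theorem meet_of {σ lam δ η D : ℝ} {m : ℕ} {cen : ι → ℝ} {Sb : Finset (ι → ℤ)} (h0 : 0 < σ)
    (h1 : σ ≤ 1 / 2) (hE : T.Eq (S0.erase e) S0 b σ) (hcen : ∀ v, |cen v| ≤ 3) (hl0 : σ ≤ lam)
    (hl1 : lam ≤ 1) (hSb : Sb ⊆ T.fbx (S0.erase e) S0 b cen fun _ => lam)
    (hcard : δ * (T.vol (S0.erase e) S0 * ∏ v ∈ T.fv (S0.erase e) S0, lam) ≤ Sb.card)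
    (hD : (Fintype.card ι : ℝ) + 1 ≤ D) (hmδ : 6 < (m + 1 : ℝ) * δ) (hη0 : 0 ≤ η)
    (hη : m * η ≤ lam / D) (c : T.fv (S0.erase e) S0 → ℤ) (hc : ∀ v, |Φ (cz c) v| ≤ η) :
    ∃ t : ℕ, 1 ≤ t ∧ t ≤ m ∧ ∃ y ∈ Sb, y + t • ez _ c ∈ Sb := by
  have c0 : (0 : ℝ) ≤ Fintype.card ι := Nat.cast_nonneg _
  have hD0 : 0 < D := by linarith
  have hl : 0 < lam := by linarith
  have hlD : lam / D ≤ 1 := (div_le_one hD0).2 (by linarith)
  have hlD0 : 0 ≤ lam / D := by positivity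
  refine meetF Sb (T.fbx (S0.erase e) S0 b cen fun _ => lam + lam / D) _ m ?_ ?_
  · intro y hy' t ht
    obtain ⟨⟨z0, z1⟩, z2, z3⟩ := (mem_fbx hT).1 (hSb hy')
    have a0 : T.Ag (S0.erase e) (y + t • ez _ c) y := fun w hw => by
      simp [ez_out _ (notA hw)]
    have a1 : ∀ v ∈ T.fv (S0.erase e) S0,
        |T.u (cz (y + t • ez _ c)) v - cen v| ≤ lam + lam / D := by
      intro v k
      have e1 := hΦ _ ((a0.trans z2).trans hb.symm).cz ⟨v, k⟩
      have e2 := hΦ _ (z2.trans hb.symm).cz ⟨v, k⟩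
      rw [dd_add, map_add, map_smul, Pi.add_apply, Pi.smul_apply, smul_eq_mul, ← add_assoc,
        ← e2] at e1
      have e3 : |(t : ℝ) * Φ (cz c) ⟨v, k⟩| ≤ lam / D := by
        rw [abs_mul, Nat.abs_cast]
        exact (mul_le_mul (by exact_mod_cast ht) (hc _) (abs_nonneg _) (Nat.cast_nonneg m)).trans hη
      have e4 : T.u (cz (y + t • ez _ c)) v - cen v =
          (T.u (cz y) v - cen v) + (t : ℝ) * Φ (cz c) ⟨v, k⟩ := by
        have e5 : T.u (cz (y + t • ez _ c)) v = T.u (cz y) v + (t : ℝ) * Φ (cz c) ⟨v, k⟩ := e1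
        rw [e5]; ring
      rw [e4]
      exact (abs_add_le _ _).trans (add_le_add (z3 v k) e3)
    refine (mem_fbx hT).2 ⟨⟨fun v hv => ?_, fun v hv => ?_⟩, a0.trans z2, a1⟩
    · have k : v ∉ T.fv (S0.erase e) S0 := fun k => hv (memA.1 k).1
      simp [z0 v hv, ez_out _ k]
    · by_cases k : v ∈ T.fv (S0.erase e) S0
      · have e1 := abs_le.1 (a1 v k)
        have e2 := abs_le.1 (hcen v)
        rw [abs_le]
        constructor <;> linarith [e1.1, e1.2, e2.1, e2.2]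
      · rw [hT.u_ag a0.cz (subB hv k)]; exact z1 v hv
  · have h2 := (abs_le.1 (hE cen (fun _ => lam + lam / D) fun v =>
      ⟨by linarith, by linarith [hcen v]⟩)).2
    have hv := vol_pos hT (S0.erase e) S0
    have h3 : ∏ v ∈ T.fv (S0.erase e) S0, (lam + lam / D) ≤
        3 * ∏ v ∈ T.fv (S0.erase e) S0, lam := by
      rw [prod_const, prod_const]
      have e1 : lam + lam / D = (1 + 1 / D) * lam := by ring
      rw [e1, mul_pow]
      refine mul_le_mul_of_nonneg_right ?_ (by positivity)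
      have e2 : (1 + 1 / D) ≤ Real.exp (1 / D) := by linarith [Real.add_one_le_exp (1 / D)]
      have e3 : (((T.fv (S0.erase e) S0).card : ℕ) : ℝ) ≤ Fintype.card ι := by
        exact_mod_cast card_le_univ _
      calc _ ≤ Real.exp (1 / D) ^ (T.fv (S0.erase e) S0).card :=
            pow_le_pow_left₀ (by positivity) e2 _
        _ = Real.exp ((T.fv (S0.erase e) S0).card * (1 / D)) := (Real.exp_nat_mul _ _).symm
        _ ≤ Real.exp 1 := Real.exp_le_exp.2 (by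
            rw [mul_one_div, div_le_one hD0]; linarith)
        _ ≤ 3 := Real.exp_one_lt_three.le
    have h4 : 0 < T.vol (S0.erase e) S0 * ∏ v ∈ T.fv (S0.erase e) S0, lam :=
      mul_pos hv (prod_pos fun _ _ => hl)
    have h5 := mul_le_mul_of_nonneg_left h3 hv.le
    have h6 : 0 ≤ T.vol (S0.erase e) S0 * ∏ v ∈ T.fv (S0.erase e) S0, (lam + lam / D) :=
      mul_nonneg hv.le (prod_nonneg fun _ _ => by linarith)
    have h7 := mul_le_mul_of_nonneg_left hcard (by positivity : (0 : ℝ) ≤ m + 1)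
    have h8 := mul_lt_mul_of_pos_right hmδ h4
    have h9 := mul_le_mul_of_nonneg_right h1 h6
    have : ((T.fbx (S0.erase e) S0 b cen fun _ => lam + lam / D).card : ℝ) <
        (m + 1 : ℝ) * Sb.card := by linarith
    exact_mod_cast this

end

end Vale.Agent.P057T.Gk.E1
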