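import Vale.Agent.P057T.Gk.Eq1c

/-! One fibre: the integer form. -/

set_option linter.all false

open Finset

namespace Vale.Agent.P057T.Gk.E1

open TT

variable {α ι : Type} [Fintype α] [DecidableEq α] [Fintype ι] [DecidableEq ι] {T : TT α ι}

/-- the variables of a class -/
def Kc (T : TT α ι) (e : α) : Finset ι := univ.filter fun v => e ∈ T.ty v
/-- the variables of the class `e` off the base -/
def Kw (T : TT α ι) (S0 : Finset α) (e : α) : Finset ι :=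
  univ.filter fun v => e ∈ T.ty v ∧ ¬ T.ty v ⊆ S0

theorem memKc {e : α} {v : ι} : v ∈ Kc T e ↔ e ∈ T.ty v := by simp [Kc]
theorem memKw {S0 : Finset α} {e : α} {v : ι} : v ∈ Kw T S0 e ↔ e ∈ T.ty v ∧ ¬ T.ty v ⊆ S0 := by
  simp [Kw]

theorem sd_eq {S0 S : Finset α} {e : α} (he : e ∈ S0) : S.erase e \ S0.erase e = S \ S0 := by
  ext a
  simp only [mem_sdiff, mem_erase]
  constructor
  · rintro ⟨⟨h1, h2⟩, h3⟩
    exact ⟨h2, fun h => h3 ⟨h1, h⟩⟩
  · rintro ⟨h1, h2⟩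
    exact ⟨⟨fun h => h2 (h ▸ he), h1⟩, fun h => h2 h.2⟩

theorem ag_rep {R : Type} {S0 : Finset α} {e : α} {y z : ι → R} (K : Finset ι)
    (hK : ∀ v, T.ty v ⊆ S0 → e ∈ T.ty v → v ∈ K) (h : T.Ag (S0.erase e) z y) :
    T.Ag S0 (rep K y z) y := fun v hv => by
  by_cases k : v ∈ K
  · exact rep_in k
  · rw [rep_out k]; exact h v (subset_erase.2 ⟨hv, fun k' => k (hK v hv k')⟩)

theorem fm_Kc {S G : Finset α} {e : α} {f : Fn ι} (h : T.Fm S G f) (Y : ι → ℝ) :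
    T.Fm (S.erase e) G (fun z => f (rep (Kc T e) Y z)) :=
  fm_rep h _ Y fun v hv k => subset_erase.2 ⟨hv, fun k' => k (memKc.2 k')⟩

theorem loc (hT : T.Ok) {S0 S : Finset α} {c e : α} (he : e ∈ S0) {y b : ι → ℤ} {g : Fn ι} {H : ℝ}
    (hb : T.Ag (S0.erase e) y b) (h : T.IBg S0 S (S.erase e) c y g H) :
    T.IB (S0.erase e) (S.erase e) c b (fun x => g (rep (Kc T e) (cz y) x)) H := by
  obtain ⟨I, i1, i2, i3⟩ := h
  refine ⟨fun x => I (rep (Kc T e) (cz y) x), ?_, fun z hz => ?_, fun z z' h1 h2 h3 h4 => ?_⟩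
  · rw [sd_eq he]; exact fm_Kc i1 _
  · show ∃ n : ℤ, I (rep (Kc T e) (cz y) (cz z)) = n
    rw [← cz_rep]
    exact i2 _ (ag_rep _ (fun v _ k => memKc.2 k) (hz.trans hb.symm))
  · have a : ∀ (x : ι → ℝ) (v : ι), T.ty v ⊆ S.erase e → T.u (rep (Kc T e) (cz y) x) v = T.u x v :=
      fun x v hv => hT.u_ag (S := S.erase e)
        (fun w hw => rep_out fun k => notMem_erase e S (hw (memKc.1 k))) hv
    refine i3 _ _ (ag_rep _ (fun v _ k => memKc.2 k) (h1.trans hb.cz.symm))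
      (ag_rep _ (fun v _ k => memKc.2 k) (h2.trans hb.cz.symm)) (of_rep _ _ h3) fun v hv => ?_
    obtain ⟨-, k1, k2⟩ := mem_filter.1 hv
    rw [a _ v k1, a _ v k1]
    exact h4 v (mem_filter.2 ⟨mem_univ _, k1, fun k => k2 (k.trans (erase_subset _ _))⟩)

theorem gy {S0 : Finset α} {e : α} {g : Fn ι} (h : T.Aff e g) (Y x : ι → ℝ) :
    g x - g (rep (Kw T S0 e) 0 x) = g (rep (T.fv (S0.erase e) S0) Y x) -
      g (rep (Kw T S0 e) 0 (rep (T.fv (S0.erase e) S0) Y x)) := by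
  have h1 := h.diff (x := rep (Kw T S0 e) 0 x)
    (y := rep (Kw T S0 e) 0 (rep (T.fv (S0.erase e) S0) Y x))
    (k := fun v => if v ∈ Kw T S0 e then x v else 0)
    (of_rep _ _ fun v hv => (rep_out fun k => hv (memA.1 k).2).symm)
    (fun v hv => if_neg fun k => hv (memKw.1 k).1)
  have e1 : (rep (Kw T S0 e) 0 x + fun v => if v ∈ Kw T S0 e then x v else 0) = x := by
    funext v; by_cases k : v ∈ Kw T S0 e <;> simp [rep, k]
  have e2 : (rep (Kw T S0 e) 0 (rep (T.fv (S0.erase e) S0) Y x) +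
      fun v => if v ∈ Kw T S0 e then x v else 0) = rep (T.fv (S0.erase e) S0) Y x := by
    funext v
    by_cases k : v ∈ Kw T S0 e
    · have k' : v ∉ T.fv (S0.erase e) S0 := fun k' => (memKw.1 k).2 (memA.1 k').1
      simp [rep, k, k']
    · simp [rep, k]
  rw [e1, e2] at h1
  exact h1

/-- the part in the unbounded variables is an integer form -/
theorem wint (hS : SCALE) (hT : T.Ok) {S0 S : Finset α} {c e : α} (h0 : S0 ⊆ S) (hc : c ∉ S0)
    {y b : ι → ℤ} {g : Fn ι} {H : ℝ} (hg : T.Fm S (insert e (S \ S0)) g)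
    (hb : T.Ag (S0.erase e) y b) (h : T.IBg S0 S (S.erase e) c y g H) :
    T.IsI (S0.erase e) b fun z => (g z - g (rep (Kw T S0 e) 0 z)) -
      (g (rep (Kc T c) 0 z) - g (rep (Kw T S0 e) 0 (rep (Kc T c) 0 z))) := by
  obtain ⟨I, i1, i2, i3⟩ := h
  intro z hz
  have hA : ∀ v, T.ty v ⊆ S0 → e ∈ T.ty v → v ∈ T.fv (S0.erase e) S0 :=
    fun v k1 k2 => memA.2 ⟨k1, k2⟩
  have hz' : T.Ag (S0.erase e) (rep (Kc T c) 0 z) y := fun v hv => by
    rw [rep_out fun k => hc (erase_subset _ _ (hv (memKc.1 k)))]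
    exact (hz.trans hb.symm) v hv
  have a1 := ag_rep _ hA (hz.trans hb.symm)
  have a2 := ag_rep _ hA hz'
  have a3 : ∀ x : ι → ℤ, T.Ag S0 x y → T.Ag S0 (rep (Kw T S0 e) 0 x) y := fun x hx v hv => by
    rw [rep_out fun k => (memKw.1 k).2 hv]; exact hx v hv
  have hof : T.Of c z (rep (Kc T c) 0 z) := fun v hv => (rep_out fun k => hv (memKc.1 k)).symm
  have key := wp hS hT h0 hc ((hg.mono subset_rfl (subset_insert _ _)).sub i1) i3 (Kw T S0 e)
    (fun v k => memKw.1 k) _ _ a1.cz a2.cz (of_rep _ _ hof).cz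
  obtain ⟨n1, e1⟩ := i2 _ a1
  obtain ⟨n2, e2⟩ := i2 _ a2
  obtain ⟨n3, e3⟩ := i2 _ (a3 _ a1)
  obtain ⟨n4, e4⟩ := i2 _ (a3 _ a2)
  have he := hg.2 e (mem_insert_self _ _)
  refine ⟨n1 - n3 - (n2 - n4), ?_⟩
  show (g (cz z) - g (rep (Kw T S0 e) 0 (cz z))) - (g (rep (Kc T c) 0 (cz z)) -
    g (rep (Kw T S0 e) 0 (rep (Kc T c) 0 (cz z)))) = _
  rw [gy he (cz y) (cz z), gy he (cz y) (rep (Kc T c) 0 (cz z))]
  simp only [cz_rep, cz_zero] at key e1 e2 e3 e4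
  push_cast
  linarith

end Vale.Agent.P057T.Gk.E1
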