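import Vale.Agent.P057T.Gk.Eq1d

/-! One fibre: the conclusion. -/

set_option linter.all false

open Finset

namespace Vale.Agent.P057T.Gk.E1

open TT

variable {α ι : Type} [Fintype α] [DecidableEq α] [Fintype ι] [DecidableEq ι] {T : TT α ι}

theorem rep_add {S0 : Finset α} {e : α} (Y x : ι → ℝ) (d : T.fv (S0.erase e) S0 → ℝ) :
    rep (Kc T e) (Y + ez _ d) x = rep (Kc T e) Y x + ez _ d := by
  funext v
  by_cases k : v ∈ Kc T e
  · simp [rep, k]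
  · have k' : v ∉ T.fv (S0.erase e) S0 := fun k' => k (memKc.2 (memA.1 k').2)
    simp [rep, k, ez_out _ k']

theorem rep_kw {S0 : Finset α} {e : α} {Y : ι → ℝ} (hY : ∀ v, ¬ T.ty v ⊆ S0 → Y v = 0)
    (z : ι → ℝ) : rep (Kc T e) (Y + ez _ (dd (T.fv (S0.erase e) S0) Y z)) z =
      rep (Kw T S0 e) 0 z := by
  funext v
  by_cases k : e ∈ T.ty v
  · rw [rep_in (memKc.2 k), Pi.add_apply]
    by_cases k' : T.ty v ⊆ S0
    · have e1 := ez_in (dd (T.fv (S0.erase e) S0) Y z) ⟨v, memA.2 ⟨k', k⟩⟩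
      rw [rep_out fun h => (memKw.1 h).2 k', e1]; simp [dd]
    · rw [rep_in (memKw.2 ⟨k, k'⟩), hY v k', ez_out _ fun h => k' (memA.1 h).1]; simp
  · rw [rep_out fun h => k (memKc.1 h), rep_out fun h => k (memKw.1 h).1]

theorem fibre (hS : SCALE) (hT : T.Ok) {κ : Type} [Fintype κ] {S0 S : Finset α} {c e : α}
    (h0 : S0 ⊆ S.erase c) (he : e ∈ S0) (g : κ → Fn ι)
    (hg : ∀ k, T.Fm S (insert e (S \ S0)) (g k)) (b : ι → ℤ) (cen : ι → ℝ) (Sb : Finset (ι → ℤ))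
    (lam δ σ H D Q η : ℝ) (m : ℕ) (hcen : ∀ v, |cen v| ≤ 3) (hl0 : σ ≤ lam) (hl1 : lam ≤ 1)
    (hSb : Sb ⊆ T.fbx (S0.erase e) S0 b cen fun _ => lam) (hS1 : Sb ⊆ T.pts S0 1)
    (hne : Sb.Nonempty)
    (hcard : δ * (T.vol (S0.erase e) S0 * ∏ v ∈ T.fv (S0.erase e) S0, lam) ≤ Sb.card)
    (hI : ∀ y ∈ Sb, ∀ k, T.IBg S0 S (S.erase e) c y (g k) H)
    (hE : T.Eq (S0.erase e) S0 b σ) (hZ : T.Zr (S0.erase e) (S.erase e) c b σ⁻¹)
    (hD : (Fintype.card ι : ℝ) + 1 ≤ D)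
    (hQ : (2 * Fintype.card ι + 1 : ℝ) ^ (2 ^ (Fintype.card α + 1)) ≤ Q) (hσ0 : 0 < σ)
    (hσ1 : σ ≤ 1 / 2) (hm : 1 ≤ m) (hmδ : 6 < (m + 1 : ℝ) * δ) (hη0 : 0 < η)
    (hη : m * η ≤ lam / D) (hs : D * (5 * σ) * (2 * m * D ^ 2) ≤ η) (hH0 : 0 ≤ H)
    (hH : Q * (3 * (m : ℝ) ^ 3 * (2 * H)) ≤ σ⁻¹) :
    ∃ n : ℕ, 1 ≤ n ∧ n ≤ m ∧ ∀ k, T.IB (S0.erase e) S c b (fun x => n * g k x)
      (n * H + Q * (n * (2 * (2 * H) / η * (D * 2)))) := by
  obtain ⟨y0, hy0⟩ := hne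
  have hS0 : S0 ⊆ S := h0.trans (erase_subset _ _)
  have hc0 : c ∉ S0 := fun k => notMem_erase c S (h0 k)
  have hag : ∀ y ∈ Sb, T.Ag (S0.erase e) y b := fun y hy => ((mem_fbx hT).1 (hSb hy)).2.1
  have hz0 : ∀ y ∈ Sb, ∀ v, ¬ T.ty v ⊆ S0 → cz y v = 0 := fun y hy v hv => by
    simp [cz, ((mem_pts hT).1 (hS1 hy)).1 v hv]
  obtain ⟨Φ, hΦ⟩ := chart hT S0 e (cz y0)
  obtain ⟨n0, p, q, -, hp, hosc⟩ := (hS α ι T (S0.erase e) (S.erase e) c b hT
    (erase_subset_erase e hS0) fun k => hc0 (erase_subset _ _ k)).2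
  have hQ0 : (0 : ℝ) ≤ (2 * Fintype.card ι + 1 : ℝ) ^ (2 ^ (Fintype.card α + 1)) := by positivity
  have hosc' : ∀ (f : Fn ι) (K : ℝ), 0 ≤ K → T.Fm (S.erase e) (S.erase e \ S0.erase e) f →
      (∀ j, |f (p j) - f (q j)| ≤ K) → T.Osc (S0.erase e) (S.erase e) c b f (Q * K) :=
    fun f K hK h1 h2 => (hosc f K hK h1 h2).mono (mul_le_mul_of_nonneg_right hQ hK)
  let I : AddSubgroup (κ → Fin n0 → ℝ) :=
    { carrier := {x | ∃ J : κ → Fn ι, (∀ k, T.Fm (S.erase e) (S.erase e \ S0.erase e) (J k) ∧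
        T.IsI (S0.erase e) b (J k)) ∧ ∀ k j, x k j = J k (p j) - J k (q j)}
      add_mem' := by
        rintro x x' ⟨J, h1, h2⟩ ⟨J', h3, h4⟩
        exact ⟨fun k z => J k z + J' k z, fun k => ⟨(h1 k).1.add (h3 k).1, (h1 k).2.add (h3 k).2⟩,
          fun k j => by simp only [Pi.add_apply, h2, h4]; ring⟩
      zero_mem' := ⟨fun _ _ => 0, fun _ => ⟨fm_const _ _ _, isI_zero _ _⟩, fun _ _ => by simp⟩
      neg_mem' := by
        rintro x ⟨J, h1, h2⟩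
        exact ⟨fun k z => -J k z, fun k => ⟨(h1 k).1.neg, (h1 k).2.neg⟩,
          fun k j => by simp only [Pi.neg_apply, h2]; ring⟩ }
  have hent : ∀ (x : κ → Fin n0 → ℝ) k j, |x k j| ≤ ‖x‖ := fun x k j =>
    (norm_le_pi_norm (x k) j).trans (norm_le_pi_norm x k)
  choose Lp hLp using fun k => (hg k).2 e (mem_insert_self _ _)
  let L : (T.fv (S0.erase e) S0 → ℝ) →ₗ[ℝ] (κ → Fin n0 → ℝ) :=
    LinearMap.pi fun k => LinearMap.pi fun j =>
      (Lp k (rep (Kc T e) (cz y0) (p j)) - Lp k (rep (Kc T e) (cz y0) (q j))).comp (eL _)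
  have hL : ∀ d k j, L d k j =
      (g k (rep (Kc T e) (cz y0 + ez _ d) (p j)) - g k (rep (Kc T e) (cz y0) (p j))) -
      (g k (rep (Kc T e) (cz y0 + ez _ d) (q j)) - g k (rep (Kc T e) (cz y0) (q j))) := by
    intro d k j
    have hs : ∀ v, e ∉ T.ty v → ez _ d v = 0 := fun v hv => ez_out d fun h => hv (memA.1 h).2
    rw [rep_add, rep_add, hLp k _ _ hs, hLp k _ _ hs, add_sub_cancel_left, add_sub_cancel_left]
    rfl
  have hrep : ∀ y ∈ Sb, cz y0 + ez _ (dd (T.fv (S0.erase e) S0) (cz y0) (cz y)) = cz y := by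
    intro y hy
    funext v
    by_cases k : T.ty v ⊆ S0
    · exact (ag_dd ((hag y hy).trans (hag y0 hy0).symm).cz v k).symm
    · rw [Pi.add_apply, hz0 y hy v k, hz0 y0 hy0 v k, ez_out _ fun h => k (memA.1 h).1, add_zero]
  choose! J hJ1 hJ2 hJ3 using fun y (hy : y ∈ Sb) k => loc hT he (hag y hy) (hI y hy k)
  obtain ⟨n, γ, hn1, hn2, hγ, hb⟩ := latt Φ σ η (2 * H) (3 * (m : ℝ) ^ 3 * (2 * H)) D m hm hσ0 hη0
    (le_trans (by
      have : (Fintype.card (T.fv (S0.erase e) S0) : ℝ) ≤ Fintype.card ι := by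
        exact_mod_cast Fintype.card_subtype_le _
      linarith) hD) hs (fin_of hT (hS1 hy0) Φ hΦ)
    (den_of hT (hS1 hy0) (hag y0 hy0) Φ hΦ hσ0 hσ1 hE) I L
    (by
      rintro x ⟨K, h1, h2⟩ hx
      funext k j
      have h3 := hZ (K k) (h1 k).1 (h1 k).2 ((hosc' (K k) _ (by positivity) (h1 k).1
        fun j => by rw [← h2]; exact (hent x k j).trans hx).mono hH)
      have h4 := h3 (p j) (q j) (hp j).1 (hp j).2.1 (hp j).2.2.1 fun v hv =>
        ((mem_filter.1 hv).2.2 (mem_filter.1 hv).2.1).elim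
      rw [h2]; exact abs_nonpos_iff.1 h4) le_rfl
    (by
      intro d hd
      obtain ⟨t, t1, t2, y, hy, hy'⟩ := meet_of hT (hS1 hy0) (hag y0 hy0) Φ hΦ hσ0 hσ1 hE hcen hl0
        hl1 hSb hcard hD hmδ hη0.le hη d hd
      refine ⟨t, t1, t2, fun k j => (J _ k (p j) - J y k (p j)) - (J _ k (q j) - J y k (q j)),
        ⟨fun k z => J _ k z - J y k z, fun k => ⟨(hJ1 _ hy' k).sub (hJ1 y hy k),
          (hJ2 _ hy' k).sub (hJ2 y hy k)⟩, fun _ _ => rfl⟩, ?_⟩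
      have e1 : (t : ℝ) • L (cz d) = L (dd _ (cz y0) (cz (y + t • ez _ d))) -
          L (dd _ (cz y0) (cz y)) := by
        rw [dd_add, map_add, map_smul, add_sub_cancel_left]
      rw [e1]
      refine (pi_norm_le_iff_of_nonneg (by linarith)).2 fun k =>
        (pi_norm_le_iff_of_nonneg (by linarith)).2 fun j => ?_
      have k1 := abs_le.1 (hJ3 _ hy' k (p j) (q j) (hp j).1 (hp j).2.1 (hp j).2.2.1 (hp j).2.2.2)
      have k2 := abs_le.1 (hJ3 y hy k (p j) (q j) (hp j).1 (hp j).2.1 (hp j).2.2.1 (hp j).2.2.2)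
      simp only [Pi.sub_apply, hL, hrep _ hy', hrep y hy, Real.norm_eq_abs] at k1 k2 ⊢
      rw [abs_le]
      constructor <;> linarith [k1.1, k1.2, k2.1, k2.2])
  choose Iv hIv1 hIv2 using hγ
  refine ⟨n, hn1, hn2, fun k => ?_⟩
  have hsub : S \ S0.erase e ⊆ insert e (S \ S0) := fun a ha => by
    simp only [mem_sdiff, mem_erase, mem_insert] at ha ⊢
    tauto
  have hg' : T.Fm S (S \ S0.erase e) (g k) := (hg k).mono subset_rfl hsub
  have hup : ∀ f : Fn ι, T.Fm (S.erase e) (S.erase e \ S0.erase e) f →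
      T.Fm (S.erase e) (S \ S0.erase e) f := fun f hf => hf.ext fun a ha hs =>
    mem_sdiff.2 ⟨hs, (mem_sdiff.1 ha).2⟩
  have hG : T.Fm S (S \ S0.erase e) fun z => g k z - g k (rep (Kw T S0 e) 0 z) :=
    hg'.sub (fm_rep hg' _ _ fun _ hv _ => hv)
  refine ⟨fun z => (n : ℝ) * ((g k z - g k (rep (Kw T S0 e) 0 z)) -
      (g k (rep (Kc T c) 0 z) - g k (rep (Kw T S0 e) 0 (rep (Kc T c) 0 z)))) +
      ((n : ℝ) * J y0 k z + ∑ v : T.fv (S0.erase e) S0, (z v - cz y0 v) * Iv v k z), ?_, ?_, ?_⟩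
  · refine ((hG.sub (fm_rep hG _ _ fun _ hv _ => hv)).smul _).add
      ((((hup _ (hJ1 y0 hy0 k)).mono (erase_subset _ _) subset_rfl).smul _).add
        (fm_sum _ fun v _ => ?_))
    refine Fm.mul (S0 := T.ty v) (S1 := S.erase e) ((fm_coord T v).sub (fm_const _ _ _))
      (hup _ (hIv1 v k).1) ((memA.1 v.2).1.trans hS0) (erase_subset _ _) fun a ha => ?_
    by_cases k1 : a = e
    · exact Or.inr (k1 ▸ notMem_erase e S)
    · exact Or.inl fun k2 => (mem_sdiff.1 ha).2 (mem_erase.2 ⟨k1, (memA.1 v.2).1 k2⟩)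
  · have i1 := (wint hS hT hS0 hc0 (hg k) (hag y0 hy0) (hI y0 hy0 k)).zsmul (n : ℤ)
    have i2 := (hJ2 y0 hy0 k).zsmul (n : ℤ)
    intro z hz
    obtain ⟨n1, e1⟩ := i1 z hz
    obtain ⟨n2, e2⟩ := i2 z hz
    choose n3 e3 using fun v => (hIv1 v k).2 z hz
    refine ⟨n1 + (n2 + ∑ v : T.fv (S0.erase e) S0, (z v - y0 v) * n3 v), ?_⟩
    simp only [Int.cast_natCast] at e1 e2
    simp only [e1, e2, e3]
    push_cast
    rfl
  · intro z z' h1 h2 h3 h4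
    have h4' : ∀ v ∈ T.fv (S0.erase e) (S.erase e), |T.u z v| ≤ 1 ∧ |T.u z' v| ≤ 1 :=
      fun v hv => h4 v (mem_filter.2 ⟨mem_univ _, (mem_filter.1 hv).2.1.trans (erase_subset _ _),
        (mem_filter.1 hv).2.2⟩)
    have e1 : rep (Kc T c) 0 z' = rep (Kc T c) 0 z := by
      funext v
      by_cases k1 : v ∈ Kc T c
      · rw [rep_in k1, rep_in k1]
      · rw [rep_out k1, rep_out k1, h3 v fun k2 => k1 (memKc.2 k2)]
    have e2 : ∀ v : T.fv (S0.erase e) S0, z' v = z v := fun v =>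
      (h3 v fun k2 => hc0 ((memA.1 v.2).1 k2)).symm
    have e3 : dd (T.fv (S0.erase e) S0) (cz y0) z' = dd _ (cz y0) z := by
      funext v; simp only [dd, e2]
    have k1 := abs_le.1 (hJ3 y0 hy0 k z z' h1 h2 h3 h4')
    have k2 := hb (dd _ (cz y0) z) 2 (by norm_num) fun v => by
      have k3 := hΦ z (h1.trans (hag y0 hy0).cz.symm) v
      have k4 := abs_le.1 (h4 v (mem_filter.2 ⟨mem_univ _, (memA.1 v.2).1.trans hS0,
        (mem_filter.1 v.2).2.2⟩)).1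
      have k5 := abs_le.1 (((mem_pts hT).1 (hS1 hy0)).2 v (memA.1 v.2).1)
      rw [abs_le]
      constructor <;> linarith [k4.1, k4.2, k5.1, k5.2]
    have hg2 : T.Fm S (S.erase e \ S0.erase e) (g k) :=
      hg'.mono subset_rfl (sdiff_subset_sdiff (erase_subset _ _) subset_rfl)
    have k3 := abs_le.1 (hosc' (fun x => (n : ℝ) *
        (g k (rep (Kc T e) (cz y0 + ez _ (dd (T.fv (S0.erase e) S0) (cz y0) z)) x) -
          g k (rep (Kc T e) (cz y0) x)) -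
        ∑ v : T.fv (S0.erase e) S0, dd _ (cz y0) z v * Iv v k x) _ ((norm_nonneg _).trans k2)
      ((((fm_Kc hg2 _).sub (fm_Kc hg2 _)).smul _).sub (fm_sum _ fun v _ => (hIv1 v k).1.smul _))
      (fun j => by
        refine le_trans (le_of_eq ?_) ((hent _ k j).trans k2)
        congr 1
        simp only [Pi.sub_apply, Pi.smul_apply, Finset.sum_apply, smul_eq_mul, hL, hIv2, mul_sub,
          sum_sub_distrib]
        ring) z z' h1 h2 h3 h4')
    have e4 := rep_kw (e := e) (hz0 y0 hy0) z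
    have e5 := rep_kw (e := e) (hz0 y0 hy0) z'
    rw [e3] at e5
    simp only [e4, e5] at k3
    have hn0 : (0 : ℝ) ≤ n := Nat.cast_nonneg n
    have k4 := mul_le_mul_of_nonneg_left k1.1 hn0
    have k5 := mul_le_mul_of_nonneg_left k1.2 hn0
    simp only [e1, e2, dd] at k3 k4 k5 ⊢
    rw [abs_le]
    constructor <;> linarith [k3.1, k3.2]

end Vale.Agent.P057T.Gk.E1
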