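import Vale.Agent.P057T.Gk.EqwD
import Vale.Agent.P057T.Gk.Cnt8b

/-! The row `EQW` from its two halves. -/

set_option linter.all false

open Finset

namespace Vale.Agent.P057T.Gk

open TT

namespace EqwP

open Classical in
theorem dfib {β γ : Type} (φ : γ → β) (A : Finset γ) (P : Finset β) {t : ℝ}
    (hA : ∀ q ∈ P, t ≤ ((A.filter fun z => φ z = q).card : ℝ)) :
    P.card * t ≤ ((A.filter fun z => φ z ∈ P).card : ℝ) := by
  rw [card_eq_sum_card_fiberwise (f := φ) (s := A.filter fun z => φ z ∈ P) (t := P)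
    (fun z hz => mem_coe.2 (mem_filter.1 (mem_coe.1 hz)).2), Nat.cast_sum, ← nsmul_eq_mul]
  refine card_nsmul_le_sum _ _ _ fun q hq => (hA q hq).trans (Nat.cast_le.2 (card_le_card ?_))
  intro z hz
  obtain ⟨a, b⟩ := mem_filter.1 hz
  exact mem_filter.2 ⟨mem_filter.2 ⟨a, b ▸ hq⟩, b⟩

variable {α ι : Type} [Fintype α] [DecidableEq α] [Fintype ι] [DecidableEq ι] {T : TT α ι}

theorem res_self (hT : T.Ok) {S : Finset α} {z : ι → ℤ} (hz : z ∈ T.pts S 1) : T.res S z = z := by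
  funext v
  unfold TT.res
  split_ifs with h
  · rfl
  · exact (((mem_pts hT).1 hz).1 v h).symm

/-- the preimage of the typical part of a dense set of popular points is dense -/
theorem lift (hT : T.Ok) {B0 B1 : Finset α} (h01 : B0 ⊆ B1) {E1 E3 : Finset (ι → ℤ)}
    {L1 L3 L4 L5 : ℝ} (h1 : E1 ⊆ T.pts B1 1) (h3 : T.Dn B0 E3 L3) {p : (ι → ℤ) → Prop}
    (hp : T.Mo B0 (Real.exp (-L4)) p) (h4 : 0 ≤ L4) (h34 : 2 * Real.exp L3 ≤ Real.exp L4)
    (h5 : L4 + L1 ≤ L5)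
    (pop : ∀ b ∈ E3, ∃ z, T.res B0 z = b ∧ Real.exp (-L1) * T.vol B0 B1 ≤ by
      classical exact (((E1.image (T.res B1)).filter fun y => T.Ag B0 y z).card : ℝ)) :
    ∃ E' ⊆ E1, T.Dn B1 E' L5 ∧ ∀ z ∈ E', T.res B0 z ∈ E3 ∧ p (T.res B0 z) := by
  classical
  have k1 := hp.one hT (Real.exp_le_one_iff.2 (by linarith)) h3.1
  have k2 : (E3.card : ℝ) = (E3.filter p).card + (E3.filter fun z => ¬ p z).card := by
    exact_mod_cast (card_filter_add_card_filter_not p).symm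
  have p0 := vol_pos hT ∅ B0
  have p1 := vol_pos hT B0 B1
  have k3 : 2 * Real.exp (-L4) ≤ Real.exp (-L3) := by
    rw [Real.exp_neg, Real.exp_neg, ← div_eq_mul_inv, div_le_iff₀ (Real.exp_pos _),
      ← div_eq_inv_mul, le_div_iff₀ (Real.exp_pos _)]
    exact h34
  have k4 : Real.exp (-L4) * T.vol ∅ B0 ≤ (E3.filter p).card := by
    have := mul_le_mul_of_nonneg_right k3 p0.le
    have := h3.2
    linarith
  have k5 := dfib (T.res B0) E1 (E3.filter p) (t := Real.exp (-L1) * T.vol B0 B1) fun b hb => by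
    obtain ⟨z, rfl, hz⟩ := pop b (mem_filter.1 hb).1
    refine hz.trans (Nat.cast_le.2 (card_le_card fun y hy => ?_))
    obtain ⟨j1, j2⟩ := mem_filter.1 hy
    obtain ⟨x, hx, rfl⟩ := mem_image.1 j1
    rw [res_self hT (h1 hx)] at j2 ⊢
    simp only [mem_filter]
    exact ⟨hx, res_congr j2⟩
  refine ⟨E1.filter fun z => T.res B0 z ∈ E3.filter p, filter_subset _ _,
    ⟨(filter_subset _ _).trans h1, ?_⟩, fun z hz => mem_filter.1 (mem_filter.1 hz).2⟩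
  refine le_trans ?_ (le_trans (mul_le_mul_of_nonneg_right k4 (by positivity)) (k5.trans_eq ?_))
  · rw [vol_mul hT (empty_subset B0) h01, mul_mul_mul_comm, ← Real.exp_add]
    exact mul_le_mul_of_nonneg_right (Real.exp_le_exp.2 (by linarith)) (by positivity)
  · exact congrArg _ (congrArg _ (filter_congr_decidable _ _ _))

end EqwP

open EqwP in
theorem eqw (h0 : EQW0) (hE : ELIM) (hI : EQI) (hS : SCG) : EQW := by
  intro a
  obtain ⟨C0, h0⟩ := h0 a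
  obtain ⟨C1, hI⟩ := hI a
  obtain ⟨C2, hE⟩ := hE a
  obtain ⟨K, hK, k0, k1, k2⟩ : ∃ K, 5 ≤ K ∧ C0 ≤ K ∧ C1 ≤ K ∧ C2 ≤ K :=
    ⟨5 + C0 + C1 + C2, by omega, by omega, by omega, by omega⟩
  refine ⟨K ^ 5, fun α ι κ ρ _ _ _ _ _ _ _ T Y ha hC hι hκ hρ hT hN => ?_⟩
  intro S00 S c e a' cc g E hc h00 he hD fa fc fg arc hb
  have hY : (K : ℝ) ≤ Y := le_trans (by exact_mod_cast Nat.le_self_pow (by norm_num) K) hC
  change T.Nn 1 (Real.exp (-lv K Y 5)) at hN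
  show ∃ (n : ℕ) (K' : ρ → ρ → ℤ) (E' : Finset (ι → ℤ)), 1 ≤ n ∧ (n : ℝ) ≤ Real.exp (lv K Y 5) ∧
    (∀ s r, |(K' s r : ℝ)| ≤ Real.exp (lv K Y 5)) ∧ T.Dn _ E' (lv K Y 5) ∧ ∀ b' ∈ E', _ ∧
      (∀ s, T.IB _ _ _ _ _ (Real.exp (lv K Y 5))) ∧ ∀ ζ : ρ → ℤ, _ → ∀ k,
        T.IB _ _ _ _ _ (Real.exp (lv K Y 5) * _)
  have g5 := Lvl.ge5 hK hY
  have mo := fun {e e' : ℕ} (h : e ≤ e') => Lvl.mono hK hY h
  have nn : ∀ (j x : ℕ), j ≤ 4 → x ≤ K → T.Nn 1 (Real.exp (-lv K Y j ^ x)) := fun j x hj hx =>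
    (hS 1 α ι T _ _ hT (Real.exp_pos _) (Real.exp_le_one_iff.2 (neg_nonpos.2
      (pow_nonneg (by linarith [g5 j]) _)))).1
      (Real.exp_le_exp.2 (neg_le_neg ((Lvl.pw hK hY j hx).trans (mo (by omega))))) hN
  have ge := Lvl.ge hK hY
  have hι' : ∀ j, (Fintype.card ι : ℝ) ≤ Real.exp (lv K Y j) := fun j =>
    hι.trans (Real.exp_le_exp.2 (ge j))
  have p1 : Y ^ C0 ≤ lv K Y 1 := by
    have := Lvl.pw hK hY 0 k0
    rwa [Lvl.zero] at this
  have n0 := nn 0 C0 (by norm_num) k0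
  rw [Lvl.zero] at n0
  obtain ⟨n, Km, E1, n1, n2, bK, d1, r1⟩ := h0 α ι κ ρ T Y ha (le_trans (by exact_mod_cast k0) hY)
    hι hκ hρ hT n0 S00 S c e a' cc g E hc h00 he hD fa fc fg arc hb
  have hB : S00.erase e ⊆ (S.erase c).erase e := erase_subset_erase e h00
  obtain ⟨E2, s2, d2, pop⟩ := N0.prune hT (Real.exp_le_one_iff.2 (by linarith [g5 5])) hN.1 hB
    subset_rfl (d1.mono hT p1) (by
      have h1 := Lvl.ex5 hK hY 1
      have h2 := Lvl.exm hK hY (show 1 + 1 ≤ 5 by norm_num)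
      rw [Real.exp_neg, Real.exp_neg, le_div_iff₀ (by norm_num), ← div_eq_inv_mul,
        div_le_iff₀ (Real.exp_pos _), ← div_eq_inv_mul, le_div_iff₀ (Real.exp_pos _)]
      linarith [Real.exp_pos (lv K Y 1)])
  have m2 : ∀ j, 3 * lv K Y j ≤ lv K Y (j + 1) := fun j =>
    Lvl.mul hK hY j (by exact_mod_cast (by omega : 3 ≤ K))
  have fl : ∀ k : ρ → ℤ, T.Fm S00 {e} (lc k g) := fun k => fm_sum univ fun r _ => (fg r).smul _
  obtain ⟨n', E3, m1, m3, d3, r3⟩ := hI α ι ρ ρ T (lv K Y 2) ha (Lvl.geC hK hY 2 k1) (hι' 2)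
    (hρ.trans ((ge 2).trans (Lvl.le_ex _))) (hρ.trans (ge 2)) hT (nn 2 C1 (by norm_num) k1)
    (S00.erase e) ((S.erase c).erase e) (S.erase c) e (fun s => lc (Km s) g) E2 (h00 he) subset_rfl
    hB (d2.mono hT (by linarith [m2 1, g5 1]))
    (fun s => ((fl (Km s)).ext (G' := S.erase c \ S00.erase e) fun x hx hx' => by
      by_contra h
      exact (mem_sdiff.1 hx).2 (mem_erase.2 ⟨fun h' => h (mem_singleton.2 h'), hx'⟩)).mono h00
        subset_rfl)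
    fun b hb s => ((r1 b (s2 hb)).2.1 s).mono (Real.exp_le_exp.2 (p1.trans (mo (by norm_num))))
  have p3 := Lvl.pw hK hY 2 k1
  have el := hE α ι κ ρ T (lv K Y 4) ha (Lvl.geC hK hY 4 k2) (hι' 4)
    (hκ.trans (Real.exp_le_exp.2 (ge 4))) (hρ.trans (ge 4)) hT (nn 4 C2 le_rfl k2) S00 (S.erase c) e
    h00 he
  obtain ⟨E', s', d', r'⟩ := lift (L5 := lv K Y 5) hT hB d1.1 (d3.mono hT p3) el (by linarith [g5 4])
    (by linarith [Lvl.ex5 hK hY 3, Real.exp_pos (lv K Y (2 + 1))])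
    (show lv K Y 4 + (lv K Y 1 + 4) ≤ _ by linarith [m2 4, g5 4, mo (show 1 ≤ 4 by norm_num)])
    fun b hb => by
      obtain ⟨z, hz, e1⟩ := (r3 b hb).1
      exact ⟨z, e1, pop z hz⟩
  have p5 : Real.exp (Y ^ C0) ≤ Real.exp (lv K Y 5) :=
    Real.exp_le_exp.2 (p1.trans (mo (by norm_num)))
  refine ⟨n, fun s r => n' * Km s r, E', n1, n2.trans p5, fun s r => ?_, d', fun b hb =>
    ⟨(r1 b (s' hb)).1, fun s => ?_, fun ζ hζ k => ?_⟩⟩
  · rw [Int.cast_mul, abs_mul, Int.cast_natCast, Nat.abs_cast]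
    refine (mul_le_mul m3 (bK s r) (abs_nonneg _) (Real.exp_pos _).le).trans ?_
    rw [← Real.exp_add]
    exact Real.exp_le_exp.2 (by
      linarith [m2 4, g5 4, mo (show 1 ≤ 4 by norm_num), mo (show 2 + 1 ≤ 4 by norm_num)])
  · refine (((r' b hb).2 _ (fl _) ((((r3 _ (r' b hb).1).2 s).eq fun x _ => ?_).mono
      (Real.exp_le_exp.2 (p3.trans (mo (by norm_num)))))).congr (ag_res _ b)).mono
      (Lvl.exm hK hY (by norm_num))
    simp only [lc, Int.cast_mul, Int.cast_natCast, mul_sum, mul_assoc]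
  · refine ((r1 b (s' hb)).2.2 ζ (fun s => ?_) k).mono
      (mul_le_mul_of_nonneg_right p5 (sum_nonneg fun _ _ => abs_nonneg _))
    have h1 := hζ s
    simp only [mul_assoc, ← mul_sum] at h1
    exact (mul_eq_zero.1 h1).resolve_left (by omega)

end Vale.Agent.P057T.Gk
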