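import Vale.Agent.P057T.Gk.EqwD
import Vale.Agent.P057T.Gk.PetdA
import Vale.Agent.P057T.Gk.Bas3

/-! The frozen family to which `MOV` is applied in the row `EQW0`. -/

set_option linter.all false

open Finset

namespace Vale.Agent.P057T.Gk

open TT

noncomputable section

namespace H82

variable {α ι κ ρ : Type} [Fintype α] [DecidableEq α] [Fintype ι] [DecidableEq ι] [Fintype ρ]
  {T : TT α ι} {S S00 : Finset α} {c e : α} {a : κ → Fn ι} {cc : κ → ρ → Fn ι} {g : ρ → Fn ι}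

/-- the twisted form with the integer parts frozen at the point `b` -/
def fw (a : κ → Fn ι) (cc : κ → ρ → Fn ι) (g : ρ → Fn ι) (b : ι → ℤ) (k : κ) : Fn ι :=
  fun z => a k z + ∑ r, cc k r z * (round (g r (cz b)) : ℝ)

theorem sd_erase (hc : c ∈ S) : S \ S.erase c = {c} := by
  ext x
  simp only [mem_sdiff, mem_erase, mem_singleton]
  constructor
  · rintro ⟨h1, h2⟩
    by_contra h
    exact h2 ⟨h, h1⟩
  · rintro rfl
    exact ⟨hc, fun h => h.1 rfl⟩

theorem fw_fm (hc : c ∈ S) (ha : ∀ k, T.Fm S {e, c} (a k))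
    (hcc : ∀ k r, T.Fm (S.erase e) {c} (cc k r)) (b : ι → ℤ) (k : κ) :
    T.Fm S (S \ S.erase c) (fw a cc g b k) := by
  rw [sd_erase hc]
  refine ((ha k).mono subset_rfl (by simp)).add (fm_sum _ fun r _ => ?_)
  have := ((hcc k r).mono (erase_subset _ _) subset_rfl).smul (round (g r (cz b)) : ℝ)
  simpa only [mul_comm] using this

theorem q_aff {f : Fn ι} (h : T.Aff e f) (x : T.CV e (Fin 2) → ℝ) :
    ∑ w, sg w * f (T.vx e (qv w) x) = 0 := by
  simp only [Fin.sum_univ_four, h.at_vx, Fin.sum_univ_two]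
  simp [sg, qv]
  ring

theorem q_round {t : Fin 4 → ℝ} (h0 : ∑ w, sg w * t w = 0)
    (h : ∀ w, |t w - round (t w)| ≤ 1 / 100) : ∑ w, sg w * (round (t w) : ℝ) = 0 := by
  simp only [Fin.sum_univ_four] at h0 ⊢
  simp only [sg, Matrix.cons_val_zero, Matrix.cons_val_one, Matrix.cons_val] at h0 ⊢
  have k0 := abs_le.1 (h 0)
  have k1 := abs_le.1 (h 1)
  have k2 := abs_le.1 (h 2)
  have k3 := abs_le.1 (h 3)
  have h1 : ((round (t 0) - round (t 1) - round (t 2) + round (t 3) : ℤ) : ℝ) < 1 := by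
    push_cast; linarith [k0.1, k1.2, k2.2, k3.1]
  have h2 : (-1 : ℝ) < ((round (t 0) - round (t 1) - round (t 2) + round (t 3) : ℤ) : ℝ) := by
    push_cast; linarith [k0.2, k1.1, k2.1, k3.2]
  have h3 : round (t 0) - round (t 1) - round (t 2) + round (t 3) = 0 := by
    have h1' : round (t 0) - round (t 1) - round (t 2) + round (t 3) < 1 := by exact_mod_cast h1
    have h2' : -1 < round (t 0) - round (t 1) - round (t 2) + round (t 3) := by exact_mod_cast h2
    omega
  have h4 : ((round (t 0) - round (t 1) - round (t 2) + round (t 3) : ℤ) : ℝ) = 0 := by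
    rw [h3]; simp
  push_cast at h4
  linarith

theorem fw_add {E : Finset (ι → ℤ)} (ha : ∀ k, T.Fm S {e, c} (a k))
    (hcc : ∀ k r, T.Fm (S.erase e) {c} (cc k r)) (hg : ∀ r, T.Fm S00 {e} (g r))
    (harc : ∀ z ∈ E, ∀ r, |g r (cz z) - round (g r (cz z))| ≤ 1 / 100)
    (Z : T.CV e (Fin 2) → ℤ) (hZ : ∀ w, T.vx e (qv w) Z ∈ E) (k : κ) (x : T.CV e (Fin 2) → ℝ) :
    T.Q e (fun w => fw a cc g (T.vx e (qv w) Z) k) x = 0 := by
  have h1 := q_aff ((ha k).2 e (by simp)) x
  have h2 : ∀ r w, cc k r (T.vx e (qv w) x) = cc k r (T.bs e x) := fun r w =>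
    (hcc k r).1.ind (notMem_erase _ _) _ _ (TT.of_vx _ _)
  have h3 : ∀ r, ∑ w, sg w * (round (g r (cz (T.vx e (qv w) Z))) : ℝ) = 0 := fun r => by
    refine q_round (t := fun w => g r (cz (T.vx e (qv w) Z))) ?_ fun w => harc _ (hZ w) r
    simp only [cz_vx]
    exact q_aff ((hg r).2 e (by simp)) _
  simp only [TT.Q, fw, h2, mul_add, sum_add_distrib, h1, zero_add, mul_sum]
  rw [sum_comm]
  refine sum_eq_zero fun r _ => ?_
  have := congrArg (fun t => cc k r (T.bs e x) * t) (h3 r)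
  simp only [mul_zero, mul_sum] at this
  rw [← this]
  exact sum_congr rfl fun w _ => by ring

theorem fw_ib (hS : S00 ⊆ S.erase c) (hg : ∀ r, T.Fm S00 {e} (g r)) {b : ι → ℤ} {k : κ} {H : ℝ}
    (h : T.IB (S.erase c) S c b (tw a cc g k) H) : T.IB (S.erase c) S c b (fw a cc g b k) H :=
  h.eq fun z hz => by
    simp only [tw, fw]
    congr 1
    refine sum_congr rfl fun r _ => ?_
    rw [(hg r).1 z (cz b) (hz.mono hS)]

end H82

end

end Vale.Agent.P057T.Gk
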