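import Vale.Agent.P057T.Gk.FibwA
import Vale.Agent.P057T.Gk.Eq1e
import Vale.Agent.P057T.Gk.Eqw0B

/-! The row `EQW0` on one fibre, with free parameters. -/

set_option linter.all false

open Finset

namespace Vale.Agent.P057T.Gk.H82

open TT E1

noncomputable section

variable {α ι κ ρ : Type} [Fintype α] [DecidableEq α] [Fintype ι] [DecidableEq ι] [Fintype κ]
  [Fintype ρ] [DecidableEq ρ] {T : TT α ι}

theorem rd_eq {x y u : ℝ} {t : ℕ} {μ : ℤ} {η : ℝ} (hx : |x - round x| ≤ 1 / 100)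
    (hy : |y - round y| ≤ 1 / 100) (e : y = x + t * u) (h : |μ - u| ≤ η) (ht : t * η ≤ 1 / 2) :
    (round y : ℝ) = round x + t * μ := by
  have t0 : (0 : ℝ) ≤ t := Nat.cast_nonneg _
  have k1 := abs_le.1 hx
  have k2 := abs_le.1 hy
  have k3 := abs_le.1 h
  have k4 := mul_le_mul_of_nonneg_left k3.1 t0
  have k5 := mul_le_mul_of_nonneg_left k3.2 t0
  have h1 : ((round y - round x - t * μ : ℤ) : ℝ) < 1 := by push_cast; nlinarith
  have h2 : (-1 : ℝ) < ((round y - round x - t * μ : ℤ) : ℝ) := by push_cast; nlinarith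
  have h3 : round y - round x - t * μ = 0 := by
    have h1' : round y - round x - t * μ < 1 := by exact_mod_cast h1
    have h2' : -1 < round y - round x - t * μ := by exact_mod_cast h2
    omega
  have h4 : ((round y - round x - t * μ : ℤ) : ℝ) = 0 := by rw [h3]; simp
  push_cast at h4
  linarith

/-- the characters are linear on the fibre -/
theorem gam {S00 S0 : Finset α} {e : α} {g : ρ → Fn ι} (hS : S00 ⊆ S0)
    (hg : ∀ r, T.Fm S00 {e} (g r)) (y0 : ι → ℝ) :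
    ∃ γ : (T.fv (S0.erase e) S0 → ℝ) →ₗ[ℝ] (ρ → ℝ), ∀ z : ι → ℝ, T.Ag (S0.erase e) z y0 → ∀ r,
      g r z = g r y0 + γ (dd _ y0 z) r := by
  choose Lg hLg using fun r => (hg r).2 e (mem_singleton_self _) y0
  refine ⟨LinearMap.pi fun r => (Lg r).comp (eL _), fun z hz r => ?_⟩
  rw [(hg r).1 _ _ ((ag_dd hz).mono hS), hLg r _ fun v hv => ez_out _ fun h => hv (memA.1 h).2]
  rfl

theorem concl1 {S0 : Finset α} {e : α} {g : ρ → Fn ι} {y0 b : ι → ℤ} (hb : T.Ag (S0.erase e) y0 b)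
    {Φ : (T.fv (S0.erase e) S0 → ℝ) ≃ₗ[ℝ] (T.fv (S0.erase e) S0 → ℝ)}
    (hΦ : ∀ z : ι → ℝ, T.Ag (S0.erase e) z (cz y0) → ∀ v : T.fv (S0.erase e) S0,
      T.u z v = T.u (cz y0) v + Φ (dd _ (cz y0) z) v)
    {γ : (T.fv (S0.erase e) S0 → ℝ) →ₗ[ℝ] (ρ → ℝ)}
    (hγ : ∀ z : ι → ℝ, T.Ag (S0.erase e) z (cz y0) → ∀ r,
      g r z = g r (cz y0) + γ (dd _ (cz y0) z) r) {K : ρ → ℤ} {w : T.fv (S0.erase e) S0 → ℤ} {H : ℝ}
    (h : ∀ y, (∀ v, |Φ y v| ≤ 2) → |∑ r, K r * γ y r + ∑ v, w v * y v| ≤ H) :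
    T.IB (S0.erase e) S0 e b (lc K g) H := by
  refine ⟨fun z => -∑ v : T.fv (S0.erase e) S0, (w v : ℝ) * (z v - cz y0 v), ?_, fun z hz => ?_,
    fun z z' h1 h2 h3 h4 => ?_⟩
  · exact (fm_sum _ fun (v : T.fv (S0.erase e) S0) _ =>
      ((((fm_coord T v.1).sub (fm_const _ _ _)).smul _).mono (memA.1 v.2).1 subset_rfl)).neg
  · exact ⟨-∑ v : T.fv (S0.erase e) S0, w v * (z v - y0 v), by simp [cz]⟩
  · have a1 := h1.trans hb.cz.symm
    have a2 := h2.trans hb.cz.symm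
    refine le_trans (le_of_eq ?_) (h (dd _ (cz y0) z - dd _ (cz y0) z') fun v => ?_)
    · congr 1
      simp only [lc, hγ z a1, hγ z' a2, map_sub, Pi.sub_apply, dd, mul_add, mul_sub, sum_add_distrib,
        sum_sub_distrib]
      ring
    · have k1 := abs_le.1 (h4 v v.2).1
      have k2 := abs_le.1 (h4 v v.2).2
      have k3 := hΦ z a1 v
      have k4 := hΦ z' a2 v
      rw [map_sub, Pi.sub_apply, abs_le]
      constructor <;> linarith [k1.1, k1.2, k2.1, k2.2]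

theorem fibrew (hS : SCALE) (hT : T.Ok) {S00 S : Finset α} {c e : α} (hc : c ∈ S)
    (h0 : S00 ⊆ S.erase c) (he0 : e ∈ S00) {a : κ → Fn ι} {cc : κ → ρ → Fn ι} {g : ρ → Fn ι}
    {M : κ → Fn ι} (ha : ∀ k, T.Fm S {e, c} (a k)) (hcc : ∀ k r, T.Fm (S.erase e) {c} (cc k r))
    (hg : ∀ r, T.Fm S00 {e} (g r)) (hM : ∀ k, T.Fm S {e, c} (M k)) (b : ι → ℤ) (cen : ι → ℝ)
    (Sb : Finset (ι → ℤ)) (harc : ∀ z ∈ Sb, ∀ r, |g r (cz z) - round (g r (cz z))| ≤ 1 / 100)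
    (lam δ σ H D P η B Kb : ℝ) (m Q : ℕ) (hcen : ∀ v, |cen v| ≤ 3) (hl0 : σ ≤ lam) (hl1 : lam ≤ 1)
    (hSb : Sb ⊆ T.fbx ((S.erase c).erase e) (S.erase c) b cen fun _ => lam)
    (hS1 : Sb ⊆ T.pts (S.erase c) 1) (hne : Sb.Nonempty)
    (hcard : δ * (T.vol ((S.erase c).erase e) (S.erase c) *
      ∏ v ∈ T.fv ((S.erase c).erase e) (S.erase c), lam) ≤ Sb.card)
    (hI : ∀ y ∈ Sb, ∀ k, T.IBg (S.erase c) S (S.erase e) c y (fun x => fw a cc g y k x - M k x) H)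
    (hE : T.Eq ((S.erase c).erase e) (S.erase c) b σ)
    (hZ : T.Zr ((S.erase c).erase e) (S.erase e) c b σ⁻¹)
    (hD : (Fintype.card ι : ℝ) + Fintype.card ρ + 1 ≤ D)
    (hP : (2 * Fintype.card ι + 1 : ℝ) ^ (2 ^ (Fintype.card α + 1)) ≤ P) (hσ0 : 0 < σ)
    (hσ1 : σ ≤ 1 / 2) (hm : 1 ≤ m) (hQ : 1 ≤ Q) (hmδ : 6 < (m + 1 : ℝ) * δ) (hη0 : 0 < η)
    (hη : m * η ≤ lam / D) (hη2 : m * η ≤ 1 / 2) (hB : 2 * m * D ^ 2 ≤ B)
    (hs1 : (Q : ℝ) ^ Fintype.card ρ * (5 * σ) ≤ 1 / Q)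
    (hs2 : D * (1 / Q) ≤ η / B ^ (Fintype.card ρ + 1))
    (hK : 2 ^ (Fintype.card ρ ^ 2 + 1) * B ^ Fintype.card ρ / η ≤ Kb) (hH0 : 0 ≤ H)
    (hH : P * (3 * (m : ℝ) ^ 3 * (2 * H)) ≤ σ⁻¹) :
    ∃ (n : ℕ) (K : ρ → ρ → ℤ), 1 ≤ n ∧ n ≤ m ∧ (∀ s r, |(K s r : ℝ)| ≤ Kb * D) ∧
      (∀ s, T.IB ((S.erase c).erase e) (S.erase c) e b (lc (K s) g) (Kb * (D * 2))) ∧
      ∀ ζ : ρ → ℤ, (∀ s, ∑ r, K s r * ζ r = 0) → ∀ k,
        T.IB ((S.erase c).erase e) (S.erase e) c b (fun x => n * lc ζ (cc k) x)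
          (P * (n * (2 * H * Kb * (D * ∑ r, |(ζ r : ℝ)|)))) := by
  have hsd : S.erase e \ (S.erase c).erase e = {c} := by rw [sd_eq (h0 he0), sd_erase hc]
  have he := h0 he0
  have hS0 : S.erase c ⊆ S := erase_subset _ _
  have hc0 : c ∉ S.erase c := notMem_erase _ _
  generalize S.erase c = S0 at *
  obtain ⟨y0, hy0⟩ := hne
  have hag : ∀ y ∈ Sb, T.Ag (S0.erase e) y b := fun y hy => ((E1.mem_fbx hT).1 (hSb hy)).2.1
  have hz0 : ∀ y ∈ Sb, ∀ v, ¬ T.ty v ⊆ S0 → cz y v = 0 := fun y hy v hv => by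
    simp [cz, ((mem_pts hT).1 (hS1 hy)).1 v hv]
  obtain ⟨Φ, hΦ⟩ := chart hT S0 e (cz y0)
  obtain ⟨γ, hγ⟩ := gam h0 hg (cz y0)
  obtain ⟨n0, p, q, -, hp, hosc⟩ := (hS α ι T (S0.erase e) (S.erase e) c b hT
    (erase_subset_erase e hS0) fun k => hc0 (erase_subset _ _ k)).2
  have hosc' : ∀ (f : Fn ι) (K : ℝ), 0 ≤ K → T.Fm (S.erase e) (S.erase e \ S0.erase e) f →
      (∀ j, |f (p j) - f (q j)| ≤ K) → T.Osc (S0.erase e) (S.erase e) c b f (P * K) :=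
    fun f K hK h1 h2 => (hosc f K hK h1 h2).mono (mul_le_mul_of_nonneg_right hP hK)
  let I : AddSubgroup (κ → Fin n0 → ℝ) :=
    { carrier := {x | ∃ J : κ → Fn ι, (∀ k, T.Fm (S.erase e) (S.erase e \ S0.erase e) (J k) ∧
        T.IsI (S0.erase e) b (J k)) ∧ ∀ k j, x k j = J k (p j) - J k (q j)}
      add_mem' := by
        rintro x x' ⟨J, h1, h2⟩ ⟨J', h3, h4⟩
        exact ⟨fun k z => J k z + J' k z, fun k => ⟨(h1 k).1.add (h3 k).1, (h1 k).2.add (h3 k).2⟩,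
          fun k j => by simp only [Pi.add_apply, h2, h4]; ring⟩
      zero_mem' := ⟨fun _ _ => 0, fun _ => ⟨fm_const _ _ _, isI_zero _ _⟩, fun _ _ => by simp⟩
      neg_mem' := by
        rintro x ⟨J, h1, h2⟩
        exact ⟨fun k z => -J k z, fun k => ⟨(h1 k).1.neg, (h1 k).2.neg⟩,
          fun k j => by simp only [Pi.neg_apply, h2]; ring⟩ }
  have hent : ∀ (x : κ → Fin n0 → ℝ) k j, |x k j| ≤ ‖x‖ := fun x k j =>
    (norm_le_pi_norm (x k) j).trans (norm_le_pi_norm x k)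
  obtain ⟨G, hG⟩ : ∃ G : κ → Fn ι, ∀ k x, G k x = a k x - M k x := ⟨_, fun _ _ => rfl⟩
  have hGa : ∀ k, T.Aff e (G k) := fun k => by
    have := ((ha k).sub (hM k)).2 e (by simp)
    simpa only [← hG] using this
  choose Lp hLp using hGa
  obtain ⟨L, hL⟩ : ∃ L : (T.fv (S0.erase e) S0 → ℝ) →ₗ[ℝ] (κ → Fin n0 → ℝ), ∀ d k j, L d k j =
      (G k (rep (Kc T e) (cz y0 + ez _ d) (p j)) - G k (rep (Kc T e) (cz y0) (p j))) -
      (G k (rep (Kc T e) (cz y0 + ez _ d) (q j)) - G k (rep (Kc T e) (cz y0) (q j))) := by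
    refine ⟨LinearMap.pi fun k => LinearMap.pi fun j =>
      (Lp k (rep (Kc T e) (cz y0) (p j)) - Lp k (rep (Kc T e) (cz y0) (q j))).comp (eL _), ?_⟩
    intro d k j
    have hs : ∀ v, e ∉ T.ty v → ez _ d v = 0 := fun v hv => ez_out d fun h => hv (memA.1 h).2
    rw [rep_add, rep_add, hLp k _ _ hs, hLp k _ _ hs, add_sub_cancel_left, add_sub_cancel_left]
    rfl
  obtain ⟨Δ, hΔ⟩ : ∃ Δ : (ρ → ℝ) →ₗ[ℝ] (κ → Fin n0 → ℝ), ∀ t k j,
      Δ t k j = ∑ r, cc k r (p j) * t r - ∑ r, cc k r (q j) * t r :=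
    ⟨LinearMap.pi fun k => LinearMap.pi fun j =>
      ∑ r, (cc k r (p j) - cc k r (q j)) • LinearMap.proj r, fun t k j => by
      simp [sub_mul, sum_sub_distrib]⟩
  have hrep : ∀ y ∈ Sb, cz y0 + ez _ (dd (T.fv (S0.erase e) S0) (cz y0) (cz y)) = cz y := by
    intro y hy
    funext v
    by_cases k : T.ty v ⊆ S0
    · exact (ag_dd ((hag y hy).trans (hag y0 hy0).symm).cz v k).symm
    · rw [Pi.add_apply, hz0 y hy v k, hz0 y0 hy0 v k, ez_out _ fun h => k (memA.1 h).1, add_zero]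
  have hF : ∀ (y : ι → ℤ) k x, fw a cc g y k (rep (Kc T e) (cz y) x) - M k (rep (Kc T e) (cz y) x) =
      G k (rep (Kc T e) (cz y) x) + ∑ r, cc k r x * (round (g r (cz y)) : ℝ) := fun y k x => by
    have : ∀ r, cc k r (rep (Kc T e) (cz y) x) = cc k r x := fun r =>
      (hcc k r).1 _ _ fun w hw => rep_out fun k => notMem_erase e S (hw (memKc.1 k))
    simp only [fw, this, hG]
    ring
  choose! J hJ1 hJ2 hJ3 using fun y (hy : y ∈ Sb) k => loc hT he (hag y hy) (hI y hy k)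
  have r0 : (0 : ℝ) ≤ Fintype.card ρ := Nat.cast_nonneg _
  obtain ⟨n, K, n1, n2, k1, k2, k3⟩ := lattw Φ γ σ η (2 * H) (3 * (m : ℝ) ^ 3 * (2 * H)) D B Kb m Q
    hm hQ hσ0 hη0 (le_trans (by
      have : (Fintype.card (T.fv (S0.erase e) S0) : ℝ) ≤ Fintype.card ι := by
        exact_mod_cast Fintype.card_subtype_le _
      linarith) hD) hB hs1 hs2 hK (fin_of hT (hS1 hy0) Φ hΦ)
    (den_of hT (hS1 hy0) (hag y0 hy0) Φ hΦ hσ0 hσ1 hE) I L Δ (by linarith)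
    (by
      rintro x ⟨K, h1, h2⟩ hx
      funext k j
      have h3 := hZ (K k) (h1 k).1 (h1 k).2 ((hosc' (K k) _ (by positivity) (h1 k).1
        fun j => by rw [← h2]; exact (hent x k j).trans hx).mono hH)
      have h4 := h3 (p j) (q j) (hp j).1 (hp j).2.1 (hp j).2.2.1 fun v hv =>
        ((mem_filter.1 hv).2.2 (mem_filter.1 hv).2.1).elim
      rw [h2]; exact abs_nonpos_iff.1 h4) le_rfl
    (by
      intro d μ hd hμ
      obtain ⟨t, t1, t2, y, hy, hy'⟩ := meet_of hT (hS1 hy0) (hag y0 hy0) Φ hΦ hσ0 hσ1 hE hcen hl0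
        hl1 hSb hcard (D := D) (by linarith) hmδ hη0.le hη d hd
      refine ⟨t, t1, t2, fun k j => (J _ k (p j) - J y k (p j)) - (J _ k (q j) - J y k (q j)),
        ⟨fun k z => J _ k z - J y k z, fun k => ⟨(hJ1 _ hy' k).sub (hJ1 y hy k),
          (hJ2 _ hy' k).sub (hJ2 y hy k)⟩, fun _ _ => rfl⟩, ?_⟩
      have e1 : (t : ℝ) • L (cz d) = L (dd _ (cz y0) (cz (y + t • ez _ d))) -
          L (dd _ (cz y0) (cz y)) := by
        rw [dd_add, map_add, map_smul, add_sub_cancel_left]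
      have e2 : ∀ r, (round (g r (cz (y + t • ez _ d))) : ℝ) = round (g r (cz y)) + t * μ r :=
        fun r => rd_eq (harc y hy r) (harc _ hy' r) (by
          rw [hγ _ ((hag _ hy').trans (hag y0 hy0).symm).cz,
            hγ _ ((hag _ hy).trans (hag y0 hy0).symm).cz, dd_add, map_add, map_smul]
          simp only [Pi.add_apply, Pi.smul_apply, smul_eq_mul, add_assoc]) (hμ r)
          (le_trans (mul_le_mul_of_nonneg_right (by exact_mod_cast t2) hη0.le) hη2)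
      rw [smul_add, e1, ← map_smul]
      refine (pi_norm_le_iff_of_nonneg (by linarith)).2 fun k =>
        (pi_norm_le_iff_of_nonneg (by linarith)).2 fun j => ?_
      have k1 := abs_le.1 (hJ3 _ hy' k (p j) (q j) (hp j).1 (hp j).2.1 (hp j).2.2.1 (hp j).2.2.2)
      have k2 := abs_le.1 (hJ3 y hy k (p j) (q j) (hp j).1 (hp j).2.1 (hp j).2.2.1 (hp j).2.2.2)
      simp only [hF, e2, mul_add, sum_add_distrib] at k1 k2
      simp only [Pi.sub_apply, Pi.add_apply, hL, hΔ, hrep _ hy', hrep y hy, Real.norm_eq_abs,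
        Pi.smul_apply, smul_eq_mul]
      have e3 : ∀ r, cz μ r = μ r := fun _ => rfl
      simp only [e3]
      rw [abs_le]
      constructor <;> linarith [k1.1, k1.2, k2.1, k2.2])
  refine ⟨n, K, n1, n2, k1, fun s => ?_, fun ζ hζ k => ?_⟩
  · obtain ⟨w, hw⟩ := k2 s
    exact concl1 (hag y0 hy0) hΦ hγ hw
  · obtain ⟨x, ⟨J', j1, j2⟩, hx⟩ := k3 ζ hζ
    refine ⟨J' k, (j1 k).1, (j1 k).2, hosc' _ _ ((norm_nonneg _).trans hx)
      (((lc_fm (fun r => by rw [hsd]; exact hcc k r) ζ).smul _).sub (j1 k).1) fun j => ?_⟩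
    refine le_trans (le_of_eq ?_) ((hent _ k j).trans hx)
    congr 1
    simp only [Pi.sub_apply, Pi.smul_apply, smul_eq_mul, hΔ, j2, lc, cz, mul_comm (ζ _ : ℝ)]
    ring

end

end Vale.Agent.P057T.Gk.H82
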