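import Vale.Agent.P057T.Gk.Eqw0W
import Vale.Agent.P057T.Gk.FibwB
import Vale.Agent.P057T.Gk.Eq1

/-! The row `EQW0`. -/

set_option linter.all false

open Finset

namespace Vale.Agent.P057T.Gk

open TT

noncomputable section

/-- `EQW0` over one typical base point, after `MOV` -/
def FIBV : Prop := ∀ A : ℕ, ∃ C : ℕ, ∀ (α ι κ ρ : Type) [Fintype α] [DecidableEq α] [Fintype ι]
  [DecidableEq ι] [Fintype κ] [Fintype ρ] [DecidableEq ρ] (T : TT α ι) (Y : ℝ),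
  Fintype.card α ≤ A → (C : ℝ) ≤ Y → (Fintype.card ι : ℝ) ≤ Real.exp Y →
  (Fintype.card κ : ℝ) ≤ Real.exp Y → (Fintype.card ρ : ℝ) ≤ Y → T.Ok →
  ∀ (S00 S : Finset α) (c e : α) (a : κ → Fn ι) (cc : κ → ρ → Fn ι) (g : ρ → Fn ι)
    (b : ι → ℤ) (lam : ℝ) (cen : ι → ℝ) (Sb : Finset (ι → ℤ)) (M : κ → Fn ι),
    c ∈ S → S00 ⊆ S.erase c → e ∈ S00 →
    (∀ k, T.Fm S {e, c} (a k)) → (∀ k r, T.Fm (S.erase e) {c} (cc k r)) →
    (∀ r, T.Fm S00 {e} (g r)) → (∀ z ∈ Sb, ∀ r, |g r (cz z) - round (g r (cz z))| ≤ 1 / 100) →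
    Sb ⊆ T.pts (S.erase c) 1 →
    T.Eq ((S.erase c).erase e) (S.erase c) b (Real.exp (-Y ^ C)) →
    T.Zr ((S.erase c).erase e) (S.erase e) c b (Real.exp (Y ^ C)) →
    Real.exp (-Y) ≤ lam → lam ≤ 1 → (∀ v, |cen v| ≤ 3) →
    Sb ⊆ T.fbx ((S.erase c).erase e) (S.erase c) b cen (fun _ => lam) →
    Real.exp (-Y) * (T.vol ((S.erase c).erase e) (S.erase c) *
      ∏ v ∈ T.fv ((S.erase c).erase e) (S.erase c), lam) ≤ Sb.card →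
    (∀ k, T.Fm S {e, c} (M k) ∧ T.Osc ((S.erase c).erase e) S c b (M k) (Real.exp Y)) →
    (∀ y ∈ Sb, ∀ k, T.IBg (S.erase c) S (S.erase e) c y (fun x => H82.fw a cc g y k x - M k x)
      (Real.exp Y)) →
    ∃ (n : ℕ) (K : ρ → ρ → ℤ), 1 ≤ n ∧ (n : ℝ) ≤ Real.exp (Y ^ C) ∧
      (∀ s r, |(K s r : ℝ)| ≤ Real.exp (Y ^ C)) ∧
      (∀ s, T.IB ((S.erase c).erase e) (S.erase c) e b (lc (K s) g) (Real.exp (Y ^ C))) ∧
      ∀ ζ : ρ → ℤ, (∀ s, ∑ r, K s r * ζ r = 0) → ∀ k,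
        T.IB ((S.erase c).erase e) (S.erase e) c b (fun x => n * lc ζ (cc k) x)
          (Real.exp (Y ^ C) * ∑ r, |(ζ r : ℝ)|)

open H82 in
theorem eqw0_ofV (hM : MOV) (hF : FIBV) : EQW0 := by
  classical
  intro A
  obtain ⟨C1, hM⟩ := hM A
  obtain ⟨C2, hF⟩ := hF A
  obtain ⟨D, hD⟩ : ∃ D, D = C1 + 1 := ⟨_, rfl⟩
  obtain ⟨P, hP⟩ : ∃ P, P = D * C2 + D := ⟨_, rfl⟩
  refine ⟨P + C2 + 8, ?_⟩
  intro α ι κ ρ _ _ _ _ _ _ _ T Y hA hC hι hκ hρ hT hN S00 S c e a cc g E hc hS he hE ha hcc hg harc hib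
  have hP1 : D ≤ P := by omega
  have hY : 2 ≤ Y := le_trans (by exact_mod_cast (by omega : 2 ≤ P + C2 + 8)) hC
  have hC1 : (C1 : ℝ) ≤ Y := le_trans (by exact_mod_cast (by omega : C1 ≤ P + C2 + 8)) hC
  have hC2 : (C2 : ℝ) ≤ Y := le_trans (by exact_mod_cast (by omega : C2 ≤ P + C2 + 8)) hC
  have hYD : Y ≤ Y ^ D := pw1 hY (by omega)
  have h1D : Y ^ C1 ≤ Y ^ D := pw hY (by omega)
  have hPP : (Y ^ D) ^ C2 ≤ Y ^ P := by rw [← pow_mul]; exact pw hY (by omega)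
  have hPC : Y ^ P ≤ Y ^ (P + C2 + 8) := pw hY (by omega)
  obtain ⟨lam, E1, l1, l2, d1, hE1⟩ := hM α ι κ ρ T Y hA hC1 hι hκ hρ hT
    (nn_le hT (Real.exp_pos _) (exn_mono (pw hY (by omega))) hN) (S.erase c) S c e (fw a cc g) E
    hc subset_rfl (hS he) hE (fw_fm hc ha hcc) (fun Z hZ k x _ => fw_add ha hcc hg harc Z hZ k x)
    (fun b hb k => fw_ib hS hg (hib b hb k))
  have hec : c ∈ S.erase e := mem_erase.2 ⟨fun h => (mem_erase.1 (hS he)).1 h.symm, hc⟩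
  have hN0 : T.N0 (Real.exp (-Y ^ (P + C2 + 8))) := hN.1
  have m1 := hN0.1.2 (S.erase c) ((S.erase c).erase e) e (hS he) subset_rfl
  have m2 := hN0.2.2 ((S.erase c).erase e) (S.erase e) ((S.erase c).erase e) c
    (erase_subset_erase _ (erase_subset _ _)) subset_rfl hec (by simp)
  have h3 : 3 * Y ^ D ≤ Y ^ (P + 2) := by
    have := mulpw hY hY (show D < P + 1 by omega)
    have := mulpw hY hY (show P + 1 < P + 2 by omega)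
    have : 0 ≤ Y ^ D := by positivity
    linarith
  have hP2 : Y ^ (P + 2) ≤ Y ^ (P + 4) := pw hY (by omega)
  have hP4 : 2 * Y ^ (P + 4) ≤ Y ^ (P + C2 + 8) := mulpw hY hY (by omega)
  have hP0 : 0 ≤ Y ^ (P + 4) := by positivity
  have d2 := dn_good hT (dn_mono hT d1 h1D) m1 m2
    (Real.exp_le_one_iff.2 (by linarith)) (exn_mono (by linarith))
  have key : ∀ b : ι → ℤ, ∃ l : ℕ × (ρ → ρ → ℤ), b ∈ E1.filter (fun z =>
      T.Eq ((S.erase c).erase e) (S.erase c) z (Real.exp (-Y ^ (P + C2 + 8))) ∧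
      T.Zr ((S.erase c).erase e) (S.erase e) c z (Real.exp (-Y ^ (P + C2 + 8)))⁻¹) →
      (∃ y ∈ E, T.res ((S.erase c).erase e) y = b) ∧
      1 ≤ l.1 ∧ (l.1 : ℝ) ≤ Real.exp (Y ^ P) ∧ (∀ s r, |(l.2 s r : ℝ)| ≤ Real.exp (Y ^ P)) ∧
      (∀ s, T.IB ((S.erase c).erase e) (S.erase c) e b (lc (l.2 s) g) (Real.exp (Y ^ P))) ∧
      ∀ ζ : ρ → ℤ, (∀ s, ∑ r, l.2 s r * ζ r = 0) → ∀ k,
        T.IB ((S.erase c).erase e) (S.erase e) c b (fun x => l.1 * lc ζ (cc k) x)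
          (Real.exp (Y ^ P) * ∑ r, |(ζ r : ℝ)|) := by
    intro b
    by_cases hb : b ∈ E1.filter (fun z =>
      T.Eq ((S.erase c).erase e) (S.erase c) z (Real.exp (-Y ^ (P + C2 + 8))) ∧
      T.Zr ((S.erase c).erase e) (S.erase e) c z (Real.exp (-Y ^ (P + C2 + 8)))⁻¹)
    swap
    · exact ⟨(0, 0), fun h => absurd h hb⟩
    obtain ⟨hb1, hb2, hb3⟩ := mem_filter.1 hb
    obtain ⟨cen, Sb, M, c1, c2, c3, c4, c5, c6⟩ := hE1 b hb1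
    have hl0 : 0 < lam := (Real.exp_pos _).trans_le l1
    have hV : 0 < T.vol ((S.erase c).erase e) (S.erase c) *
        ∏ v ∈ T.fv ((S.erase c).erase e) (S.erase c), lam :=
      mul_pos (vol_pos hT _ _) (prod_pos fun _ _ => hl0)
    obtain ⟨n, K, k1, k2, k3, k4, k5⟩ := hF α ι κ ρ T (Y ^ D) hA (hC2.trans hYD)
      (hι.trans (ex_mono hYD)) (hκ.trans (ex_mono hYD)) (hρ.trans hYD) hT S00 S c e a cc g b lam cen
      Sb M hc hS he ha hcc hg (fun z hz => harc z (c2 hz)) (c2.trans hE.1)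
      (ZtP.eq_mono hT (Real.exp_pos _) (exn_mono (hPP.trans hPC)) hb2)
      (fun I i1 i2 i3 => hb3 I i1 i2 (i3.mono (by
        rw [← Real.exp_neg, neg_neg]; exact ex_mono (hPP.trans hPC))))
      ((exn_mono h1D).trans l1) l2 c1 c3
      ((mul_le_mul_of_nonneg_right (exn_mono h1D) hV.le).trans c4)
      (fun k => ⟨by simpa only [sd_erase hc, ← insert_eq] using (c5 k).1,
        (c5 k).2.mono (ex_mono h1D)⟩)
      (fun y hy k => (c6 y hy k).mono (ex_mono h1D))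
    have hne : Sb.Nonempty := card_pos.1 (by
      have := (mul_pos (Real.exp_pos (-Y ^ C1)) hV).trans_le c4
      exact_mod_cast this)
    obtain ⟨y, hy⟩ := hne
    refine ⟨(n, K), fun _ => ⟨⟨y, c2 hy, ?_⟩, k1, k2.trans (ex_mono hPP),
      fun s r => (k3 s r).trans (ex_mono hPP), fun s => (k4 s).mono (ex_mono hPP),
      fun ζ hζ k => (k5 ζ hζ k).mono (mul_le_mul_of_nonneg_right (ex_mono hPP)
        (sum_nonneg fun _ _ => abs_nonneg _))⟩⟩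
    have hy2 : T.Ag ((S.erase c).erase e) y b := (mem_filter.1 (c3 hy)).2.1
    funext v
    by_cases hv : T.ty v ⊆ (S.erase c).erase e
    · simp only [TT.res, if_pos hv]; exact hy2 v hv
    · simp only [TT.res, if_neg hv]; exact (((mem_pts hT).1 (d1.1 hb1)).1 v hv).symm
  choose φ hφ using key
  obtain ⟨l, hl, d3⟩ := dn_pig hT φ (lab ρ ⌊Real.exp (Y ^ P)⌋₊) d2
    (fun z hz => lab_mem (hφ z hz).2.2.1 (hφ z hz).2.2.2.1)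
    ⟨(0, 0), lab_mem (by simpa using (Real.exp_pos _).le) (by simpa using fun _ _ => (Real.exp_pos _).le)⟩
    (lab_card hY hρ (by omega))
  obtain ⟨z, hz⟩ := dn_ne hT d3
  obtain ⟨hz1, rfl⟩ := mem_filter.1 hz
  obtain ⟨-, z1, z2, z3, -⟩ := hφ z hz1
  refine ⟨(φ z).1, (φ z).2, _, z1, z2.trans (ex_mono hPC), fun s r => (z3 s r).trans (ex_mono hPC),
    dn_mono hT d3 (by linarith), fun b hb => ?_⟩
  obtain ⟨hb1, hb2⟩ := mem_filter.1 hb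
  obtain ⟨b1, -, -, -, b2, b3⟩ := hφ b hb1
  rw [hb2] at b2 b3
  exact ⟨b1, fun s => (b2 s).mono (ex_mono hPC), fun ζ hζ k => (b3 ζ hζ k).mono
    (mul_le_mul_of_nonneg_right (ex_mono hPC) (sum_nonneg fun _ _ => abs_nonneg _))⟩

namespace H82

theorem numw (x W : ℝ) (R p m Q : ℕ) (hx : 20 ≤ x)
    (hW : x ^ (p + (7 * R + 15) * (R + 1) + R ^ 2 + 7 * R + 20) ≤ W) (m0 : 6 * x ≤ m)
    (m1 : m ≤ 6 * x + 1) (Q0 : x ^ (7 * R + 14) ≤ Q) (Q1 : Q ≤ x ^ (7 * R + 14) + 1) :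
    W⁻¹ ≤ x⁻¹ ∧ W⁻¹ ≤ 1 / 2 ∧ 6 < (m + 1 : ℝ) * x⁻¹ ∧ m * (x ^ 5)⁻¹ ≤ x⁻¹ / x ^ 2 ∧
    m * (x ^ 5)⁻¹ ≤ 1 / 2 ∧ 2 * m * (x ^ 2) ^ 2 ≤ x ^ 7 ∧ (Q : ℝ) ^ R * (5 * W⁻¹) ≤ 1 / Q ∧
    x ^ 2 * (1 / Q) ≤ (x ^ 5)⁻¹ / (x ^ 7) ^ (R + 1) ∧
    2 ^ (R ^ 2 + 1) * (x ^ 7) ^ R / (x ^ 5)⁻¹ ≤ x ^ (R ^ 2 + 7 * R + 6) ∧
    x ^ p * (3 * (m : ℝ) ^ 3 * (2 * x)) ≤ W ∧ (m : ℝ) ≤ W ∧
    x ^ (R ^ 2 + 7 * R + 6) * (x ^ 2 * 2) ≤ W ∧
    x ^ p * (m * (2 * x * x ^ (R ^ 2 + 7 * R + 6) * x ^ 2)) ≤ W := by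
  have x0 : 0 < x := by linarith
  have x1 : 1 ≤ x := by linarith
  have pw : ∀ a b : ℕ, a ≤ b → x ^ a ≤ x ^ b := fun a b h => pow_le_pow_right₀ x1 h
  have pW : ∀ a : ℕ, a ≤ p + (7 * R + 15) * (R + 1) + R ^ 2 + 7 * R + 20 → x ^ a ≤ W :=
    fun a h => (pw _ _ h).trans hW
  have hm : (m : ℝ) ≤ x ^ 2 := by nlinarith
  have mm : (0 : ℝ) ≤ m := Nat.cast_nonneg _
  have xW : x ≤ W := by simpa using pW 1 (by omega)
  have W0 : 0 < W := by linarith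
  have q1 : 1 ≤ x ^ (7 * R + 14) := one_le_pow₀ x1
  have Qp : (0 : ℝ) < Q := by linarith
  have Q2 : (Q : ℝ) ≤ x ^ (7 * R + 15) := by rw [pow_succ]; nlinarith
  have x2 : 2 ≤ x := by linarith
  have e3 : m * (x ^ 5)⁻¹ ≤ x⁻¹ / x ^ 2 := by
    calc m * (x ^ 5)⁻¹ ≤ x ^ 2 * (x ^ 5)⁻¹ := by gcongr
      _ = _ := by field_simp
  refine ⟨inv_anti₀ x0 xW, ?_, ?_, e3, e3.trans ?_, ?_, ?_, ?_, ?_, ?_, hm.trans (pW 2 (by omega)),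
    ?_, ?_⟩
  · rw [one_div]; exact inv_anti₀ two_pos (by linarith)
  · calc (6 : ℝ) = 6 * x * x⁻¹ := by rw [mul_assoc, mul_inv_cancel₀ x0.ne', mul_one]
      _ < _ := by gcongr; linarith
  · rw [div_le_div_iff₀ (by positivity) two_pos]
    have : x⁻¹ ≤ 1 := inv_le_one_of_one_le₀ x1
    nlinarith
  · calc 2 * m * (x ^ 2) ^ 2 ≤ x * x ^ 2 * (x ^ 2) ^ 2 := by gcongr
      _ = _ := by ring
  · rw [le_div_iff₀ Qp]
    have h1 : 5 * (Q : ℝ) ^ (R + 1) ≤ W := by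
      calc 5 * (Q : ℝ) ^ (R + 1) ≤ x * (x ^ (7 * R + 15)) ^ (R + 1) := by gcongr; linarith
        _ = x ^ ((7 * R + 15) * (R + 1) + 1) := by rw [← pow_mul, pow_succ']
        _ ≤ W := pW _ (by omega)
    calc (Q : ℝ) ^ R * (5 * W⁻¹) * Q = 5 * (Q : ℝ) ^ (R + 1) * W⁻¹ := by ring
      _ ≤ W * W⁻¹ := by gcongr
      _ = 1 := mul_inv_cancel₀ W0.ne'
  · calc x ^ 2 * (1 / Q) ≤ x ^ 2 * (1 / x ^ (7 * R + 14)) := by gcongr
      _ = _ := by field_simp; ring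
  · calc 2 ^ (R ^ 2 + 1) * (x ^ 7) ^ R / (x ^ 5)⁻¹ ≤ x ^ (R ^ 2 + 1) * (x ^ 7) ^ R / (x ^ 5)⁻¹ := by
          gcongr
      _ = _ := by field_simp; ring
  · calc x ^ p * (3 * (m : ℝ) ^ 3 * (2 * x)) ≤ x ^ p * (x * (x ^ 2) ^ 3 * (x * x)) := by
          gcongr; linarith
      _ = x ^ (p + 9) := by ring
      _ ≤ W := pW _ (by omega)
  · calc x ^ (R ^ 2 + 7 * R + 6) * (x ^ 2 * 2) ≤ x ^ (R ^ 2 + 7 * R + 6) * (x ^ 2 * x) := by gcongr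
      _ = x ^ (R ^ 2 + 7 * R + 9) := by ring
      _ ≤ W := pW _ (by omega)
  · calc x ^ p * (m * (2 * x * x ^ (R ^ 2 + 7 * R + 6) * x ^ 2)) ≤
          x ^ p * (x ^ 2 * (x * x * x ^ (R ^ 2 + 7 * R + 6) * x ^ 2)) := by gcongr
      _ = x ^ (p + R ^ 2 + 7 * R + 12) := by ring
      _ ≤ W := pW _ (by omega)

theorem numx {Y : ℝ} {R p C : ℕ} (hY : 20 ≤ Y) (hR : (R : ℝ) ≤ Y) (hp : (p : ℝ) ≤ Y) (hC : 4 ≤ C) :
    Real.exp Y ^ (p + (7 * R + 15) * (R + 1) + R ^ 2 + 7 * R + 20) ≤ Real.exp (Y ^ C) := by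
  rw [← Real.exp_nat_mul]
  refine ex_mono (le_trans ?_ (pw (by linarith) hC))
  have r0 : (0 : ℝ) ≤ R := Nat.cast_nonneg _
  have h1 : (R : ℝ) * R ≤ Y * Y := mul_le_mul hR hR r0 (by linarith)
  have h2 : ((p + (7 * R + 15) * (R + 1) + R ^ 2 + 7 * R + 20 : ℕ) : ℝ) ≤ Y ^ 3 := by
    push_cast
    nlinarith
  calc _ ≤ Y ^ 3 * Y := mul_le_mul_of_nonneg_right h2 (by linarith)
    _ = _ := by ring

end H82

open H82 in
theorem fibv (hS : SCALE) : FIBV := by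
  intro A
  refine ⟨2 * 2 ^ (A + 1) + 20, ?_⟩
  intro α ι κ ρ _ _ _ _ _ _ _ T Y hA hC hι hκ hρ hT S00 S c e a cc g b lam cen Sb M hc h0 he ha hcc
    hg harc hS1 hE hZ l1 l2 hcen hSb hcard hM hI
  have hp : ((2 * 2 ^ (A + 1) : ℕ) : ℝ) ≤ Y :=
    le_trans (by exact_mod_cast (by omega : 2 * 2 ^ (A + 1) ≤ 2 * 2 ^ (A + 1) + 20)) hC
  have hY : 20 ≤ Y :=
    le_trans (by exact_mod_cast (by omega : 20 ≤ 2 * 2 ^ (A + 1) + 20)) hC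
  have hW := numx hY hρ hp (by omega : 4 ≤ 2 * 2 ^ (A + 1) + 20)
  have hx : Y + 1 ≤ Real.exp Y := Real.add_one_le_exp Y
  rw [Real.exp_neg] at hE l1 hcard
  generalize Real.exp (Y ^ (2 * 2 ^ (A + 1) + 20)) = W at *
  generalize Real.exp Y = x at *
  have x0 : 0 < x := by linarith
  obtain ⟨u1, u2, u3, u4, u5, u6, u7, u8, u9, u10, u11, u12, u13⟩ := numw x W (Fintype.card ρ)
    (2 * 2 ^ (A + 1)) ⌈6 * x⌉₊ ⌈x ^ (7 * Fintype.card ρ + 14)⌉₊ (by linarith) hW (Nat.le_ceil _)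
    (Nat.ceil_lt_add_one (by positivity)).le (Nat.le_ceil _)
    (Nat.ceil_lt_add_one (by positivity)).le
  have W0 : 0 < W := lt_of_lt_of_le (by positivity) hW
  have hl0 : 0 < lam := (inv_pos.2 x0).trans_le l1
  have hne : Sb.Nonempty := card_pos.1 (by
    have := (mul_pos (inv_pos.2 x0) (mul_pos (vol_pos hT _ _)
      (prod_pos fun _ _ => hl0))).trans_le hcard
    exact_mod_cast this)
  obtain ⟨n, K, n1, n2, k1, k2, k3⟩ := fibrew hS hT hc h0 he ha hcc hg (fun k => (hM k).1) b cen Sb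
    harc lam x⁻¹ W⁻¹ x (x ^ 2) (x ^ (2 * 2 ^ (A + 1))) (x ^ 5)⁻¹ (x ^ 7) _ _ _ hcen (u1.trans l1) l2
    hSb hS1 hne hcard hI hE (by rwa [inv_inv]) (by nlinarith)
    (E1.q_le x _ _ _ (by linarith) (Nat.cast_nonneg _) hι
      (Nat.pow_le_pow_right two_pos (by omega))) (inv_pos.2 W0) u2
    (Nat.ceil_pos.2 (by positivity)) (Nat.ceil_pos.2 (by positivity)) u3 (by positivity)
    (u4.trans (by gcongr)) u5 u6 u7 u8 u9 x0.le (by rwa [inv_inv])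
  have n3 : (n : ℝ) ≤ ⌈6 * x⌉₊ := by exact_mod_cast n2
  refine ⟨n, K, n1, n3.trans u11, fun s r => (k1 s r).trans (le_trans ?_ u12),
    fun s => (k2 s).mono u12, fun ζ hζ k => (k3 ζ hζ k).mono ?_⟩
  · gcongr
    nlinarith [sq_nonneg x]
  · have s0 : 0 ≤ ∑ r, |(ζ r : ℝ)| := sum_nonneg fun _ _ => abs_nonneg _
    refine le_trans ?_ (mul_le_mul_of_nonneg_right u13 s0)
    calc _ ≤ x ^ (2 * 2 ^ (A + 1)) * (⌈6 * x⌉₊ * (2 * x *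
          x ^ (Fintype.card ρ ^ 2 + 7 * Fintype.card ρ + 6) * (x ^ 2 * ∑ r, |(ζ r : ℝ)|))) := by
          gcongr
      _ = _ := by ring

theorem eqw0 (hM : MOV) (hS : SCALE) : EQW0 := eqw0_ofV hM (fibv hS)

end

end Vale.Agent.P057T.Gk
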