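import Vale.Agent.P057T.Gk.Eqw0B

/-! The row `EQW0` on one fibre. -/

set_option linter.all false

open Finset

namespace Vale.Agent.P057T.Gk

open TT

noncomputable section

/-- `EQW0` over one typical base point, after `MOV` -/
def FIBW : Prop := ∀ A : ℕ, ∃ C : ℕ, ∀ (α ι κ ρ : Type) [Fintype α] [DecidableEq α] [Fintype ι]
  [DecidableEq ι] [Fintype κ] [Fintype ρ] [DecidableEq ρ] (T : TT α ι) (Y : ℝ),
  Fintype.card α ≤ A → (C : ℝ) ≤ Y → (Fintype.card ι : ℝ) ≤ Real.exp Y →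
  (Fintype.card κ : ℝ) ≤ Real.exp Y → (Fintype.card ρ : ℝ) ≤ Y → T.Ok →
  ∀ (S00 S : Finset α) (c e : α) (a : κ → Fn ι) (cc : κ → ρ → Fn ι) (g : ρ → Fn ι)
    (b : ι → ℤ) (lam : ℝ) (cen : ι → ℝ) (Sb : Finset (ι → ℤ)) (M : κ → Fn ι),
    c ∈ S → S00 ⊆ S.erase c → e ∈ S00 →
    (∀ k, T.Fm S {e, c} (a k)) → (∀ k r, T.Fm (S.erase e) {c} (cc k r)) →
    (∀ r, T.Fm S00 {e} (g r)) → (∀ z ∈ Sb, ∀ r, |g r (cz z) - round (g r (cz z))| ≤ 1 / 100) →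
    b ∈ T.pts ((S.erase c).erase e) 1 →
    T.Eq ((S.erase c).erase e) (S.erase c) b (Real.exp (-Y ^ C)) →
    T.Zr ((S.erase c).erase e) (S.erase e) c b (Real.exp (Y ^ C)) →
    Real.exp (-Y) ≤ lam → lam ≤ 1 → (∀ v, |cen v| ≤ 3) →
    Sb ⊆ T.fbx ((S.erase c).erase e) (S.erase c) b cen (fun _ => lam) →
    Real.exp (-Y) * (T.vol ((S.erase c).erase e) (S.erase c) *
      ∏ v ∈ T.fv ((S.erase c).erase e) (S.erase c), lam) ≤ Sb.card →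
    (∀ k, T.Fm S {e, c} (M k) ∧ T.Osc ((S.erase c).erase e) S c b (M k) (Real.exp Y)) →
    (∀ y ∈ Sb, ∀ k, T.IBg (S.erase c) S (S.erase e) c y (fun x => H82.fw a cc g y k x - M k x)
      (Real.exp Y)) →
    ∃ (n : ℕ) (K : ρ → ρ → ℤ), 1 ≤ n ∧ (n : ℝ) ≤ Real.exp (Y ^ C) ∧
      (∀ s r, |(K s r : ℝ)| ≤ Real.exp (Y ^ C)) ∧
      (∀ s, T.IB ((S.erase c).erase e) (S.erase c) e b (lc (K s) g) (Real.exp (Y ^ C))) ∧
      ∀ ζ : ρ → ℤ, (∀ s, ∑ r, K s r * ζ r = 0) → ∀ k,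
        T.IB ((S.erase c).erase e) (S.erase e) c b (fun x => n * lc ζ (cc k) x)
          (Real.exp (Y ^ C) * ∑ r, |(ζ r : ℝ)|)

end

end Vale.Agent.P057T.Gk
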