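import Vale.Agent.P057T.Gk.Eqw0D
import Vale.Agent.P057T.Gk.Zt
import Vale.Agent.P057T.Gk.Cpok
import Vale.Agent.P057T.Gk.CntH51

/-! The row `EQW0` from its version on one fibre. -/

set_option linter.all false

open Finset

namespace Vale.Agent.P057T.Gk

open TT

noncomputable section

namespace H82

variable {α ι κ ρ : Type} [Fintype α] [DecidableEq α] [Fintype ι] [DecidableEq ι] [Fintype ρ]
  {T : TT α ι} {B : Finset α} {E : Finset (ι → ℤ)} {Y Z σ : ℝ}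

open Classical in
theorem dn_good (hT : T.Ok) {p q : (ι → ℤ) → Prop} (h : T.Dn B E Y) (hp : T.Mo B σ p)
    (hq : T.Mo B σ q) (h1 : σ ≤ 1) (hσ : σ ≤ Real.exp (-(Y + 2))) :
    T.Dn B (E.filter fun z => p z ∧ q z) (Y + 1) := by
  refine ⟨(filter_subset _ _).trans h.1, ?_⟩
  have k1 := hp _ _ (bx01 h1)
  have k2 := hq _ _ (bx01 h1)
  simp only [prod_const_one, mul_one] at k1 k2
  have k3 : E ⊆ (E.filter fun z => p z ∧ q z) ∪
      (((T.fbx ∅ B 0 (fun _ => 0) (fun _ => 1)).filter fun z => ¬ p z) ∪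
      ((T.fbx ∅ B 0 (fun _ => 0) (fun _ => 1)).filter fun z => ¬ q z)) := fun z hz => by
    have hz' := mem_fbx01 hT (S0 := ∅) (b := 0) (h.1 hz) (ag_empty hT _ _)
    simp only [mem_union, mem_filter]
    tauto
  have k4 := (card_le_card k3).trans ((card_union_le _ _).trans
    (Nat.add_le_add_left (card_union_le _ _) _))
  have k5 : (E.card : ℝ) ≤ (E.filter fun z => p z ∧ q z).card + (σ * T.vol ∅ B + σ * T.vol ∅ B) := by
    refine le_trans (Nat.cast_le.2 k4) ?_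
    push_cast
    linarith
  have hv := vol_pos hT ∅ B
  have k6 := exp_two Y
  have k7 : 2 * Real.exp (-(Y + 1)) ≤ Real.exp (-Y) := by
    have e1 : Real.exp (-Y) = Real.exp (-(Y + 1)) * Real.exp 1 := by
      rw [← Real.exp_add]; congr 1; ring
    have := Real.add_one_le_exp (1 : ℝ)
    rw [e1]
    nlinarith [Real.exp_pos (-(Y + 1))]
  have k8 : (Real.exp (-(Y + 1)) + σ + σ) * T.vol ∅ B ≤ Real.exp (-Y) * T.vol ∅ B :=
    mul_le_mul_of_nonneg_right (by linarith) hv.le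
  have := h.2
  linarith

theorem dn_ne (hT : T.Ok) (h : T.Dn B E Y) : E.Nonempty := card_pos.1 (by
  have := (mul_pos (Real.exp_pos _) (vol_pos hT _ _)).trans_le h.2
  exact_mod_cast this)

theorem dn_pig (hT : T.Ok) {β : Type} [DecidableEq β] (φ : (ι → ℤ) → β) (L : Finset β) (h : T.Dn B E Y)
    (hL : ∀ z ∈ E, φ z ∈ L) (hne : L.Nonempty) (hc : (L.card : ℝ) ≤ Real.exp Z) :
    ∃ l ∈ L, T.Dn B (E.filter fun z => φ z = l) (Y + Z) := by
  have hv := vol_pos hT ∅ B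
  obtain ⟨l, hl, k⟩ := exists_le_card_fiber_of_nsmul_le_card_of_maps_to (M := ℝ)
    (b := Real.exp (-(Y + Z)) * T.vol ∅ B) hL hne (by
      rw [nsmul_eq_mul]
      refine le_trans ?_ h.2
      rw [← mul_assoc]
      refine mul_le_mul_of_nonneg_right ?_ hv.le
      calc _ ≤ Real.exp Z * Real.exp (-(Y + Z)) :=
            mul_le_mul_of_nonneg_right hc (Real.exp_pos _).le
        _ = _ := by rw [← Real.exp_add]; congr 1; ring)
  exact ⟨l, hl, (filter_subset _ _).trans h.1, k⟩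

/-- the labels -/
def lab (ρ : Type) [Fintype ρ] [DecidableEq ρ] (N : ℕ) : Finset (ℕ × (ρ → ρ → ℤ)) :=
  range (N + 1) ×ˢ Fintype.piFinset fun _ => Fintype.piFinset fun _ => Icc (-(N : ℤ)) N

theorem lab_mem [DecidableEq ρ] {W : ℝ} {n : ℕ} {K : ρ → ρ → ℤ} (hn : (n : ℝ) ≤ W)
    (hK : ∀ s r, |(K s r : ℝ)| ≤ W) : (n, K) ∈ lab ρ ⌊W⌋₊ := by
  have h0 : 0 ≤ W := le_trans (Nat.cast_nonneg _) hn
  simp only [lab, mem_product, mem_range, Fintype.mem_piFinset, mem_Icc]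
  refine ⟨Nat.lt_succ_of_le (Nat.le_floor hn), fun s r => ?_⟩
  have h1 : (K s r).natAbs ≤ ⌊W⌋₊ := Nat.le_floor (by
    rw [Nat.cast_natAbs]; push_cast; exact hK s r)
  omega

theorem lab_card [DecidableEq ρ] (hY : 2 ≤ Y) (hρ : (Fintype.card ρ : ℝ) ≤ Y) {P : ℕ} (hP : 1 ≤ P) :
    ((lab ρ ⌊Real.exp (Y ^ P)⌋₊).card : ℝ) ≤ Real.exp (Y ^ (P + 4)) := by
  set N := ⌊Real.exp (Y ^ P)⌋₊ with hN
  have h1 : (N : ℝ) ≤ Real.exp (Y ^ P) := Nat.floor_le (Real.exp_pos _).le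
  have h2 := pw1 hY hP
  have h3 : 1 ≤ Real.exp (Y ^ P) := Real.one_le_exp (by positivity)
  have h4 := Real.add_one_le_exp (Y ^ P)
  have h5 : 2 * (N : ℝ) + 1 ≤ Real.exp (Y ^ (P + 1)) := by
    calc _ ≤ Real.exp (Y ^ P) * Real.exp (Y ^ P) := by nlinarith
      _ = Real.exp (2 * Y ^ P) := by rw [← Real.exp_add]; ring_nf
      _ ≤ _ := ex_mono (mulpw hY hY (by omega))
  have h6 : (lab ρ N).card = (N + 1) * ((2 * N + 1) ^ Fintype.card ρ) ^ Fintype.card ρ := by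
    have : ((N : ℤ) + 1 - -(N : ℤ)).toNat = 2 * N + 1 := by omega
    simp [lab, Fintype.card_piFinset, this]
    congr 2
    omega
  have h0 : (0 : ℝ) ≤ N := Nat.cast_nonneg _
  have h7 : ((lab ρ N).card : ℝ) ≤ Real.exp (Y ^ (P + 1)) *
      (Real.exp (Y ^ (P + 1)) ^ Fintype.card ρ) ^ Fintype.card ρ := by
    rw [h6]
    push_cast
    gcongr
    linarith
  refine h7.trans ?_
  rw [← Real.exp_nat_mul, ← Real.exp_nat_mul, ← Real.exp_add]
  refine ex_mono ?_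
  have h8 : (0 : ℝ) ≤ Fintype.card ρ := Nat.cast_nonneg _
  have h9 : (Fintype.card ρ : ℝ) * Y ^ (P + 1) ≤ Y ^ (P + 2) := mulpw hY hρ (by omega)
  have h10 : (Fintype.card ρ : ℝ) * Y ^ (P + 2) ≤ Y ^ (P + 3) := mulpw hY hρ (by omega)
  have h11 : 2 * Y ^ (P + 3) ≤ Y ^ (P + 4) := mulpw hY hY (by omega)
  have h12 : Y ^ (P + 1) ≤ Y ^ (P + 3) := pw hY (by omega)
  nlinarith [mul_le_mul_of_nonneg_left h9 h8]

theorem nn_le (hT : T.Ok) {n : ℕ} {σ' : ℝ} (h0 : 0 < σ) (h : σ ≤ σ') (k : T.Nn n σ) : T.Nn n σ' :=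
  ZtP.lv_mono cpok (fun _ _ _ _ _ _ T σ => T.N0 σ)
    (fun _ _ _ _ _ _ T hT k => ZtP.n0_mono hT h0 h k) n α ι T hT k

end H82

open H82 in
theorem eqw0_of (hM : MOV) (hF : FIBW) : EQW0 := by
  classical
  intro A
  obtain ⟨C1, hM⟩ := hM A
  obtain ⟨C2, hF⟩ := hF A
  obtain ⟨D, hD⟩ : ∃ D, D = C1 + 1 := ⟨_, rfl⟩
  obtain ⟨P, hP⟩ : ∃ P, P = D * C2 + D := ⟨_, rfl⟩
  refine ⟨P + C2 + 8, ?_⟩
  intro α ι κ ρ _ _ _ _ _ _ _ T Y hA hC hι hκ hρ hT hN S00 S c e a cc g E hc hS he hE ha hcc hg harc hib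
  have hP1 : D ≤ P := by omega
  have hY : 2 ≤ Y := le_trans (by exact_mod_cast (by omega : 2 ≤ P + C2 + 8)) hC
  have hC1 : (C1 : ℝ) ≤ Y := le_trans (by exact_mod_cast (by omega : C1 ≤ P + C2 + 8)) hC
  have hC2 : (C2 : ℝ) ≤ Y := le_trans (by exact_mod_cast (by omega : C2 ≤ P + C2 + 8)) hC
  have hYD : Y ≤ Y ^ D := pw1 hY (by omega)
  have h1D : Y ^ C1 ≤ Y ^ D := pw hY (by omega)
  have hPP : (Y ^ D) ^ C2 ≤ Y ^ P := by rw [← pow_mul]; exact pw hY (by omega)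
  have hPC : Y ^ P ≤ Y ^ (P + C2 + 8) := pw hY (by omega)
  obtain ⟨lam, E1, l1, l2, d1, hE1⟩ := hM α ι κ ρ T Y hA hC1 hι hκ hρ hT
    (nn_le hT (Real.exp_pos _) (exn_mono (pw hY (by omega))) hN) (S.erase c) S c e (fw a cc g) E
    hc subset_rfl (hS he) hE (fw_fm hc ha hcc) (fun Z hZ k x _ => fw_add ha hcc hg harc Z hZ k x)
    (fun b hb k => fw_ib hS hg (hib b hb k))
  have hec : c ∈ S.erase e := mem_erase.2 ⟨fun h => (mem_erase.1 (hS he)).1 h.symm, hc⟩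
  have hN0 : T.N0 (Real.exp (-Y ^ (P + C2 + 8))) := hN.1
  have m1 := hN0.1.2 (S.erase c) ((S.erase c).erase e) e (hS he) subset_rfl
  have m2 := hN0.2.2 ((S.erase c).erase e) (S.erase e) ((S.erase c).erase e) c
    (erase_subset_erase _ (erase_subset _ _)) subset_rfl hec (by simp)
  have h3 : 3 * Y ^ D ≤ Y ^ (P + 2) := by
    have := mulpw hY hY (show D < P + 1 by omega)
    have := mulpw hY hY (show P + 1 < P + 2 by omega)
    have : 0 ≤ Y ^ D := by positivity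
    linarith
  have hP2 : Y ^ (P + 2) ≤ Y ^ (P + 4) := pw hY (by omega)
  have hP4 : 2 * Y ^ (P + 4) ≤ Y ^ (P + C2 + 8) := mulpw hY hY (by omega)
  have hP0 : 0 ≤ Y ^ (P + 4) := by positivity
  have d2 := dn_good hT (dn_mono hT d1 h1D) m1 m2
    (Real.exp_le_one_iff.2 (by linarith)) (exn_mono (by linarith))
  have key : ∀ b : ι → ℤ, ∃ l : ℕ × (ρ → ρ → ℤ), b ∈ E1.filter (fun z =>
      T.Eq ((S.erase c).erase e) (S.erase c) z (Real.exp (-Y ^ (P + C2 + 8))) ∧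
      T.Zr ((S.erase c).erase e) (S.erase e) c z (Real.exp (-Y ^ (P + C2 + 8)))⁻¹) →
      (∃ y ∈ E, T.res ((S.erase c).erase e) y = b) ∧
      1 ≤ l.1 ∧ (l.1 : ℝ) ≤ Real.exp (Y ^ P) ∧ (∀ s r, |(l.2 s r : ℝ)| ≤ Real.exp (Y ^ P)) ∧
      (∀ s, T.IB ((S.erase c).erase e) (S.erase c) e b (lc (l.2 s) g) (Real.exp (Y ^ P))) ∧
      ∀ ζ : ρ → ℤ, (∀ s, ∑ r, l.2 s r * ζ r = 0) → ∀ k,
        T.IB ((S.erase c).erase e) (S.erase e) c b (fun x => l.1 * lc ζ (cc k) x)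
          (Real.exp (Y ^ P) * ∑ r, |(ζ r : ℝ)|) := by
    intro b
    by_cases hb : b ∈ E1.filter (fun z =>
      T.Eq ((S.erase c).erase e) (S.erase c) z (Real.exp (-Y ^ (P + C2 + 8))) ∧
      T.Zr ((S.erase c).erase e) (S.erase e) c z (Real.exp (-Y ^ (P + C2 + 8)))⁻¹)
    swap
    · exact ⟨(0, 0), fun h => absurd h hb⟩
    obtain ⟨hb1, hb2, hb3⟩ := mem_filter.1 hb
    obtain ⟨cen, Sb, M, c1, c2, c3, c4, c5, c6⟩ := hE1 b hb1
    have hl0 : 0 < lam := (Real.exp_pos _).trans_le l1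
    have hV : 0 < T.vol ((S.erase c).erase e) (S.erase c) *
        ∏ v ∈ T.fv ((S.erase c).erase e) (S.erase c), lam :=
      mul_pos (vol_pos hT _ _) (prod_pos fun _ _ => hl0)
    obtain ⟨n, K, k1, k2, k3, k4, k5⟩ := hF α ι κ ρ T (Y ^ D) hA (hC2.trans hYD)
      (hι.trans (ex_mono hYD)) (hκ.trans (ex_mono hYD)) (hρ.trans hYD) hT S00 S c e a cc g b lam cen
      Sb M hc hS he ha hcc hg (fun z hz => harc z (c2 hz)) (d1.1 hb1)
      (ZtP.eq_mono hT (Real.exp_pos _) (exn_mono (hPP.trans hPC)) hb2)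
      (fun I i1 i2 i3 => hb3 I i1 i2 (i3.mono (by
        rw [← Real.exp_neg, neg_neg]; exact ex_mono (hPP.trans hPC))))
      ((exn_mono h1D).trans l1) l2 c1 c3
      ((mul_le_mul_of_nonneg_right (exn_mono h1D) hV.le).trans c4)
      (fun k => ⟨by simpa only [sd_erase hc, ← insert_eq] using (c5 k).1,
        (c5 k).2.mono (ex_mono h1D)⟩)
      (fun y hy k => (c6 y hy k).mono (ex_mono h1D))
    have hne : Sb.Nonempty := card_pos.1 (by
      have := (mul_pos (Real.exp_pos (-Y ^ C1)) hV).trans_le c4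
      exact_mod_cast this)
    obtain ⟨y, hy⟩ := hne
    refine ⟨(n, K), fun _ => ⟨⟨y, c2 hy, ?_⟩, k1, k2.trans (ex_mono hPP),
      fun s r => (k3 s r).trans (ex_mono hPP), fun s => (k4 s).mono (ex_mono hPP),
      fun ζ hζ k => (k5 ζ hζ k).mono (mul_le_mul_of_nonneg_right (ex_mono hPP)
        (sum_nonneg fun _ _ => abs_nonneg _))⟩⟩
    have hy2 : T.Ag ((S.erase c).erase e) y b := (mem_filter.1 (c3 hy)).2.1
    funext v
    by_cases hv : T.ty v ⊆ (S.erase c).erase e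
    · simp only [TT.res, if_pos hv]; exact hy2 v hv
    · simp only [TT.res, if_neg hv]; exact (((mem_pts hT).1 (d1.1 hb1)).1 v hv).symm
  choose φ hφ using key
  obtain ⟨l, hl, d3⟩ := dn_pig hT φ (lab ρ ⌊Real.exp (Y ^ P)⌋₊) d2
    (fun z hz => lab_mem (hφ z hz).2.2.1 (hφ z hz).2.2.2.1)
    ⟨(0, 0), lab_mem (by simpa using (Real.exp_pos _).le) (by simpa using fun _ _ => (Real.exp_pos _).le)⟩
    (lab_card hY hρ (by omega))
  obtain ⟨z, hz⟩ := dn_ne hT d3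
  obtain ⟨hz1, rfl⟩ := mem_filter.1 hz
  obtain ⟨-, z1, z2, z3, -⟩ := hφ z hz1
  refine ⟨(φ z).1, (φ z).2, _, z1, z2.trans (ex_mono hPC), fun s r => (z3 s r).trans (ex_mono hPC),
    dn_mono hT d3 (by linarith), fun b hb => ?_⟩
  obtain ⟨hb1, hb2⟩ := mem_filter.1 hb
  obtain ⟨b1, -, -, -, b2, b3⟩ := hφ b hb1
  rw [hb2] at b2 b3
  exact ⟨b1, fun s => (b2 s).mono (ex_mono hPC), fun ζ hζ k => (b3 ζ hζ k).mono
    (mul_le_mul_of_nonneg_right (ex_mono hPC) (sum_nonneg fun _ _ => abs_nonneg _))⟩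

end

end Vale.Agent.P057T.Gk
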