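import Vale.Agent.P057T.Gk.Rows

/-! The two halves of the row `EQW`. -/

set_option linter.all false

open Finset

namespace Vale.Agent.P057T.Gk

open TT

noncomputable section

/-- `EQW` with the relations of the characters on the fibre of `S.erase c` -/
def EQW0 : Prop := AT 1 fun C α ι κ ρ _ _ _ _ _ _ _ T Y =>
  ∀ (S00 S : Finset α) (c e : α) (a : κ → Fn ι) (cc : κ → ρ → Fn ι) (g : ρ → Fn ι)
    (E : Finset (ι → ℤ)), c ∈ S → S00 ⊆ S.erase c → e ∈ S00 → T.Dn (S.erase c) E Y →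
    (∀ k, T.Fm S {e, c} (a k)) → (∀ k r, T.Fm (S.erase e) {c} (cc k r)) →
    (∀ r, T.Fm S00 {e} (g r)) → (∀ z ∈ E, ∀ r, |g r (cz z) - round (g r (cz z))| ≤ 1 / 100) →
    (∀ z ∈ E, ∀ k, T.IB (S.erase c) S c z (tw a cc g k) (Real.exp Y)) →
    ∃ (n : ℕ) (K : ρ → ρ → ℤ) (E' : Finset (ι → ℤ)), 1 ≤ n ∧ (n : ℝ) ≤ Real.exp (Y ^ C) ∧
      (∀ s r, |(K s r : ℝ)| ≤ Real.exp (Y ^ C)) ∧ T.Dn ((S.erase c).erase e) E' (Y ^ C) ∧
      ∀ b' ∈ E', (∃ b ∈ E, T.res ((S.erase c).erase e) b = b') ∧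
        (∀ s, T.IB ((S.erase c).erase e) (S.erase c) e b' (lc (K s) g) (Real.exp (Y ^ C))) ∧
        ∀ ζ : ρ → ℤ, (∀ s, ∑ r, K s r * ζ r = 0) → ∀ k,
          T.IB ((S.erase c).erase e) (S.erase e) c b' (fun x => n * lc ζ (cc k) x)
            (Real.exp (Y ^ C) * ∑ r, |(ζ r : ℝ)|)

/-- over typical base points the integer part only sees the classes of the form -/
def ELIM : Prop := AT 1 fun C α ι _ _ _ _ _ _ _ _ _ T Y =>
  ∀ (S00 S0 : Finset α) (e : α), S00 ⊆ S0 → e ∈ S00 →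
    T.Mo (S00.erase e) (Real.exp (-Y)) fun b => ∀ f : Fn ι, T.Fm S00 {e} f →
      T.IB (S00.erase e) S0 e b f (Real.exp Y) → T.IB (S00.erase e) S00 e b f (Real.exp Y)

end

end Vale.Agent.P057T.Gk
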