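import Vale.Agent.P057T.Gk.Rows

/-! From many good quadruples to all relations of length six. -/

set_option linter.all false

open Finset

namespace Vale.Agent.P057T.Gk

open TT

namespace FgtP

variable {α ι κ : Type} [Fintype α] [DecidableEq α] [Fintype ι] [DecidableEq ι] {T : TT α ι}
  {Y Y' : ℝ}

theorem ex_mono (h : Y ≤ Y') {v : ℝ} {n : ℕ} (H : Real.exp (-Y) * v ≤ n) :
    Real.exp (-Y') * v ≤ n := by
  rcases le_total 0 v with hv | hv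
  · exact (mul_le_mul_of_nonneg_right (Real.exp_le_exp.2 (neg_le_neg h)) hv).trans H
  · exact (mul_nonpos_of_nonneg_of_nonpos (Real.exp_nonneg _) hv).trans (Nat.cast_nonneg n)

theorem dn_mono (h : Y ≤ Y') {S : Finset α} {Ω : Finset (ι → ℤ)} (H : T.Dn S Ω Y) :
    T.Dn S Ω Y' := ⟨H.1, ex_mono h H.2⟩

theorem pop_mono (h : Y ≤ Y') {B : Finset α} {Ω : Finset (ι → ℤ)} {b : ι → ℤ}
    (H : T.Pop B Ω b Y) : T.Pop B Ω b Y' := ex_mono h H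

theorem ib_mono (h : Y ≤ Y') {S0 S : Finset α} {c : α} {b : ι → ℤ} {f : Fn ι}
    (H : T.IB S0 S c b f (Real.exp Y)) : T.IB S0 S c b f (Real.exp Y') := by
  obtain ⟨I, h1, h2, h3⟩ := H
  exact ⟨I, h1, h2, fun z z' a b c d => (h3 z z' a b c d).trans (Real.exp_le_exp.2 h)⟩

theorem sub_mono (h : Y ≤ Y') {T1 : TT α ι} (H : T.Sub T1 Y) : T.Sub T1 Y' := by
  obtain ⟨l, cen, h1, h2⟩ := H
  exact ⟨l, cen, fun v => ⟨(Real.exp_le_exp.2 (neg_le_neg h)).trans (h1 v).1, (h1 v).2⟩, h2⟩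

theorem es_mono (h : Y ≤ Y') {S F : Finset α} {c i : α} {f : κ → Fn ι} {Ω : Finset (ι → ℤ)}
    {m : ℕ} {cen : T.CV i (Fin 2) → ℝ} (H : T.ES S c F i f Ω m cen Y) :
    T.ES S c F i f Ω m cen Y' := by
  obtain ⟨h0, A, A2, A3, C, E, h1, h2, h3, h4⟩ := H
  exact ⟨h0, A, A2, A3, C, E, h1, h2, dn_mono h h3, fun Z hZ => ⟨pop_mono h (h4 Z hZ).1,
    fun k => ⟨ib_mono h ((h4 Z hZ).2 k).1, ib_mono h ((h4 Z hZ).2 k).2⟩⟩⟩

theorem r6_mono (h : Y ≤ Y') {S F : Finset α} {c i : α} {f : κ → Fn ι} {Ω : Finset (ι → ℤ)}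
    (H : T.R6 S c F i f Ω Y) : T.R6 S c F i f Ω Y' := by
  obtain ⟨h0, A, C, h1, h2, h3, h4⟩ := H
  exact ⟨dn_mono h h0, A, C, h1, h2, fun z hz k => ib_mono h (h3 z hz k),
    fun s t a b d k => ib_mono h (h4 s t a b d k)⟩

theorem nn_mono (hS : SCG) (hT : T.Ok) {n : ℕ} (h0 : 0 ≤ Y) (h : Y ≤ Y')
    (H : T.Nn n (Real.exp (-Y'))) : T.Nn n (Real.exp (-Y)) :=
  (hS n α ι T _ _ hT (Real.exp_pos _) (Real.exp_le_one_iff.2 (neg_nonpos.2 h0))).1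
    (Real.exp_le_exp.2 (neg_le_neg h)) H

theorem num (hY : 7 ≤ Y) : 100 * (Real.exp Y + 1) ≤ Real.exp (Y ^ 2) := by
  have e1 : 1 ≤ Real.exp Y := Real.one_le_exp (by linarith)
  have e2 : (200 : ℝ) ≤ Real.exp (Y ^ 2 - Y) := by
    have h1 : 1 + (Y ^ 2 - Y) + (Y ^ 2 - Y) ^ 2 / 2 ≤ Real.exp (Y ^ 2 - Y) :=
      Real.quadratic_le_exp_of_nonneg (by nlinarith)
    have h2 : 42 ≤ Y ^ 2 - Y := by nlinarith
    nlinarith
  have e3 : Real.exp (Y ^ 2) = Real.exp (Y ^ 2 - Y) * Real.exp Y := by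
    rw [← Real.exp_add, sub_add_cancel]
  rw [e3]
  nlinarith

end FgtP

open FgtP

theorem fgt (hO : ONE) (hF : FRX) (hS : SCG) : FGT := by
  intro a
  obtain ⟨A, hA⟩ := hO a
  obtain ⟨B, hB⟩ := hF a
  refine ⟨(A + 1) * (B + 1) + 7, ?_⟩
  intro α ι κ ρ _ _ _ _ _ _ _ T Y ha hY h1 h2 h3 ok nn S F c i f Ω m cen hc hF hi hm C1 hm1 nn1 qs
  have l1 : A ≤ (A + 1) * (B + 1) + 7 := by nlinarith
  have l2 : B ≤ (A + 1) * (B + 1) + 7 := by nlinarith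
  have y7 : (7 : ℝ) ≤ Y := le_trans (by exact_mod_cast Nat.le_add_left 7 _) hY
  have y1 : (1 : ℝ) ≤ Y := by linarith
  have pw : ∀ {p q : ℕ}, p ≤ q → Y ^ p ≤ Y ^ q := fun h => pow_le_pow_right₀ y1 h
  have p0 : ∀ p : ℕ, 0 ≤ Y ^ p := fun p => by positivity
  have es := hA α ι κ ρ T Y ha (le_trans (by exact_mod_cast l1) hY) h1 h2 h3 ok
    (nn_mono hS ok (p0 _) (pw l1) nn) S F c i f Ω m cen hc hF hi
    ((Real.exp_le_exp.2 (pw l1)).trans hm) C1 hm1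
    (nn_mono hS ok (p0 _) (pw (Nat.mul_le_mul_right _ l1)) nn1) qs
  have yy : Y ≤ Y ^ ((A + 1) * (C1 + 1)) := le_self_pow₀ y1 (by positivity)
  have l3 : (Y ^ ((A + 1) * (C1 + 1))) ^ B ≤ Y ^ (((A + 1) * (B + 1) + 7) * (C1 + 1)) := by
    rw [← pow_mul]
    exact pw (by nlinarith [Nat.zero_le (A * C1), Nat.zero_le A, Nat.zero_le C1])
  obtain ⟨T1, Ω1, k1, k2, k3⟩ := hB α ι κ ρ T (Y ^ ((A + 1) * (C1 + 1))) ha
    (le_trans (by exact_mod_cast l2) (hY.trans yy)) (h1.trans (Real.exp_le_exp.2 yy))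
    (h2.trans (Real.exp_le_exp.2 yy)) (h3.trans yy) ok
    (nn_mono hS ok (by positivity) l3 ((hS 0 α ι T _ 1 ok (Real.exp_pos _) le_rfl).2.1 nn1))
    S F c i (f 0) Ω m cen hc hF hi
    (le_trans (le_trans (by linarith) (num y7)) ((Real.exp_le_exp.2 (pw (by omega))).trans hm))
    (hm1.trans (Real.exp_le_exp.2 (pw (by nlinarith [Nat.zero_le (A * C1), Nat.zero_le A]))))
    (qs.2.1 0) (es_mono (pw (Nat.mul_le_mul_right _ (Nat.le_succ A))) es)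
  exact ⟨T1, Ω1, sub_mono l3 k1, k2, r6_mono l3 k3⟩

end Vale.Agent.P057T.Gk
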