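import Vale.Agent.P057T.Gk.Eq1a

/-! The gap lemma for a lattice with finitely many characters. -/

set_option linter.all false

open Finset

namespace Vale.Agent.P057T.Gk.H82

noncomputable section

variable {A ρ : Type} [Fintype A] [DecidableEq A] [Fintype ρ] [DecidableEq ρ]

theorem dirich (θ : ρ → ℝ) (Q : ℕ) (hQ : 1 ≤ Q) : ∃ t : ℕ, 1 ≤ t ∧ t ≤ Q ^ Fintype.card ρ ∧
    ∃ μ : ρ → ℤ, ∀ r, |(μ r : ℝ) - t * θ r| ≤ 1 / Q := by
  have hQ0 : (0 : ℝ) < Q := by exact_mod_cast hQ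
  have key : ∀ a b : ℕ, a < b → b ≤ Q ^ Fintype.card ρ →
      (∀ r, ⌊(Q : ℝ) * Int.fract (a * θ r)⌋₊ = ⌊(Q : ℝ) * Int.fract (b * θ r)⌋₊) →
      ∃ t : ℕ, 1 ≤ t ∧ t ≤ Q ^ Fintype.card ρ ∧ ∃ μ : ρ → ℤ, ∀ r, |(μ r : ℝ) - t * θ r| ≤ 1 / Q := by
    intro a b h1 h2 h3
    refine ⟨b - a, by omega, by omega, fun r => ⌊b * θ r⌋ - ⌊a * θ r⌋, fun r => ?_⟩
    have a1 := Nat.floor_le (mul_nonneg hQ0.le (Int.fract_nonneg (a * θ r)))
    have a2 := Nat.lt_floor_add_one ((Q : ℝ) * Int.fract (a * θ r))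
    have b1 := Nat.floor_le (mul_nonneg hQ0.le (Int.fract_nonneg (b * θ r)))
    have b2 := Nat.lt_floor_add_one ((Q : ℝ) * Int.fract (b * θ r))
    rw [h3 r] at a1 a2
    have e : ((⌊b * θ r⌋ - ⌊a * θ r⌋ : ℤ) : ℝ) - ((b - a : ℕ) : ℝ) * θ r =
        Int.fract (a * θ r) - Int.fract (b * θ r) := by
      rw [Nat.cast_sub h1.le]
      simp only [Int.fract]
      push_cast
      ring
    rw [e, le_div_iff₀ hQ0, ← abs_of_pos hQ0, ← abs_mul, abs_le]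
    constructor <;> nlinarith
  obtain ⟨a, ha, b, hb, hab, e⟩ := exists_ne_map_eq_of_card_lt_of_maps_to
    (s := range (Q ^ Fintype.card ρ + 1)) (t := Fintype.piFinset fun _ : ρ => range Q)
    (by simp [Fintype.card_piFinset])
    (f := fun (t : ℕ) (r : ρ) => ⌊(Q : ℝ) * Int.fract (t * θ r)⌋₊) (fun t _ => by
      simp only [mem_coe, Fintype.mem_piFinset, mem_range]
      intro r
      rw [Nat.floor_lt (mul_nonneg hQ0.le (Int.fract_nonneg _))]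
      nlinarith [Int.fract_lt_one (t * θ r)])
  have ha' := mem_range.1 ha
  have hb' := mem_range.1 hb
  rcases lt_or_gt_of_ne hab with k | k
  · exact key a b k (by omega) fun r => congrFun e r
  · exact key b a k (by omega) fun r => (congrFun e r).symm

theorem fin_near (t : ρ → ℝ) (R : ℝ) : {μ : ρ → ℤ | ∀ r, |(μ r : ℝ) - t r| ≤ R}.Finite :=
  (Set.Finite.pi' fun r => Set.finite_Icc ⌊t r - R⌋ ⌈t r + R⌉).subset fun μ h r => by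
    have := abs_le.1 (h r)
    exact ⟨Int.floor_le_iff.2 (by linarith), Int.le_ceil_iff.2 (by linarith)⟩

theorem cz_single {B : Type} [DecidableEq B] (v : B) : cz (Pi.single v 1) = Pi.single v 1 := by
  funext w
  by_cases h : w = v
  · subst h; simp [cz]
  · simp [cz, h]

theorem cz_0 {B : Type} : cz (0 : B → ℤ) = 0 := by funext v; simp [cz]

theorem lin_exp {B : Type} [Fintype B] [DecidableEq B] (φ : (B → ℝ) →ₗ[ℝ] ℝ) (y : B → ℝ) :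
    φ y = ∑ v, y v * φ (Pi.single v 1) := by
  conv_lhs => rw [pi_eq_sum_univ' y]
  simp only [map_sum, map_smul, smul_eq_mul]

/-- a functional that kills a vector in every orthant vanishes -/
theorem fn_zero (φ : (A → ℝ) →ₗ[ℝ] ℝ) {σ : ℝ} (hσ : 0 < σ)
    (h : ∀ s : A → ℝ, (∀ v, |s v| ≤ 1) → ∃ y : A → ℝ, (∀ v, |y v - 3 * σ * s v| ≤ 2 * σ) ∧ φ y = 0) :
    φ = 0 := by
  obtain ⟨a, ha⟩ : ∃ a : A → ℝ, ∀ v, a v = φ (Pi.single v 1) := ⟨_, fun _ => rfl⟩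
  obtain ⟨y, hc, hy⟩ := h (fun v => if 0 ≤ a v then 1 else -1) (fun v => by split_ifs <;> simp)
  have h1 : ∑ v, σ * |a v| ≤ ∑ v, y v * a v := sum_le_sum fun v _ => by
    have h1 := abs_le.1 (hc v)
    split_ifs at h1 with h2
    · rw [abs_of_nonneg h2]; exact mul_le_mul_of_nonneg_right (by linarith [h1.1]) h2
    · rw [abs_of_neg (not_le.1 h2)]; nlinarith [h1.2, not_le.1 h2]
  have h0 : ∑ v, y v * a v = 0 := by rw [← hy, lin_exp φ y]; simp only [ha]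
  have h2 : ∀ v, φ (Pi.single v 1) = 0 := by
    intro v
    have h3 : σ * |a v| ≤ ∑ v, σ * |a v| :=
      single_le_sum (f := fun v => σ * |a v|) (fun v _ => by positivity) (mem_univ v)
    have h4 : |a v| ≤ 0 := by nlinarith [abs_nonneg (a v)]
    rw [← ha]
    exact abs_nonpos_iff.1 h4
  refine LinearMap.ext fun x => ?_
  rw [lin_exp φ x]
  simp [h2]

/-- the lattice of integer points -/
def lat (Θ : ((A → ℝ) × (ρ → ℝ)) ≃ₗ[ℝ] EuclideanSpace ℝ (A ⊕ ρ)) :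
    Submodule ℤ (EuclideanSpace ℝ (A ⊕ ρ)) where
  carrier := {x | ∃ (c : A → ℤ) (μ : ρ → ℤ), x = Θ (cz c, cz μ)}
  add_mem' := by
    rintro _ _ ⟨c, μ, rfl⟩ ⟨d, ν, rfl⟩
    refine ⟨c + d, μ + ν, ?_⟩
    rw [← map_add]
    congr 1
    ext v <;> simp [cz]
  zero_mem' := ⟨0, 0, by rw [cz_0, cz_0]; exact (map_zero Θ).symm⟩
  smul_mem' := by
    rintro k _ ⟨c, μ, rfl⟩
    refine ⟨k • c, k • μ, ?_⟩
    rw [← Int.cast_smul_eq_zsmul ℝ, ← map_smul]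
    congr 1
    ext v <;> simp [cz]

section
variable {Φ : (A → ℝ) ≃ₗ[ℝ] (A → ℝ)} {γ : (A → ℝ) →ₗ[ℝ] (ρ → ℝ)}
  {Θ : ((A → ℝ) × (ρ → ℝ)) ≃ₗ[ℝ] EuclideanSpace ℝ (A ⊕ ρ)}

theorem hap (x : EuclideanSpace ℝ (A ⊕ ρ)) (v) : |x v| ≤ ‖x‖ := by
  simpa using PiLp.norm_apply_le x v

theorem lat_sp : Submodule.span ℝ (lat Θ : Set (EuclideanSpace ℝ (A ⊕ ρ))) = ⊤ := by
  rw [eq_top_iff]
  intro x _
  obtain ⟨⟨a, t⟩, rfl⟩ := Θ.surjective x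
  have e : (a, t) = ∑ v, a v • ((Pi.single v 1, 0) : (A → ℝ) × (ρ → ℝ)) +
      ∑ r, t r • ((0, Pi.single r 1) : (A → ℝ) × (ρ → ℝ)) := by
    refine Prod.ext ?_ ?_
    · simp only [Prod.fst_add, Prod.fst_sum, Prod.smul_fst, smul_zero, sum_const_zero, add_zero]
      exact pi_eq_sum_univ' a
    · simp only [Prod.snd_add, Prod.snd_sum, Prod.smul_snd, smul_zero, sum_const_zero, zero_add]
      exact pi_eq_sum_univ' t
  rw [e, map_add, map_sum, map_sum]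
  refine add_mem (sum_mem fun v _ => ?_) (sum_mem fun r _ => ?_)
  · rw [map_smul]
    exact Submodule.smul_mem _ _ (Submodule.subset_span
      ⟨Pi.single v 1, 0, by rw [cz_single, cz_0]⟩)
  · rw [map_smul]
    exact Submodule.smul_mem _ _ (Submodule.subset_span
      ⟨0, Pi.single r 1, by rw [cz_single, cz_0]⟩)

variable (h1 : ∀ p v, Θ p (Sum.inl v) = Φ p.1 v) (h2 : ∀ p r, Θ p (Sum.inr r) = p.2 r - γ p.1 r)
include h1 h2

theorem lat_fin (hfin : ∀ R : ℝ, {c : A → ℤ | ∀ v, |Φ (cz c) v| ≤ R}.Finite) (R : ℝ) :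
    Set.Finite {x | x ∈ lat Θ ∧ ‖x‖ ≤ R} :=
  ((hfin R).biUnion fun c _ => (fin_near (γ (cz c)) R).image fun μ => Θ (cz c, cz μ)).subset (by
    rintro _ ⟨⟨c, μ, rfl⟩, hx⟩
    refine Set.mem_biUnion (x := c) (fun v => ?_) ⟨μ, fun r => ?_, rfl⟩
    · have := (hap _ (Sum.inl v)).trans hx
      rwa [h1] at this
    · have := (hap _ (Sum.inr r)).trans hx
      rwa [h2] at this)

theorem th_le {D r0 : ℝ} (hD : (Fintype.card A : ℝ) + Fintype.card ρ + 1 ≤ D) (h0 : 0 ≤ r0)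
    (p : (A → ℝ) × (ρ → ℝ)) (k1 : ∀ v, |Φ p.1 v| ≤ r0) (k2 : ∀ r, |p.2 r - γ p.1 r| ≤ r0) :
    ‖Θ p‖ ≤ D * r0 :=
  E1.enorm_le _ r0 D h0 (by rw [Fintype.card_sum]; push_cast; exact hD) fun v => by
    rcases v with v | r
    · rw [h1]; exact k1 v
    · rw [h2]; exact k2 r

theorem lat_sm {σ D s0 : ℝ} {Q : ℕ} (hσ : 0 < σ) (hQ : 1 ≤ Q)
    (hD : (Fintype.card A : ℝ) + Fintype.card ρ + 1 ≤ D)
    (hs1 : (Q : ℝ) ^ Fintype.card ρ * (5 * σ) ≤ 1 / Q) (hs2 : D * (1 / Q) ≤ s0)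
    (hden : ∀ s : A → ℝ, (∀ v, |s v| ≤ 1) → ∃ c : A → ℤ, ∀ v, |Φ (cz c) v - 3 * σ * s v| ≤ 2 * σ) :
    Module.finrank ℝ (EuclideanSpace ℝ (A ⊕ ρ)) ≤
      Module.finrank ℝ (Submodule.span ℝ {x | x ∈ lat Θ ∧ ‖x‖ ≤ s0}) + Fintype.card ρ := by
  let pA : EuclideanSpace ℝ (A ⊕ ρ) →ₗ[ℝ] (A → ℝ) :=
    Φ.toLinearMap ∘ₗ LinearMap.fst ℝ _ _ ∘ₗ Θ.symm.toLinearMap
  have hp : ∀ p, pA (Θ p) = Φ p.1 := fun p => by simp [pA]
  have htop : (Submodule.span ℝ {x | x ∈ lat Θ ∧ ‖x‖ ≤ s0}).map pA = ⊤ := by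
    by_contra hne
    obtain ⟨φ, hφ0, hφ⟩ := Submodule.exists_le_ker_of_lt_top _ (lt_top_iff_ne_top.2 hne)
    refine hφ0 (fn_zero φ hσ fun s hs => ?_)
    obtain ⟨c, hc⟩ := hden s hs
    refine ⟨_, hc, ?_⟩
    obtain ⟨t, t1, t2, μ, hμ⟩ := dirich (γ (cz c)) Q hQ
    have e : cz ((t : ℤ) • c) = (t : ℝ) • cz c := by funext v; simp [cz]
    have t0 : (0 : ℝ) < t := by exact_mod_cast t1
    have t3 : (t : ℝ) ≤ (Q : ℝ) ^ Fintype.card ρ := by exact_mod_cast t2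
    have hm : pA (Θ (cz ((t : ℤ) • c), cz μ)) ∈ LinearMap.ker φ := by
      refine hφ (Submodule.mem_map_of_mem (Submodule.subset_span ⟨⟨_, _, rfl⟩, ?_⟩))
      refine (th_le h1 h2 hD (by positivity) _ (fun v => ?_) fun r => ?_).trans hs2
      · simp only [e, map_smul, Pi.smul_apply, smul_eq_mul, abs_mul, abs_of_pos t0]
        refine le_trans (mul_le_mul t3 ?_ (abs_nonneg _) (by positivity)) hs1
        have k1 := abs_le.1 (hc v)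
        have k2 := abs_le.1 (hs v)
        rw [abs_le]
        constructor <;> nlinarith [k1.1, k1.2, k2.1, k2.2]
      · simp only [e, map_smul, Pi.smul_apply, smul_eq_mul]
        exact hμ r
    rw [hp, LinearMap.mem_ker] at hm
    simp only [e, map_smul, smul_eq_mul] at hm
    exact (mul_eq_zero.1 hm).resolve_left t0.ne'
  have k := Submodule.finrank_map_le pA (Submodule.span ℝ {x | x ∈ lat Θ ∧ ‖x‖ ≤ s0})
  rw [htop, finrank_top, Module.finrank_fintype_fun_eq_card] at k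
  rw [finrank_euclideanSpace, Fintype.card_sum]
  omega

end

theorem lattw {V : Type} [SeminormedAddCommGroup V] [NormedSpace ℝ V]
    (Φ : (A → ℝ) ≃ₗ[ℝ] (A → ℝ)) (γ : (A → ℝ) →ₗ[ℝ] (ρ → ℝ)) (σ η H Hs D B Kb : ℝ) (m Q : ℕ)
    (hm : 1 ≤ m) (hQ : 1 ≤ Q) (hσ : 0 < σ) (hη : 0 < η)
    (hD : (Fintype.card A : ℝ) + Fintype.card ρ + 1 ≤ D) (hB : 2 * m * D ^ 2 ≤ B)
    (hs1 : (Q : ℝ) ^ Fintype.card ρ * (5 * σ) ≤ 1 / Q)
    (hs2 : D * (1 / Q) ≤ η / B ^ (Fintype.card ρ + 1))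
    (hK : 2 ^ (Fintype.card ρ ^ 2 + 1) * B ^ Fintype.card ρ / η ≤ Kb)
    (hfin : ∀ R : ℝ, {c : A → ℤ | ∀ v, |Φ (cz c) v| ≤ R}.Finite)
    (hden : ∀ s : A → ℝ, (∀ v, |s v| ≤ 1) → ∃ c : A → ℤ, ∀ v, |Φ (cz c) v - 3 * σ * s v| ≤ 2 * σ)
    (I : AddSubgroup V) (L : (A → ℝ) →ₗ[ℝ] V) (Δ : (ρ → ℝ) →ₗ[ℝ] V) (hH0 : 0 ≤ H)
    (hU : ∀ x ∈ I, ‖x‖ ≤ Hs → x = 0) (hH : 3 * (m : ℝ) ^ 3 * H ≤ Hs)
    (hL : ∀ (c : A → ℤ) (μ : ρ → ℤ), (∀ v, |Φ (cz c) v| ≤ η) → (∀ r, |μ r - γ (cz c) r| ≤ η) →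
      ∃ t : ℕ, 1 ≤ t ∧ t ≤ m ∧ ∃ x ∈ I, ‖(t : ℝ) • (L (cz c) + Δ (cz μ)) - x‖ ≤ H) :
    ∃ (n : ℕ) (K : ρ → ρ → ℤ), 1 ≤ n ∧ n ≤ m ∧ (∀ s r, |(K s r : ℝ)| ≤ Kb * D) ∧
      (∀ s, ∃ w : A → ℤ, ∀ y : A → ℝ, (∀ v, |Φ y v| ≤ 2) →
        |∑ r, K s r * γ y r + ∑ v, w v * y v| ≤ Kb * (D * 2)) ∧
      ∀ ζ : ρ → ℤ, (∀ s, ∑ r, K s r * ζ r = 0) →
        ∃ x ∈ I, ‖(n : ℝ) • Δ (cz ζ) - x‖ ≤ n * (H * Kb * (D * ∑ r, |(ζ r : ℝ)|)) := by
  obtain ⟨Θ, h1, h2⟩ : ∃ Θ : ((A → ℝ) × (ρ → ℝ)) ≃ₗ[ℝ] EuclideanSpace ℝ (A ⊕ ρ),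
      (∀ p v, Θ p (Sum.inl v) = Φ p.1 v) ∧ ∀ p r, Θ p (Sum.inr r) = p.2 r - γ p.1 r :=
    ⟨(Φ.skewProd (LinearEquiv.refl ℝ _) (-γ)).trans
      ((LinearEquiv.sumArrowLequivProdArrow A ρ ℝ ℝ).symm.trans (WithLp.linearEquiv 2 ℝ _).symm),
      fun _ _ => rfl, fun p r => by simp [sub_eq_add_neg]⟩
  have a0 : (0 : ℝ) ≤ Fintype.card A := Nat.cast_nonneg _
  have r0 : (0 : ℝ) ≤ Fintype.card ρ := Nat.cast_nonneg _
  have hD1 : 1 ≤ D := by linarith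
  have hm' : (1 : ℝ) ≤ m := by exact_mod_cast hm
  have hfr : (Module.finrank ℝ (EuclideanSpace ℝ (A ⊕ ρ)) : ℝ) ≤ D := by
    rw [finrank_euclideanSpace, Fintype.card_sum]; push_cast; linarith
  have hB2 : 2 * D ≤ B := by nlinarith
  obtain ⟨b, k, hb, k1, k2, k3⟩ := H21.gaplv (V := V) (lat Θ) (lat_fin h1 h2 hfin) lat_sp
    (Fintype.card ρ) m η B hη (by linarith) hm (by linarith)
    (le_trans (by gcongr) hB) (lat_sm h1 h2 hσ hQ hD hs1 hs2 hden)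
  have hK0 : 0 ≤ 2 ^ (Fintype.card ρ ^ 2 + 1) * B ^ Fintype.card ρ / η := by
    have : 0 < B := by linarith
    positivity
  obtain ⟨k', j1, j2, j3⟩ : ∃ k' : ρ → EuclideanSpace ℝ (A ⊕ ρ) →ₗ[ℝ] ℝ,
      (∀ s, ∀ x ∈ lat Θ, ∃ n : ℤ, k' s x = n) ∧ (∀ s x, |k' s x| ≤ Kb * ‖x‖) ∧
      ∀ x, (∀ s, k' s x = 0) → ∀ i, k i x = 0 := by
    refine ⟨fun s => if h : (Fintype.equivFin ρ s : ℕ) < b then k ⟨_, h⟩ else 0, fun s x hx => ?_,
      fun s x => ?_, fun x hx i => ?_⟩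
    · dsimp only
      split_ifs
      · exact k1 _ x hx
      · exact ⟨0, by simp⟩
    · dsimp only
      split_ifs
      · exact (k2 _ x).trans (mul_le_mul_of_nonneg_right hK (norm_nonneg _))
      · simpa using mul_nonneg (hK0.trans hK) (norm_nonneg x)
    · have := hx ((Fintype.equivFin ρ).symm ⟨i, i.2.trans_le hb⟩)
      simpa using this
  choose K hKe using fun s r => j1 s _ ⟨0, Pi.single r 1, rfl⟩
  choose w hw using fun s v => j1 s _ ⟨Pi.single v 1, 0, rfl⟩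
  simp only [cz_single, cz_0] at hKe hw
  have eR : ∀ s (t : ρ → ℝ), k' s (Θ (0, t)) = ∑ r, K s r * t r := fun s t => by
    have := lin_exp (k' s ∘ₗ Θ.toLinearMap ∘ₗ LinearMap.inr ℝ _ _) t
    simpa [hKe, mul_comm] using this
  have eA : ∀ s (y : A → ℝ), k' s (Θ (y, 0)) = ∑ v, w s v * y v := fun s y => by
    have := lin_exp (k' s ∘ₗ Θ.toLinearMap ∘ₗ LinearMap.inl ℝ _ _) y
    simpa [hw, mul_comm] using this
  have hKb := hK0.trans hK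
  obtain ⟨n, n1, n2, n3⟩ := k3 I ((L.coprod Δ) ∘ₗ Θ.symm.toLinearMap) H Hs hH0 hU hH (by
    rintro _ ⟨c, μ, rfl⟩ hx
    have := hL c μ (fun v => by have := (hap _ (Sum.inl v)).trans hx; rwa [h1] at this)
      (fun r => by have := (hap _ (Sum.inr r)).trans hx; rwa [h2] at this)
    simpa using this)
  refine ⟨n, K, n1, n2, fun s r => ?_, fun s => ⟨w s, fun y hy => ?_⟩, fun ζ hζ => ?_⟩
  · rw [← hKe]
    refine (j2 s _).trans (mul_le_mul_of_nonneg_left ?_ hKb)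
    have := th_le h1 h2 hD zero_le_one (0, Pi.single r 1) (by simp) (fun r' => by
      by_cases h : r' = r <;> simp [h])
    simpa using this
  · rw [← eR, ← eA, ← map_add, ← map_add]
    refine (j2 s _).trans (mul_le_mul_of_nonneg_left ?_ hKb)
    exact th_le h1 h2 hD zero_le_two _ (by simpa using hy) (by simp)
  · obtain ⟨x, hx, hx'⟩ := n3 (Θ (cz 0, cz ζ)) ⟨0, ζ, rfl⟩ (j3 _ fun s => by
      rw [cz_0, eR]
      have := congrArg (Int.cast : ℤ → ℝ) (hζ s)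
      simpa [cz] using this)
    refine ⟨x, hx, le_trans (by simpa [cz_0] using hx') (mul_le_mul_of_nonneg_left ?_ (Nat.cast_nonneg _))⟩
    have s0 : 0 ≤ ∑ r, |(ζ r : ℝ)| := sum_nonneg fun _ _ => abs_nonneg _
    have e1 := th_le h1 h2 hD s0 (0, cz ζ) (by simpa using fun _ => s0) (fun r => by
      simpa [cz] using single_le_sum (f := fun r => |(ζ r : ℝ)|) (fun _ _ => abs_nonneg _) (mem_univ r))
    refine mul_le_mul ?_ e1 (norm_nonneg _) (mul_nonneg hH0 hKb)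
    have : 0 < B := by linarith
    calc 2 * H * B ^ Fintype.card ρ / η = H * (2 ^ 1 * B ^ Fintype.card ρ / η) := by ring
      _ ≤ H * (2 ^ (Fintype.card ρ ^ 2 + 1) * B ^ Fintype.card ρ / η) := by
        gcongr
        · norm_num
        · omega
      _ ≤ _ := mul_le_mul_of_nonneg_left hK hH0

end

end Vale.Agent.P057T.Gk.H82
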