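import Vale.Agent.P057T.Gk.Zer
import Vale.Agent.P057T.Gk.Bas3
import Vale.Agent.P057T.GapH21
import Vale.Agent.P057T.LvH29

/-! A linear map that is nearly integral on a dense part of a box of one fibre. -/

set_option linter.all false

open Finset

namespace Vale.Agent.P057T.Gk.H29

open TT ZeP

noncomputable section

section Core
open Submodule Module
variable {E V : Type} [NormedAddCommGroup E] [InnerProductSpace ℝ E] [FiniteDimensional ℝ E]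
  [SeminormedAddCommGroup V] [NormedSpace ℝ V]

/-- a short basis from the covering radius near zero -/
theorem sbas (Λ : Submodule ℤ E) (hfin : ∀ R : ℝ, Set.Finite {x | x ∈ Λ ∧ ‖x‖ ≤ R}) {ρ : ℝ}
    (hρ : 0 < ρ) (hcov : ∀ x, ‖x‖ ≤ ρ → ∃ v ∈ Λ, ‖x - v‖ < ρ) :
    ∃ g : Basis (Fin (finrank ℝ E)) ℝ E, (∀ i, g i ∈ Λ) ∧ (∀ i, ‖g i‖ ≤ finrank ℝ E * (2 * ρ)) ∧
      ∀ x ∈ Λ, ∃ c, x = Lv.pt g c := by
  have htop : span ℝ {x | x ∈ Λ ∧ ‖x‖ ≤ 2 * ρ} = ⊤ := by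
    rw [← Submodule.orthogonal_eq_bot_iff, eq_bot_iff]
    intro u hu
    rw [mem_bot]
    by_contra h0
    have hn : 0 < ‖u‖ := norm_pos_iff.2 h0
    have h1 : ‖(ρ / ‖u‖) • u‖ = ρ := by
      rw [norm_smul, Real.norm_eq_abs, abs_of_pos (div_pos hρ hn), div_mul_cancel₀ _ hn.ne']
    obtain ⟨v, hv, h2⟩ := hcov ((ρ / ‖u‖) • u) h1.le
    have h3 : ‖v‖ ≤ 2 * ρ := by
      have := norm_sub_norm_le v ((ρ / ‖u‖) • u)
      rw [norm_sub_rev] at this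
      linarith
    have h4 : inner ℝ ((ρ / ‖u‖) • u) v = 0 :=
      (Submodule.mem_orthogonal' _ _).1 (smul_mem _ _ hu) v (subset_span ⟨hv, h3⟩)
    have h5 := norm_sub_sq_real ((ρ / ‖u‖) • u) v
    rw [h4, h1] at h5
    nlinarith [norm_nonneg ((ρ / ‖u‖) • u - v), sq_nonneg ‖v‖]
  obtain ⟨v, hv1, hv2, hv3⟩ :=
    Submodule.exists_fun_fin_finrank_span_eq ℝ {x | x ∈ Λ ∧ ‖x‖ ≤ 2 * ρ}
  obtain ⟨e, he1, -, he3, -, he5⟩ := H21.tri Λ hfin _ v hv3 fun i => (hv1 i).1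
  have he6 : ∀ x ∈ Λ, x ∈ span ℤ (Set.range e) := fun x hx => he5 x hx (by rw [hv2, htop]; exact mem_top)
  have he7 : ∀ i, ‖e i‖ ≤ finrank ℝ (span ℝ {x | x ∈ Λ ∧ ‖x‖ ≤ 2 * ρ}) * (2 * ρ) := fun i =>
    (he3 i).trans (by
      calc ∑ l, ‖v l‖ ≤ ∑ _l : Fin _, 2 * ρ := Finset.sum_le_sum fun l _ => (hv1 l).2
        _ = _ := by simp)
  have ha : finrank ℝ (span ℝ {x | x ∈ Λ ∧ ‖x‖ ≤ 2 * ρ}) = finrank ℝ E := by rw [htop, finrank_top]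
  clear he3 he5 hv1 hv2 hv3 v
  generalize finrank ℝ (span ℝ {x | x ∈ Λ ∧ ‖x‖ ≤ 2 * ρ}) = a at e he1 he6 he7 ha
  subst ha
  have hsp : ⊤ ≤ span ℝ (Set.range e) := by
    rw [← htop, span_le]
    exact fun x hx => span_subset_span ℤ ℝ _ (he6 x hx.1)
  refine ⟨basisOfTopLeSpanOfCardEqFinrank e hsp (by simp), ?_, ?_, fun x hx => ?_⟩
  · simpa using he1
  · simpa using he7
  · obtain ⟨c, hc⟩ := (mem_span_range_iff_exists_fun ℤ).1 (he6 x hx)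
    refine ⟨c, ?_⟩
    rw [← hc, Lv.pt, coe_basisOfTopLeSpanOfCardEqFinrank]
    exact sum_congr rfl fun i _ => (Int.cast_smul_eq_zsmul ℝ _ _).symm

theorem core (Λ : Submodule ℤ E) (hfin : ∀ R : ℝ, Set.Finite {x | x ∈ Λ ∧ ‖x‖ ≤ R}) {ρ : ℝ}
    (hρ : 0 < ρ) (hcov : ∀ x, ‖x‖ ≤ ρ → ∃ v ∈ Λ, ‖x - v‖ < ρ) (I : AddSubgroup V)
    (L : E →ₗ[ℝ] V) {H Hs r2 N : ℝ} {m : ℕ} (hm : 1 ≤ m) (hr2 : 0 < r2)
    (hN : (finrank ℝ E : ℝ) ≤ N) (hU : ∀ x ∈ I, ‖x‖ ≤ Hs → x = 0) (hH : 3 * (m : ℝ) ^ 3 * H ≤ Hs)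
    (hr : 4 * m * N ^ 2 * ρ ≤ r2)
    (hL : ∀ x ∈ Λ, ‖x‖ ≤ r2 → ∃ t : ℕ, 1 ≤ t ∧ t ≤ m ∧ ∃ y ∈ I, ‖(t : ℝ) • L x - y‖ ≤ H) :
    ∃ (io : E →ₗ[ℝ] V) (n : ℕ), 1 ≤ n ∧ n ≤ m ∧ (∀ x ∈ Λ, (n : ℝ) • io x ∈ I) ∧
      ∀ y, ‖L y - io y‖ ≤ 2 * H / r2 * ‖y‖ := by
  obtain ⟨g, g1, g2, g3⟩ := sbas Λ hfin hρ hcov
  have m1 : (1 : ℝ) ≤ m := by exact_mod_cast hm
  have D0 : (0 : ℝ) ≤ finrank ℝ E := Nat.cast_nonneg _
  have h1 : (finrank ℝ E : ℝ) * finrank ℝ E * ρ ≤ N ^ 2 * ρ :=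
    mul_le_mul_of_nonneg_right (by nlinarith) hρ.le
  have h2 : 0 ≤ (finrank ℝ E : ℝ) * finrank ℝ E * ρ := by positivity
  have h3 := mul_le_mul_of_nonneg_left h1 (by linarith : (0 : ℝ) ≤ m)
  have h4 := mul_le_mul_of_nonneg_right m1 h2
  obtain ⟨io, n, n1, n2, n3, n4⟩ := Lv.lochom g I L H Hs r2 _ m hm hr2 hU hH g2
    (by rw [Fintype.card_fin]; nlinarith) (by rw [Fintype.card_fin]; nlinarith)
    fun c hc => hL _ (Λ.sum_mem fun j _ => by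
      rw [Int.cast_smul_eq_zsmul]; exact Λ.smul_mem _ (g1 j)) hc
  refine ⟨io, n, n1, n2, fun x hx => ?_, n4⟩
  obtain ⟨c, rfl⟩ := g3 x hx
  exact n3 c

end Core

variable {α ι : Type} [Fintype α] [DecidableEq α] [Fintype ι] [DecidableEq ι] {T : TT α ι}
  {S0 S : Finset α} {e : α} {b : ι → ℤ}

/-- the chart of the fibre is linear -/
theorem chart (hT : T.Ok) (he : ∀ v ∈ T.fv S0 S, e ∈ T.ty v) (b : ι → ℤ) :
    ∃ (Φ : (ι → ℝ) →ₗ[ℝ] EuclideanSpace ℝ (T.fv S0 S))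
      (Ψ : EuclideanSpace ℝ (T.fv S0 S) →ₗ[ℝ] (ι → ℝ)),
      (∀ h : ι → ℝ, (∀ v, v ∉ T.fv S0 S → h v = 0) → Ψ (Φ h) = h) ∧
      ∀ z h : ι → ℝ, (∀ v, T.ty v ⊆ S0 → z v = b v) → (∀ v, v ∉ T.fv S0 S → h v = 0) →
        ∀ j : T.fv S0 S, T.u (z + h) j = T.u z j + Φ h j := by
  choose M hM using fun v => (hT.fu v).2 e (mem_univ e) (cz b)
  let Φ : (ι → ℝ) →ₗ[ℝ] EuclideanSpace ℝ (T.fv S0 S) :=
    (WithLp.linearEquiv 2 ℝ (T.fv S0 S → ℝ)).symm.toLinearMap ∘ₗ LinearMap.pi fun j => M j.1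
  have hΦ : ∀ h j, Φ h j = M j.1 h := fun _ _ => rfl
  have k0 : ∀ h : ι → ℝ, (∀ v, v ∉ T.fv S0 S → h v = 0) → ∀ v, e ∉ T.ty v → h v = 0 :=
    fun h hh v hv => hh v fun k => hv (he v k)
  have k1 : ∀ z h : ι → ℝ, (∀ v, T.ty v ⊆ S0 → z v = b v) → (∀ v, v ∉ T.fv S0 S → h v = 0) →
      ∀ j : T.fv S0 S, T.u (z + h) j = T.u z j + Φ h j := by
    intro z h hz hh j
    let k : ι → ℝ := fun v => if v ∈ T.fv S0 S then z v - b v else 0
    have hk : ∀ v, v ∉ T.fv S0 S → k v = 0 := fun v hv => if_neg hv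
    have a1 : T.Ag S z (cz b + k) := fun v hv => by
      show z v = b v + if v ∈ T.fv S0 S then z v - b v else 0
      split_ifs with h1
      · ring
      · rw [add_zero, hz v (sub_of hv h1)]
    have a2 : T.Ag S (z + h) (cz b + (k + h)) := fun v hv => by
      rw [← add_assoc, Pi.add_apply, Pi.add_apply (cz b + k), a1 v hv]
    have e1 := hM j.1 k (k0 k hk)
    have e2 := hM j.1 (k + h) (k0 _ fun v hv => by rw [Pi.add_apply, hk v hv, hh v hv, add_zero])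
    dsimp only at e1 e2
    rw [hT.u_ag a1 (mem_fv.1 j.2).1, hT.u_ag a2 (mem_fv.1 j.2).1, e1, e2, map_add, hΦ, add_assoc]
  let X : (T.fv S0 S → ℝ) →ₗ[ℝ] (ι → ℝ) :=
    LinearMap.pi fun v => if h : v ∈ T.fv S0 S then LinearMap.proj ⟨v, h⟩ else 0
  have X0 : ∀ y v, v ∉ T.fv S0 S → X y v = 0 := fun y v hv => by simp [X, hv]
  have X1 : ∀ y (j : T.fv S0 S), X y j = y j := fun y j => by simp [X, j.2]
  have inj : Function.Injective (Φ ∘ₗ X) := by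
    rw [injective_iff_map_eq_zero]
    intro y hy
    have a1 : T.Ag S (T.u (cz b + X y)) (T.u (cz b)) := fun v hv => by
      by_cases h1 : v ∈ T.fv S0 S
      · have h2 := k1 (cz b) (X y) (fun _ _ => rfl) (X0 y) ⟨v, h1⟩
        rw [show Φ (X y) = 0 from hy] at h2
        simpa using h2
      · exact hT.u_ag (S := S0) (fun w hw => by
          rw [Pi.add_apply, X0 y w fun k => (mem_fv.1 k).2 hw, add_zero]) (sub_of hv h1)
    funext j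
    have h3 := hT.ψ_ag a1 (mem_fv.1 j.2).1
    rw [hT.l, hT.l, Pi.add_apply, X1] at h3
    simpa using h3
  let Q := LinearMap.linearEquivOfInjective _ inj (by simp)
  refine ⟨Φ, X ∘ₗ Q.symm.toLinearMap, fun h hh => ?_, k1⟩
  have h1 : X (fun j => h j) = h := funext fun v => by
    by_cases k : v ∈ T.fv S0 S
    · exact X1 _ ⟨v, k⟩
    · rw [X0 _ v k, hh v k]
  have h2 : Φ h = Q fun j => h j := by
    show _ = Φ (X _)
    rw [h1]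
  rw [h2]
  show X (Q.symm (Q _)) = h
  rw [Q.symm_apply_apply, h1]

theorem pow_le3 {x : ℝ} {D : ℕ} (hx : 0 ≤ x) (h : D * x ≤ 1) : (1 + x) ^ D ≤ 3 := by
  have h1 : (1 + x) ^ D ≤ Real.exp x ^ D :=
    pow_le_pow_left₀ (by linarith) (by linarith [Real.add_one_le_exp x]) D
  rw [← Real.exp_nat_mul] at h1
  exact h1.trans ((Real.exp_le_exp.2 h).trans (by linarith [Real.exp_one_lt_d9]))

/-- shifted points of the fibre -/
theorem shift (hT : T.Ok) {cen : ι → ℝ} {r r' : ℝ} (hc : ∀ v, |cen v| + r' ≤ 20) {y h : ι → ℤ}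
    (hy : y ∈ T.fbx S0 S b cen fun _ => r) (hh : ∀ v, v ∉ T.fv S0 S → h v = 0)
    (hu : ∀ v ∈ T.fv S0 S, |T.u (cz (y + h)) v - cen v| ≤ r') :
    y + h ∈ T.fbx S0 S b cen fun _ => r' := by
  obtain ⟨y1, y2, -⟩ := mem_fbx.1 hy
  rw [mem_pts hT] at y1
  have a0 : T.Ag S0 (y + h) y := fun v hv => by
    rw [Pi.add_apply, hh v fun k => (mem_fv.1 k).2 hv, add_zero]
  refine mem_fbx.2 ⟨(mem_pts hT).2 ⟨fun v hv => ?_, fun v hv => ?_⟩, a0.trans y2, hu⟩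
  · rw [Pi.add_apply, y1.1 v hv, hh v fun k => hv (mem_fv.1 k).1, add_zero]
  · by_cases k : v ∈ T.fv S0 S
    · have := abs_sub_abs_le_abs_sub (T.u (cz (y + h)) v) (cen v)
      linarith [hu v k, hc v]
    · rw [hT.u_ag a0.cz (sub_of hv k)]
      exact y1.2 v hv

/-- a short vector has a small multiple that is a difference of two points of a dense set -/
theorem meet (hT : T.Ok) {σ lam δ r2 : ℝ} (σ1 : σ ≤ 1) (hσ : σ ≤ lam) (l0 : 0 < lam) (l1 : lam ≤ 1)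
    (hE : T.Eq S0 S b σ) {cen : ι → ℝ} (hc : ∀ v, |cen v| ≤ 3) {Sb : Finset (ι → ℤ)}
    (hS : Sb ⊆ T.fbx S0 S b cen fun _ => lam)
    (hδ : δ * (T.vol S0 S * ∏ v ∈ T.fv S0 S, lam) ≤ Sb.card) {m : ℕ} (hm : 6 ≤ m * δ) (r0 : 0 ≤ r2)
    (hr : ((Fintype.card ι : ℝ) + 1) * (m * r2) ≤ lam) {h : ι → ℤ}
    (hh : ∀ v, v ∉ T.fv S0 S → h v = 0)
    (hu : ∀ y ∈ Sb, ∀ t : ℕ, ∀ v ∈ T.fv S0 S,
      |T.u (cz (y + (t : ℤ) • h)) v - T.u (cz y) v| ≤ t * r2) :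
    ∃ t : ℕ, 1 ≤ t ∧ t ≤ m ∧ ∃ y ∈ Sb, y + (t : ℤ) • h ∈ Sb := by
  have N0 : (0 : ℝ) ≤ Fintype.card ι := Nat.cast_nonneg _
  have m0 : (0 : ℝ) ≤ m := Nat.cast_nonneg _
  have x0 : 0 ≤ m * r2 := mul_nonneg m0 r0
  have x1 : m * r2 ≤ lam := by nlinarith
  have hB : Bx σ cen fun _ => lam + m * r2 := fun v => ⟨by linarith, by linarith [hc v]⟩
  have V0 := vol_pos hT S0 S
  have P0 : 0 < ∏ v ∈ T.fv S0 S, lam := prod_pos fun _ _ => l0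
  have h1 : ∏ v ∈ T.fv S0 S, (lam + m * r2) ≤ 3 * ∏ v ∈ T.fv S0 S, lam := by
    rw [prod_const, prod_const, show lam + m * r2 = (1 + m * r2 / lam) * lam by field_simp, mul_pow]
    refine mul_le_mul_of_nonneg_right (pow_le3 (by positivity) ?_) (by positivity)
    rw [← mul_div_assoc, div_le_one l0]
    have : ((T.fv S0 S).card : ℝ) ≤ Fintype.card ι := by exact_mod_cast card_le_univ _
    nlinarith
  have h2 : ((T.fbx S0 S b cen fun _ => lam + m * r2).card : ℝ) ≤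
      6 * (T.vol S0 S * ∏ v ∈ T.fv S0 S, lam) := by
    have h3 := (abs_le.1 (hE _ _ hB)).2
    have h4 := mul_le_mul_of_nonneg_left h1 V0.le
    have h5 := mul_le_mul_of_nonneg_right σ1
      (mul_pos V0 (prod_pos fun v (_ : v ∈ T.fv S0 S) => (by linarith : 0 < lam + m * r2))).le
    linarith
  have δ0 : 0 < δ := by
    by_contra k
    nlinarith [not_lt.1 k]
  have h3 : (T.fbx S0 S b cen fun _ => lam + m * r2).card < (range (m + 1) ×ˢ Sb).card := by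
    rw [card_product, card_range, ← Nat.cast_lt (α := ℝ)]
    push_cast
    have h4 := mul_le_mul_of_nonneg_left hδ (by linarith : (0 : ℝ) ≤ m + 1)
    have h5 := mul_le_mul_of_nonneg_right hm (mul_pos V0 P0).le
    have h6 := mul_pos δ0 (mul_pos V0 P0)
    nlinarith
  obtain ⟨p, hp, q, hq, hne, heq⟩ := exists_ne_map_eq_of_card_lt_of_maps_to h3
    (f := fun p : ℕ × (ι → ℤ) => p.2 + (p.1 : ℤ) • h) (fun p hp => by
      obtain ⟨p1, p2⟩ := mem_product.1 (mem_coe.1 hp)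
      refine mem_coe.2 (shift hT (fun v => by linarith [hc v]) (hS p2)
        (fun v hv => by rw [Pi.smul_apply, hh v hv, smul_zero]) fun v hv => ?_)
      have a1 := hu _ p2 p.1 v hv
      have a2 := (mem_fbx.1 (hS p2)).2.2 v hv
      have a3 : (p.1 : ℝ) * r2 ≤ m * r2 :=
        mul_le_mul_of_nonneg_right (by exact_mod_cast Nat.lt_succ_iff.1 (mem_range.1 p1)) r0
      have a4 := abs_sub_le (T.u (cz (p.2 + (p.1 : ℤ) • h)) v) (T.u (cz p.2) v) (cen v)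
      linarith)
  have key : ∀ p q : ℕ × (ι → ℤ), p ∈ range (m + 1) ×ˢ Sb → q ∈ range (m + 1) ×ˢ Sb → q.1 < p.1 →
      p.2 + (p.1 : ℤ) • h = q.2 + (q.1 : ℤ) • h →
      ∃ t : ℕ, 1 ≤ t ∧ t ≤ m ∧ ∃ y ∈ Sb, y + (t : ℤ) • h ∈ Sb := by
    intro p q hp hq hlt heq
    have p1 := mem_range.1 (mem_product.1 hp).1
    refine ⟨p.1 - q.1, by omega, by omega, p.2, (mem_product.1 hp).2, ?_⟩
    rw [Nat.cast_sub hlt.le, sub_smul, ← add_sub_assoc, heq, add_sub_cancel_right]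
    exact (mem_product.1 hq).2
  rcases lt_trichotomy q.1 p.1 with k | k | k
  · exact key p q hp hq k heq
  · refine absurd (Prod.ext k.symm ?_) hne
    rw [k] at heq
    exact add_right_cancel heq
  · exact key q p hq hp k heq.symm

end

end Vale.Agent.P057T.Gk.H29
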