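import Vale.Agent.P057T.Gk.FrxA0

/-! Row FRX1: metric Freiman in every fibre, one global window. -/

set_option linter.all false

open Finset

namespace Vale.Agent.P057T.Gk

open TT Frx

noncomputable section

namespace FrxA

variable {α ι κ : Type} [Fintype α] [DecidableEq α] [Fintype ι] [DecidableEq ι] [Fintype κ]
  {T : TT α ι} {B : Finset α} {i : α} {m : ℕ} {cen : T.CV i (Fin 2) → ℝ}

theorem mo1 (hT : T.Ok) {S : Finset α} {σ : ℝ} (s1 : σ ≤ 1) {p : (ι → ℤ) → Prop} (h : T.Mo S σ p)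
    (W : Finset (ι → ℤ)) (hW : ∀ z ∈ W, z ∈ T.pts S 1 ∧ ¬ p z) : (W.card : ℝ) ≤ σ * T.vol ∅ S := by
  have h1 := h _ _ (bx01 s1)
  rw [prod_const_one, mul_one] at h1
  refine le_trans ?_ h1
  exact_mod_cast card_le_card fun z hz => by
    simp only [mem_filter]
    exact ⟨mem_fbx01 hT (hW z hz).1 (ag_empty hT _ _), (hW z hz).2⟩

theorem prune1 (hT : T.Ok) (hm : 1 ≤ m) (hi : i ∈ B) (hc : T.Cen i m cen) {S' : Finset α} {c : α}
    (hS : B.erase i ⊆ S') (hcS : c ∈ S') (hcB : c ∉ B.erase i) {σ σ' Y : ℝ} (hN : T.N0 σ)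
    (hQ : (T.qt i m cen).N0 σ') (hY : 0 ≤ Y) (s1 : σ ≤ Real.exp (-(Y + 4)))
    (s2 : σ' ≤ Real.exp (-(Y + 2))) {E : Finset (T.CV i (Fin 2) → ℤ)}
    (hE : (T.qt i m cen).Dn (B.disjSum {0}) E Y) :
    ∃ E1 ⊆ E, (T.qt i m cen).Dn (B.disjSum {0}) E1 (Y + 2) ∧ ∀ Z ∈ E1,
      T.Eq (B.erase i) B (T.res (B.erase i) (T.bs i Z)) σ ∧
      T.Zr (B.erase i) S' c (T.res (B.erase i) (T.bs i Z)) σ⁻¹ := by
  classical
  have s3 : σ ≤ 1 := s1.trans (Real.exp_le_one_iff.2 (by linarith))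
  have key : ∀ W : Finset (ι → ℤ), (∀ y ∈ W, y ∈ T.pts (B.erase i) 1 ∧
      ¬ (T.Eq (B.erase i) B y σ ∧ T.Zr (B.erase i) S' c y σ⁻¹)) →
      (W.card : ℝ) ≤ 2 * Real.exp (-(Y + 4)) * (T.qt i m cen).vol ∅ ((B.erase i).disjSum ∅) := by
    intro W hW
    have h1 := mo1 hT s3 (hN.1.2 B (B.erase i) i hi subset_rfl)
      (W.filter fun y => ¬ T.Eq (B.erase i) B y σ) fun z hz =>
        ⟨(hW z (mem_filter.1 hz).1).1, (mem_filter.1 hz).2⟩
    have h2 := mo1 hT s3 (hN.2.2 _ S' (B.erase i) c hS subset_rfl hcS hcB)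
      (W.filter fun y => ¬ ¬ T.Eq (B.erase i) B y σ) fun z hz =>
        ⟨(hW z (mem_filter.1 hz).1).1, fun h => (hW z (mem_filter.1 hz).1).2
          ⟨not_not.1 (mem_filter.1 hz).2, h⟩⟩
    have h3 := card_filter_add_card_filter_not (s := W) fun y => ¬ T.Eq (B.erase i) B y σ
    have h4 := mul_le_mul_of_nonneg_right s1 (vol_pos hT ∅ (B.erase i)).le
    rw [vol_qt, volW0, ← h3]
    push_cast
    linarith
  have h5 := Dn.prune (ok_qt hT hm) hQ hY s2 (S0 := (B.erase i).disjSum ∅)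
    (disjSum_mono (erase_subset i B) (empty_subset _)) (fun Z => T.res (B.erase i) (T.bs i Z)) hE
    (fun z _ z' _ e => ag_of_bs ((ag_res _ _).symm.trans (by
      have e2 : T.res (B.erase i) (T.bs i z) = T.res (B.erase i) (T.bs i z') := e
      rw [e2]
      exact ag_res _ _)))
    (fun Z => T.Eq (B.erase i) B (T.res (B.erase i) (T.bs i Z)) σ ∧
      T.Zr (B.erase i) S' c (T.res (B.erase i) (T.bs i Z)) σ⁻¹) (key _ fun y hy => by
      simp only [mem_image, mem_filter] at hy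
      obtain ⟨Z, ⟨hZ, h6⟩, rfl⟩ := hy
      exact ⟨res_mem hT (ptQ hT hm hi hc (hE.1 hZ)).b1 (erase_subset i B), h6⟩)
  refine ⟨_, fun Z hZ => ?_, h5, fun Z hZ => ?_⟩
  · simp only [mem_filter] at hZ
    exact hZ.1
  · simp only [mem_filter] at hZ
    exact hZ.2

theorem heavy {γ β : Type} [DecidableEq β] (E : Finset γ) (φ : γ → β) (P : Finset β)
    {X v δ : ℝ} (hX : 0 < X) (hv : 0 < v) (hδ : 0 < δ) (hφ : ∀ z ∈ E, φ z ∈ P)
    (hP : (P.card : ℝ) ≤ 2 * v) (hE : 6 * δ * (v * X) ≤ E.card)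
    (h4 : ∀ y, ((E.filter fun z => φ z = y).card : ℝ) ≤ 4 * X) :
    ∃ G : Finset β, δ * v ≤ G.card ∧ ∀ y ∈ G, δ * X ≤ (E.filter fun z => φ z = y).card := by
  classical
  refine ⟨P.filter fun y => δ * X ≤ (E.filter fun z => φ z = y).card, ?_,
    fun y hy => (mem_filter.1 hy).2⟩
  rw [card_eq_sum_card_fiberwise hφ, Nat.cast_sum, ← sum_filter_add_sum_filter_not P
    fun y => δ * X ≤ (E.filter fun z => φ z = y).card] at hE
  have h1 := sum_le_card_nsmul (P.filter fun y => δ * X ≤ (E.filter fun z => φ z = y).card)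
    (fun y => ((E.filter fun z => φ z = y).card : ℝ)) _ fun y _ => h4 y
  have h2 := sum_le_card_nsmul (P.filter fun y => ¬ δ * X ≤ (E.filter fun z => φ z = y).card)
    (fun y => ((E.filter fun z => φ z = y).card : ℝ)) _ fun y hy => (not_le.1 (mem_filter.1 hy).2).le
  have h3 : ((P.filter fun y => ¬ δ * X ≤ (E.filter fun z => φ z = y).card).card : ℝ) ≤ 2 * v :=
    le_trans (by exact_mod_cast card_filter_le _ _) hP
  rw [nsmul_eq_mul] at h1 h2
  have h5 := mul_le_mul_of_nonneg_right h3 (mul_pos hδ hX).le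
  refine le_of_mul_le_mul_right ?_ hX
  linarith

theorem cell {β J : Type} [Fintype J] [DecidableEq J] [Nonempty J] (G : Finset β)
    (f : β → Finset J) {η : ℝ} (h : ∀ y ∈ G, η * Fintype.card J ≤ (f y).card) :
    ∃ j, η * G.card ≤ (G.filter fun y => j ∈ f y).card := by
  have h1 : ∑ _j : J, η * G.card ≤ ∑ j : J, ((G.filter fun y => j ∈ f y).card : ℝ) := by
    have h2 : ∑ j : J, ((G.filter fun y => j ∈ f y).card : ℝ) = ∑ y ∈ G, ((f y).card : ℝ) := by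
      simp only [card_filter, Nat.cast_sum]
      rw [sum_comm]
      refine sum_congr rfl fun y _ => ?_
      rw [← Nat.cast_sum, ← card_filter]
      simp
    have h3 := card_nsmul_le_sum G (fun y => ((f y).card : ℝ)) _ h
    rw [h2, sum_const, card_univ]
    rw [nsmul_eq_mul] at h3 ⊢
    linarith
  obtain ⟨j, -, hj⟩ := exists_le_of_sum_le univ_nonempty h1
  exact ⟨j, hj⟩

theorem cc_le {M : ℕ} (j : Fin M) : |cc j| + 1 / M ≤ 1 := by
  have h0 : (0 : ℝ) < M := by exact_mod_cast j.pos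
  have h1 : ((j : ℕ) : ℝ) + 1 ≤ M := by exact_mod_cast j.2
  have h2 : (0 : ℝ) ≤ ((j : ℕ) : ℝ) := Nat.cast_nonneg _
  have h3 : (1 : ℝ) / M ≤ (2 * ((j : ℕ) : ℝ) + 1) / M := div_le_div_of_nonneg_right (by linarith) h0.le
  have h4 : (2 * ((j : ℕ) : ℝ) + 1) / M + 1 / M ≤ 2 := by
    rw [← add_div, div_le_iff₀ h0]
    linarith
  have h5 : |cc j| ≤ 1 - 1 / M := abs_le.2 ⟨by unfold cc; linarith, by unfold cc; linarith⟩
  linarith

theorem res_self (hT : T.Ok) {b : ι → ℤ} (hb : b ∈ T.pts B 1) : T.res B b = b := by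
  funext v
  unfold res
  split_ifs with h
  · rfl
  · exact (((mem_pts hT).1 hb).1 v h).symm

theorem res_sum (s : Fin 6 → ι → ℤ) : ∑ k, T.res B (s k) = T.res B (∑ k, s k) := by
  funext v
  unfold res
  by_cases h : T.ty v ⊆ B <;> simp [Finset.sum_apply, h]

theorem fin (hT : T.Ok) (hm : 1 ≤ m) (hi : i ∈ B) (hc : T.Cen i m cen) {S S' : Finset α} {c : α}
    {A : (ι → ℤ) → κ → Fn ι} {f C : κ → Fn ι} {E : Finset (T.CV i (Fin 2) → ℤ)}
    {Ω : Finset (ι → ℤ)} {M : ℕ} (hM : 1 ≤ M) {L H Y Y' η : ℝ} (hMY : (M : ℝ) ≤ Real.exp Y')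
    (hE : ∀ Z ∈ E, PQ T B i m cen Z ∧ (T.win i m cen).Pop B Ω (T.bs i Z) Y ∧ ∀ k,
      (T.win i m cen).IB B S c (T.bs i Z) (fun x => f k x - A (T.bs i Z) k x - C k x) (Real.exp Y))
    (j : {v // v ∈ T.fv (B.erase i) B} → Fin M) (G : Finset (ι → ℤ))
    (hG : η * T.vol ∅ (B.erase i) ≤ G.card) (D : (ι → ℤ) → Finset (ι → ℤ))
    (hD : ∀ y ∈ G, Gd T B S' c i m cen A E M L H y j (D y))
    (hη : Real.exp (-Y') ≤ η * Real.exp (-(8000 * (L + 2))) * Real.exp (-Y)) :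
    ∃ T1 Ω1, (T.win i m cen).Sub T1 Y' ∧ Ω1 ⊆ Ω ∧ T1.Dn univ Ω1 Y' ∧
      (∀ z ∈ Ω1, ∀ k, T1.IB B S c z (fun x => f k x - A (T.res B z) k x - C k x) (Real.exp Y)) ∧
      ∀ s t : Fin 6 → ι → ℤ, (∀ j, s j ∈ Ω1 ∧ t j ∈ Ω1) →
        (∀ j, T.Ag (B.erase i) (s j) (s 0) ∧ T.Ag (B.erase i) (t j) (s 0)) →
        T.Ag B (∑ j, s j) (∑ j, t j) → ∀ k, T1.IB (B.erase i) S' c (s 0)
          (fun x => ∑ j, A (T.res B (s j)) k x - ∑ j, A (T.res B (t j)) k x) H := by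
  classical
  have hM0 : (0 : ℝ) < M := by exact_mod_cast hM
  have hm0 : (0 : ℝ) < m := by exact_mod_cast hm
  have r2 : (0 : ℝ) < ((m : ℝ) ^ 3)⁻¹ := by positivity
  have hW := ok_win (cen := cen) hT hm
  obtain ⟨l, hl⟩ : ∃ l : ι → ℝ, l = fun v => if v ∈ T.fv (B.erase i) B then 1 / (M : ℝ) else 1 :=
    ⟨_, rfl⟩
  obtain ⟨ce, hce⟩ : ∃ ce : ι → ℝ, ce = fun v =>
    if h : v ∈ T.fv (B.erase i) B then cc (j ⟨v, h⟩) else 0 := ⟨_, rfl⟩
  have l1 : ∀ v ∈ T.fv (B.erase i) B, l v = 1 / (M : ℝ) := fun v hv => by rw [hl]; exact if_pos hv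
  have l2 : ∀ v, v ∉ T.fv (B.erase i) B → l v = 1 := fun v hv => by rw [hl]; exact if_neg hv
  have l3 : ∀ v (h : v ∈ T.fv (B.erase i) B), ce v = cc (j ⟨v, h⟩) := fun v hv => by
    rw [hce]; exact dif_pos hv
  have l4 : ∀ v, v ∉ T.fv (B.erase i) B → ce v = 0 := fun v hv => by rw [hce]; exact dif_neg hv
  have hM2 : Real.exp (-Y') ≤ 1 / (M : ℝ) := by
    rw [Real.exp_neg, one_div]
    exact inv_anti₀ hM0 hMY
  have hA : Adm l ce Y' := fun v => by
    by_cases h : v ∈ T.fv (B.erase i) B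
    · rw [l1 v h, l3 v h]
      exact ⟨hM2, cc_le _⟩
    · rw [l2 v h, l4 v h]
      exact ⟨hM2.trans ((div_le_one hM0).2 (by exact_mod_cast hM)), by simp⟩
  have hS : (T.win i m cen).Sub ((T.win i m cen).sc l ce) Y' := ⟨l, ce, hA, rfl⟩
  have hS0 := sub_win (T := T) hm (Z := Real.log m) (by rw [Real.exp_log hm0]) hc
  have hT1 := hS.ok hW
  have hb : ∀ z : ι → ℤ, T.res B z ∈ G.biUnion D → T.res (B.erase i) z ∈ G ∧
      T.res B z ∈ D (T.res (B.erase i) z) := fun z hz => by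
    obtain ⟨y, hy, h1⟩ := mem_biUnion.1 hz
    have h2 := ((hD y hy).1 _ h1).2.1
    rw [res_res (erase_subset i B)] at h2
    exact h2 ▸ ⟨hy, h1⟩
  have hO : ∀ z ∈ (Ω.filter fun ω => ω ∈ (T.win i m cen).pts univ 1).filter
      fun z => T.res B z ∈ G.biUnion D, z ∈ Ω ∧ z ∈ (T.win i m cen).pts univ 1 ∧
        T.res (B.erase i) z ∈ G ∧ T.res B z ∈ D (T.res (B.erase i) z) := fun z hz =>
    ⟨(mem_filter.1 (mem_filter.1 hz).1).1, (mem_filter.1 (mem_filter.1 hz).1).2,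
      hb z (mem_filter.1 hz).2⟩
  refine ⟨_, _, hS, fun z hz => (hO z hz).1, ⟨fun z hz => ?_, ?_⟩, fun z hz k => ?_,
    fun s t hst ha hs k => ?_⟩
  · obtain ⟨-, k1, k2, k3⟩ := hO z hz
    refine (mem_pts hT1).2 ⟨fun v hv => absurd (subset_univ _) hv, fun v _ => ?_⟩
    show |((T.win i m cen).u (cz z) v - ce v) / l v| ≤ 1
    by_cases h : v ∈ T.fv (B.erase i) B
    · have k4 := ((hD _ k2).1 _ k3).2.2 ⟨v, h⟩
      rw [hT.u_ag (ag_res B z).cz ((fv_iff hi).1 h).1] at k4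
      have k5 : (T.win i m cen).u (cz z) v = (T.u (cz z) v - cen (Sum.inl v)) / ((m : ℝ) ^ 3)⁻¹ :=
        congrArg (fun t : ℝ => (T.u (cz z) v - cen (Sum.inl v)) / t) (if_pos ((fv_iff hi).1 h).2)
      rw [l1 v h, l3 v h, absd (by positivity), k5, div_sub' r2.ne', abs_div, abs_of_pos r2,
        div_le_iff₀' r2, mul_one_div, sub_sub]
      exact k4
    · rw [l2 v h, l4 v h, sub_zero, div_one]
      exact ((mem_pts hW).1 k1).2 v (subset_univ _)
  · have c1 := dense_fib (T.res B) (Ω.filter fun ω => ω ∈ (T.win i m cen).pts univ 1)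
      (G.biUnion D) (t := Real.exp (-Y) * (T.win i m cen).vol B univ) fun q hq => by
        obtain ⟨y, hy, h1⟩ := mem_biUnion.1 hq
        obtain ⟨Z, hZ, rfl⟩ := ((hD y hy).1 _ h1).1
        refine le_trans (hE Z hZ).2.1 ?_
        exact_mod_cast card_le_card fun z hz => by
          simp only [mem_filter] at hz ⊢
          exact ⟨⟨hz.1, hz.2.1⟩, (res_congr (T := T) hz.2.2).trans (res_self hT (hE Z hZ).1.b1)⟩
    have c2 := card_nsmul_le_sum G (fun y => ((D y).card : ℝ)) _ fun y hy => (hD y hy).2.1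
    rw [← Nat.cast_sum, ← card_biUnion fun y hy y' hy' hne => disjoint_left.2 fun b h1 h2 =>
      hne (((hD y hy).1 b h1).2.1.symm.trans ((hD y' hy').1 b h2).2.1), nsmul_eq_mul] at c2
    have v1 : ((T.win i m cen).sc l ce).vol ∅ univ = T.vol ∅ (B.erase i) * (T.vol (B.erase i) B *
        (((m : ℝ) ^ 3)⁻¹ / M) ^ Fintype.card {v // v ∈ T.fv (B.erase i) B}) *
        (T.win i m cen).vol B univ := by
      rw [vol_mul hT1 (empty_subset B) (subset_univ B),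
        vol_mul hT1 (empty_subset _) (erase_subset i B), vol_sc, vol_sc, vol_sc, volW0, volW1 hi,
        prod_eq_one (s := (T.win i m cen).fv ∅ (B.erase i)) fun v hv => l2 v fun h =>
          (Trf.mem_fv.1 h).2 (Trf.mem_fv.1 hv).1,
        prod_eq_one (s := (T.win i m cen).fv B univ) fun v hv => l2 v fun h =>
          (Trf.mem_fv.1 hv).2 (Trf.mem_fv.1 h).1,
        prod_congr (s₁ := (T.win i m cen).fv (B.erase i) B) (s₂ := T.fv (B.erase i) B) rfl l1, prod_fv, div_eq_mul_one_div _ (M : ℝ), mul_pow]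
      ring
    have p0 := vol_pos hT ∅ (B.erase i)
    have p1 := mul_pos (vol_pos hT (B.erase i) B) (pow_pos (div_pos r2 hM0)
      (Fintype.card {v // v ∈ T.fv (B.erase i) B}))
    have p2 := vol_pos hW B univ
    have c3 := (mul_le_mul_of_nonneg_right hG (mul_pos (Real.exp_pos _) p1).le).trans c2
    have c4 := (mul_le_mul_of_nonneg_right c3 (mul_pos (Real.exp_pos (-Y)) p2).le).trans c1
    have c5 := mul_le_mul_of_nonneg_right hη (mul_pos (mul_pos p0 p1) p2).le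
    rw [v1]
    refine c5.trans (le_trans (le_of_eq (by ring)) (c4.trans ?_))
    exact_mod_cast card_le_card fun z hz => by
      simp only [mem_filter] at hz ⊢
      exact hz
  · obtain ⟨-, -, k2, k3⟩ := hO z hz
    obtain ⟨Z, hZ, e⟩ := ((hD _ k2).1 _ k3).1
    have k4 := (hE Z hZ).2.2 k
    rw [e] at k4
    exact hS.ib (k4.congr (ag_res B z))
  · have k1 := (hO _ (hst 0).1).2.2.1
    refine hS.ib (hS0.ib (((hD _ k1).2.2 (fun j => T.res B (s j)) (fun j => T.res B (t j))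
      (fun j => ?_) (fun j => ?_) ?_ k).congr (ag_res _ _)))
    · rw [← res_congr (ha j).1]
      exact (hO _ (hst j).1).2.2.2
    · rw [← res_congr (ha j).2]
      exact (hO _ (hst j).2).2.2.2
    · rw [res_sum, res_sum, res_congr hs]

theorem le_ex {x : ℝ} {k : ℕ} (h : x ≤ 2 ^ k) : x ≤ Real.exp k := by
  refine h.trans ?_
  rw [← mul_one (k : ℝ), Real.exp_nat_mul]
  exact pow_le_pow_left₀ (by norm_num) (by linarith [Real.add_one_le_exp (1 : ℝ)]) k

theorem numM {d : ℕ} {Y : ℝ} (hY : 100000 ≤ Y) (hd : (d : ℝ) ≤ Real.exp Y) :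
    (2 * (d : ℝ) + 1 ≤ Real.exp (2 * Y)) ∧ 10 ^ 8 * ((d : ℝ) + 1) ^ 3 ≤ Real.exp (7 * Y) := by
  have h1 := Real.add_one_le_exp Y
  have h2 : 2 * (d : ℝ) + 1 ≤ Real.exp (2 * Y) := by
    rw [two_mul Y, Real.exp_add]
    nlinarith
  refine ⟨h2, ?_⟩
  have h3 : ((d : ℝ) + 1) ^ 3 ≤ Real.exp (2 * Y) ^ 3 :=
    pow_le_pow_left₀ (by positivity) (by linarith [(Nat.cast_nonneg d : (0 : ℝ) ≤ d)]) 3
  have h4 : (10 : ℝ) ^ 8 ≤ Real.exp Y :=
    (le_ex (k := 27) (by norm_num)).trans (Real.exp_le_exp.2 (by push_cast; linarith))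
  refine (mul_le_mul h4 h3 (by positivity) (Real.exp_pos _).le).trans (le_of_eq ?_)
  rw [← Real.exp_nat_mul, ← Real.exp_add]
  congr 1
  push_cast
  ring

theorem numH {d k K : ℕ} {Y : ℝ} (hY : 100000 ≤ Y) (hd : (d : ℝ) ≤ Real.exp Y)
    (hk : (k : ℝ) ≤ Real.exp Y) (hK : (K : ℝ) ≤ Y) :
    (2 * (d : ℝ) + 1) ^ K * (10 ^ 6 * ((k : ℝ) * ((d : ℝ) + 1) ^ K + 4) ^ 4 * Real.exp Y) ≤
      Real.exp (Y ^ 3) := by
  have d0 : (0 : ℝ) ≤ d := Nat.cast_nonneg d
  have y2 := mul_le_mul_of_nonneg_right hY (by linarith : 0 ≤ Y)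
  have h1 : (2 * (d : ℝ) + 1) ^ K ≤ Real.exp (2 * (Y * Y)) := by
    refine (pow_le_pow_left₀ (by positivity) (numM hY hd).1 K).trans ?_
    rw [← Real.exp_nat_mul]
    exact Real.exp_le_exp.2 (by nlinarith)
  have h2 : ((d : ℝ) + 1) ^ K ≤ Real.exp (2 * (Y * Y)) :=
    (pow_le_pow_left₀ (by positivity) (by linarith) K).trans h1
  have h3 : (k : ℝ) * ((d : ℝ) + 1) ^ K + 4 ≤ Real.exp (4 * (Y * Y)) := by
    have a1 := mul_le_mul (hk.trans (Real.exp_le_exp.2 (by linarith : Y ≤ Y * Y))) h2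
      (by positivity) (Real.exp_pos _).le
    rw [← Real.exp_add] at a1
    have a2 := Real.add_one_le_exp (Y * Y)
    have a3 := Real.add_one_le_exp (Y * Y + 2 * (Y * Y))
    have a4 : Real.exp (4 * (Y * Y)) = Real.exp (Y * Y) * Real.exp (Y * Y + 2 * (Y * Y)) := by
      rw [← Real.exp_add]
      congr 1
      ring
    have a5 := mul_le_mul_of_nonneg_right (by linarith : 2 ≤ Real.exp (Y * Y))
      (Real.exp_pos (Y * Y + 2 * (Y * Y))).le
    linarith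
  have h4 : (10 : ℝ) ^ 6 ≤ Real.exp Y :=
    (le_ex (k := 20) (by norm_num)).trans (Real.exp_le_exp.2 (by push_cast; linarith))
  have h5 := mul_le_mul h4 (pow_le_pow_left₀ (by positivity) h3 4) (by positivity)
    (Real.exp_pos _).le
  refine (mul_le_mul h1 (mul_le_mul_of_nonneg_right h5 (Real.exp_pos _).le) (by positivity)
    (Real.exp_pos _).le).trans ?_
  rw [← Real.exp_nat_mul, ← Real.exp_add, ← Real.exp_add, ← Real.exp_add]
  refine Real.exp_le_exp.2 ?_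
  have y3 := mul_le_mul_of_nonneg_right hY (by linarith : 0 ≤ Y * Y)
  push_cast
  nlinarith

theorem numE {Y W : ℝ} (hY : 100000 ≤ Y) (hW : Y ^ 2 ≤ W) : Real.exp (-W) ≤
    Real.exp (-(Y + 5)) / 8 * Real.exp (-(Y + 5)) * Real.exp (-(8000 * (Y + 5 + 2))) *
      Real.exp (-Y) := by
  have h1 : (8 : ℝ) ≤ Real.exp 3 := by simpa using le_ex (x := 8) (k := 3) (by norm_num)
  have h2 : Real.exp (-(Y + 5)) / Real.exp 3 ≤ Real.exp (-(Y + 5)) / 8 :=
    div_le_div_of_nonneg_left (Real.exp_pos _).le (by norm_num) h1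
  refine le_trans ?_ (mul_le_mul_of_nonneg_right (mul_le_mul_of_nonneg_right
    (mul_le_mul_of_nonneg_right h2 (Real.exp_pos _).le) (Real.exp_pos _).le) (Real.exp_pos _).le)
  rw [← Real.exp_sub, ← Real.exp_add, ← Real.exp_add, ← Real.exp_add]
  exact Real.exp_le_exp.2 (by nlinarith)

end FrxA

open FrxA in
theorem frx1 (hS : SCG) (hF : FIB) (hE : ENC) (hL : LAT) : FRX1 := by
  intro a
  obtain ⟨C, hC⟩ : ∃ C, C = 2 ^ (a + 3) + 100000 := ⟨_, rfl⟩
  refine ⟨C, ?_⟩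
  intro α ι κ ρ _ _ _ _ _ _ _ T Y ha hY hι hκ _ hT hN S F c i f Ω m cen hc hFS hi hm1 hm2 hf hES
  obtain ⟨hcen, A, A2, A3, Cf, E, fA, fC, hD, hP⟩ := hES
  have hC5 : 5 ≤ C := by rw [hC]; exact le_add_left (by norm_num)
  rw [hC] at hY
  push_cast at hY
  have p2 : (0 : ℝ) < 2 ^ (a + 3) := by positivity
  have y1 : 100000 ≤ Y := by linarith
  have y2 : 2 ≤ Y := by linarith
  have hι0 : (0 : ℝ) ≤ Fintype.card ι := Nat.cast_nonneg _
  have hm : 1 ≤ m := by exact_mod_cast (by linarith : (1 : ℝ) ≤ m)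
  have yy := mul_le_mul_of_nonneg_right y1 (by linarith : 0 ≤ Y)
  have w2 : Y ^ 2 ≤ Y ^ C := H82.pw y2 (by omega)
  have w3 : Y ^ 3 ≤ Y ^ C := H82.pw y2 (by omega)
  have w1 : 100000 * Y ≤ Y ^ C := by rw [sq] at w2; linarith
  have hQ : (T.qt i m cen).N0 (Real.exp (-Y ^ 2)) :=
    H82.nn_sub hS (n := 0) (A := a + 2) (hT.cpy i (Fin 2)) (by simpa using ha) (by linarith)
      (by simpa using (by linarith : (2 : ℝ) ^ (a + 3) ≤ Y)) (e := 2) (by norm_num) (by omega)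
      (by omega) ((sub_qt hm hm2 hcen).mono (by rw [sq]; linarith)) (hN.2 i 2 (by norm_num))
  have hic : i ≠ c := ne_of_mem_erase (mem_sdiff.1 hi).1
  have hBS : (S.erase c \ F).erase i ⊆ S.erase i :=
    erase_subset_erase i (sdiff_subset.trans (erase_subset c S))
  have hcB : c ∉ (S.erase c \ F).erase i := fun h =>
    notMem_erase c S (mem_sdiff.1 (mem_of_mem_erase h)).1
  obtain ⟨E1, e1, e2, e3⟩ := prune1 hT hm hi hcen hBS (mem_erase.2 ⟨hic.symm, hc⟩) hcB hN.1 hQ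
    (by linarith) (Real.exp_le_exp.2 (by linarith))
    (Real.exp_le_exp.2 (by rw [sq]; linarith)) hD
  obtain ⟨M, hM⟩ : ∃ M : ℕ, M = 10 ^ 8 * (Fintype.card ι + 1) ^ 3 := ⟨_, rfl⟩
  have hM0 : 1 ≤ M := by rw [hM]; exact Nat.mul_pos (by norm_num) (by positivity)
  have hM1 : (M : ℝ) = 10 ^ 8 * ((Fintype.card ι : ℝ) + 1) ^ 3 := by rw [hM]; push_cast; ring
  have hM2 : (M : ℝ) ≤ Real.exp (7 * Y) := hM1 ▸ (numM y1 hι).2
  have hM3 : Real.exp (-Y ^ C) * M ≤ ((m : ℝ) ^ 3)⁻¹ := by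
    refine (mul_le_mul_of_nonneg_left hM2 (Real.exp_pos _).le).trans ?_
    rw [← Real.exp_add]
    refine (Real.exp_le_exp.2 (by linarith : _ ≤ -(3 * Y))).trans ?_
    rw [Real.exp_neg]
    refine inv_anti₀ (by positivity) ?_
    have := pow_le_pow_left₀ (Nat.cast_nonneg m) hm2 3
    rwa [← Real.exp_nat_mul, Nat.cast_ofNat] at this
  have hA : ∀ y k, T.Fm (S.erase i) (S.erase i \ (S.erase c \ F).erase i) (A y k) := fun y k =>
    (fA y k).1.mono subset_rfl fun x hx => by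
      simp only [mem_sdiff, mem_erase, mem_insert] at hx ⊢
      tauto
  have s1 : Real.exp (-Y ^ C) ≤ 1 / 100 := by
    rw [Real.exp_neg, one_div]
    exact inv_anti₀ (by norm_num) (by linarith [Real.add_one_le_exp (Y ^ C)])
  have hb := fun (y : ι → ℤ) (hne : (E1.filter fun Z =>
      T.res ((S.erase c \ F).erase i) (T.bs i Z) = y).Nonempty) =>
    base hF hE hL hT hm hi hcen hBS hcB (A2 := A2) (A3 := A3) hA (E := E)
      ((filter_subset _ _).trans e1) hne (y0 := y) (L := Y + 5) (Real.exp_pos _) s1 (Real.exp_pos Y)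
      (by linarith) hm1 hM1.ge hM3
      (hne.elim fun Z hZ => (mem_filter.1 hZ).2 ▸ (e3 Z (mem_filter.1 hZ).1).1)
      (hne.elim fun Z hZ => (mem_filter.1 hZ).2 ▸ (e3 Z (mem_filter.1 hZ).1).2)
      fun Z hZ => ⟨ptQ hT hm hi hcen (e2.1 (mem_filter.1 hZ).1), (mem_filter.1 hZ).2,
        fun k => ((hP Z (e1 (mem_filter.1 hZ).1)).2 k).2⟩
  have hm0 : (0 : ℝ) < m := by exact_mod_cast hm
  have pV := vol_pos hT ((S.erase c \ F).erase i) (S.erase c \ F)
  have pX := mul_pos (mul_pos pV (pow_pos (inv_pos.2 (pow_pos hm0 2))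
    (Fintype.card {v // v ∈ T.fv ((S.erase c \ F).erase i) (S.erase c \ F)})))
    (mul_pos pV (pow_pos (inv_pos.2 (pow_pos hm0 3))
    (Fintype.card {v // v ∈ T.fv ((S.erase c \ F).erase i) (S.erase c \ F)})))
  have p0 := vol_pos hT ∅ ((S.erase c \ F).erase i)
  obtain ⟨G, g1, g2⟩ := heavy E1 (fun Z => T.res ((S.erase c \ F).erase i) (T.bs i Z))
    (T.pts ((S.erase c \ F).erase i) 1) pX p0 (Real.exp_pos (-(Y + 5)))
    (fun Z hZ => res_mem hT (ptQ hT hm hi hcen (e2.1 hZ)).b1 (erase_subset _ _))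
    (card_pts_le hT hN.1 (s1.trans (by norm_num)) _) (by
      refine le_trans ?_ e2.2
      rw [volQ hT hm hi]
      refine mul_le_mul_of_nonneg_right ?_ (mul_pos p0 pX).le
      have h1 : (8 : ℝ) ≤ Real.exp 3 := by simpa using le_ex (x := 8) (k := 3) (by norm_num)
      have h2 : Real.exp (-(Y + 2)) = Real.exp 3 * Real.exp (-(Y + 5)) := by
        rw [← Real.exp_add]
        exact congrArg _ (by ring)
      rw [h2]
      exact mul_le_mul_of_nonneg_right (h1.trans' (by norm_num)) (Real.exp_pos _).le)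
    fun y => by
      rcases (E1.filter fun Z =>
        T.res ((S.erase c \ F).erase i) (T.bs i Z) = y).eq_empty_or_nonempty with h | h
      · rw [h, card_empty, Nat.cast_zero]
        exact (mul_pos (by norm_num) pX).le
      · exact (hb y h).1
  choose! J j1 j2 using fun y (hy : y ∈ G) => (hb y (card_pos.1 (Nat.cast_pos.1
    ((mul_pos (Real.exp_pos _) pX).trans_le (g2 y hy))))).2 (g2 y hy)
  haveI : Nonempty (Fin M) := ⟨⟨0, hM0⟩⟩
  obtain ⟨j, hj⟩ := cell G J (η := Real.exp (-(Y + 5)) / 8) fun y hy => by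
    rw [Fintype.card_fun, Fintype.card_fin, Nat.cast_pow]
    exact j1 y hy
  choose! D hDy using fun y (hy : y ∈ G.filter fun y => j ∈ J y) =>
    j2 y (mem_filter.1 hy).1 j (mem_filter.1 hy).2
  obtain ⟨T1, Ω1, k1, k2, k3, k4, k5⟩ := fin (S := S) (f := f) (C := Cf) (Ω := Ω) (Y := Y)
    (Y' := Y ^ C) (η := Real.exp (-(Y + 5)) / 8 * Real.exp (-(Y + 5))) hT hm hi hcen hM0
    (hM2.trans (Real.exp_le_exp.2 (by linarith)))
    (fun Z hZ => ⟨ptQ hT hm hi hcen (hD.1 hZ), (hP Z hZ).1, fun k => ((hP Z hZ).2 k).1⟩) j _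
    (le_trans (by
      rw [mul_assoc]
      exact mul_le_mul_of_nonneg_left g1 (by positivity)) hj) D hDy (numE y1 w2)
  obtain ⟨l, ce, hadm, rfl⟩ := k1
  refine ⟨_, Ω1, ⟨l, ce, hadm, rfl⟩, k2, k3, A, Cf, fun y k => (fA y k).1, fC,
    fun z hz k => (k4 z hz k).mono (Real.exp_le_exp.2 (by linarith)),
    fun s t h1 h2 h3 k => (k5 s t h1 h2 h3 k).mono
      ((numH y1 hι hκ ?_).trans (Real.exp_le_exp.2 w3))⟩
  have h1 : (2 : ℝ) ^ (Fintype.card α + 1) ≤ 2 ^ (a + 3) :=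
    pow_le_pow_right₀ (by norm_num) (by omega)
  push_cast
  linarith

end

end Vale.Agent.P057T.Gk
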