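import Vale.Agent.P057T.Gk.FrxD
import Vale.Agent.P057T.Gk.Cnt51b
import Vale.Agent.P057T.Gk.PetdA
import Vale.Agent.P057T.Gk.Trf

/-! Row FRX1, first half: one base point. -/

set_option linter.all false

open Finset

namespace Vale.Agent.P057T.Gk

open TT Frx

noncomputable section

namespace FrxA

variable {α ι κ : Type} [Fintype α] [DecidableEq α] [Fintype ι] [DecidableEq ι] [Fintype κ]
  {T : TT α ι} {B : Finset α} {i : α} {m : ℕ} {cen : T.CV i (Fin 2) → ℝ}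

theorem fv_iff (hi : i ∈ B) {v : ι} : v ∈ T.fv (B.erase i) B ↔ T.ty v ⊆ B ∧ i ∈ T.ty v := by
  rw [Trf.mem_fv, subset_erase]
  tauto

theorem absd {x a l : ℝ} (hl : 0 < l) : |(x - a) / l| ≤ 1 ↔ |x - a| ≤ l := by
  rw [abs_div, abs_of_pos hl, div_le_one hl]

theorem inr_sub (hi : i ∈ B) {p : Fin 2 × {v : ι // i ∈ T.ty v}} :
    (T.qt i m cen).ty (Sum.inr p) ⊆ B.disjSum {0} ↔ T.ty p.2.1 ⊆ B ∧ p.1 = 0 := by
  have := ty_inr_sub (T := T) (i := i) (κ := Fin 2) (p := p) (S := B.disjSum {0})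
  rw [toLeft_disjSum, inr_mem_disjSum, mem_singleton, ← subset_insert_iff, insert_eq_of_mem hi]
    at this
  exact this

structure PQ (T : TT α ι) (B : Finset α) (i : α) (m : ℕ) (cen : T.CV i (Fin 2) → ℝ)
    (Z : T.CV i (Fin 2) → ℤ) : Prop where
  b1 : T.bs i Z ∈ T.pts B 1
  h0 : ∀ v, v ∉ T.fv (B.erase i) B → T.hc i Z 0 v = 0
  z1 : ∀ p, Z (Sum.inr (1, p)) = 0
  u2 : ∀ v ∈ T.fv (B.erase i) B, |T.u (cz (T.bs i Z)) v - cen (Sum.inl v)| ≤ ((m : ℝ) ^ 3)⁻¹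
  u1 : ∀ v (h : i ∈ T.ty v), T.ty v ⊆ B → |T.u (cz (T.bs i Z + T.hc i Z 0)) v -
    T.u (cz (T.bs i Z)) v - cen (Sum.inr (0, ⟨v, h⟩))| ≤ ((m : ℝ) ^ 2)⁻¹

theorem ptQ (hT : T.Ok) (hm : 1 ≤ m) (hi : i ∈ B) (hc : T.Cen i m cen) {Z : T.CV i (Fin 2) → ℤ}
    (hZ : Z ∈ (T.qt i m cen).pts (B.disjSum {0}) 1) : PQ T B i m cen Z := by
  have h0 := bs_mem hT hm hZ
  rw [toLeft_disjSum] at h0
  have hm0 : (0 : ℝ) < m := by exact_mod_cast hm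
  obtain ⟨k1, k2⟩ := (mem_pts (ok_qt hT hm)).1 hZ
  refine ⟨(sub_win hm (Z := Real.log m) (by rw [Real.exp_log hm0]) hc).pts hT h0, fun v hv => ?_,
    fun p => k1 _ fun h => absurd ((inr_sub hi).1 h).2 (by simp), fun v hv => ?_, fun v h hv => ?_⟩
  · by_cases h : i ∈ T.ty v
    · rw [hc_of _ _ h]
      exact k1 _ fun h2 => hv ((fv_iff hi).2 ⟨((inr_sub hi).1 h2).1, h⟩)
    · exact hc_not _ _ h
  · have h1 : |(T.u (cz (T.bs i Z)) v - cen (Sum.inl v)) /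
        (if i ∈ T.ty v then ((m : ℝ) ^ 3)⁻¹ else 1)| ≤ 1 :=
      k2 (Sum.inl v) (inl_sub.2 ((fv_iff hi).1 hv).1)
    rwa [if_pos ((fv_iff hi).1 hv).2, absd (by positivity)] at h1
  · have h1 : |(T.u (T.bs i (cz Z) + T.hc i (cz Z) 0) v - T.u (T.bs i (cz Z)) v -
        cen (Sum.inr (0, ⟨v, h⟩))) / (if (0 : Fin 2) = 0 then ((m : ℝ) ^ 2)⁻¹ else (m : ℝ)⁻¹)| ≤ 1 :=
      k2 (Sum.inr (0, ⟨v, h⟩)) ((inr_sub hi).2 ⟨hv, rfl⟩)
    rwa [if_pos rfl, absd (by positivity), ← cz_hc, ← cz_bs, ← cz_add] at h1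

theorem PQ.inj {Z Z' : T.CV i (Fin 2) → ℤ} (h : PQ T B i m cen Z) (h' : PQ T B i m cen Z')
    (e1 : T.hc i Z 0 = T.hc i Z' 0) (e2 : T.bs i Z = T.bs i Z') : Z = Z' := by
  funext x
  rcases x with v | ⟨k, p⟩
  · exact congrFun e2 v
  · fin_cases k
    · have := congrFun e1 p.1
      rwa [hc_of _ _ p.2, hc_of _ _ p.2] at this
    · exact (h.z1 p).trans (h'.z1 p).symm

theorem prod_fv (r : ℝ) :
    ∏ _v ∈ T.fv (B.erase i) B, r = r ^ Fintype.card {v // v ∈ T.fv (B.erase i) B} := by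
  rw [prod_const, Fintype.card_coe]

theorem volW0 : (T.win i m cen).vol ∅ (B.erase i) = T.vol ∅ (B.erase i) := by
  rw [win, vol_sc, prod_eq_one, mul_one]
  intro v hv
  exact if_neg (subset_erase.1 (Trf.mem_fv.1 hv).1).2

theorem volW1 (hi : i ∈ B) : (T.win i m cen).vol (B.erase i) B = T.vol (B.erase i) B *
    ((m : ℝ) ^ 3)⁻¹ ^ Fintype.card {v // v ∈ T.fv (B.erase i) B} := by
  rw [win, vol_sc, ← prod_fv]
  exact congrArg _ (prod_congr rfl fun v hv => if_pos ((fv_iff hi).1 hv).2)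

theorem volQ (hT : T.Ok) (hm : 1 ≤ m) (hi : i ∈ B) :
    (T.qt i m cen).vol ∅ (B.disjSum {0}) = T.vol ∅ (B.erase i) *
      ((T.vol (B.erase i) B * ((m : ℝ) ^ 2)⁻¹ ^ Fintype.card {v // v ∈ T.fv (B.erase i) B}) *
        (T.vol (B.erase i) B * ((m : ℝ) ^ 3)⁻¹ ^ Fintype.card {v // v ∈ T.fv (B.erase i) B})) := by
  have h1 : (T.qt i m cen).vol (B.disjSum ∅) (B.disjSum {0}) =
      T.vol (B.erase i) B * ((m : ℝ) ^ 2)⁻¹ ^ Fintype.card {v // v ∈ T.fv (B.erase i) B} := by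
    rw [← prod_fv]
    unfold vol
    rw [← prod_mul_distrib]
    symm
    refine prod_bij (fun v hv => Sum.inr (0, ⟨v, ((fv_iff hi).1 hv).2⟩)) (fun v hv => ?_)
      (fun v _ w _ h => ?_) ?_ (fun v hv => ?_)
    · exact Trf.mem_fv.2 ⟨(inr_sub hi).2 ⟨((fv_iff hi).1 hv).1, rfl⟩, inr_not⟩
    · exact congrArg Subtype.val (congrArg Prod.snd (Sum.inr.inj h))
    · rintro (v | ⟨k, p⟩) hx
      · exact absurd (inl_sub.2 (inl_sub.1 (Trf.mem_fv.1 hx).1)) (Trf.mem_fv.1 hx).2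
      · obtain ⟨k1, k2⟩ := (inr_sub hi).1 (Trf.mem_fv.1 hx).1
        simp only at k2
        subst k2
        exact ⟨p.1, (fv_iff hi).2 ⟨k1, p.2⟩, rfl⟩
    · exact mul_assoc _ _ _
  rw [vol_mul (ok_qt hT hm) (empty_subset (B.disjSum ∅)) (disjSum_mono subset_rfl (empty_subset _)),
    h1, vol_qt, vol_mul (ok_win hT hm) (empty_subset (B.erase i)) (erase_subset i B), volW0,
    volW1 hi]
  ring

/-- the result for one base point -/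
def Gd (T : TT α ι) (B S' : Finset α) (c i : α) (m : ℕ) (cen : T.CV i (Fin 2) → ℝ)
    (A : (ι → ℤ) → κ → Fn ι) (E : Finset (T.CV i (Fin 2) → ℤ)) (M : ℕ) (L H : ℝ) (y0 : ι → ℤ)
    (j : {v // v ∈ T.fv (B.erase i) B} → Fin M) (D : Finset (ι → ℤ)) : Prop :=
  (∀ b ∈ D, (∃ Z ∈ E, T.bs i Z = b) ∧ T.res (B.erase i) b = y0 ∧
    ∀ v : {v // v ∈ T.fv (B.erase i) B}, |T.u (cz b) v.1 -
      (cen (Sum.inl v.1) + ((m : ℝ) ^ 3)⁻¹ * cc (j v))| ≤ ((m : ℝ) ^ 3)⁻¹ / M) ∧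
  Real.exp (-(8000 * (L + 2))) * (T.vol (B.erase i) B *
    (((m : ℝ) ^ 3)⁻¹ / M) ^ Fintype.card {v // v ∈ T.fv (B.erase i) B}) ≤ D.card ∧
  ∀ s t : Fin 6 → ι → ℤ, (∀ k, s k ∈ D) → (∀ k, t k ∈ D) → ∑ k, s k = ∑ k, t k → ∀ k,
    T.IB (B.erase i) S' c y0 (fun x => ∑ j, A (s j) k x - ∑ j, A (t j) k x) H

theorem cen_le (hm : 1 ≤ m) (hc : T.Cen i m cen) (x : T.CV i (Fin 2)) : |cen x| ≤ 1 := by
  linarith [hc x, ql_pos (T := T) (i := i) hm x]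

/-- the pairs of one fibre lie in a product of boxes -/
theorem pairs (hT : T.Ok) (hm : 1 ≤ m) (hi : i ∈ B) (hc : T.Cen i m cen) {y1 : ι → ℤ}
    (hy : y1 ∈ T.pts B 1) {l : (ι → ℤ) →+ ({v // v ∈ T.fv (B.erase i) B} → ℝ)}
    {P : AddSubgroup (ι → ℤ)} {bx : ({v // v ∈ T.fv (B.erase i) B} → ℝ) → ℝ → Finset (ι → ℤ)}
    {V σ : ℝ} (hl : Lat l P bx V σ) (hP : ∀ h, h ∈ P ↔ ∀ v, v ∉ T.fv (B.erase i) B → h v = 0)
    (hu : ∀ y, T.Ag (B.erase i) y y1 → ∀ h ∈ P, ∀ v : {v // v ∈ T.fv (B.erase i) B},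
      T.u (cz (y + h)) v.1 = T.u (cz y) v.1 + l h v) {Z : T.CV i (Fin 2) → ℤ}
    (hZ : PQ T B i m cen Z) (ha : T.Ag (B.erase i) (T.bs i Z) y1) :
    (T.hc i Z 0, T.bs i Z - y1) ∈
      bx (fun v => cen (Sum.inr (0, ⟨v.1, ((fv_iff hi).1 v.2).2⟩))) ((m : ℝ) ^ 2)⁻¹ ×ˢ
        bx (fun v => cen (Sum.inl v.1) - T.u (cz y1) v.1) ((m : ℝ) ^ 3)⁻¹ ∧
    ∀ v : {v // v ∈ T.fv (B.erase i) B},
      l (T.bs i Z - y1) v = T.u (cz (T.bs i Z)) v.1 - T.u (cz y1) v.1 := by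
  have hm1 : (1 : ℝ) ≤ m := by exact_mod_cast hm
  have r1 : ((m : ℝ) ^ 2)⁻¹ ≤ 1 := inv_le_one_of_one_le₀ (one_le_pow₀ hm1)
  have r2 : ((m : ℝ) ^ 3)⁻¹ ≤ 1 := inv_le_one_of_one_le₀ (one_le_pow₀ hm1)
  have p1 : T.hc i Z 0 ∈ P := (hP _).2 hZ.h0
  have p2 : T.bs i Z - y1 ∈ P := (hP _).2 fun v hv => by
    rw [Pi.sub_apply, sub_eq_zero]
    by_cases h : T.ty v ⊆ B
    · exact ha v (by_contra fun h2 => hv (Trf.mem_fv.2 ⟨h, h2⟩))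
    · rw [((mem_pts hT).1 hZ.b1).1 v h, ((mem_pts hT).1 hy).1 v h]
  have e2 : ∀ v : {v // v ∈ T.fv (B.erase i) B},
      l (T.bs i Z - y1) v = T.u (cz (T.bs i Z)) v.1 - T.u (cz y1) v.1 := fun v => by
    have := hu y1 (Ag.refl _ _) _ p2 v
    rw [add_sub_cancel] at this
    linarith
  refine ⟨mem_product.2 ⟨(hl.mem _ _ (fun v => ?_) _).2 ⟨p1, fun v => ?_⟩,
    (hl.mem _ _ (fun v => ?_) _).2 ⟨p2, fun v => ?_⟩⟩, e2⟩
  · linarith [cen_le hm hc (Sum.inr (0, ⟨v.1, ((fv_iff hi).1 v.2).2⟩))]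
  · have h1 := hZ.u1 v.1 ((fv_iff hi).1 v.2).2 ((fv_iff hi).1 v.2).1
    rwa [hu _ ha _ p1 v, add_sub_cancel_left] at h1
  · have h1 := ((mem_pts hT).1 hy).2 v.1 ((fv_iff hi).1 v.2).1
    linarith [cen_le hm hc (Sum.inl v.1), abs_sub (cen (Sum.inl v.1)) (T.u (cz y1) v.1)]
  · show |l (T.bs i Z - y1) v - _| ≤ _
    rw [e2, sub_sub_sub_cancel_right]
    exact hZ.u2 v.1 v.2

theorem four {e a b : ℕ} {x y σ : ℝ} (h : e ≤ a * b) (h1 : (a : ℝ) - x ≤ σ * x)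
    (h2 : (b : ℝ) - y ≤ σ * y) (hσ : σ ≤ 1) (hx : 0 < x) (hy : 0 < y) : (e : ℝ) ≤ 4 * (x * y) := by
  have b4 := mul_le_mul_of_nonneg_right hσ hx.le
  have b5 := mul_le_mul_of_nonneg_right hσ hy.le
  have b6 : (a : ℝ) * b ≤ (2 * x) * (2 * y) :=
    mul_le_mul (by linarith) (by linarith) (Nat.cast_nonneg _) (by linarith)
  have b7 : (e : ℝ) ≤ a * b := by exact_mod_cast h
  linarith

theorem base (hF : FIB) (hE : ENC) (hL : LAT) (hT : T.Ok) (hm : 1 ≤ m) (hi : i ∈ B)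
    (hc : T.Cen i m cen) {S' : Finset α} {c : α} (hS : B.erase i ⊆ S') (hcB : c ∉ B.erase i)
    {A A2 A3 : (ι → ℤ) → κ → Fn ι} (hA : ∀ y k, T.Fm S' (S' \ B.erase i) (A y k))
    {E E0 : Finset (T.CV i (Fin 2) → ℤ)} (hE0 : E0 ⊆ E) (hne : E0.Nonempty) {y0 : ι → ℤ}
    {σ ε L : ℝ} {M : ℕ} (s0 : 0 < σ) (s1 : σ ≤ 1 / 100) (e0 : 0 < ε) (hL1 : 1 ≤ L)
    (hm2 : 100 * ((Fintype.card ι : ℝ) + 1) ≤ m) (hM : 10 ^ 8 * ((Fintype.card ι : ℝ) + 1) ^ 3 ≤ M)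
    (hM2 : σ * M ≤ ((m : ℝ) ^ 3)⁻¹) (hq : T.Eq (B.erase i) B y0 σ)
    (hz : T.Zr (B.erase i) S' c y0 σ⁻¹)
    (h : ∀ Z ∈ E0, PQ T B i m cen Z ∧ T.res (B.erase i) (T.bs i Z) = y0 ∧
      ∀ k, T.IB (B.erase i) S' c (T.bs i Z) (fun x => A (T.bs i Z) k x -
        A2 (T.bs i Z + T.hc i Z 0) k x - A3 (T.res (B.erase i) (T.bs i Z) + T.hc i Z 0) k x) ε) :
    (E0.card : ℝ) ≤ 4 * ((T.vol (B.erase i) B *
        ((m : ℝ) ^ 2)⁻¹ ^ Fintype.card {v // v ∈ T.fv (B.erase i) B}) *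
      (T.vol (B.erase i) B * ((m : ℝ) ^ 3)⁻¹ ^ Fintype.card {v // v ∈ T.fv (B.erase i) B})) ∧
    (Real.exp (-L) * ((T.vol (B.erase i) B *
        ((m : ℝ) ^ 2)⁻¹ ^ Fintype.card {v // v ∈ T.fv (B.erase i) B}) *
      (T.vol (B.erase i) B * ((m : ℝ) ^ 3)⁻¹ ^ Fintype.card {v // v ∈ T.fv (B.erase i) B})) ≤
        E0.card →
      ∃ J : Finset ({v // v ∈ T.fv (B.erase i) B} → Fin M),
        Real.exp (-L) / 8 * (M : ℝ) ^ Fintype.card {v // v ∈ T.fv (B.erase i) B} ≤ J.card ∧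
        ∀ j ∈ J, ∃ D, Gd T B S' c i m cen A E M L
          ((2 * Fintype.card ι + 1) ^ (2 ^ (Fintype.card α + 1)) * (10 ^ 6 * ((Fintype.card κ : ℝ) *
            (Fintype.card ι + 1) ^ (2 ^ (Fintype.card α + 1)) + 4) ^ 4 * ε)) y0 j D) := by
  obtain ⟨Z1, hZ1⟩ := hne
  obtain ⟨y1, hy1⟩ : ∃ y1, y1 = T.bs i Z1 := ⟨_, rfl⟩
  have hy : y1 ∈ T.pts B 1 := hy1 ▸ (h Z1 hZ1).1.b1
  have a0 : ∀ Z ∈ E0, T.Ag (B.erase i) (T.bs i Z) y0 := fun Z hZ =>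
    (h Z hZ).2.1 ▸ (ag_res _ _).symm
  have a1 : T.Ag (B.erase i) y0 y1 := hy1 ▸ (a0 Z1 hZ1).symm
  obtain ⟨l, P, bx, hl, hP, hu⟩ := hL α ι T B i y1 σ hT hi hy (by linarith)
    fun c r hB => Trf.ct_congr a1 (hq c r hB)
  have hp := fun Z hZ => pairs hT hm hi hc hy hl hP hu (h Z hZ).1 ((a0 Z hZ).trans a1)
  obtain ⟨R, hR⟩ : ∃ R, R = E0.image fun Z => (T.hc i Z 0, T.bs i Z - y1) := ⟨_, rfl⟩
  have hRc : R.card = E0.card := by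
    rw [hR]
    exact card_image_of_injOn fun Z hZ Z' hZ' e => (h Z hZ).1.inj (h Z' hZ').1
      (congrArg Prod.fst e) (sub_left_injective (congrArg Prod.snd e))
  have hRm : ∀ q ∈ R, ∃ Z ∈ E0, (T.hc i Z 0, T.bs i Z - y1) = q := fun q hq =>
    mem_image.1 (hR ▸ hq)
  have hRs := fun q hq => (hRm q hq).elim fun Z hZ => hZ.2 ▸ (hp Z hZ.1).1
  have hm1 : (1 : ℝ) ≤ m := by exact_mod_cast hm
  have hι : (0 : ℝ) ≤ Fintype.card ι := Nat.cast_nonneg _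
  have r1 : ((m : ℝ) ^ 2)⁻¹ ≤ 1 := inv_le_one_of_one_le₀ (one_le_pow₀ hm1)
  have r2 : (0 : ℝ) < ((m : ℝ) ^ 3)⁻¹ := by positivity
  have r3 : (m : ℝ) * ((m : ℝ) ^ 3)⁻¹ = ((m : ℝ) ^ 2)⁻¹ := by field_simp
  have r4 : ((m : ℝ) ^ 3)⁻¹ ≤ ((m : ℝ) ^ 2)⁻¹ := r3 ▸ le_mul_of_one_le_left r2.le hm1
  have hM1 : (1 : ℝ) ≤ M := le_trans (one_le_mul_of_one_le_of_one_le (by norm_num)
    (one_le_pow₀ (by linarith))) hM
  have r5 : σ ≤ ((m : ℝ) ^ 3)⁻¹ := (le_mul_of_one_le_right s0.le hM1).trans hM2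
  have c1 : ∀ v : {v // v ∈ T.fv (B.erase i) B},
      |cen (Sum.inr (0, ⟨v.1, ((fv_iff hi).1 v.2).2⟩))| ≤ 2 ∧
      |cen (Sum.inl v.1) - T.u (cz y1) v.1| ≤ 2 := fun v => by
    have h1 := ((mem_pts hT).1 hy).2 v.1 ((fv_iff hi).1 v.2).1
    constructor
    · linarith [cen_le hm hc (Sum.inr (0, ⟨v.1, ((fv_iff hi).1 v.2).2⟩))]
    · linarith [cen_le hm hc (Sum.inl v.1), abs_sub (cen (Sum.inl v.1)) (T.u (cz y1) v.1)]
  have hn : (Fintype.card {v // v ∈ T.fv (B.erase i) B} : ℝ) ≤ Fintype.card ι := by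
    exact_mod_cast Fintype.card_subtype_le _
  have hn0 : (0 : ℝ) ≤ Fintype.card {v // v ∈ T.fv (B.erase i) B} := Nat.cast_nonneg _
  refine ⟨?_, fun hbig => ?_⟩
  · have b1 := (abs_le.1 (hl.cnt _ _ (r5.trans r4) fun v => by linarith [(c1 v).1])).2
    have b2 := (abs_le.1 (hl.cnt _ _ r5 fun v => by linarith [(c1 v).2])).2
    have b3 := card_le_card (show R ⊆ _ from hRs)
    rw [hRc, card_product] at b3
    exact four b3 b1 b2 (by linarith) (mul_pos hl.pos (pow_pos (r2.trans_le r4) _))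
      (mul_pos hl.pos (pow_pos r2 _))
  obtain ⟨n, e, I, γ, n1, g0, g1, g2, g3⟩ := hE α ι κ T _ S' c y0 σ⁻¹ hT hS hcB (inv_pos.2 s0) hz
  obtain ⟨J, j1, j2⟩ := hF _ _ _ I γ l P bx _ σ _ _ _ _ M (fun w => -e (A3 (y0 + w)))
    (fun w => e (A (y1 + w))) (fun w => e (A2 (y1 + w))) R ε L g0 g1 hl hL1 e0 s1 c1 r2 r1
    (by rw [← r3]; exact mul_le_mul_of_nonneg_right (by linarith) r2.le)
    (le_trans (mul_le_mul_of_nonneg_left (pow_le_pow_left₀ (by linarith) (by linarith) 3)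
      (by norm_num)) hM) hM2 hRs
    (fun q hq => by
      obtain ⟨Z, hZ, rfl⟩ := hRm q hq
      obtain ⟨y, hy, h1⟩ := g2 (A (T.bs i Z) - A2 (T.bs i Z + T.hc i Z 0) - A3 (y0 + T.hc i Z 0))
        ε e0.le fun k => by
          have := ((h Z hZ).2.2 k).congr (a0 Z hZ)
          rwa [(h Z hZ).2.1] at this
      refine ⟨y, hy, le_of_eq_of_le (congrArg norm ?_) h1⟩
      have e1 : y1 + (T.hc i Z 0 + (T.bs i Z - y1)) = T.bs i Z + T.hc i Z 0 := by abel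
      simp only [add_sub_cancel, e1, map_sub]
      abel) (by rw [hRc]; exact hbig)
  refine ⟨J, j1, fun j hj => ?_⟩
  obtain ⟨D, d1, d2, d3⟩ := j2 j hj
  refine ⟨D.image (y1 + ·), fun b hb => ?_, ?_, fun s t hs ht hst k => ?_⟩
  · obtain ⟨s, hs, rfl⟩ := mem_image.1 hb
    obtain ⟨⟨a, ha⟩, h2⟩ := d1 s hs
    obtain ⟨Z, hZ, e1⟩ := hRm _ ha
    have e2 : T.bs i Z - y1 = s := congrArg Prod.snd e1
    subst e2
    rw [add_sub_cancel]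
    refine ⟨⟨Z, hE0 hZ, rfl⟩, (h Z hZ).2.1, fun v => ?_⟩
    have h3 := h2 v
    rw [(hp Z hZ).2 v] at h3
    exact le_of_eq_of_le (congrArg abs (by ring)) h3
  · rw [card_image_of_injective _ (add_right_injective y1)]
    exact d2
  · choose s' hs1 hs2 using fun k => mem_image.1 (hs k)
    choose t' ht1 ht2 using fun k => mem_image.1 (ht k)
    obtain ⟨y, hy, h1⟩ := d3 s' t' hs1 ht1 (by
      simp only [← hs2, ← ht2, sum_add_distrib] at hst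
      exact add_left_cancel hst)
    simp only [hs2, ht2, ← map_sum, ← map_sub] at h1
    have hδ : (Fintype.card (κ × Fin n) : ℝ) ≤ Fintype.card κ *
        (Fintype.card ι + 1) ^ (2 ^ (Fintype.card α + 1)) := by
      rw [Fintype.card_prod, Fintype.card_fin]
      exact_mod_cast Nat.mul_le_mul_left _ n1
    have h2 := g3 (∑ j, A (s j) - ∑ j, A (t j)) _ (by positivity) (fun k => by
      have := (fm_sum univ fun j _ => hA (s j) k).sub (fm_sum univ fun j _ => hA (t j) k)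
      refine (congrArg _ (funext fun x => ?_)).mp this
      simp only [Pi.sub_apply, Finset.sum_apply]) ⟨y, hy, h1⟩ k
    refine (h2.eq fun x _ => by simp only [Pi.sub_apply, Finset.sum_apply]).mono ?_
    refine mul_le_mul_of_nonneg_left (mul_le_mul_of_nonneg_right (mul_le_mul_of_nonneg_left
      (pow_le_pow_left₀ (by positivity) (by linarith) 4) (by norm_num)) e0.le) (by positivity)

end FrxA

end

end Vale.Agent.P057T.Gk
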