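import Vale.Agent.P057T.Gk.FrxD
import Vale.Agent.P057T.Gk.Bas2

/-! Rows `ENC` and `LAT`. -/

set_option linter.all false

open Finset

namespace Vale.Agent.P057T.Gk.Frx

open TT

noncomputable section

theorem enc (hS : SCALE) : ENC := by
  intro α ι κ _ _ _ _ _ T S0 S c b H0 hT h0 hc hH hZ
  obtain ⟨n, P, Q, hn, hPQ, hsc⟩ := (hS α ι T S0 S c b hT h0 hc).2
  obtain ⟨K, hK⟩ : ∃ K : ℝ, K = (2 * Fintype.card ι + 1) ^ (2 ^ (Fintype.card α + 1)) := ⟨_, rfl⟩
  have K0 : 0 < K := by rw [hK]; positivity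
  rw [← hK] at hsc ⊢
  let e : (κ → Fn ι) →+ (κ × Fin n → ℝ) :=
    AddMonoidHom.mk' (fun F x => F x.1 (P x.2) - F x.1 (Q x.2)) fun F F' => by
      funext x
      simp only [Pi.add_apply]
      ring
  let J : AddSubgroup (κ → Fn ι) :=
    { carrier := {F | ∀ k, T.Fm S (S \ S0) (F k) ∧ T.IsI S0 b (F k)}
      add_mem' := fun h h' k => ⟨(h k).1.add (h' k).1, (h k).2.add (h' k).2⟩
      zero_mem' := fun _ => ⟨fm_const _ _ 0, isI_zero _ _⟩
      neg_mem' := fun h k => ⟨(h k).1.neg, (h k).2.neg⟩ }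
  have le : ∀ (F : κ → Fn ι) (H : ℝ), 0 ≤ H →
      (‖e F‖ ≤ H ↔ ∀ k j, |F k (P j) - F k (Q j)| ≤ H) := fun F H h => by
    rw [pi_norm_le_iff_of_nonneg h, Prod.forall]
    rfl
  refine ⟨n, e, J.map e, H0 / K, hn, by positivity, ?_, fun F H h1 h => ?_, ?_⟩
  · rintro _ ⟨F, hF, rfl⟩ h
    funext x
    have a0 := hsc _ _ (by positivity) (hF x.1).1 ((le F _ (by positivity)).1 h x.1)
    rw [mul_div_cancel₀ _ K0.ne'] at a0
    exact abs_nonpos_iff.1 (hZ _ (hF x.1).1 (hF x.1).2 a0 _ _ (hPQ x.2).1 (hPQ x.2).2.1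
      (hPQ x.2).2.2.1 fun v hv => by simp [TT.fv] at hv)
  · choose I k1 k2 k3 using h
    refine ⟨e I, ⟨I, fun k => ⟨k1 k, k2 k⟩, rfl⟩, ?_⟩
    rw [← map_sub]
    exact (le _ _ h1).2 fun k j => k3 k _ _ (hPQ j).1 (hPQ j).2.1 (hPQ j).2.2.1 (hPQ j).2.2.2
  · rintro F H h1 hF ⟨_, ⟨I, hI, rfl⟩, h⟩ k
    rw [← map_sub] at h
    exact ⟨I k, (hI k).1, (hI k).2, hsc _ _ h1 ((hF k).sub (hI k).1) ((le _ _ h1).1 h k)⟩

theorem lat : LAT := by
  classical
  intro α ι _ _ _ _ T B i y1 σ hT hi hy s1 hE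
  have b0 : B.erase i ⊆ B := erase_subset _ _
  have mW : ∀ v, v ∈ T.fv (B.erase i) B ↔ T.ty v ⊆ B ∧ ¬ T.ty v ⊆ B.erase i := fun v => by
    simp [TT.fv]
  have i0 : ∀ v, i ∉ T.ty v → T.ty v ⊆ B → T.ty v ⊆ B.erase i := fun v h1 h2 =>
    subset_erase.2 ⟨h2, h1⟩
  choose L hL using fun v => (hT.fu v).2 i (mem_univ i) (cz y1)
  let l : (ι → ℤ) →+ ({v // v ∈ T.fv (B.erase i) B} → ℝ) :=
    AddMonoidHom.mk' (fun h v => L v.1 (cz h)) fun x y => by
      funext v
      rw [Pi.add_apply, ← map_add]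
      congr 1
      funext w
      simp [cz]
  let P : AddSubgroup (ι → ℤ) :=
    { carrier := {h | ∀ v, v ∉ T.fv (B.erase i) B → h v = 0}
      add_mem' := fun h h' v hv => by rw [Pi.add_apply, h v hv, h' v hv, add_zero]
      zero_mem' := fun _ _ => rfl
      neg_mem' := fun h v hv => by rw [Pi.neg_apply, h v hv, neg_zero] }
  have key : ∀ y, T.Ag (B.erase i) y y1 → ∀ h ∈ P, ∀ v : {v // v ∈ T.fv (B.erase i) B},
      T.u (cz (y + h)) v.1 = T.u (cz y) v.1 + l h v := by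
    intro y hy h hh v
    have hv := ((mW _).1 v.2).1
    let d : ι → ℝ := fun w => if T.ty w ⊆ B then cz y w - cz y1 w else 0
    have d0 : ∀ w, i ∉ T.ty w → d w = 0 := fun w hw => by
      by_cases k : T.ty w ⊆ B
      · simp only [d, if_pos k, hy.cz w (i0 w hw k), sub_self]
      · simp only [d, if_neg k]
    have h0 : ∀ w, i ∉ T.ty w → cz h w = 0 := fun w hw => by
      simp only [cz, hh w fun k => ((mW w).1 k).2 (i0 w hw ((mW w).1 k).1), Int.cast_zero]
    have e1 : T.u (cz y) v.1 = T.u (cz y1 + d) v.1 :=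
      hT.u_ag (S := B) (fun w hw => by simp [d, hw]) hv
    have e2 : T.u (cz (y + h)) v.1 = T.u (cz y1 + (d + cz h)) v.1 :=
      hT.u_ag (S := B) (fun w hw => by simp [d, hw, cz]; ring) hv
    have e3 := hL v.1 d d0
    have e4 := hL v.1 (d + cz h) fun w hw => by rw [Pi.add_apply, d0 w hw, h0 w hw, add_zero]
    rw [map_add] at e4
    simp only at e3 e4
    rw [e1, e2, e3, e4, add_assoc]
    rfl
  have y0 := (mem_pts hT).1 hy
  refine ⟨l, P, fun c r => (T.fbx (B.erase i) B y1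
    (fun v => if h : v ∈ T.fv (B.erase i) B then T.u (cz y1) v + c ⟨v, h⟩ else 0)
    (fun v => if v ∈ T.fv (B.erase i) B then r else 1)).image (· - y1),
    ⟨vol_pos hT _ _, fun c r hc g => ⟨fun hg => ?_, fun hg => ?_⟩, fun c r hr hc => ?_⟩,
    fun _ => Iff.rfl, key⟩
  · obtain ⟨z, hz, rfl⟩ := mem_image.1 hg
    obtain ⟨z1, z2, z3⟩ := mem_filter.1 hz
    have hP : z - y1 ∈ P := fun v hv => by
      by_cases k : T.ty v ⊆ B
      · have k2 : T.ty v ⊆ B.erase i := by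
          by_contra k3
          exact hv ((mW v).2 ⟨k, k3⟩)
        rw [Pi.sub_apply, z2 v k2, sub_self]
      · rw [Pi.sub_apply, ((mem_pts hT).1 z1).1 v k, y0.1 v k, sub_self]
    refine ⟨hP, fun v => ?_⟩
    have a1 := z3 v.1 v.2
    have a2 := key y1 (Ag.refl _ _) _ hP v
    rw [add_sub_cancel] at a2
    beta_reduce at a1
    rw [dif_pos v.2, if_pos v.2, a2, add_sub_add_left_eq_sub] at a1
    exact a1
  · have ag : T.Ag (B.erase i) (y1 + g) y1 := fun v hv => by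
      rw [Pi.add_apply, hg.1 v fun k => ((mW v).1 k).2 hv, add_zero]
    refine mem_image.2 ⟨y1 + g, mem_filter.2 ⟨(mem_pts hT).2 ⟨fun v hv => ?_, fun v hv => ?_⟩, ag,
      fun v hv => ?_⟩, add_sub_cancel_left _ _⟩
    · rw [Pi.add_apply, y0.1 v hv, hg.1 v fun k => hv ((mW v).1 k).1, add_zero]
    · have a0 := y0.2 v hv
      by_cases k : T.ty v ⊆ B.erase i
      · rw [hT.u_ag ag.cz k]
        linarith
      · have w := (mW v).2 ⟨hv, k⟩
        have a1 := abs_le.1 (hg.2 ⟨v, w⟩)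
        have a2 := key y1 (Ag.refl _ _) _ hg.1 ⟨v, w⟩
        have a3 := hc ⟨v, w⟩
        have a4 := abs_le.1 a0
        have a5 := le_abs_self (c ⟨v, w⟩)
        have a6 := neg_abs_le (c ⟨v, w⟩)
        simp only at a2
        rw [a2, abs_le]
        constructor <;> linarith [a1.1, a1.2, a4.1, a4.2]
    · beta_reduce
      rw [dif_pos hv, if_pos hv, key y1 (Ag.refl _ _) _ hg.1 ⟨v, hv⟩, add_sub_add_left_eq_sub]
      exact hg.2 ⟨v, hv⟩
  · have := hE (fun v => if h : v ∈ T.fv (B.erase i) B then T.u (cz y1) v + c ⟨v, h⟩ else 0)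
      (fun v => if v ∈ T.fv (B.erase i) B then r else 1) fun v => by
        by_cases k : v ∈ T.fv (B.erase i) B
        · simp only [dif_pos k, if_pos k]
          have a0 := y0.2 v ((mW v).1 k).1
          have a1 := hc ⟨v, k⟩
          exact ⟨hr, by linarith [abs_add_le (T.u (cz y1) v) (c ⟨v, k⟩)]⟩
        · simp only [dif_neg k, if_neg k]
          exact ⟨s1, by norm_num⟩
    unfold TT.Ct at this
    rw [prod_congr rfl (fun v hv => if_pos hv), prod_const] at this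
    rw [card_image_of_injective _ sub_left_injective, Fintype.card_coe]
    exact this

end

end Vale.Agent.P057T.Gk.Frx
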