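import Vale.Agent.P057T.Gk.FrxD
import Vale.Agent.P057T.Gk.Shr

/-! The row `FIB`: exhaustion of one fibre by cells. -/

set_option linter.all false

open Finset

namespace Vale.Agent.P057T.Gk

namespace Frx

namespace FibP

theorem pw {x t : ℝ} {n : ℕ} (hx : 0 < x) (ht : 0 ≤ t) (h : ((n : ℝ) + 1) * t ≤ x / 10) :
    (x + t) ^ n ≤ 3 / 2 * x ^ n := by
  have y0 : 0 ≤ t / x := div_nonneg ht hx.le
  have e : x + t = x * (t / x + 1) := by field_simp; ring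
  have h1 : (t / x + 1) ^ n ≤ Real.exp (t / x) ^ n :=
    pow_le_pow_left₀ (by linarith) (Real.add_one_le_exp _) n
  have h2 : (n : ℝ) * (t / x) ≤ 1 / 10 := by
    rw [← mul_div_assoc, div_le_iff₀ hx]
    linarith
  have h3 : Real.exp (1 / 10) ≤ 3 / 2 := by
    have k1 := Real.add_one_le_exp (-(1 / 10) : ℝ)
    have k2 : Real.exp (1 / 10) * Real.exp (-(1 / 10)) = 1 := by
      rw [← Real.exp_add]; simp
    have k3 := Real.exp_pos (1 / 10 : ℝ)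
    nlinarith
  rw [← Real.exp_nat_mul] at h1
  have h4 := (h1.trans (Real.exp_le_exp.2 h2)).trans h3
  rw [e, mul_pow, mul_comm]
  exact mul_le_mul_of_nonneg_right h4 (pow_nonneg hx.le n)

theorem ivl {M : ℕ} {U : Finset (Fin M)} {a d : ℝ} (hd : 0 ≤ d)
    (h : ∀ k ∈ U, a ≤ ((k : ℕ) : ℝ) ∧ ((k : ℕ) : ℝ) ≤ a + d) : (U.card : ℝ) ≤ d + 1 := by
  have c1 : U.card ≤ (Icc ⌈a⌉ ⌊a + d⌋).card :=
    card_le_card_of_injOn (fun k : Fin M => ((k : ℕ) : ℤ))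
      (fun k hk => mem_coe.2 (mem_Icc.2 ⟨Int.ceil_le.2 (by exact_mod_cast (h k hk).1),
        Int.le_floor.2 (by exact_mod_cast (h k hk).2)⟩))
      fun k _ k' _ e => Fin.ext (Int.ofNat_inj.1 e)
  rw [Int.card_Icc] at c1
  have c2 : (U.card : ℤ) ≤ max (⌊a + d⌋ + 1 - ⌈a⌉) 0 := by
    rw [← Int.ofNat_toNat]
    exact_mod_cast c1
  have c3 : (U.card : ℝ) ≤ max ((⌊a + d⌋ : ℝ) + 1 - ⌈a⌉) 0 := by exact_mod_cast c2
  have f1 := Int.floor_le (a + d)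
  have f2 := Int.le_ceil a
  exact c3.trans (max_le (by linarith) (by linarith))

variable {G ν : Type} [AddCommGroup G] [Fintype ν] {l : G →+ ν → ℝ} {P : AddSubgroup G}
  {bx : (ν → ℝ) → ℝ → Finset G} {V σ : ℝ}

theorem ub (h : Lat l P bx V σ) (hs : σ ≤ 1 / 100) {c : ν → ℝ} {r : ℝ} (r0 : 0 < r) (hr : σ ≤ r)
    (hc : ∀ v, |c v| + r ≤ 10) : ((bx c r).card : ℝ) ≤ 101 / 100 * (V * r ^ Fintype.card ν) := by
  have k := (abs_le.1 (h.cnt c r hr hc)).2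
  have p : 0 < V * r ^ Fintype.card ν := mul_pos h.pos (pow_pos r0 _)
  nlinarith

theorem lb (h : Lat l P bx V σ) (hs : σ ≤ 1 / 100) {c : ν → ℝ} {r : ℝ} (r0 : 0 < r) (hr : σ ≤ r)
    (hc : ∀ v, |c v| + r ≤ 10) : 99 / 100 * (V * r ^ Fintype.card ν) ≤ ((bx c r).card : ℝ) := by
  have k := (abs_le.1 (h.cnt c r hr hc)).1
  have p : 0 < V * r ^ Fintype.card ν := mul_pos h.pos (pow_pos r0 _)
  nlinarith

theorem ne (h : Lat l P bx V σ) (hs : σ ≤ 1 / 100) {c : ν → ℝ} {r : ℝ} (r0 : 0 < r) (hr : σ ≤ r)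
    (hc : ∀ v, |c v| + r ≤ 10) : (bx c r).Nonempty := by
  have k := lb h hs r0 hr hc
  have p : 0 < V * r ^ Fintype.card ν := mul_pos h.pos (pow_pos r0 _)
  exact card_pos.1 (by exact_mod_cast (show (0 : ℝ) < (bx c r).card by linarith))

theorem dbl (h : Lat l P bx V σ) (hs : σ ≤ 1 / 100) {c c' : ν → ℝ} {r t : ℝ} (r0 : 0 < r)
    (t0 : 0 ≤ t) (hr : σ ≤ r) (hc : ∀ v, |c v| + r ≤ 10) (hc' : ∀ v, |c' v| + (r + t) ≤ 10)
    (ht : ((Fintype.card ν : ℝ) + 1) * t ≤ r / 10) :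
    (bx c' (r + t)).card ≤ 2 * (bx c r).card := by
  have k1 := ub h hs (by linarith) (by linarith) hc'
  have k2 := lb h hs r0 hr hc
  have k3 := mul_le_mul_of_nonneg_left (pw r0 t0 ht) h.pos.le
  have p : 0 < V * r ^ Fintype.card ν := mul_pos h.pos (pow_pos r0 _)
  have : ((bx c' (r + t)).card : ℝ) ≤ 2 * (bx c r).card := by nlinarith
  exact_mod_cast this

theorem nest (h : Lat l P bx V σ) (hs : σ ≤ 1 / 100) {c1 c2 : ν → ℝ} {r1 r2 r3 r4 : ℝ}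
    (hc : ∀ v, |c1 v| ≤ 2 ∧ |c2 v| ≤ 2) (p4 : 0 < r4) (s4 : σ ≤ r4) (h1 : r1 ≤ 1)
    (h2 : 10 * ((Fintype.card ν : ℝ) + 1) * r2 ≤ r1)
    (h3 : 10 * ((Fintype.card ν : ℝ) + 1) * r3 ≤ r2)
    (h4 : 60 * ((Fintype.card ν : ℝ) + 1) * r4 ≤ r3) :
    Mfr.Nest (bx c1 r1) (bx c2 r2) (bx 0 r3) (bx 0 r4) (bx (c1 + c2) (r1 + r2)) (bx c2 (r2 + r3))
      (bx 0 (r3 + 6 * r4)) := by
  have n0 : (0 : ℝ) ≤ Fintype.card ν := Nat.cast_nonneg _
  have q3 : 60 * r4 ≤ r3 := by nlinarith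
  have q2 : 10 * r3 ≤ r2 := by nlinarith
  have q1 : 10 * r2 ≤ r1 := by nlinarith
  have b1 : ∀ v, |c1 v| + r1 ≤ 10 := fun v => by linarith [(hc v).1]
  have b2 : ∀ v, |c2 v| + r2 ≤ 10 := fun v => by linarith [(hc v).2]
  have z : ∀ r : ℝ, r ≤ 10 → ∀ v, |(0 : ν → ℝ) v| + r ≤ 10 := fun r hr v => by simpa using hr
  have b3 := z r3 (by linarith)
  have b4 := z r4 (by linarith)
  have b5 : ∀ v, |(c1 + c2) v| + (r1 + r2) ≤ 10 := fun v => by
    have := abs_add_le (c1 v) (c2 v)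
    rw [Pi.add_apply]
    linarith [(hc v).1, (hc v).2]
  have b6 : ∀ v, |c2 v| + (r2 + r3) ≤ 10 := fun v => by linarith [(hc v).2]
  have b7 := z (r3 + 6 * r4) (by linarith)
  refine ⟨ne h hs (by linarith) (by linarith) b1, ne h hs (by linarith) (by linarith) b2,
    ne h hs (by linarith) (by linarith) b3, ne h hs p4 s4 b4, fun a ha b hb => ?_,
    fun a ha b hb => ?_, fun a ha b hb => ?_, fun a ha s hb => ?_,
    dbl h hs (by linarith) (by linarith) (by linarith) b1 b5 (by linarith),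
    dbl h hs (by linarith) (by linarith) (by linarith) b2 b6 (by linarith),
    dbl h hs (by linarith) (by linarith) (by linarith) b3 b7 (by linarith)⟩
  · rw [h.mem _ _ b1] at ha
    rw [h.mem _ _ b2] at hb
    refine (h.mem _ _ b5 _).2 ⟨P.add_mem ha.1 hb.1, fun v => ?_⟩
    have k1 := abs_le.1 (ha.2 v)
    have k2 := abs_le.1 (hb.2 v)
    rw [map_add, Pi.add_apply, Pi.add_apply, abs_le]
    constructor <;> linarith
  · rw [h.mem _ _ b2] at ha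
    rw [h.mem _ _ b3] at hb
    refine (h.mem _ _ b6 _).2 ⟨P.sub_mem ha.1 hb.1, fun v => ?_⟩
    have k1 := abs_le.1 (ha.2 v)
    have k2 := abs_le.1 (hb.2 v)
    rw [Pi.zero_apply] at k2
    rw [map_sub, Pi.sub_apply, abs_le]
    constructor <;> linarith
  · rw [h.mem _ _ b3] at ha
    rw [h.mem _ _ b4] at hb
    refine (h.mem _ _ b7 _).2 ⟨P.sub_mem ha.1 hb.1, fun v => ?_⟩
    have k1 := abs_le.1 (ha.2 v)
    have k2 := abs_le.1 (hb.2 v)
    rw [Pi.zero_apply] at k1 k2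
    rw [map_sub, Pi.sub_apply, Pi.zero_apply, abs_le]
    constructor <;> linarith
  · rw [h.mem _ _ b3] at ha
    have hb' := fun i => (h.mem _ _ b4 _).1 (hb i)
    refine (h.mem _ _ b7 _).2 ⟨P.add_mem ha.1 (P.sum_mem fun i _ => (hb' i).1), fun v => ?_⟩
    have k1 := abs_le.1 (ha.2 v)
    have k2 : |∑ i, l (s i) v| ≤ 6 * r4 := by
      refine (abs_sum_le_sum_abs _ _).trans ((sum_le_card_nsmul _ _ r4 fun i _ => ?_).trans ?_)
      · simpa using (hb' i).2 v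
      · simp
    have k3 := abs_le.1 k2
    rw [Pi.zero_apply] at k1
    rw [map_add, map_sum, Pi.add_apply, Finset.sum_apply, Pi.zero_apply, abs_le]
    constructor <;> linarith

theorem rem [DecidableEq G] {B1 B2 D : Finset G} {R : Finset (G × G)} {W1 W2 L : ℝ} (p1 : 0 < W1)
    (p2 : 0 < W2) (u1 : (B1.card : ℝ) ≤ 101 / 100 * W1) (u2 : (B2.card : ℝ) ≤ 101 / 100 * W2)
    (d1 : (D.card : ℝ) ≤ Real.exp (-L) / 4 * W2) (hR : R ⊆ B1 ×ˢ B2)
    (hcard : Real.exp (-L) * (W1 * W2) ≤ R.card) :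
    (B1.card : ℝ) * B2.card ≤ Real.exp (L + 1) * (R.filter fun q => q.2 ∉ D).card := by
  have eL := Real.exp_pos (-L)
  have d2 : (R.card : ℝ) ≤ (R.filter fun q => q.2 ∉ D).card + B1.card * D.card := by
    have k2 : R.card ≤ ((R.filter fun q => q.2 ∉ D) ∪ B1 ×ˢ D).card :=
      card_le_card fun q hq => by
        by_cases k : q.2 ∈ D
        · exact mem_union_right _ (mem_product.2 ⟨(mem_product.1 (hR hq)).1, k⟩)
        · exact mem_union_left _ (mem_filter.2 ⟨hq, k⟩)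
    have k3 := k2.trans (card_union_le _ _)
    rw [card_product] at k3
    exact_mod_cast k3
  have k1 := mul_le_mul u1 d1 (Nat.cast_nonneg _) (by positivity)
  have k2 := mul_le_mul u1 u2 (Nat.cast_nonneg _) (by positivity)
  have k3 : Real.exp (L + 1) * Real.exp (-L) = Real.exp 1 := by
    rw [← Real.exp_add]; congr 1; ring
  have k4 : (2 : ℝ) ≤ Real.exp 1 := by linarith [Real.add_one_le_exp (1 : ℝ)]
  have k5 := mul_pos p1 p2
  have k6 : 7 / 10 * (Real.exp (-L) * (W1 * W2)) ≤ (R.filter fun q => q.2 ∉ D).card := by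
    have := mul_pos eL k5
    linarith
  have k7 := mul_le_mul_of_nonneg_left k6 (Real.exp_pos (L + 1)).le
  have k8 : Real.exp (L + 1) * (7 / 10 * (Real.exp (-L) * (W1 * W2))) =
      7 / 10 * (Real.exp 1 * (W1 * W2)) := by
    rw [← k3]; ring
  have k9 := mul_le_mul_of_nonneg_right k4 k5.le
  linarith

theorem cel {M : ℕ} (hm : 1 ≤ M) {r ρ y : ℝ} (r0 : 0 < r) (hρ : ρ = r / M) (hy : |y| ≤ r) :
    ∃ k : Fin M, |y - r * cc k| ≤ ρ := by
  obtain ⟨k, hk⟩ := ShrP.cell hm (x := y / r) (by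
    rw [abs_div, abs_of_pos r0, div_le_one r0]; exact hy)
  refine ⟨k, ?_⟩
  have e : y - r * cc k = r * (y / r - cc k) := by field_simp
  rw [e, abs_mul, abs_of_pos r0, hρ, div_eq_mul_one_div r]
  exact mul_le_mul_of_nonneg_left hk r0.le

theorem few {M : ℕ} (hm : 1 ≤ M) {r ρ r4 y : ℝ} (ρ0 : 0 < ρ) (p4 : 0 < r4) (hρ : ρ = r / M)
    {U : Finset (Fin M)} (hU : ∀ k ∈ U, |r * cc k - y| ≤ r4 + ρ) : (U.card : ℝ) ≤ r4 / ρ + 2 := by
  have m0 : (0 : ℝ) < M := by exact_mod_cast hm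
  have k := ivl (U := U) (a := (y + r - r4 - 2 * ρ) / (2 * ρ)) (d := r4 / ρ + 1)
    (by positivity) fun k hk' => by
      have k1 := abs_le.1 (hU k hk')
      have e : r * cc k = -r + (2 * ((k : ℕ) : ℝ) + 1) * ρ := by
        unfold cc
        rw [hρ]
        field_simp
      have e2 : (y + r - r4 - 2 * ρ) / (2 * ρ) + (r4 / ρ + 1) = (y + r + r4) / (2 * ρ) := by
        field_simp; ring
      rw [e] at k1
      rw [e2, div_le_iff₀ (by positivity), le_div_iff₀ (by positivity)]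
      constructor <;> linarith [k1.1, k1.2]
  linarith

theorem pig [DecidableEq ν] (hL : Lat l P bx V σ) (hs : σ ≤ 1 / 100) {M : ℕ} (hm : 1 ≤ M)
    {r2 ρ r4 E : ℝ} {c2 : ν → ℝ} {x : G} {S : Finset G} (r20 : 0 < r2) (ρ0 : 0 < ρ) (p4 : 0 < r4)
    (hρ : ρ = r2 / M) (s4 : σ ≤ r4) (t4 : r4 ≤ 10)
    (q4 : 1000 * ((Fintype.card ν : ℝ) + 1) * ρ ≤ r4) (E0 : 0 < E)
    (s1 : ∀ s ∈ S, (∀ v, |l s v - c2 v| ≤ r2) ∧ s - x ∈ bx 0 r4)
    (s2 : ((bx 0 r4).card : ℝ) ≤ E * S.card) :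
    ∃ (j : ν → Fin M) (S' : Finset G), S' ⊆ S ∧
      (∀ s ∈ S', ∀ v, |l s v - (c2 v + r2 * cc (j v))| ≤ ρ) ∧
      V * ρ ^ Fintype.card ν ≤ 2 * E * S'.card := by
  classical
  have b4 : ∀ v, |(0 : ν → ℝ) v| + r4 ≤ 10 := fun v => by
    rw [Pi.zero_apply, abs_zero]; linarith
  haveI : Nonempty (Fin M) := ⟨⟨0, hm⟩⟩
  have ex : ∀ (s : G) (v : ν), ∃ k : Fin M, s ∈ S → |l s v - c2 v - r2 * cc k| ≤ ρ :=
    fun s v => by
    by_cases hs' : s ∈ S
    · obtain ⟨k, hk⟩ := cel hm r20 hρ ((s1 s hs').1 v)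
      exact ⟨k, fun _ => hk⟩
    · exact ⟨⟨0, hm⟩, fun k => absurd k hs'⟩
  choose kk hk using ex
  obtain ⟨j, -, hmax⟩ := exists_max_image (univ : Finset (ν → Fin M))
    (fun j => (S.filter fun s => kk s = j).card) univ_nonempty
  obtain ⟨U, hU⟩ : ∃ U : ν → Finset (Fin M), ∀ v k, k ∈ U v ↔
      |r2 * cc k - (l x v - c2 v)| ≤ r4 + ρ :=
    ⟨fun v => univ.filter fun k => |r2 * cc k - (l x v - c2 v)| ≤ r4 + ρ,
      fun v k => by rw [mem_filter]; exact and_iff_right (mem_univ _)⟩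
  have U1 : ∀ v, ((U v).card : ℝ) ≤ r4 / ρ + 2 := fun v =>
    few hm ρ0 p4 hρ fun k hk' => (hU v k).1 hk'
  have c1 : S.card ≤ (Fintype.piFinset U).card * (S.filter fun s => kk s = j).card := by
    rw [card_eq_sum_card_fiberwise (f := kk) (t := Fintype.piFinset U) fun s hs' => mem_coe.2
      (Fintype.mem_piFinset.2 fun v => (hU v _).2 (by
        have k1 := abs_le.1 (hk s v hs')
        have k2 := abs_le.1 (((hL.mem _ _ b4 _).1 (s1 s hs').2).2 v)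
        rw [map_sub, Pi.sub_apply, Pi.zero_apply] at k2
        rw [abs_le]
        constructor <;> linarith))]
    exact (sum_le_card_nsmul _ _ _ fun k' _ => hmax k' (mem_univ _)).trans (le_of_eq (by simp))
  have c2' : ((Fintype.piFinset U).card : ℝ) ≤ 3 / 2 * (r4 / ρ) ^ Fintype.card ν := by
    rw [Fintype.card_piFinset, Nat.cast_prod]
    refine ((prod_le_prod (fun v _ => Nat.cast_nonneg _) fun v _ => U1 v).trans (le_of_eq ?_)).trans
      (pw (n := Fintype.card ν) (t := 2) (div_pos p4 ρ0) (by norm_num) ?_)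
    · rw [prod_const, card_univ]
    · rw [le_div_iff₀ (by norm_num), le_div_iff₀ ρ0]
      have : 0 ≤ ((Fintype.card ν : ℝ) + 1) * ρ := by positivity
      linarith
  refine ⟨j, S.filter fun s => kk s = j, filter_subset _ _, fun s hs' v => ?_, ?_⟩
  · obtain ⟨k1, k2⟩ := mem_filter.1 hs'
    rw [← k2, ← sub_sub]
    exact hk s v k1
  · have k1 := lb hL hs p4 s4 b4
    have k2 : (S.card : ℝ) ≤ (Fintype.piFinset U).card * (S.filter fun s => kk s = j).card := by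
      exact_mod_cast c1
    have k3 := k2.trans (mul_le_mul_of_nonneg_right c2' (Nat.cast_nonneg _))
    have k4 := (k1.trans s2).trans (mul_le_mul_of_nonneg_left k3 E0.le)
    have k5 : V * r4 ^ Fintype.card ν = (r4 / ρ) ^ Fintype.card ν * (V * ρ ^ Fintype.card ν) := by
      rw [div_pow]; field_simp
    have k6 : 0 < (r4 / ρ) ^ Fintype.card ν := pow_pos (div_pos p4 ρ0) _
    have k7 : 99 / 100 * (V * ρ ^ Fintype.card ν) ≤
        3 / 2 * (E * (S.filter fun s => kk s = j).card) := by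
      refine le_of_mul_le_mul_left ?_ k6
      rw [k5] at k4
      linarith
    have k8 := mul_nonneg E0.le (Nat.cast_nonneg (α := ℝ) (S.filter fun s => kk s = j).card)
    linarith

theorem num {N r1 r2 σ : ℝ} {M : ℕ} (N1 : 1 ≤ N) (r20 : 0 < r2) (h12 : 100 * N * r2 ≤ r1)
    (hMn : 10 ^ 8 * N ^ 3 ≤ M) (hσ : σ * M ≤ r2) : 1 ≤ M ∧ ∃ ρ r4 : ℝ, ρ = r2 / M ∧ ρ * M = r2 ∧
      0 < ρ ∧ σ ≤ ρ ∧ ρ ≤ r4 ∧ r4 ≤ r2 ∧ 100 * r2 ≤ r1 ∧ 1000 * N * ρ ≤ r4 ∧ 10 * N * r2 ≤ r1 ∧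
      10 * N * (1000 * N * r4) ≤ r2 ∧ 60 * N * r4 ≤ 1000 * N * r4 := by
  have N3 : N ≤ N ^ 3 := le_self_pow₀ N1 (by norm_num)
  have M1 : (1 : ℝ) ≤ M := by linarith
  have m0 : (0 : ℝ) < M := by linarith
  obtain ⟨ρ, hρ⟩ : ∃ ρ : ℝ, ρ = r2 / M := ⟨_, rfl⟩
  have ρM : ρ * M = r2 := by rw [hρ]; field_simp
  have ρ0 : 0 < ρ := hρ ▸ div_pos r20 m0
  obtain ⟨r4, h4⟩ : ∃ r4 : ℝ, r4 = r2 / (10 ^ 5 * N ^ 2) := ⟨_, rfl⟩
  have e4 : 10 ^ 5 * N ^ 2 * r4 = r2 := by rw [h4]; field_simp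
  have p4 : 0 < r4 := h4 ▸ div_pos r20 (by positivity)
  have q4 : 1000 * N * ρ ≤ r4 := by
    have k : 10 ^ 5 * N ^ 2 * (1000 * N * ρ) ≤ 10 ^ 5 * N ^ 2 * r4 := by
      rw [e4, ← ρM]
      have := mul_le_mul_of_nonneg_left hMn ρ0.le
      linarith
    exact le_of_mul_le_mul_left k (by positivity)
  have a1 := mul_le_mul_of_nonneg_right N1 ρ0.le
  have a2 := mul_le_mul_of_nonneg_right N1 r20.le
  have a3 := mul_le_mul_of_nonneg_right N1 p4.le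
  have a4 := mul_le_mul_of_nonneg_right (one_le_pow₀ N1 (n := 2)) p4.le
  exact ⟨by exact_mod_cast M1, ρ, r4, hρ, ρM, ρ0, hρ ▸ (le_div_iff₀ m0).2 hσ, by linarith,
    by linarith, by linarith, q4, by linarith, by linarith, by linarith⟩

end FibP

open FibP in
theorem fib (hM : MFP) : FIB := by
  classical
  intro G δ ν _ _ _ _ I γ l P bx V σ c1 c2 r1 r2 M f g ζ R ε L hγ hI hL L1 e0 hs hc r20 r11 h12 hMn
    hσ hR hf hcard
  obtain ⟨hm, ρ, r4, hρ, ρM, ρ0, σρ, ρ4, r42, r21, q4, n1, n2, n3⟩ :=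
    num (le_add_of_nonneg_left (Nat.cast_nonneg _)) r20 h12 hMn hσ
  have p4 : 0 < r4 := ρ0.trans_le ρ4
  have hNest := nest hL hs hc p4 (σρ.trans ρ4) r11 n1 n2 n3
  have b1 : ∀ v, |c1 v| + r1 ≤ 10 := fun v => by linarith [(hc v).1]
  have b2 : ∀ v, |c2 v| + r2 ≤ 10 := fun v => by linarith [(hc v).2]
  have bq : ∀ (j : ν → Fin M) (v : ν), |c2 v + r2 * cc (j v)| + ρ ≤ 10 := fun j v => by
    have k1 : |cc (j v)| + 1 / M ≤ 1 := ShrP.cen_le (j v)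
    have k2 : (0 : ℝ) ≤ 1 / M := by positivity
    have k3 := abs_add_le (c2 v) (r2 * cc (j v))
    rw [abs_mul, abs_of_pos r20] at k3
    have k4 := mul_le_mul_of_nonneg_left (show |cc (j v)| ≤ 1 by linarith) r20.le
    linarith [(hc v).2]
  have W1 : 0 < V * r1 ^ Fintype.card ν := mul_pos hL.pos (pow_pos (by linarith) _)
  have W2 : 0 < V * r2 ^ Fintype.card ν := mul_pos hL.pos (pow_pos r20 _)
  have Wρ : 0 < V * ρ ^ Fintype.card ν := mul_pos hL.pos (pow_pos ρ0 _)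
  have u1 := ub hL hs (by linarith) (by linarith) b1
  have u2 := ub hL hs r20 (by linarith) b2
  rw [← hρ]
  obtain ⟨J, hJ⟩ : ∃ J : Finset (ν → Fin M), ∀ j, j ∈ J ↔ ∃ S : Finset G,
      (∀ s ∈ S, (∃ a, (a, s) ∈ R) ∧ ∀ v, |l s v - (c2 v + r2 * cc (j v))| ≤ ρ) ∧
      Real.exp (-(8000 * (L + 2))) * (V * ρ ^ Fintype.card ν) ≤ S.card ∧
      Six I g S (10 ^ 6 * ((Fintype.card δ : ℝ) + 4) ^ 4 * ε) :=
    ⟨@filter _ _ (Classical.decPred _) univ, fun j =>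
      (@mem_filter _ _ (Classical.decPred _) _ _).trans (and_iff_right (mem_univ _))⟩
  refine ⟨J, ?_, fun j hj => (hJ j).1 hj⟩
  by_contra hlt
  rw [not_le] at hlt
  obtain ⟨D, hD⟩ : ∃ D : Finset G, D = J.biUnion fun j => bx (fun v => c2 v + r2 * cc (j v)) ρ :=
    ⟨_, rfl⟩
  have eL := Real.exp_pos (-L)
  have d1 : (D.card : ℝ) ≤ Real.exp (-L) / 4 * (V * r2 ^ Fintype.card ν) := by
    have k1 : (D.card : ℝ) ≤ ∑ j ∈ J, ((bx (fun v => c2 v + r2 * cc (j v)) ρ).card : ℝ) := by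
      rw [hD]
      exact_mod_cast card_biUnion_le
    have k2 := sum_le_card_nsmul J (fun j => ((bx (fun v => c2 v + r2 * cc (j v)) ρ).card : ℝ))
      _ fun j _ => ub hL hs ρ0 σρ (bq j)
    rw [nsmul_eq_mul] at k2
    have k3 := mul_le_mul_of_nonneg_right hlt.le
      (by positivity : (0 : ℝ) ≤ 101 / 100 * (V * ρ ^ Fintype.card ν))
    have k4 : (M : ℝ) ^ Fintype.card ν * (V * ρ ^ Fintype.card ν) = V * r2 ^ Fintype.card ν := by
      rw [← ρM, mul_pow]; ring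
    have k5 : Real.exp (-L) / 8 * (M : ℝ) ^ Fintype.card ν * (101 / 100 * (V * ρ ^ Fintype.card ν)) =
        101 / 800 * (Real.exp (-L) * (V * r2 ^ Fintype.card ν)) := by
      rw [← k4]; ring
    have k6 := mul_pos eL W2
    linarith
  obtain ⟨x, S, s1, s2, s3⟩ := hM G δ I γ _ _ _ _ _ _ _ f g ζ (R.filter fun q => q.2 ∉ D) ε (L + 1)
    hγ hI hNest (by linarith) e0 ((filter_subset _ _).trans hR)
    (fun q hq => hf q (mem_filter.1 hq).1) (rem W1 W2 u1 u2 d1 hR hcard)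
  have sB : ∀ s ∈ S, s ∈ P ∧ ∀ v, |l s v - c2 v| ≤ r2 := fun s hs' => by
    obtain ⟨a, ha⟩ := (s1 s hs').1
    exact (hL.mem _ _ b2 s).1 (mem_product.1 (hR (mem_filter.1 ha).1)).2
  obtain ⟨j, S', t1, w, t2⟩ := pig hL hs hm r20 ρ0 p4 hρ (σρ.trans ρ4) (by linarith) q4
    (Real.exp_pos _) (fun s hs' => ⟨(sB s hs').2, (s1 s hs').2⟩) s2
  have c3 : Real.exp (-(8000 * (L + 2))) * (V * ρ ^ Fintype.card ν) ≤ S'.card := by
    have k8 : 2 * Real.exp (8000 * (L + 1)) ≤ Real.exp (8000 * (L + 2)) := by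
      have e : Real.exp (8000 * (L + 2)) = Real.exp 8000 * Real.exp (8000 * (L + 1)) := by
        rw [← Real.exp_add]; congr 1; ring
      rw [e]
      exact mul_le_mul_of_nonneg_right (by linarith [Real.add_one_le_exp (8000 : ℝ)])
        (Real.exp_pos _).le
    rw [Real.exp_neg, inv_mul_le_iff₀ (Real.exp_pos _)]
    exact t2.trans (mul_le_mul_of_nonneg_right k8 (Nat.cast_nonneg _))
  have jJ : j ∈ J := (hJ j).2 ⟨S', fun s hs' => ⟨by
      obtain ⟨a, ha⟩ := (s1 s (t1 hs')).1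
      exact ⟨a, (mem_filter.1 ha).1⟩, w s hs'⟩, c3,
    fun s t h1 h2 => s3 s t (fun k => t1 (h1 k)) fun k => t1 (h2 k)⟩
  obtain ⟨s, hs'⟩ : S'.Nonempty := card_pos.1 (by
    exact_mod_cast (mul_pos (Real.exp_pos _) Wρ).trans_le c3)
  obtain ⟨a, ha⟩ := (s1 s (t1 hs')).1
  refine (mem_filter.1 ha).2 ?_
  rw [hD]
  exact mem_biUnion.2 ⟨j, jJ, (hL.mem _ _ (bq j) s).2 ⟨(sB s (t1 hs')).1, w s hs'⟩⟩

end Frx

end Vale.Agent.P057T.Gk
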