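import Vale.Agent.P057T.Gk.FrxD
import Vale.Agent.P057T.ChaH53
import Vale.Agent.P057T.RndH68

/-! Metric Freiman lemma with a loss which is polynomial in the dimension of the target. -/

set_option linter.all false

open Finset Matrix
open scoped BigOperators Classical

namespace Vale.Agent.P057T.Gk.Frx

open Vale.Agent.P057Z Vale.Agent.P057Z.Fr Vale.Agent.P057T.Mfr Vale.Agent.P267.H775

theorem gen {G Y : Type} [AddCommGroup G] [AddCommGroup Y] [Fintype Y] (N : Y → ℝ) (hN : Sz N)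
    {B1 B2 B3 B4 C1 C2 C3 : Finset G}
    (h : Nest B1 B2 B3 B4 C1 C2 C3) (f g ζ : G → Y) (U : G → G → Prop) (y0 : G) (ρ r1 L : ℝ)
    (hL1 : 1 ≤ L) (hρ : 0 < ρ) (hr1 : 0 ≤ r1) (W W' : Finset Y) (nW : W.Nonempty)
    (hW1 : ∀ u ∈ W, N u ≤ r1) (hW2 : ∀ u ∈ W, ∀ y, N y ≤ 6 * ρ → u + y ∈ W')
    (hW3 : W'.card ≤ 2 * W.card) (hU0 : ∀ a b, U a b → N (f a + g b - ζ (a + b)) ≤ ρ)
    (hcount : (B1.card : ℝ) * B2.card ≤ Real.exp L * ((B1 ×ˢ tr y0 B2).filter
      (fun p => U p.1 p.2)).card) :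
    ∃ (x : G) (S : Finset G), (∀ s ∈ S, ∃ a, U a s) ∧ S ⊆ tr x B4 ∧ S ⊆ tr y0 B2 ∧
      (B4.card : ℝ) ≤ 16 * Real.exp L * S.card ∧
      Few N (Real.exp (270 * L)) (4 * (2 * r1)) (Rel g S 6) := by
  set K := Real.exp L with hKdef
  have hK1 : 1 ≤ K := Real.one_le_exp (by linarith)
  have hK0 : 0 < K := by linarith
  have p1 : (0 : ℝ) < B1.card := by exact_mod_cast h.n1.card_pos
  have p2 : (0 : ℝ) < B2.card := by exact_mod_cast h.n2.card_pos
  have p3 : (0 : ℝ) < B3.card := by exact_mod_cast h.n3.card_pos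
  have p4 : (0 : ℝ) < B4.card := by exact_mod_cast h.n4.card_pos
  have c2 := card_tr y0 B2
  obtain ⟨A', hA', B', hB', cA, cB, hU, hfew⟩ := Fr.list G Y N hN B1 (tr y0 B2)
    f g ζ U K ρ hK1 h.n1
    (card_pos.1 (c2 ▸ h.n2.card_pos)) hU0 (by rw [c2]; exact hcount)
  rw [c2] at cB
  obtain ⟨x3, hx3'⟩ := loc h.n2 h.n3 h.a2 h.c2 hB'
  set D2 := B' ∩ tr x3 B3 with hB2
  have cB2 : (B3.card : ℝ) ≤ 8 * K * D2.card :=
    (num_den p2 p3.le (by positivity) cB hx3').trans (le_of_eq (by ring))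
  have pB2 : (0 : ℝ) < D2.card := num_pos p3 (Nat.cast_nonneg _) cB2
  have pA : (0 : ℝ) < A'.card := num_pos p1 (Nat.cast_nonneg _) cA
  have cX1 : ((tr y0 C1).card : ℝ) ≤ 2 * B1.card := by rw [card_tr]; exact_mod_cast h.c1
  have cX2 : ((tr (y0 - x3) C2).card : ℝ) ≤ 2 * B2.card := by rw [card_tr]; exact_mod_cast h.c2
  have hX1m : ∀ a ∈ B1, ∀ b ∈ tr y0 B2, a + b ∈ tr y0 C1 := fun a ha b hb =>
    mem_tr.2 (by rw [add_sub_assoc]; exact h.a1 a ha _ (mem_tr.1 hb))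
  have f0 : ∀ c, Few N (12288 * K ^ 5) (6 * ρ) (Fib2 f g A' D2 c) := by
    intro c
    refine (hfew D2 inter_subset_left _ (tr (y0 - x3) C2) hX1m (fun b' hb' b hb => mem_tr.2 (by
      rw [show b' - b - (y0 - x3) = b' - y0 - (b - x3) by abel]
      exact h.a2 _ (mem_tr.1 hb') _ (mem_tr.1 (mem_inter.1 hb).2))) c).mono ?_ le_rfl
      (fun _ h => h)
    rw [c2, div_le_iff₀ (by positivity)]
    calc 3072 * K ^ 5 * (tr y0 C1).card * (tr (y0 - x3) C2).card
        ≤ 3072 * K ^ 5 * (2 * (B1.card : ℝ)) * (2 * (B2.card : ℝ)) := by gcongr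
      _ = _ := by ring
  have f1 : ∀ c, Few N ((294912 * K ^ 6) ^ 7) (2 * r1) (Fib g D2 (6 + 1) c) := by
    intro c
    refine (Fr.plu G Y N hN A' D2 (tr y0 C1) W W' f g (12288 * K ^ 5) (6 * ρ)
      r1 7 (by rw [← card_pos]; exact_mod_cast pA) nW (by positivity)
      (fun a ha b hb => hX1m a (hA' ha) b (hB' (mem_inter.1 hb).1)) hW1 hW2 hW3 f0 c).mono ?_
      le_rfl (fun _ h => h)
    refine pow_le_pow_left₀ (by positivity) ?_ 7
    rw [div_le_iff₀ pA]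
    calc 2 * (12288 * K ^ 5) * (tr y0 C1).card ≤
          2 * (12288 * K ^ 5) * (2 * (6 * K * A'.card)) := by
          have := cX1.trans (mul_le_mul_of_nonneg_left cA (by norm_num))
          gcongr
      _ = 294912 * K ^ 6 * A'.card := by ring
  obtain ⟨x4, hx4'⟩ := loc h.n3 h.n4 h.a3 h.c3 (inter_subset_right : D2 ⊆ _)
  set B5 := D2 ∩ tr x4 B4 with hB5
  have cB5 : (B4.card : ℝ) ≤ 16 * K * B5.card :=
    (num_den p3 p4.le (by positivity) cB2 hx4').trans (le_of_eq (by ring))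
  have cX3 : ((tr (x3 + ∑ _i : Fin 6, x4) C3).card : ℝ) ≤ 2 * B3.card := by
    rw [card_tr]; exact_mod_cast h.c3
  have f2 : Few N (Real.exp (270 * L)) (4 * (2 * r1)) (Rel g B5 6) := by
    refine (Fr.csl G Y N hN D2 B5 (tr (x3 + ∑ _i : Fin 6, x4) C3) g _ _ 6 inter_subset_left
      (by rw [← card_pos]; exact_mod_cast pB2) (by positivity) (fun b hb s hs => mem_tr.2 (by
        rw [add_sub_add_comm, ← sum_sub_distrib]
        exact h.a4 _ (mem_tr.1 (mem_inter.1 hb).2) _ fun i => mem_tr.1 (mem_inter.1 (hs i)).2))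
      f1).mono ?_ le_rfl (fun _ h => h)
    refine le_trans ?_ (num_M2 L hL1)
    rw [div_le_iff₀ pB2]
    calc ((294912 * K ^ 6) ^ 7) ^ 2 * (tr (x3 + ∑ _i : Fin 6, x4) C3).card
        ≤ ((294912 * K ^ 6) ^ 7) ^ 2 * (2 * (8 * K * D2.card)) := by
          have := cX3.trans (mul_le_mul_of_nonneg_left cB2 (by norm_num))
          gcongr
      _ = ((294912 * K ^ 6) ^ 7) ^ 2 * (16 * K) * D2.card := by ring
  have hSB' : B5 ⊆ B' := fun s hs => (mem_inter.1 (mem_inter.1 hs).1).1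
  exact ⟨x4, B5, fun s hs => hU s (hSB' hs), fun s hs => (mem_inter.1 hs).2,
    fun s hs => hB' (hSB' hs), cB5, f2⟩

/-- a discrete subgroup lies in a full lattice with the same short vectors -/
theorem full {δ : Type} [Fintype δ] (I : AddSubgroup (δ → ℝ)) {γ : ℝ} (hγ : 0 < γ)
    (hI : ∀ y ∈ I, ‖y‖ ≤ γ → y = 0) (R : ℝ) (hR : 0 ≤ R) :
    ∃ M : Matrix δ δ ℝ, M.det ≠ 0 ∧ (∀ y ∈ I, ∃ n : δ → ℤ, M *ᵥ toR n = y) ∧
      ∀ n : δ → ℤ, ‖M *ᵥ toR n‖ ≤ R → M *ᵥ toR n ∈ I := by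
  obtain ⟨b, c, p, h1, h2, h3, h4, h5⟩ := basis (Fintype.card δ) (δ → ℝ) I (by simp) fun r => by
    obtain ⟨t, ht, hc⟩ := Metric.totallyBounded_iff.1
      (isCompact_closedBall (0 : δ → ℝ) r).totallyBounded (γ / 2) (by positivity)
    refine (ht.biUnion (t := fun y => {x | x ∈ I ∧ x ∈ Metric.ball y (γ / 2)})
      fun y _ => Set.Subsingleton.finite fun a ha a' ha' => ?_).subset fun x hx => ?_
    · refine sub_eq_zero.1 (hI _ (I.sub_mem ha.1 ha'.1) ?_)
      have := dist_triangle_right a a' y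
      rw [← dist_eq_norm]
      linarith [Metric.mem_ball.1 ha.2, Metric.mem_ball.1 ha'.2]
    · obtain ⟨y, hy, a⟩ := Set.mem_iUnion₂.1 (hc (mem_closedBall_zero_iff.2 hx.2))
      exact Set.mem_biUnion hy ⟨hx.1, a⟩
  obtain ⟨E, hE⟩ : ∃ E : ℝ, E = (4 * (Fintype.card δ : ℝ) + 4) ^ Fintype.card δ := ⟨_, rfl⟩
  rw [← hE] at h5
  have E0 : 0 ≤ E := by rw [hE]; positivity
  let e := Fintype.equivFin δ
  have nb : ∀ j, 0 < ‖b j‖ := fun j => norm_pos_iff.2 (h1 j)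
  let w : Fin (Fintype.card δ) → ℝ := fun j => if p j then 1 else (E * R + 1) / ‖b j‖
  have w0 : ∀ j, 0 < w j := fun j => by
    have := nb j
    simp only [w]
    split_ifs <;> positivity
  let M : Matrix δ δ ℝ := fun i j => w (e j) * b (e j) i
  have hM : ∀ a : δ → ℝ, M *ᵥ a = ∑ j, (w j * a (e.symm j)) • b j := fun a => by
    funext i
    rw [Finset.sum_apply, ← e.sum_comp]
    simp only [mulVec, dotProduct, M, Pi.smul_apply, smul_eq_mul, e.symm_apply_apply]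
    exact sum_congr rfl fun j _ => by ring
  have hc : ∀ x, M *ᵥ (fun j => c x (e j) / w (e j)) = x := fun x => by
    rw [hM]
    conv_rhs => rw [← h2 x]
    refine sum_congr rfl fun j _ => ?_
    rw [e.apply_symm_apply, mul_div_cancel₀ _ (w0 j).ne']
  have hu : IsUnit M := mulVec_surjective_iff_isUnit.1 fun x => ⟨_, hc x⟩
  refine ⟨M, ((isUnit_iff_isUnit_det M).1 hu).ne_zero, fun y hy => ?_, fun n hn => ?_⟩
  · choose k hk using h4 y hy
    refine ⟨fun j => k (e j), ?_⟩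
    conv_rhs => rw [← hc y]
    congr 1
    funext j
    rw [toR_apply, (hk _).1]
    by_cases a : p (e j)
    · simp [w, a]
    · simp [(hk _).2 a]
  · have hn' : (fun j => c (M *ᵥ toR n) (e j) / w (e j)) = toR n :=
      mulVec_injective_iff_isUnit.2 hu (hc _)
    rw [hM]
    refine I.sum_mem fun j _ => ?_
    by_cases a : p j
    · simp only [w, if_pos a, one_mul, toR_apply, Int.cast_smul_eq_zsmul]
      exact I.zsmul_mem (h3 j a) _
    · have k1 := congrFun hn' (e.symm j)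
      simp only [e.apply_symm_apply, toR_apply] at k1
      rw [div_eq_iff (w0 j).ne'] at k1
      have k2 := (h5 (M *ᵥ toR n) j).trans (mul_le_mul_of_nonneg_left hn E0)
      rw [k1, abs_mul, abs_of_pos (w0 j)] at k2
      have k3 : ‖b j‖ * w j = E * R + 1 := by
        simp only [w, if_neg a]
        exact mul_div_cancel₀ _ (nb j).ne'
      have k4 : |(n (e.symm j) : ℝ)| < 1 := by
        by_contra k4
        have := mul_le_mul_of_nonneg_left (not_lt.1 k4) (show 0 ≤ ‖b j‖ * w j from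
          (mul_pos (nb j) (w0 j)).le)
        nlinarith
      have k5 : n (e.symm j) = 0 := Int.abs_lt_one_iff.1 (by exact_mod_cast k4)
      simp [k5]

/-- a nearly invariant ball in a finite subgroup of a quotient -/
theorem fatq {δ : Type} [Fintype δ] (Λ : AddSubgroup (δ → ℝ)) (Y : AddSubgroup ((δ → ℝ) ⧸ Λ))
    [Fintype Y] {r : ℝ} (hr : 0 < r) : ∃ W W' : Finset Y, W.Nonempty ∧
      (∀ u ∈ W, ‖u.1‖ ≤ 2 * ((Fintype.card δ : ℝ) + 4) ^ 2 * r) ∧
      (∀ u ∈ W, ∀ y : Y, ‖y.1‖ ≤ r → u + y ∈ W') ∧ W'.card ≤ 2 * W.card := by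
  obtain ⟨d, hd⟩ : ∃ d, d = Fintype.card δ := ⟨_, rfl⟩
  obtain ⟨K, hK⟩ : ∃ K : ℕ, K = d * (2 * d + 8) + 1 := ⟨_, rfl⟩
  let B : ℕ → Finset Y := fun j => univ.filter fun u => ‖u.1‖ ≤ (j + 1 : ℕ) * r
  have mB : ∀ j u, u ∈ B j ↔ ‖u.1‖ ≤ ((j : ℝ) + 1) * r := fun j u => by simp [B]
  have zB : ∀ j, (0 : Y) ∈ B j := fun j => (mB _ _).2 (by
    rw [ZeroMemClass.coe_zero, norm_zero]; positivity)
  have cov : (B K).card ≤ (B 0).card * (2 * K + 4) ^ d := by
    have lf : ∀ u : Y, ∃ v : δ → ℝ, (v : (δ → ℝ) ⧸ Λ) = u.1 ∧ ‖v‖ < ‖u.1‖ + r := fun u =>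
      QuotientAddGroup.exists_norm_mk_lt u.1 hr
    choose v hv hv' using lf
    let T : Finset (δ → ℤ) := Fintype.piFinset fun _ => Ico (-(K + 2 : ℤ)) (K + 2)
    have cT : T.card = (2 * K + 4) ^ d := by
      simp only [T, Fintype.card_piFinset, Int.card_Ico, prod_const, card_univ, ← hd]
      congr 1
      omega
    rw [← cT]
    refine card_le_mul_card_image_of_maps_to (f := fun u i => ⌊v u i / r⌋) (fun u hu => ?_) _
      fun z _ => ?_
    · refine Fintype.mem_piFinset.2 fun i => ?_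
      have a1 : |v u i| < ((K : ℝ) + 2) * r := by
        have := norm_le_pi_norm (v u) i
        have := hv' u
        have := (mB _ _).1 hu
        rw [← Real.norm_eq_abs]
        linarith
      rw [abs_lt] at a1
      rw [mem_Ico, Int.le_floor, Int.floor_lt, le_div_iff₀ hr, div_lt_iff₀ hr]
      push_cast
      constructor <;> linarith
    · rcases ((B K).filter fun u => (fun i => ⌊v u i / r⌋) = z).eq_empty_or_nonempty with h | ⟨u0, h⟩
      · rw [h]; simp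
      refine card_le_card_of_injOn (fun u => u - u0) (fun u hu => ?_) fun a _ b _ e => by
        simpa using e
      refine mem_coe.2 ((mB _ _).2 ?_)
      have e : (u - u0).1 = ((v u - v u0 : δ → ℝ) : (δ → ℝ) ⧸ Λ) := by
        rw [QuotientAddGroup.mk_sub, hv, hv]; rfl
      rw [e]
      refine QuotientAddGroup.norm_mk_le_norm.trans ?_
      rw [pi_norm_le_iff_of_nonneg (by positivity)]
      intro i
      have a1 := congrFun ((mem_filter.1 (mem_coe.1 hu)).2.trans (mem_filter.1 h).2.symm) i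
      have a2 := Int.abs_sub_lt_one_of_floor_eq_floor a1
      rw [← sub_div, abs_div, abs_of_pos hr, div_lt_one hr] at a2
      simpa using a2.le
  have num : (2 * K + 4) ^ d < 2 ^ K := by
    have a1 : d + 1 ≤ 2 ^ d := Nat.lt_two_pow_self
    have a2 : 2 * K + 4 ≤ 2 ^ (2 * d + 8) := by
      have : 2 ^ (2 * d + 8) = 256 * (2 ^ d * 2 ^ d) := by ring
      rw [this, hK]
      nlinarith [Nat.mul_le_mul a1 a1]
    calc (2 * K + 4) ^ d ≤ (2 ^ (2 * d + 8)) ^ d := Nat.pow_le_pow_left a2 d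
      _ < 2 ^ K := by
        rw [← pow_mul]
        exact Nat.pow_lt_pow_right (by norm_num) (by rw [hK, mul_comm]; omega)
  obtain ⟨j, hj, hj'⟩ : ∃ j < K, (B (j + 1)).card ≤ 2 * (B j).card := by
    by_contra! hc
    have : ∀ j ≤ K, 2 ^ j * (B 0).card ≤ (B j).card := fun j hj => by
      induction j with
      | zero => simp
      | succ j ih =>
        have := hc j hj
        have := ih (by omega)
        rw [pow_succ]
        nlinarith
    have p0 : 0 < (B 0).card := card_pos.2 ⟨0, zB 0⟩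
    have := (this K le_rfl).trans cov
    rw [mul_comm] at this
    have := Nat.le_of_mul_le_mul_left this p0
    omega
  refine ⟨B j, B (j + 1), ⟨0, zB j⟩, fun u hu => ((mB _ _).1 hu).trans ?_, fun u hu y hy => ?_, hj'⟩
  · refine mul_le_mul_of_nonneg_right ?_ hr.le
    have a1 : (j : ℝ) + 1 ≤ K := by exact_mod_cast hj
    have a2 : (K : ℝ) = d * (2 * d + 8) + 1 := by rw [hK]; push_cast; ring
    have a3 : (0 : ℝ) ≤ d := Nat.cast_nonneg d
    rw [← hd]
    nlinarith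
  · rw [mB, AddSubgroup.coe_add]
    have := (mB _ _).1 hu
    have := norm_add_le u.1 y.1
    push_cast
    linarith

theorem numt (L : ℝ) (hL : 1 ≤ L) : ∃ t : ℕ, Real.exp (270 * L) * 3 ^ t < 4 ^ t ∧
    16 * Real.exp L * 601 ^ t ≤ Real.exp (8000 * L) := by
  refine ⟨4 * (⌈270 * L⌉₊ + 1), ?_, ?_⟩
  · have h1 : (3 : ℝ) ^ 4 * Real.exp 1 ≤ 4 ^ 4 := by
      have := Real.exp_one_lt_d9
      norm_num at this ⊢
      linarith
    have h2 : 270 * L ≤ ⌈270 * L⌉₊ := Nat.le_ceil _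
    calc Real.exp (270 * L) * 3 ^ (4 * (⌈270 * L⌉₊ + 1))
        < Real.exp 1 ^ (⌈270 * L⌉₊ + 1) * 3 ^ (4 * (⌈270 * L⌉₊ + 1)) := by
          refine mul_lt_mul_of_pos_right ?_ (by positivity)
          rw [← Real.exp_nat_mul]
          exact Real.exp_lt_exp.2 (by push_cast; linarith)
      _ = (3 ^ 4 * Real.exp 1) ^ (⌈270 * L⌉₊ + 1) := by rw [pow_mul, mul_pow, mul_comm]
      _ ≤ (4 ^ 4) ^ (⌈270 * L⌉₊ + 1) := by gcongr
      _ = _ := by rw [pow_mul]
  · have h := Real.exp_one_gt_d9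
    have h1 : (601 : ℝ) ^ 4 ≤ Real.exp 26 := by
      have : Real.exp 26 = Real.exp 1 ^ 26 := by rw [← Real.exp_nat_mul]; norm_num
      rw [this]
      calc (601 : ℝ) ^ 4 ≤ 2.7 ^ 26 := by norm_num
        _ ≤ Real.exp 1 ^ 26 := pow_le_pow_left₀ (by norm_num) (by linarith) 26
    have h2 : (16 : ℝ) ≤ Real.exp 3 := by
      have : Real.exp 3 = Real.exp 1 ^ 3 := by rw [← Real.exp_nat_mul]; norm_num
      rw [this]
      calc (16 : ℝ) ≤ 2.7 ^ 3 := by norm_num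
        _ ≤ Real.exp 1 ^ 3 := pow_le_pow_left₀ (by norm_num) (by linarith) 3
    have h3 : (⌈270 * L⌉₊ : ℝ) < 270 * L + 1 := Nat.ceil_lt_add_one (by linarith)
    have hK : 0 < Real.exp L := Real.exp_pos L
    calc 16 * Real.exp L * 601 ^ (4 * (⌈270 * L⌉₊ + 1))
        ≤ Real.exp 3 * Real.exp L * Real.exp 26 ^ (⌈270 * L⌉₊ + 1) := by
          rw [pow_mul]
          gcongr
      _ = Real.exp (3 + L + 26 * (⌈270 * L⌉₊ + 1)) := by
          rw [← Real.exp_nat_mul, ← Real.exp_add, ← Real.exp_add]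
          congr 1
          push_cast
          ring
      _ ≤ Real.exp (8000 * L) := Real.exp_le_exp.2 (by linarith)

theorem qf_le {δ : Type} [Fintype δ] (M : Matrix δ δ ℝ) (a : δ → ℝ) {e : ℝ} (he : 0 ≤ e)
    (h : ‖M *ᵥ a‖ ≤ e) : qf M a ≤ (((Fintype.card δ : ℝ) + 4) * e) ^ 2 := by
  have h1 : qf M a ≤ Fintype.card δ * e ^ 2 := by
    unfold qf
    refine (sum_le_card_nsmul univ _ (e ^ 2) fun i _ => ?_).trans (by simp)
    exact sq_le_sq' (by linarith [(abs_le.1 ((norm_le_pi_norm (M *ᵥ a) i).trans h)).1])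
      (abs_le.1 ((norm_le_pi_norm (M *ᵥ a) i).trans h)).2
  have h2 : (0 : ℝ) ≤ Fintype.card δ := Nat.cast_nonneg _
  have h3 : (Fintype.card δ : ℝ) ≤ ((Fintype.card δ : ℝ) + 4) ^ 2 := by nlinarith
  rw [mul_pow]
  exact h1.trans (mul_le_mul_of_nonneg_right h3 (by positivity))

theorem le_qf {δ : Type} [Fintype δ] (M : Matrix δ δ ℝ) (a : δ → ℝ) {e : ℝ} (he : 0 ≤ e)
    (h : qf M a ≤ e ^ 2) : ‖M *ᵥ a‖ ≤ e := by
  rw [pi_norm_le_iff_of_nonneg he]
  intro i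
  refine abs_le_of_sq_le_sq ?_ he
  exact (single_le_sum (f := fun i => (M *ᵥ a) i ^ 2) (fun _ _ => sq_nonneg _) (mem_univ i)).trans h

theorem mfp : MFP := by
  intro G δ _ _ I γ B1 B2 B3 B4 C1 C2 C3 f g ζ R ε L hγ hI hN hL hε hR hrel hc
  obtain ⟨D, hD⟩ : ∃ D : ℝ, D = (Fintype.card δ : ℝ) + 4 := ⟨_, rfl⟩
  have D4 : 4 ≤ D := by rw [hD]; linarith [Nat.cast_nonneg (α := ℝ) (Fintype.card δ)]
  obtain ⟨H, hH⟩ : ∃ H, H = 10 ^ 6 * D ^ 4 * ε := ⟨_, rfl⟩
  have H0 : 0 ≤ H := by rw [hH]; positivity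
  rw [← hD, ← hH]
  have s0 : 0 ≤ ∑ b ∈ B2, ‖g b‖ := sum_nonneg fun _ _ => norm_nonneg _
  obtain ⟨M, hM, hM1, hM2⟩ := full I hγ hI (H + 12 * ∑ b ∈ B2, ‖g b‖) (by positivity)
  have hu : IsUnit M := (isUnit_iff_isUnit_det M).2 (Ne.isUnit hM)
  obtain ⟨C, C0, hC⟩ : ∃ C : ℝ, 0 ≤ C ∧ ∀ a, ‖M *ᵥ a‖ ≤ C * ‖a‖ :=
    ⟨_, norm_nonneg _, (LinearMap.toContinuousLinearMap (Matrix.mulVecLin M)).le_opNorm⟩
  obtain ⟨Q, hQ⟩ := exists_nat_gt (12 * C / ε)
  have Q0 : (0 : ℝ) < Q := lt_of_le_of_lt (by positivity) hQ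
  let tR : (δ → ℤ) →+ δ → ℝ := AddMonoidHom.mk' toR fun a b => by funext i; simp
  have tR' : ∀ k, tR k = toR k := fun _ => rfl
  let lam : (δ → ℤ) →+ δ → ℝ := (Matrix.mulVecLin M).toAddMonoidHom.comp tR
  let Λ := lam.range
  let A : (δ → ℤ) →+ δ → ℝ := AddMonoidHom.mk' (fun k => (Q : ℝ)⁻¹ • toR k) fun a b => by
    rw [← smul_add, ← tR', map_add]; rfl
  let mu : (δ → ℤ) →+ δ → ℝ := (Matrix.mulVecLin M).toAddMonoidHom.comp A
  have mu' : ∀ k, mu k = M *ᵥ A k := fun _ => rfl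
  let ψ : (δ → ℤ) →+ (δ → ℝ) ⧸ Λ := (QuotientAddGroup.mk' Λ).comp mu
  have ψ' : ∀ k, ψ k = ((mu k : δ → ℝ) : (δ → ℝ) ⧸ Λ) := fun _ => rfl
  have rnd : ∀ x : δ → ℝ, ∃ k, ‖mu k - x‖ ≤ ε / 12 := fun x => by
    obtain ⟨a, rfl⟩ := mulVec_surjective_iff_isUnit.2 hu x
    refine ⟨fun i => round (Q * a i), ?_⟩
    rw [mu', ← mulVec_sub]
    refine (hC _).trans ?_
    have : ‖A (fun i => round (Q * a i)) - a‖ ≤ (Q : ℝ)⁻¹ := by
      rw [pi_norm_le_iff_of_nonneg (by positivity)]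
      intro i
      have e : (A (fun i => round (Q * a i)) - a) i = -((Q : ℝ)⁻¹ * (Q * a i - round (Q * a i))) := by
        show (Q : ℝ)⁻¹ * (round (Q * a i) : ℝ) - a i = _
        field_simp
        ring
      rw [e, norm_neg, norm_mul, Real.norm_eq_abs, Real.norm_eq_abs, abs_of_pos (by positivity)]
      exact mul_le_of_le_one_right (by positivity) ((abs_sub_round _).trans (by norm_num))
    refine (mul_le_mul_of_nonneg_left this C0).trans ?_
    rw [div_lt_iff₀ hε] at hQ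
    rw [← div_eq_mul_inv, div_le_div_iff₀ Q0 (by norm_num)]
    linarith
  choose k hk using rnd
  have fin : Finite ψ.range := by
    have Qn : 0 < (Q : ℤ) := by exact_mod_cast Q0
    refine Set.Finite.to_subtype ((Set.finite_range fun j : δ → Fin Q =>
      ψ fun i => (j i : ℕ)).subset ?_)
    rintro _ ⟨n, rfl⟩
    refine ⟨fun i => ⟨(n i % Q).toNat, by
      have := Int.emod_lt_of_pos (n i) Qn
      have := Int.emod_nonneg (n i) Qn.ne'
      omega⟩, ?_⟩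
    simp only [Int.toNat_of_nonneg (Int.emod_nonneg _ Qn.ne')]
    rw [ψ', ψ', QuotientAddGroup.eq, ← map_neg, ← map_add]
    refine ⟨fun i => n i / Q, ?_⟩
    show M *ᵥ _ = M *ᵥ _
    congr 1
    funext i
    show ((n i / Q : ℤ) : ℝ) = (Q : ℝ)⁻¹ * ((-(n i % Q) + n i : ℤ) : ℝ)
    have : -(n i % Q) + n i = Q * (n i / Q) := by linarith [Int.emod_add_mul_ediv (n i) Q]
    rw [this]
    push_cast
    field_simp
  letI := Fintype.ofFinite ψ.range
  let φ := ψ.rangeRestrict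
  have φ' : ∀ n, (φ n).1 = ((mu n : δ → ℝ) : (δ → ℝ) ⧸ Λ) := fun _ => rfl
  have hSz : Sz (fun u : ψ.range => ‖u.1‖) :=
    ⟨fun x y => norm_add_le x.1 y.1, fun x => norm_neg x.1, norm_zero⟩
  obtain ⟨W, W', nW, hW1, hW2, hW3⟩ := fatq Λ ψ.range (r := 6 * (2 * ε)) (by positivity)
  rw [← hD] at hW1
  have t0 : tr 0 B2 = B2 := by
    ext x
    rw [mem_tr, sub_zero]
  obtain ⟨x, B5, b1, b2, b3, b4, b5⟩ := gen _ hSz hN (fun a => φ (k (f a))) (fun a => φ (k (g a)))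
    (fun a => φ (k (ζ a))) (fun a b => (a, b) ∈ R) 0 (2 * ε) _ L hL (by positivity) (by positivity)
    W W' nW hW1 hW2 hW3 (fun a b h => by
      obtain ⟨y, hy, h1⟩ := hrel _ h
      obtain ⟨n, rfl⟩ := hM1 y hy
      have e : (φ (k (f a)) + φ (k (g b)) - φ (k (ζ (a + b)))).1 =
          ((mu (k (f a)) + mu (k (g b)) - mu (k (ζ (a + b))) - M *ᵥ toR n : δ → ℝ) :
            (δ → ℝ) ⧸ Λ) := by
        rw [← map_add, ← map_sub, φ', map_sub, map_add, QuotientAddGroup.eq]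
        exact ⟨-n, by rw [map_neg]; show -(M *ᵥ toR n) = _; abel⟩
      show ‖(φ (k (f a)) + φ (k (g b)) - φ (k (ζ (a + b)))).1‖ ≤ _
      rw [e]
      refine QuotientAddGroup.norm_mk_le_norm.trans ?_
      have e2 : mu (k (f a)) + mu (k (g b)) - mu (k (ζ (a + b))) - M *ᵥ toR n =
          (f a + g b - ζ (a + b) - M *ᵥ toR n) + ((mu (k (f a)) - f a) + (mu (k (g b)) - g b) -
            (mu (k (ζ (a + b))) - ζ (a + b))) := by abel
      rw [e2]
      have := norm_sub_le ((mu (k (f a)) - f a) + (mu (k (g b)) - g b))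
        (mu (k (ζ (a + b))) - ζ (a + b))
      have := norm_add_le (mu (k (f a)) - f a) (mu (k (g b)) - g b)
      refine (norm_add_le _ _).trans ?_
      linarith [hk (f a), hk (g b), hk (ζ (a + b))])
    (by
      rw [t0]
      refine hc.trans (mul_le_mul_of_nonneg_left ?_ (Real.exp_pos _).le)
      exact Nat.cast_le.2 (card_le_card fun q hq =>
        (@mem_filter _ _ (_) _ _).2 ⟨hR hq, hq⟩))
  rw [t0] at b3
  obtain ⟨Lc, -, c2, c3⟩ := b5.cover hSz (by positivity)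
  obtain ⟨t, t1, t2⟩ := numt L hL
  have sur : ∀ u : ψ.range, ∃ n, φ n = u := ψ.rangeRestrict_surjective
  choose κ hκ using sur
  have sg : ∀ z : Fin 6 ⊕ Fin 6 → G,
      ∑ a, ((Sum.elim (fun _ => 1) (fun _ => -1) a : ℤ) : ℝ) • A (k (g (z a))) =
        A (∑ j, k (g (z (Sum.inl j))) - ∑ j, k (g (z (Sum.inr j)))) := fun z => by
    rw [Fintype.sum_sum_type, map_sub, map_sum, map_sum, sub_eq_add_neg, ← sum_neg_distrib]
    simp
  obtain ⟨S, hS, cS, hS6⟩ := Rnd.clus hM B5 (fun _ => (1 : ℝ)) (fun a => A (k (g a)))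
    (Sum.elim (fun _ : Fin 6 => 1) (fun _ : Fin 6 => -1)) 12 (by simp) (by simp)
    (fun z => ∑ j, z (Sum.inl j) = ∑ j, z (Sum.inr j)) Lc (fun l => A (κ l)) t
    (by
      have : (Lc.card : ℝ) * 3 ^ t < 4 ^ t :=
        lt_of_le_of_lt (mul_le_mul_of_nonneg_right c2 (by positivity)) t1
      exact_mod_cast this)
    (e := D * (200 * D ^ 2 * ε)) (by positivity) fun z hz hr => by
      obtain ⟨l, hl, h1⟩ := c3 _ ⟨fun j => z (Sum.inl j), fun j => z (Sum.inr j), fun _ => hz _,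
        fun _ => hz _, hr, rfl⟩
      obtain ⟨w, hw, hw'⟩ := QuotientAddGroup.exists_norm_mk_lt
        (∑ j, φ (k (g (z (Sum.inl j)))) - ∑ j, φ (k (g (z (Sum.inr j)))) - l).1 hε
      rw [← hκ l, ← map_sum, ← map_sum, ← map_sub, ← map_sub, φ', eq_comm,
        QuotientAddGroup.eq] at hw
      obtain ⟨n, hn⟩ := hw
      refine ⟨l, hl, n, ?_⟩
      rw [sg, hD]
      refine qf_le M _ (by positivity) ?_
      have hn' : M *ᵥ toR n = _ := hn
      rw [mulVec_add, ← map_sub, ← mu', hn', add_neg_cancel_left, ← hD]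
      have : ε ≤ D ^ 2 * ε := le_mul_of_one_le_left hε.le (by nlinarith)
      linarith
  simp only [sum_const, nsmul_eq_mul, mul_one] at cS
  refine ⟨x, S, fun s hs => ⟨b1 s (hS hs), mem_tr.1 (b2 (hS hs))⟩, ?_, fun s u hs hu' e => ?_⟩
  · calc (B4.card : ℝ) ≤ 16 * Real.exp L * (601 ^ t * S.card) := by
          refine b4.trans (mul_le_mul_of_nonneg_left (cS.trans (le_of_eq ?_)) (by positivity))
          norm_num
      _ = 16 * Real.exp L * 601 ^ t * S.card := by ring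
      _ ≤ _ := by gcongr
  · obtain ⟨n, hn⟩ := hS6 (Sum.elim s u) (by rintro (j | j); exacts [hs j, hu' j]) e
    rw [sg, ← hD] at hn
    have h1 := le_qf M _ (by positivity) hn
    simp only [Sum.elim_inl, Sum.elim_inr] at h1
    rw [mulVec_add, ← mu', map_sub, map_sum, map_sum] at h1
    have e6 : ∀ z : Fin 6 → G, ‖∑ j, mu (k (g (z j))) - ∑ j, g (z j)‖ ≤ ε / 2 := fun z => by
      rw [← sum_sub_distrib]
      refine (norm_sum_le _ _).trans ((sum_le_card_nsmul univ _ _ fun j _ => hk _).trans_eq ?_)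
      simp
      ring
    have g6 : ∀ z : Fin 6 → G, (∀ j, z j ∈ S) → ‖∑ j, g (z j)‖ ≤ 6 * ∑ b ∈ B2, ‖g b‖ :=
      fun z hz => (norm_sum_le _ _).trans ((sum_le_card_nsmul univ _ _ fun j _ =>
        single_le_sum (f := fun b => ‖g b‖) (fun _ _ => norm_nonneg _) (b3 (hS (hz j)))).trans_eq
          (by simp))
    have h2 : ‖∑ j, g (s j) - ∑ j, g (u j) + M *ᵥ toR n‖ ≤ H := by
      have e2 : ∑ j, g (s j) - ∑ j, g (u j) + M *ᵥ toR n =
          (∑ j, mu (k (g (s j))) - ∑ j, mu (k (g (u j))) + M *ᵥ toR n) -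
            ((∑ j, mu (k (g (s j))) - ∑ j, g (s j)) - (∑ j, mu (k (g (u j))) - ∑ j, g (u j))) := by
        abel
      rw [e2]
      refine (norm_sub_le _ _).trans ?_
      have := norm_sub_le (∑ j, mu (k (g (s j))) - ∑ j, g (s j))
        (∑ j, mu (k (g (u j))) - ∑ j, g (u j))
      have a1 : ε ≤ D ^ 4 * ε := le_mul_of_one_le_left hε.le (one_le_pow₀ (by linarith))
      have a2 : 100 * D * (D * (200 * D ^ 2 * ε)) = 20000 * (D ^ 4 * ε) := by ring
      have a3 : H = 1000000 * (D ^ 4 * ε) := by rw [hH]; ring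
      linarith [e6 s, e6 u]
    refine ⟨-(M *ᵥ toR n), I.neg_mem (hM2 n ?_), by rwa [sub_neg_eq_add]⟩
    have e3 : M *ᵥ toR n = (∑ j, g (s j) - ∑ j, g (u j) + M *ᵥ toR n) -
        (∑ j, g (s j) - ∑ j, g (u j)) := by abel
    rw [e3]
    refine (norm_sub_le _ _).trans ?_
    have := norm_sub_le (∑ j, g (s j)) (∑ j, g (u j))
    linarith [g6 s hs, g6 u hu']

end Vale.Agent.P057T.Gk.Frx
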