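import Vale.Agent.P057T.Gk.Rows

/-! The double induction for the relative structure theorem. -/

set_option linter.all false

open Finset

namespace Vale.Agent.P057T.Gk

theorem gks_zero (a C0 b : ℕ) : GKs a C0 0 b := by
  refine ⟨0, ?_⟩
  intro α β _ _ Rv D0 ι κ _ _ _ T p W R W' Y S c F τ Ω _ _ _ _ _ _ _ _ hS _ hSt
  have h0 : S = ∅ := card_eq_zero.1 (Nat.le_zero.1 hS)
  have h1 := hSt.hc
  rw [h0] at h1
  exact absurd h1 (notMem_empty c)

theorem gks_all (hB : BASE) (hS : STEP) (a C0 : ℕ) : ∀ s b : ℕ, GKs a C0 s b := by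
  intro s
  induction s with
  | zero => exact gks_zero a C0
  | succ s ih =>
    intro b
    induction b with
    | zero => exact hB a C0 (s + 1)
    | succ b ihb => exact hS a C0 s b (ih a) ihb

theorem gk_of (hB : BASE) (hS : STEP) : GK := fun a C0 => gks_all hB hS a C0 a a

end Vale.Agent.P057T.Gk
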