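import Vale.Agent.P057T.Gk.Bas3
import Vale.Agent.P057T.BrH31

/-! Step (1*): the bounded part of a good quadruple as a polynomial in the charts. -/

set_option linter.all false

open Finset MvPolynomial

namespace Vale.Agent.P057T.Gk

open Vale.Agent.P057T.One Vale.Agent.P057T.L1 Vale.Agent.P057T.Brg

namespace O31

open TT

noncomputable section

variable {α ι : Type} [Fintype α] [DecidableEq α] [Fintype ι] [DecidableEq ι] (T : TT α ι)
  (B S : Finset α) (i c : α)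

def tyV : ι ⊕ ι → Finset α :=
  Sum.elim (fun v => if v ∈ T.fv B S ∧ i ∉ T.ty v then T.ty v else S \ B)
    (fun v => if v ∈ T.fv B S ∧ i ∈ T.ty v then T.ty v else S \ B)
def mt (q : ι → ℝ) : ι → ℝ := fun v => if v ∈ T.fv B S ∧ i ∉ T.ty v then q v else 0
def mx (q : ι → ℝ) : ι → ℝ := fun v => if v ∈ T.fv B S ∧ i ∈ T.ty v then q v else 0
def emb (y t x : ι → ℝ) : ι → ℝ :=
  fun v => if v ∈ T.fv B S then (if i ∈ T.ty v then x v else t v) else y v
def JG {κ : Type} [Fintype κ] [DecidableEq κ] (X0 : T.CV i κ → ℝ) (t x : ι → ℝ)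
    (d : κ → ι → ℝ) : T.CV i κ → ℝ :=
  Sum.elim (emb T B S i (T.bs i X0) t x)
    (fun p => if p.2.1 ∈ T.fv B S then d p.1 p.2.1 else X0 (Sum.inr p))
def J3 (X0 : T.CV i (Fin 2) → ℝ) (t x y z : ι → ℝ) : T.CV i (Fin 2) → ℝ :=
  JG T B S i X0 t x ![y - x, z - x]
/-- the `c`-part of `g` over `X0` is the polynomial `be` -/
def BE (X0 : T.CV i (Fin 2) → ℝ) (g : Fn (T.CV i (Fin 2))) (be : W ι ι 3) : Prop :=
  ∀ t x y z, ev3 be t x y z = g (J3 T B S i X0 t x y z) -
    g (J3 T B S i X0 (kl T.ty c t) (kl T.ty c x) (kl T.ty c y) (kl T.ty c z))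
def SpV (p : V ι ι) : Prop := ∀ a ∈ S \ B, Sp (wa (tyV T B S i) a) {n | n ≤ 1} p
def SpW (n : ℕ) (p : W ι ι n) : Prop := ∀ a ∈ S \ B, Sp (wn (wa (tyV T B S i) a) n) {n | n ≤ 1} p

variable {T B S i c}

theorem mem_fv' {v : ι} : v ∈ T.fv B S ↔ T.ty v ⊆ S ∧ ¬ T.ty v ⊆ B := by simp [fv]

theorem fv_meet {v : ι} (h : v ∈ T.fv B S) : ¬ Disjoint (T.ty v) (S \ B) := by
  obtain ⟨h1, h2⟩ := mem_fv'.1 h
  obtain ⟨a, ha, hb⟩ := not_subset.1 h2
  exact not_disjoint_iff.2 ⟨a, ha, mem_sdiff.2 ⟨h1 ha, hb⟩⟩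

theorem tyV_meet (hc : c ∈ S \ B) (v : ι ⊕ ι) : ¬ Disjoint (tyV T B S i v) (S \ B) := by
  have h0 : ¬ Disjoint (S \ B) (S \ B) := not_disjoint_iff.2 ⟨c, hc, hc⟩
  rcases v with v | v <;> simp only [tyV, Sum.elim_inl, Sum.elim_inr] <;> split_ifs with h
  · exact fv_meet h.1
  · exact h0
  · exact fv_meet h.1
  · exact h0

theorem aff_comp {m : (ι → ℝ) → ι → ℝ} (hm : ∀ v, T.Fm (T.ty v) univ (fun z => m z v)) {a : α}
    {f : Fn ι} (hf : T.Aff a f) : T.Aff a (fun z => f (m z)) := fun z => by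
  obtain ⟨L, hL⟩ := hf (m z)
  choose M hM using fun v => (hm v).2 a (mem_univ a) z
  refine ⟨L.comp (LinearMap.pi M), fun k hk => ?_⟩
  have e : m (z + k) = m z + fun v => M v k := funext fun v => hM v k hk
  show f (m (z + k)) = f (m z) + L (fun v => M v k)
  rw [e]
  refine hL _ fun v hv => ?_
  have k1 := hM v k hk
  have k2 : m (z + k) v = m z v := (hm v).1 _ _ fun w hw => by
    rw [Pi.add_apply, hk w fun hh => hv (hw hh), add_zero]
  simp only at k1
  linarith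

theorem fm_comp {m : (ι → ℝ) → ι → ℝ} (hm : ∀ v, T.Fm (T.ty v) univ (fun z => m z v))
    {S G : Finset α} {f : Fn ι} (hf : T.Fm S G f) : T.Fm S G (fun z => f (m z)) :=
  ⟨fun z z' h => hf.1 _ _ fun v hv => (hm v).1 z z' (h.mono hv),
    fun a ha => aff_comp hm (hf.2 a ha)⟩

section
variable {κ : Type} [Fintype κ] [DecidableEq κ]

theorem ex_sdiff : S.disjSum (univ : Finset κ) \ B.disjSum univ = (S \ B).disjSum ∅ := by
  ext (a | k) <;> simp

theorem fv_inl {v : ι} : Sum.inl v ∈ (T.cpy i κ).fv (B.disjSum univ) (S.disjSum univ) ↔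
    v ∈ T.fv B S := by
  rw [mem_fv', mem_fv', ty_inl_sub, ty_inl_sub]; simp

theorem fv_inr (hi : i ∈ B) (hBS : B ⊆ S) {p : κ × {v : ι // i ∈ T.ty v}} :
    Sum.inr p ∈ (T.cpy i κ).fv (B.disjSum univ) (S.disjSum univ) ↔ p.2.1 ∈ T.fv B S := by
  rw [mem_fv', mem_fv', ty_inr_sub, ty_inr_sub]
  simp only [toLeft_disjSum, inr_mem_disjSum, mem_univ, and_true, ← subset_insert_iff,
    insert_eq_of_mem hi, insert_eq_of_mem (hBS hi)]

theorem JG_out (hi : i ∈ B) (hBS : B ⊆ S) (X0 : T.CV i κ → ℝ) (t x : ι → ℝ) (d : κ → ι → ℝ)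
    {V : T.CV i κ} (h : V ∉ (T.cpy i κ).fv (B.disjSum univ) (S.disjSum univ)) :
    JG T B S i X0 t x d V = X0 V := by
  rcases V with v | p
  · exact if_neg fun hh => h (fv_inl.2 hh)
  · exact if_neg fun hh => h ((fv_inr hi hBS).2 hh)

theorem JG_ag (hi : i ∈ B) (hBS : B ⊆ S) (X0 : T.CV i κ → ℝ) (t x : ι → ℝ) (d : κ → ι → ℝ) :
    (T.cpy i κ).Ag (B.disjSum univ) (JG T B S i X0 t x d) X0 :=
  fun _ hV => JG_out hi hBS X0 t x d fun h => (mem_fv'.1 h).2 hV

/-- every point over the base is of the form `JG` -/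
theorem ag_JG (hi : i ∈ B) (hBS : B ⊆ S) {X0 X : T.CV i κ → ℝ}
    (h : (T.cpy i κ).Ag (B.disjSum univ) X X0) :
    (T.cpy i κ).Ag (S.disjSum univ) X (JG T B S i X0 (mt T B S i (T.bs i X))
      (mx T B S i (T.bs i X)) (fun k => mx T B S i (T.hc i X k))) := by
  intro V hV
  by_cases hf : V ∈ (T.cpy i κ).fv (B.disjSum univ) (S.disjSum univ)
  · rcases V with v | p
    · have h1 := fv_inl.1 hf
      by_cases h2 : i ∈ T.ty v <;> simp [JG, emb, mt, mx, h1, h2, bs]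
    · have h1 := (fv_inr hi hBS).1 hf
      simp [JG, mx, h1, p.2.2, hc_of X p.1 p.2.2]
  · rw [JG_out hi hBS _ _ _ _ hf]
    by_contra hne
    exact hf (mem_fv'.2 ⟨hV, fun h2 => hne (h V h2)⟩)

theorem vx_JG (ε : κ → ℤ) (X0 : T.CV i κ → ℝ) (t x : ι → ℝ) (d : κ → ι → ℝ) :
    T.vx i ε (JG T B S i X0 t x d) =
      emb T B S i (T.vx i ε X0) t (x + ∑ k, (ε k : ℝ) • d k) := by
  funext v
  by_cases h2 : i ∈ T.ty v
  · by_cases h1 : v ∈ T.fv B S <;>
      simp [vx, JG, emb, h1, h2, hc_of _ _ h2, bs, Finset.sum_apply]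
  · by_cases h1 : v ∈ T.fv B S <;> simp [vx, JG, emb, h1, h2, hc_not _ _ h2, bs]

theorem JG_of (X0 : T.CV i κ → ℝ) {t x t' x' : ι → ℝ} {d d' : κ → ι → ℝ} (ht : T.Of c t t')
    (hx : T.Of c x x') (hd : ∀ k, T.Of c (d k) (d' k)) (hci : c ≠ i) :
    (T.cpy i κ).Of (Sum.inl c) (JG T B S i X0 t x d) (JG T B S i X0 t' x' d') := by
  rintro (v | p) hV
  · have h : c ∉ T.ty v := by simpa [ty_inl] using hV
    simp only [JG, Sum.elim_inl, emb, ht v h, hx v h]
  · have h : c ∉ T.ty p.2.1 := by simpa [ty_inr, hci] using hV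
    simp only [JG, Sum.elim_inr, hd p.1 _ h]

end

theorem of_kl (t : ι → ℝ) : T.Of c t (kl T.ty c t) := fun v hv => by rw [kl_apply, if_neg hv]

theorem kl_of {t t' : ι → ℝ} (h : T.Of c t t') : kl T.ty c t = kl T.ty c t' := by
  funext v
  rw [kl_apply, kl_apply]
  split_ifs with hv
  · rfl
  · exact h v hv

theorem J3_of (X0 : T.CV i (Fin 2) → ℝ) {t x y z t' x' y' z' : ι → ℝ} (ht : T.Of c t t')
    (hx : T.Of c x x') (hy : T.Of c y y') (hz : T.Of c z z') (hci : c ≠ i) :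
    (T.cpy i (Fin 2)).Of (Sum.inl c) (J3 T B S i X0 t x y z) (J3 T B S i X0 t' x' y' z') := by
  refine JG_of X0 ht hx (fun k v hv => ?_) hci
  fin_cases k <;> simp [hx v hv, hy v hv, hz v hv]

/-- the linear part of `J3` -/
def JL (T : TT α ι) (B S : Finset α) (i : α) :
    (ι ⊕ Fin 3 × ι → ℝ) →ₗ[ℝ] (T.CV i (Fin 2) → ℝ) where
  toFun w := J3 T B S i 0 (fun v => w (Sum.inl v)) (fun v => w (Sum.inr (0, v)))
    (fun v => w (Sum.inr (1, v))) (fun v => w (Sum.inr (2, v)))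
  map_add' w w' := by
    funext V
    rcases V with v | ⟨k, v⟩
    · simp only [J3, JG, Sum.elim_inl, emb, Pi.add_apply, bs, Pi.zero_apply]
      split_ifs <;> simp
    · simp only [J3, JG, Sum.elim_inr, Pi.add_apply, Pi.zero_apply]
      split_ifs
      · fin_cases k <;> simp <;> ring
      · simp
  map_smul' r w := by
    funext V
    rcases V with v | ⟨k, v⟩
    · simp only [J3, JG, Sum.elim_inl, emb, Pi.smul_apply, bs, Pi.zero_apply, RingHom.id_apply]
      split_ifs <;> simp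
    · simp only [J3, JG, Sum.elim_inr, Pi.smul_apply, Pi.zero_apply, RingHom.id_apply]
      split_ifs
      · fin_cases k <;> simp <;> ring
      · simp

theorem J3_eq (X0 : T.CV i (Fin 2) → ℝ) (w : ι ⊕ Fin 3 × ι → ℝ) :
    J3 T B S i X0 (fun v => w (Sum.inl v)) (fun v => w (Sum.inr (0, v)))
      (fun v => w (Sum.inr (1, v))) (fun v => w (Sum.inr (2, v))) =
      JL T B S i w + J3 T B S i X0 0 0 0 0 := by
  funext V
  rcases V with v | ⟨k, v⟩
  · simp only [JL, LinearMap.coe_mk, AddHom.coe_mk, J3, JG, Sum.elim_inl, emb, Pi.add_apply, bs,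
      Pi.zero_apply]
    split_ifs <;> simp
  · simp only [JL, LinearMap.coe_mk, AddHom.coe_mk, J3, JG, Sum.elim_inr, Pi.add_apply,
      Pi.zero_apply]
    split_ifs
    · fin_cases k <;> simp
    · simp

/-- the polynomial of the `c`-part of a form on the tower of quadruples -/
theorem exists_be (hi : i ∈ B) (hc : c ∈ S \ B) (X0 : T.CV i (Fin 2) → ℝ)
    {g : Fn (T.CV i (Fin 2))} (hg : ∀ a ∈ S \ B, (T.cpy i (Fin 2)).Aff (Sum.inl a) g) :
    ∃ be : W ι ι 3, BE T B S i c X0 g be ∧ SpW T B S i 3 be ∧ be.totalDegree ≤ (S \ B).card ∧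
      (∀ H, (∀ t x y z : ι → ℝ, (∀ v, |t v| ≤ 1 ∧ |x v| ≤ 1 ∧ |y v| ≤ 1 ∧ |z v| ≤ 1) →
        |g (J3 T B S i X0 t x y z) - g (J3 T B S i X0 (kl T.ty c t) (kl T.ty c x) (kl T.ty c y)
          (kl T.ty c z))| ≤ H) → nrm be ≤ (8 * Fintype.card ι + 1) ^ (S \ B).card * H) ∧
      ((∀ t x y z : ι → ℤ, ∃ n : ℤ, g (J3 T B S i X0 (cz t) (cz x) (cz y) (cz z)) = n) →
        IsInt be) := by
  let ty' : ι ⊕ Fin 3 × ι → Finset α := wn (tyV T B S i) 3
  let und : ι ⊕ Fin 3 × ι → Finset α := Sum.elim T.ty (fun p => T.ty p.2)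
  let g0 : (ι ⊕ Fin 3 × ι → ℝ) → ℝ := fun w => g (JL T B S i w + J3 T B S i X0 0 0 0 0)
  have meet : ∀ V, ¬ Disjoint (ty' V) (S \ B) := by
    rintro (v | p)
    · exact tyV_meet hc (Sum.inl v)
    · exact tyV_meet hc (Sum.inr p.2)
  have a0 : ∀ a ∈ S \ B, AffC ty' a g0 := by
    intro a ha
    have hai : a ≠ i := fun h => (mem_sdiff.1 ha).2 (h ▸ hi)
    refine AffC.comp (ty := (T.cpy i (Fin 2)).ty) (hg a ha) _ _ fun h hh V hV => ?_
    rcases V with v | ⟨k, v⟩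
    · have h1 : a ∉ T.ty v := by simpa [ty_inl] using hV
      simp only [JL, LinearMap.coe_mk, AddHom.coe_mk, J3, JG, Sum.elim_inl, emb, bs, Pi.zero_apply]
      split_ifs with h2 h3
      · exact hh _ (by simpa [ty', wn, tyV, h2, h3] using h1)
      · exact hh _ (by simpa [ty', wn, tyV, h2, h3] using h1)
      · rfl
    · have h1 : a ∉ T.ty v.1 := by simpa [ty_inr, hai] using hV
      simp only [JL, LinearMap.coe_mk, AddHom.coe_mk, J3, JG, Sum.elim_inr, Pi.zero_apply]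
      split_ifs with h2
      · have h4 : ∀ j, h (Sum.inr (j, v.1)) = 0 := fun j =>
          hh _ (by simpa [ty', wn, tyV, h2, v.2] using h1)
        fin_cases k <;> simp [h4]
      · rfl
  have a1 : ∀ a ∈ S \ B, AffC ty' a fun w => g0 w - g0 (kl und c w + 0) := fun a ha =>
    (a0 a ha).sub ((a0 a ha).comp (kl und c) 0 fun h hh V hV => by
      rw [kl_apply, hh V hV, ite_self])
  have key : ∀ w, g0 w - g0 (kl und c w + 0) =
      g (J3 T B S i X0 (fun v => w (Sum.inl v)) (fun v => w (Sum.inr (0, v)))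
        (fun v => w (Sum.inr (1, v))) (fun v => w (Sum.inr (2, v)))) -
      g (J3 T B S i X0 (kl T.ty c fun v => w (Sum.inl v)) (kl T.ty c fun v => w (Sum.inr (0, v)))
        (kl T.ty c fun v => w (Sum.inr (1, v))) (kl T.ty c fun v => w (Sum.inr (2, v)))) := by
    intro w
    simp only [g0, add_zero, ← J3_eq]
    congr 3 <;> funext v <;> rw [kl_apply, kl_apply] <;> rfl
  obtain ⟨p, p1, p2, p3, p4, p5⟩ := exists_poly (ty := ty') (S \ B) _ a1 0
  have ov : ∀ w, Ov ty' (S \ B) w 0 := fun w V hV => absurd hV (meet V)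
  refine ⟨p, fun t x y z => ?_, fun a ha => ?_, p2, fun H hH => ?_, fun h => ?_⟩
  · unfold ev3
    rw [p3 _ (ov _), key]
    rfl
  · have := sp_of_aff (aff_poly p1 p3 (a1 a ha))
    have e : wa ty' a = wn (wa (tyV T B S i) a) 3 := by
      funext V; rcases V with v | p <;> rfl
    rwa [e] at this
  · have := p4 H fun w _ hw => by
      rw [key]
      exact hH _ _ _ _ fun v => ⟨hw _ (meet _), hw _ (meet _), hw _ (meet _), hw _ (meet _)⟩
    have e : (2 * (Fintype.card (ι ⊕ Fin 3 × ι) : ℝ) + 1) = 8 * Fintype.card ι + 1 := by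
      simp; ring
    rwa [e] at this
  · refine p5 fun w _ hw => ?_
    choose n hn using fun V => hw V (meet V)
    rw [key]
    obtain ⟨a, ha⟩ := h (fun v => n (Sum.inl v)) (fun v => n (Sum.inr (0, v)))
      (fun v => n (Sum.inr (1, v))) (fun v => n (Sum.inr (2, v)))
    obtain ⟨b, hb⟩ := h (fun v => if c ∈ T.ty v then 0 else n (Sum.inl v))
      (fun v => if c ∈ T.ty v then 0 else n (Sum.inr (0, v)))
      (fun v => if c ∈ T.ty v then 0 else n (Sum.inr (1, v)))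
      (fun v => if c ∈ T.ty v then 0 else n (Sum.inr (2, v)))
    refine ⟨a - b, ?_⟩
    rw [Int.cast_sub, ← ha, ← hb]
    have e1 : ∀ f : ι → ι ⊕ Fin 3 × ι, (fun v => w (f v)) = cz fun v => n (f v) :=
      fun f => funext fun v => hn _
    have e2 : ∀ f : ι → ℤ, kl T.ty c (cz f) = cz fun v => if c ∈ T.ty v then 0 else f v := by
      intro f
      funext v
      rw [kl_apply]
      by_cases hv : c ∈ T.ty v <;> simp [cz, hv]
    rw [e1, e1 fun v => Sum.inr (0, v), e1 fun v => Sum.inr (1, v), e1 fun v => Sum.inr (2, v),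
      e2, e2, e2, e2]

theorem ql_ge' {m : ℕ} (hm : 1 ≤ m) (V : T.CV i (Fin 2)) : ((m : ℝ) ^ 3)⁻¹ ≤ T.ql i m V := by
  have h1 : (1 : ℝ) ≤ m := by exact_mod_cast hm
  rcases V with v | p <;> simp only [ql, Sum.elim_inl, Sum.elim_inr] <;> split_ifs
  · exact le_rfl
  · exact inv_le_one_of_one_le₀ (one_le_pow₀ h1)
  · exact inv_anti₀ (by positivity) (pow_le_pow_right₀ h1 (by norm_num))
  · exact inv_anti₀ (by positivity) (by nlinarith [mul_le_mul h1 h1 zero_le_one (by linarith)])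

theorem of_psi (hT : T.Ok) {x x' : ι → ℝ} (h : T.Of c x x') : T.Of c (T.ψ x) (T.ψ x') :=
  fun v hv => (hT.fψ v).1 _ _ (h.ag hv)

theorem of_u (hT : T.Ok) {x x' : ι → ℝ} (h : T.Of c x x') : T.Of c (T.u x) (T.u x') :=
  fun v hv => (hT.fu v).1 _ _ (h.ag hv)

/-- **KA1** -/
theorem ka1 (hT : T.Ok) (hi : i ∈ B) (hBS : B ⊆ S) (hc : c ∈ S \ B) {m : ℕ} (hm : 1 ≤ m)
    {cen : T.CV i (Fin 2) → ℝ} (hcen : T.Cen i m cen) (Z : T.CV i (Fin 2) → ℤ)
    {β : Fn (T.CV i (Fin 2))} {H : ℝ} (hβ : (T.cpy i (Fin 2)).Fm (ex S) (ex S \ ex B) β)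
    (hO : (T.qt i m cen).Osc (ex B) (ex S) (Sum.inl c) Z β H) :
    ∃ be : W ι ι 3, BE T B S i c ((T.cpy i (Fin 2)).u (cz Z))
        (fun X => β ((T.cpy i (Fin 2)).ψ X)) be ∧ SpW T B S i 3 be ∧
      be.totalDegree ≤ (S \ B).card ∧
      nrm be ≤ (8 * Fintype.card ι + 1) ^ (S \ B).card *
        (2 * ((6 * (m : ℝ) ^ 3) ^ (S \ B).card * H)) := by
  have h2 := hT.cpy i (Fin 2)
  set T2 := T.cpy i (Fin 2) with hT2
  set X0 := T2.u (cz Z) with hX0
  have hci : c ≠ i := fun h => (mem_sdiff.1 hc).2 (h ▸ hi)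
  have eG : ex S \ ex B = (S \ B).disjSum ∅ := ex_sdiff
  have hg : ∀ a ∈ ex S \ ex B, T2.Aff a fun X => β (T2.ψ X) := fun a ha =>
    aff_comp h2.fψ (hβ.2 a ha)
  obtain ⟨be, b1, b2, b3, b4, _⟩ := exists_be (T := T) hi hc X0 (g := fun X => β (T2.ψ X))
    fun a ha => hg _ (by rw [eG]; simpa using ha)
  refine ⟨be, b1, b2, b3, b4 _ fun t x y z hb => ?_⟩
  have m1 : (1 : ℝ) ≤ (m : ℝ) ^ 3 := one_le_pow₀ (by exact_mod_cast hm)
  let cc : T.CV i (Fin 2) → ℝ := fun V => if Sum.inl c ∈ T2.ty V then cen V else 0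
  let d : Fn (T.CV i (Fin 2)) := fun X => β (T2.ψ X) - β (T2.ψ (kl T2.ty (Sum.inl c) X + cc))
  have hd : ∀ a ∈ ex S \ ex B, AffC T2.ty a d := fun a ha =>
    AffC.sub (ty := T2.ty) (hg a ha) (AffC.comp (ty := T2.ty) (a := a)
      (g := fun X => β (T2.ψ X)) (hg a ha) (kl T2.ty (Sum.inl c)) cc
      fun h hh V hV => by rw [kl_apply, hh V hV, ite_self])
  have cardG : (ex S \ ex B).card = (S \ B).card := by rw [eG, card_disjSum, card_empty, add_zero]
  have bd : ∀ t x y z : ι → ℝ, (∀ v, |t v| ≤ 1 ∧ |x v| ≤ 1 ∧ |y v| ≤ 1 ∧ |z v| ≤ 1) →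
      |d (J3 T B S i X0 t x y z)| ≤ (6 * (m : ℝ) ^ 3) ^ (S \ B).card * H := by
    intro t x y z hb
    have := extrap (ex S \ ex B) hd cen (lam := 3 * (m : ℝ) ^ 3) (H := H) (by linarith)
      (J3 T B S i X0 t x y z) fun Y hY hY' => by
        have ag : T2.Ag (ex B) Y X0 := fun V hV => (hY V (disjoint_of_subset_left hV
          disjoint_sdiff)).trans (JG_ag hi hBS X0 _ _ _ V hV)
        have of : T2.Of (Sum.inl c) Y (kl T2.ty (Sum.inl c) Y + cc) := fun V hV => by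
          simp only [Pi.add_apply, kl_apply, cc, if_neg hV, add_zero]
        have cB : Sum.inl c ∉ ex B := by simpa [ex] using (mem_sdiff.1 hc).2
        have agz : ∀ Y', T2.Ag (ex B) Y' X0 → T2.Ag (ex B) (T2.ψ Y') (cz Z) := fun Y' h V hV => by
          rw [h2.ψ_ag h hV, hX0, h2.l]
        refine hO _ _ (agz _ ag) (agz _ ((of.ag cB).symm.trans ag)) (of_psi h2 of) fun V hV => ?_
        have q0 := ql_ge' (T := T) (i := i) hm V
        have q1 : 0 < T.ql i m V := lt_of_lt_of_le (by positivity) q0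
        have hX : |J3 T B S i X0 t x y z V| ≤ 2 := by
          rcases V with v | ⟨k, v⟩
          · have h1 := fv_inl.1 hV
            simp only [J3, JG, Sum.elim_inl, emb, if_pos h1]
            split_ifs <;> linarith [(hb v).1, (hb v).2.1]
          · have h1 := (fv_inr hi hBS).1 hV
            simp only [J3, JG, Sum.elim_inr, if_pos h1]
            fin_cases k
            · exact (abs_sub _ _).trans (by linarith [(hb v).2.1, (hb v).2.2.1])
            · exact (abs_sub _ _).trans (by linarith [(hb v).2.1, (hb v).2.2.2])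
        have h3 := hY' V (fv_meet hV)
        have h4 := abs_sub (J3 T B S i X0 t x y z V) (cen V)
        have h5 := hcen V
        have h6 : |Y V - cen V| ≤ T.ql i m V := by
          refine le_trans ?_ q0
          rw [← one_div, le_div_iff₀ (by positivity)]
          linarith
        constructor
        · show |(T2.u (T2.ψ Y) V - cen V) / T.ql i m V| ≤ 1
          rw [h2.r, abs_div, abs_of_pos q1, div_le_one q1]
          exact h6
        · show |(T2.u (T2.ψ (kl T2.ty (Sum.inl c) Y + cc)) V - cen V) / T.ql i m V| ≤ 1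
          rw [h2.r, abs_div, abs_of_pos q1, div_le_one q1]
          simp only [Pi.add_apply, kl_apply, cc]
          split_ifs
          · simpa using q1.le
          · simpa using h6
    rw [cardG] at this
    refine this.trans (le_of_eq ?_)
    congr 2
    ring
  have k1 := bd t x y z hb
  have k2 := bd (kl T.ty c t) (kl T.ty c x) (kl T.ty c y) (kl T.ty c z) fun v => by
    simp only [kl_apply]
    split_ifs
    · simp
    · exact hb v
  have e : kl T2.ty (Sum.inl c) (J3 T B S i X0 t x y z) = kl T2.ty (Sum.inl c)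
      (J3 T B S i X0 (kl T.ty c t) (kl T.ty c x) (kl T.ty c y) (kl T.ty c z)) :=
    kl_of (T := T2) (J3_of X0 (of_kl t) (of_kl x) (of_kl y) (of_kl z) hci)
  simp only [d] at k1 k2
  rw [e] at k1
  have := abs_sub_le (β (T2.ψ (J3 T B S i X0 t x y z))) (β (T2.ψ (kl T2.ty (Sum.inl c)
    (J3 T B S i X0 (kl T.ty c t) (kl T.ty c x) (kl T.ty c y) (kl T.ty c z)) + cc)))
    (β (T2.ψ (J3 T B S i X0 (kl T.ty c t) (kl T.ty c x) (kl T.ty c y) (kl T.ty c z))))
  rw [abs_sub_comm] at k2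
  linarith

end

end O31

end Vale.Agent.P057T.Gk
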