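import Vale.Agent.P057T.Gk.Rows

/-! Step (1*): the counting part as one statement. -/

set_option linter.all false

open Finset

namespace Vale.Agent.P057T.Gk.O31

open TT

noncomputable section

variable {α ι : Type} [Fintype α] [DecidableEq α] [Fintype ι] [DecidableEq ι] (T : TT α ι) (i : α)

/-- the quadruple with first vertex `b` and increments `h0`, `h1` -/
def mk {R : Type} (b h0 h1 : ι → R) : T.CV i (Fin 2) → R :=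
  Sum.elim b (fun p => (![h0, h1] : Fin 2 → ι → R) p.1 p.2.1)

/-- a quadruple inside a configuration with four increments -/
def pl {R : Type} [CommRing R] (ε : Fin 3 → Fin 4 → ℤ) (Z : T.CV i (Fin 4) → R) :
    T.CV i (Fin 2) → R :=
  Sum.elim (T.vx i (ε 0) Z) (fun p => ∑ k, (ε p.1.succ k : R) * Z (Sum.inr (k, p.2)))

/-- the four quadruples of a 4-cycle, for the three pairings -/
def cy : Fin 3 → Fin 4 → Fin 3 → Fin 4 → ℤ :=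
  ![![![![0, 0, 0, 0], ![0, 1, 0, 0], ![0, 0, 0, 1]],
      ![![1, 0, 0, 0], ![-1, 1, 0, 0], ![-1, 0, 0, 1]],
      ![![1, 0, 0, 0], ![-1, 0, 1, 0], ![-1, 1, -1, 1]],
      ![![0, 0, 0, 0], ![0, 0, 1, 0], ![0, 1, -1, 1]]],
    ![![![0, 0, 0, 0], ![0, 1, 0, 0], ![0, 0, 0, 1]],
      ![![0, 0, 0, 0], ![0, 0, 1, 0], ![0, 0, 0, 1]],
      ![![1, 0, 0, 0], ![-1, 0, 1, 0], ![0, 0, 0, 1]],
      ![![1, 0, 0, 0], ![-1, 1, 0, 0], ![0, 0, 0, 1]]],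
    ![![![0, 0, 0, 0], ![0, 0, 0, 1], ![0, 1, 0, 0]],
      ![![0, 0, 0, 0], ![0, 0, 0, 1], ![0, 0, 1, 0]],
      ![![1, 0, 0, 0], ![0, 0, 0, 1], ![-1, 0, 1, 0]],
      ![![1, 0, 0, 0], ![0, 0, 0, 1], ![-1, 1, 0, 0]]]]

/-- counting part of `ONE` -/
def ONEC : Prop := ∃ C : ℕ, ∀ (α ι : Type) [Fintype α] [DecidableEq α] [Fintype ι] [DecidableEq ι]
  (T : TT α ι) (Y σ : ℝ) (B : Finset α) (i : α) (m : ℕ) (cen : T.CV i (Fin 2) → ℝ)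
  (E : Finset (T.CV i (Fin 2) → ℤ)) (L K : Type) (P : Fin 3 → (T.CV i (Fin 2) → ℤ) → Prop)
  (l : Fin 3 → (T.CV i (Fin 2) → ℤ) → L) (fA fC : L → K) (Zg : (T.CV i (Fin 4) → ℤ) → Prop),
  (C : ℝ) ≤ Y → (Fintype.card ι : ℝ) ≤ Real.exp Y → T.Ok → i ∈ B → Real.exp (C * Y) ≤ m →
  0 < σ → σ * (m : ℝ) ^ 5 ≤ 1 → T.Nn 1 σ → T.Cen i m cen → (T.qt i m cen).Dn (ex B) E Y →
  (T.cpy i (Fin 4)).Mo (B.disjSum univ) σ Zg →
  (∀ Z, P 0 Z → P 1 Z → P 2 Z → fA (l 0 Z) = fC (l 2 Z)) →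
  (∀ (r : Fin 3) (Z' : T.CV i (Fin 4) → ℤ), Zg Z' → (∀ j, pl T i (cy r j) Z' ∈ E) →
    P r (pl T i (cy r 0) Z') ∧ l r (pl T i (cy r 0) Z') = l r (pl T i (cy r 3) Z')) →
  ∃ (E' : Finset (T.CV i (Fin 2) → ℤ)) (y3 : (ι → ℤ) → ι → ℤ) (F G H : (ι → ℤ) → L)
    (k : (ι → ℤ) → K), (T.qt i m cen).Dn (B.disjSum {0}) E' (C * Y) ∧ ∀ Z ∈ E', ∃ Z2 ∈ E,
      T.bs i Z2 = T.bs i Z ∧ T.hc i Z2 0 = T.hc i Z 0 ∧
      T.vx i (qv 3) Z2 = y3 (T.res (B.erase i) (T.bs i Z)) ∧ (∀ r, P r Z2) ∧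
      l 0 Z2 = F (T.bs i Z) ∧ l 1 Z2 = G (T.bs i Z + T.hc i Z 0) ∧
      l 2 Z2 = H (T.res (B.erase i) (T.bs i Z) + T.hc i Z 0) ∧
      fC (l 2 Z2) = k (T.res (B.erase i) (T.bs i Z))

end

end Vale.Agent.P057T.Gk.O31
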