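import Vale.Agent.P057T.Gk.Ka
import Vale.Agent.P057T.Gk.OneD

/-! Step (1*): 4-cycles of good quadruples. -/

set_option linter.all false

open Finset MvPolynomial

namespace Vale.Agent.P057T.Gk.O31

open Vale.Agent.P057T.One Vale.Agent.P057T.L1 Vale.Agent.P057T.Brg TT

noncomputable section

variable {α ι : Type} [Fintype α] [DecidableEq α] [Fintype ι] [DecidableEq ι] {T : TT α ι}
  {B S : Finset α} {i c : α}

section
variable {R : Type} [CommRing R]

theorem hc_pl (ε : Fin 3 → Fin 4 → ℤ) (X : T.CV i (Fin 4) → R) (k : Fin 2) (v : ι) :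
    T.hc i (pl T i ε X) k v = ∑ l, (ε k.succ l : R) * T.hc i X l v := by
  by_cases h : i ∈ T.ty v
  · simp only [hc_of _ _ h, pl, Sum.elim_inr]
  · simp [hc_not _ _ h]

theorem vx_pl (ε : Fin 3 → Fin 4 → ℤ) (e : Fin 2 → ℤ) (X : T.CV i (Fin 4) → R) :
    T.vx i e (pl T i ε X) = T.vx i (fun l => ε 0 l + e 0 * ε 1 l + e 1 * ε 2 l) X := by
  funext v
  have h0 : pl T i ε X (Sum.inl v) = T.vx i (ε 0) X v := rfl
  simp only [vx, h0, hc_pl, Fin.sum_univ_two, Fin.sum_univ_four, Fin.succ_zero_eq_one,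
    Fin.succ_one_eq_two]
  push_cast
  ring

theorem ag_pl (ε : Fin 3 → Fin 4 → ℤ) {X X' : T.CV i (Fin 4) → R}
    (h : (T.cpy i (Fin 4)).Ag (S.disjSum univ) X X') :
    (T.cpy i (Fin 2)).Ag (ex S) (pl T i ε X) (pl T i ε X') := by
  rintro (v | p) hV
  · exact h.vx (ε := ε 0) (fun _ _ => by simp) v (by simpa [ex] using ty_inl_sub.1 hV)
  · simp only [pl, Sum.elim_inr]
    refine sum_congr rfl fun l _ => ?_
    rw [h (Sum.inr (l, p.2)) (ty_inr_sub.2 ⟨by simpa [ex] using (ty_inr_sub.1 hV).1, by simp⟩)]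

theorem of_pl (ε : Fin 3 → Fin 4 → ℤ) {X X' : T.CV i (Fin 4) → R}
    (h : (T.cpy i (Fin 4)).Of (Sum.inl c) X X') :
    (T.cpy i (Fin 2)).Of (Sum.inl c) (pl T i ε X) (pl T i ε X') := by
  rintro (v | p) hV
  · exact h.vx (ε 0) v (by simpa [ty_inl] using hV)
  · simp only [pl, Sum.elim_inr]
    refine sum_congr rfl fun l _ => ?_
    rw [h (Sum.inr (l, p.2)) (by simpa [ty_inr] using hV)]
end

theorem cz_pl (ε : Fin 3 → Fin 4 → ℤ) (Z : T.CV i (Fin 4) → ℤ) :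
    cz (pl T i ε Z) = pl T i ε (cz Z) := by
  funext V
  rcases V with v | p
  · exact congrFun (cz_vx (ε 0) Z) v
  · simp [cz, pl]

theorem cm_pl {m : (ι → ℝ) → ι → ℝ} (hm : ∀ v, T.Fm (T.ty v) univ (fun z => m z v))
    (ε : Fin 3 → Fin 4 → ℤ) (X : T.CV i (Fin 4) → ℝ) :
    T.cm i m (pl T i ε X) = pl T i ε (T.cm i m X) := by
  funext V
  rcases V with v | ⟨k, v⟩
  · exact (congrFun (vx_cm hm (ε 0) X) v).symm
  · have e1 : T.bs i (pl T i ε X) + T.hc i (pl T i ε X) k = T.vx i (ε 0 + ε k.succ) X := by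
      funext u
      have h0 : T.bs i (pl T i ε X) u = T.vx i (ε 0) X u := rfl
      simp only [Pi.add_apply, h0, hc_pl, vx, Int.cast_add, add_mul, sum_add_distrib]
      ring
    have e2 : T.bs i (pl T i ε X) = T.vx i (ε 0) X := rfl
    show m (T.bs i (pl T i ε X) + T.hc i (pl T i ε X) k) v.1 - m (T.bs i (pl T i ε X)) v.1 =
      ∑ l, (ε k.succ l : ℝ) * T.cm i m X (Sum.inr (l, v))
    rw [e1, e2, ← vx_cm hm, ← vx_cm hm]
    simp only [vx, Pi.add_apply, Int.cast_add, add_mul, sum_add_distrib, hc_of _ _ v.2]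
    ring

def plL (T : TT α ι) (i : α) (ε : Fin 3 → Fin 4 → ℤ) :
    (T.CV i (Fin 4) → ℝ) →ₗ[ℝ] (T.CV i (Fin 2) → ℝ) where
  toFun := pl T i ε
  map_add' X X' := by
    funext V
    rcases V with v | p
    · exact congrFun (vx_add (ε 0) X X') v
    · simp only [pl, Sum.elim_inr, Pi.add_apply, mul_add, sum_add_distrib]
  map_smul' r X := by
    funext V
    rcases V with v | p
    · exact congrFun ((T.vxL i (ε 0)).map_smul r X) v
    · simp only [pl, Sum.elim_inr, Pi.smul_apply, smul_eq_mul, RingHom.id_apply, mul_sum]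
      exact sum_congr rfl fun _ _ => by ring

theorem fm_pl (ε : Fin 3 → Fin 4 → ℤ) {g : Fn (T.CV i (Fin 2))}
    (hg : (T.cpy i (Fin 2)).Fm (ex S) (ex S \ ex B) g) :
    (T.cpy i (Fin 4)).Fm (S.disjSum univ) (S.disjSum univ \ B.disjSum univ)
      fun X => g (pl T i ε X) := by
  refine ⟨fun X X' h => hg.1 _ _ (ag_pl ε h), ?_⟩
  rintro (a | k) ha
  · have := AffC.comp (ty := (T.cpy i (Fin 2)).ty) (ty' := (T.cpy i (Fin 4)).ty) (a := Sum.inl a)
      (a' := Sum.inl a) (g := g) (hg.2 _ (by simpa [ex] using ha)) (plL T i ε) 0 fun h hh V hV => by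
        have := of_pl (c := a) ε (X := h) (X' := 0) hh V hV
        rw [show plL T i ε h V = pl T i ε h V from rfl, this]
        exact congrFun (plL T i ε).map_zero V
    simp only [add_zero] at this
    exact this
  · simp at ha

/-- integer combination -/
def cb (e : Fin 4 → ℤ) (d : Fin 4 → ι → ℝ) : ι → ℝ := ∑ k, (e k : ℝ) • d k

theorem pl_JG (ε : Fin 3 → Fin 4 → ℤ) (X0 : T.CV i (Fin 4) → ℝ) (t x : ι → ℝ)
    (d : Fin 4 → ι → ℝ) : pl T i ε (JG T B S i X0 t x d) =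
      J3 T B S i (pl T i ε X0) t (x + cb (ε 0) d) (x + cb (ε 0) d + cb (ε 1) d)
        (x + cb (ε 0) d + cb (ε 2) d) := by
  funext V
  rcases V with v | ⟨k, v⟩
  · exact congrFun (vx_JG (ε 0) X0 t x d) v
  · simp only [pl, J3, JG, Sum.elim_inr, add_sub_cancel_left]
    split_ifs
    · fin_cases k <;> simp [cb, Finset.sum_apply]
    · rfl

theorem kl_cb (e : Fin 4 → ℤ) (d : Fin 4 → ι → ℝ) :
    kl T.ty c (cb e d) = cb e fun k => kl T.ty c (d k) := by
  simp [cb, map_sum]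

theorem abs_cb {e : Fin 4 → ℤ} (he : ∀ k, |e k| ≤ 1) {d : Fin 4 → ι → ℝ} (hd : ∀ k v, |d k v| ≤ 1)
    (v : ι) : |cb e d v| ≤ 4 := by
  simp only [cb, Finset.sum_apply, Pi.smul_apply, smul_eq_mul]
  refine (abs_sum_le_sum_abs _ _).trans ((sum_le_card_nsmul _ _ 1 fun k _ => ?_).trans (by simp))
  rw [abs_mul]
  have : |(e k : ℝ)| ≤ 1 := by exact_mod_cast he k
  exact mul_le_one₀ this (abs_nonneg _) (hd k v)

theorem ev3_le {be : W ι ι 3} {n : ℕ} (h : be.totalDegree ≤ n) {M : ℝ} (hM : 1 ≤ M)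
    {t x y z : ι → ℝ} (hb : ∀ v, |t v| ≤ M ∧ |x v| ≤ M ∧ |y v| ≤ M ∧ |z v| ≤ M) :
    |ev3 be t x y z| ≤ nrm be * M ^ n := by
  refine abs_eval_le hM ?_ h
  rintro (v | ⟨j, v⟩)
  · exact (hb v).1
  · fin_cases j
    · exact (hb v).2.1
    · exact (hb v).2.2.1
    · exact (hb v).2.2.2

/-- value of `be` at the quadruple `ε` of a configuration -/
def evc (be : W ι ι 3) (ε : Fin 3 → Fin 4 → ℤ) (t x : ι → ℝ) (d : Fin 4 → ι → ℝ) : ℝ :=
  ev3 be t (x + cb (ε 0) d) (x + cb (ε 0) d + cb (ε 1) d) (x + cb (ε 0) d + cb (ε 2) d)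

/-- **C4Z** -/
theorem c4z (hT : T.Ok) (hi : i ∈ B) (hBS : B ⊆ S) (hc : c ∈ S \ B) (Z' : T.CV i (Fin 4) → ℤ)
    {Hs N : ℝ} {n : ℕ}
    (hZ : (T.cpy i (Fin 4)).Zr (B.disjSum univ) (S.disjSum univ) (Sum.inl c) Z' Hs)
    (ε : Fin 4 → Fin 3 → Fin 4 → ℤ) (hε : ∀ j a k, |ε j a k| ≤ 1) {F : Fn (T.CV i (Fin 2))}
    (I : Fin 4 → Fn (T.CV i (Fin 2))) (be : Fin 4 → W ι ι 3)
    (hF : (T.cpy i (Fin 2)).Fm (ex S) (ex S \ ex B) F)
    (hI : ∀ j, (T.cpy i (Fin 2)).Fm (ex S) (ex S \ ex B) (I j) ∧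
      (T.cpy i (Fin 2)).IsI (ex B) (pl T i (ε j) Z') (I j))
    (hB : ∀ j, BE T B S i c ((T.cpy i (Fin 2)).u (cz (pl T i (ε j) Z')))
      (fun X => F ((T.cpy i (Fin 2)).ψ X) - I j ((T.cpy i (Fin 2)).ψ X)) (be j) ∧
      (be j).totalDegree ≤ n ∧ nrm (be j) ≤ N)
    (tel : ∀ X, F (pl T i (ε 0) X) - F (pl T i (ε 1) X) + F (pl T i (ε 2) X) -
      F (pl T i (ε 3) X) = 0) (hH : 8 * (N * 9 ^ n) ≤ Hs) (t x : ι → ℝ) (d : Fin 4 → ι → ℝ) :
    evc (be 0) (ε 0) t x d - evc (be 1) (ε 1) t x d + evc (be 2) (ε 2) t x d -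
      evc (be 3) (ε 3) t x d = 0 := by
  have h2 := hT.cpy i (Fin 2)
  have h4 := hT.cpy i (Fin 4)
  set T2 := T.cpy i (Fin 2) with hT2
  set T4 := T.cpy i (Fin 4) with hT4
  set X0 := T4.u (cz Z') with hX0
  have hci : c ≠ i := fun h => (mem_sdiff.1 hc).2 (h ▸ hi)
  have up : ∀ j z, T2.u (pl T i (ε j) z) = pl T i (ε j) (T4.u z) := fun j z => cm_pl hT.fu _ _
  let g : Fin 4 → Fn (T.CV i (Fin 2)) := fun j X => F (T2.ψ X) - I j (T2.ψ X)
  let r : Fin 4 → (ι → ℝ) → (ι → ℝ) → (Fin 4 → ι → ℝ) → ℝ := fun j t x d =>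
    g j (pl T i (ε j) (JG T B S i X0 (kl T.ty c t) (kl T.ty c x) fun k => kl T.ty c (d k)))
  have at0 : ∀ j z t x d, T4.Ag (S.disjSum univ) (T4.u z) (JG T B S i X0 t x d) →
      F (pl T i (ε j) z) - I j (pl T i (ε j) z) = g j (pl T i (ε j) (JG T B S i X0 t x d)) := by
    intro j z t x d h
    have e : pl T i (ε j) z = T2.ψ (pl T i (ε j) (T4.u z)) := by rw [← up, h2.l]
    rw [e]
    exact (fm_comp h2.fψ (hF.sub (hI j).1)).1 _ _ (ag_pl _ h)
  have at1 : ∀ j t x d, g j (pl T i (ε j) (JG T B S i X0 t x d)) =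
      evc (be j) (ε j) t x d + r j t x d := by
    intro j t x d
    have := (hB j).1 t (x + cb (ε j 0) d) (x + cb (ε j 0) d + cb (ε j 1) d)
      (x + cb (ε j 0) d + cb (ε j 2) d)
    rw [cz_pl, up, ← hX0] at this
    simp only [map_add, kl_cb] at this
    simp only [r, pl_JG, evc, this, g]
    ring
  let J : Fn (T.CV i (Fin 4)) := fun X => I 0 (pl T i (ε 0) X) - I 1 (pl T i (ε 1) X) +
    I 2 (pl T i (ε 2) X) - I 3 (pl T i (ε 3) X)
  have Jv : ∀ z t x d, T4.Ag (S.disjSum univ) (T4.u z) (JG T B S i X0 t x d) →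
      J z = -(evc (be 0) (ε 0) t x d - evc (be 1) (ε 1) t x d + evc (be 2) (ε 2) t x d -
        evc (be 3) (ε 3) t x d) - (r 0 t x d - r 1 t x d + r 2 t x d - r 3 t x d) := by
    intro z t x d h
    have a0 := (at0 0 z t x d h).trans (at1 0 t x d)
    have a1 := (at0 1 z t x d h).trans (at1 1 t x d)
    have a2 := (at0 2 z t x d h).trans (at1 2 t x d)
    have a3 := (at0 3 z t x d h).trans (at1 3 t x d)
    have := tel z
    simp only [J]
    linarith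
  have iI : ∀ j, T4.IsI (B.disjSum univ) Z' fun X => I j (pl T i (ε j) X) := fun j z hz => by
    show ∃ n : ℤ, I j (pl T i (ε j) (cz z)) = n
    rw [← cz_pl]
    exact (hI j).2 _ (ag_pl _ hz)
  have key := hZ J ((((fm_pl _ (hI 0).1).sub (fm_pl _ (hI 1).1)).add (fm_pl _ (hI 2).1)).sub
    (fm_pl _ (hI 3).1)) ((((iI 0).sub (iI 1)).add (iI 2)).sub (iI 3)) (by
      intro z z' k1 k2 k3 k4
      have agu : ∀ z, T4.Ag (B.disjSum univ) z (cz Z') → T4.Ag (B.disjSum univ) (T4.u z) X0 :=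
        fun z h V hV => h4.u_ag h hV
      have ou := of_u h4 k3
      have bd : ∀ z, (∀ V ∈ T4.fv (B.disjSum univ) (S.disjSum univ), |T4.u z V| ≤ 1) → ∀ j,
          |evc (be j) (ε j) (mt T B S i (T.bs i (T4.u z))) (mx T B S i (T.bs i (T4.u z)))
            fun k => mx T B S i (T.hc i (T4.u z) k)| ≤ N * 9 ^ n := by
        intro z hz j
        have b1 : ∀ v, |mt T B S i (T.bs i (T4.u z)) v| ≤ 1 := fun v => by
          unfold mt
          split_ifs with h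
          · exact hz _ (fv_inl.2 h.1)
          · simp
        have b2 : ∀ v, |mx T B S i (T.bs i (T4.u z)) v| ≤ 1 := fun v => by
          unfold mx
          split_ifs with h
          · exact hz _ (fv_inl.2 h.1)
          · simp
        have b3 : ∀ k v, |mx T B S i (T.hc i (T4.u z) k) v| ≤ 1 := fun k v => by
          unfold mx
          split_ifs with h
          · rw [hc_of _ _ h.2]
            exact hz _ ((fv_inr hi hBS).2 h.1)
          · simp
        refine (ev3_le (hB j).2.1 (M := 9) (by norm_num) fun v => ?_).trans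
          (mul_le_mul_of_nonneg_right (hB j).2.2 (by positivity))
        have c0 := abs_le.1 (abs_cb (hε j 0) b3 v)
        have c1 := abs_le.1 (abs_cb (hε j 1) b3 v)
        have c2 := abs_le.1 (abs_cb (hε j 2) b3 v)
        have c3 := abs_le.1 (b2 v)
        simp only [Pi.add_apply, abs_le]
        refine ⟨?_, ?_, ?_, ?_⟩ <;> constructor <;> linarith [abs_le.1 (b1 v)]
      have e1 : kl T.ty c (mt T B S i (T.bs i (T4.u z))) =
          kl T.ty c (mt T B S i (T.bs i (T4.u z'))) := kl_of fun v hv => by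
        simp only [mt, bs, ou (Sum.inl v) (by simpa [T4, ty_inl] using hv)]
      have e2 : kl T.ty c (mx T B S i (T.bs i (T4.u z))) =
          kl T.ty c (mx T B S i (T.bs i (T4.u z'))) := kl_of fun v hv => by
        simp only [mx, bs, ou (Sum.inl v) (by simpa [T4, ty_inl] using hv)]
      have e3 : ∀ k, kl T.ty c (mx T B S i (T.hc i (T4.u z) k)) =
          kl T.ty c (mx T B S i (T.hc i (T4.u z') k)) := fun k => kl_of fun v hv => by
        unfold mx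
        split_ifs with h
        · rw [hc_of _ _ h.2, hc_of _ _ h.2]
          exact ou _ (by simpa [T4, ty_inr, hci] using hv)
        · rfl
      rw [Jv z _ _ _ (ag_JG hi hBS (agu z k1)), Jv z' _ _ _ (ag_JG hi hBS (agu z' k2))]
      simp only [r, e1, e2, e3]
      have p := fun j => abs_le.1 (bd z (fun V hV => (k4 V hV).1) j)
      have q := fun j => abs_le.1 (bd z' (fun V hV => (k4 V hV).2) j)
      rw [abs_le]
      constructor <;> linarith [p 0, p 1, p 2, p 3, q 0, q 1, q 2, q 3])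
  have agp : ∀ t x d, T4.Ag (B.disjSum univ) (T4.ψ (JG T B S i X0 t x d)) (cz Z') :=
    fun t x d V hV => by rw [h4.ψ_ag (JG_ag hi hBS X0 t x d) hV, hX0, h4.l]
  have k0 := key _ _ (agp t x d) (agp (kl T.ty c t) (kl T.ty c x) fun k => kl T.ty c (d k))
    (of_psi h4 (JG_of X0 (of_kl t) (of_kl x) (fun k => of_kl (d k)) hci))
    (fun V hV => absurd (mem_fv'.1 hV).1 (mem_fv'.1 hV).2)
  have k1 := Jv (T4.ψ (JG T B S i X0 t x d)) t x d (by rw [h4.r]; exact Ag.refl _ _)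
  have a := fun j => at0 j (T4.ψ (JG T B S i X0 (kl T.ty c t) (kl T.ty c x)
    fun k => kl T.ty c (d k))) _ _ _ (by rw [h4.r]; exact Ag.refl _ _)
  have := tel (T4.ψ (JG T B S i X0 (kl T.ty c t) (kl T.ty c x) fun k => kl T.ty c (d k)))
  rw [abs_nonpos_iff, k1] at k0
  simp only [J, r] at k0
  linarith [a 0, a 1, a 2, a 3]

theorem cy_le (r : Fin 3) (j : Fin 4) (a : Fin 3) (k : Fin 4) : |cy r j a k| ≤ 1 := by
  revert r j a k
  decide

theorem tel_cy (r : Fin 3) (f : Fin 4 → Fn ι) (X : T.CV i (Fin 4) → ℝ) :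
    T.Q i f (pl T i (cy r 0) X) - T.Q i f (pl T i (cy r 1) X) + T.Q i f (pl T i (cy r 2) X) -
      T.Q i f (pl T i (cy r 3) X) = 0 := by
  let v : Fin 3 → Fin 4 → Fin 4 → Fin 4 → ℤ := fun r j w l =>
    cy r j 0 l + qv w 0 * cy r j 1 l + qv w 1 * cy r j 2 l
  have e : ∀ j, T.Q i f (pl T i (cy r j) X) = f 0 (T.vx i (v r j 0) X) - f 1 (T.vx i (v r j 1) X) -
      f 2 (T.vx i (v r j 2) X) + f 3 (T.vx i (v r j 3) X) := by
    intro j
    simp only [Q, vx_pl, Fin.sum_univ_four, sg, v]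
    simp
    ring
  rw [e, e, e, e]
  fin_cases r
  · have : v 0 0 0 = v 0 3 0 ∧ v 0 1 0 = v 0 2 0 ∧ v 0 0 3 = v 0 3 3 ∧ v 0 1 3 = v 0 2 3 ∧
        v 0 0 1 = v 0 1 1 ∧ v 0 2 1 = v 0 3 1 ∧ v 0 0 2 = v 0 1 2 ∧ v 0 2 2 = v 0 3 2 := by decide
    obtain ⟨a1, a2, a3, a4, a5, a6, a7, a8⟩ := this
    simp only [Fin.zero_eta, a1, a2, a3, a4, a5, a6, a7, a8]
    ring
  · have : v 1 0 1 = v 1 3 1 ∧ v 1 1 1 = v 1 2 1 ∧ v 1 0 3 = v 1 3 3 ∧ v 1 1 3 = v 1 2 3 ∧
        v 1 0 0 = v 1 1 0 ∧ v 1 2 0 = v 1 3 0 ∧ v 1 0 2 = v 1 1 2 ∧ v 1 2 2 = v 1 3 2 := by decide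
    obtain ⟨a1, a2, a3, a4, a5, a6, a7, a8⟩ := this
    simp only [Fin.mk_one, a1, a2, a3, a4, a5, a6, a7, a8]
    ring
  · have : v 2 0 2 = v 2 3 2 ∧ v 2 1 2 = v 2 2 2 ∧ v 2 0 3 = v 2 3 3 ∧ v 2 1 3 = v 2 2 3 ∧
        v 2 0 0 = v 2 1 0 ∧ v 2 2 0 = v 2 3 0 ∧ v 2 0 1 = v 2 1 1 ∧ v 2 2 1 = v 2 3 1 := by decide
    obtain ⟨a1, a2, a3, a4, a5, a6, a7, a8⟩ := this
    simp only [Fin.reduceFinMk, a1, a2, a3, a4, a5, a6, a7, a8]
    ring

theorem cyA {be : Fin 4 → W ι ι 3} (h : ∀ t x d, evc (be 0) (cy 0 0) t x d -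
    evc (be 1) (cy 0 1) t x d + evc (be 2) (cy 0 2) t x d - evc (be 3) (cy 0 3) t x d = 0) :
    S1 (be 0) ∧ lab1 (be 0) = lab1 (be 3) := by
  refine cyc1 (b2 := be 1) (b3 := be 2) fun t x x' y y' s => ?_
  have := h t x ![x' - x, y - x, y' - x, s - y - x]
  simp only [evc, cb, cy, Fin.sum_univ_four] at this
  simp at this
  convert this using 3 <;> first | abel | (congr 1 <;> abel)

theorem cyB {be : Fin 4 → W ι ι 3} (h : ∀ t x d, evc (be 0) (cy 1 0) t x d -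
    evc (be 1) (cy 1 1) t x d + evc (be 2) (cy 1 2) t x d - evc (be 3) (cy 1 3) t x d = 0) :
    S2 (be 0) ∧ lab2 (be 0) = lab2 (be 3) := by
  refine cyc2 (b2 := be 1) (b3 := be 2) fun t x x' y y' s => ?_
  have := h t x ![x' - x, y - x, y' - x, s]
  simp only [evc, cb, cy, Fin.sum_univ_four] at this
  simp at this
  convert this using 3 <;> first | abel | (congr 1 <;> abel)

theorem cyC {be : Fin 4 → W ι ι 3} (h : ∀ t x d, evc (be 0) (cy 2 0) t x d -
    evc (be 1) (cy 2 1) t x d + evc (be 2) (cy 2 2) t x d - evc (be 3) (cy 2 3) t x d = 0) :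
    S3 (be 0) ∧ lab3 (be 0) = lab3 (be 3) := by
  refine cyc3 (b2 := be 1) (b3 := be 2) fun t x x' y y' s => ?_
  have := h t x ![x' - x, y - x, y' - x, s]
  simp only [evc, cb, cy, Fin.sum_univ_four] at this
  simp at this
  convert this using 3 <;> first | abel | (congr 1 <;> abel)

end

end Vale.Agent.P057T.Gk.O31
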