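import Vale.Agent.P057T.Gk.Kb

/-! Step (1*): extraction in the tower. -/

set_option linter.all false

open Finset MvPolynomial

namespace Vale.Agent.P057T.Gk.O31

open Vale.Agent.P057T.One Vale.Agent.P057T.L1 Vale.Agent.P057T.Brg TT

noncomputable section

variable {α ι : Type} [Fintype α] [DecidableEq α] [Fintype ι] [DecidableEq ι] (T : TT α ι)
  (B S : Finset α) (i c : α)

def VF (k : V ι ι) : Fn ι := fun q => ev1 k (mt T B S i q) (mx T B S i q)
def KF (k : V ι ι) : Fn ι := fun q => VF T B S i k (T.u q)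
def PP (y : ι → ℝ) (g : Fn ι) (p : V ι ι) : Prop := ∀ t x, ev1 p t x =
  g (emb T B S i y t x) - g (emb T B S i y (kl T.ty c t) (kl T.ty c x))
open Classical in
/-- the `c`-part of `g` over `y` as a polynomial -/
def PZ (y : ι → ℝ) (g : Fn ι) : V ι ι :=
  if h : ∃ p, PP T B S i c y g p ∧ SpV T B S i p then h.choose else 0

def ML : (ι → ℝ) →ₗ[ℝ] (ι ⊕ ι → ℝ) where
  toFun q := Sum.elim (mt T B S i q) (mx T B S i q)
  map_add' q q' := by
    funext V
    rcases V with v | v <;> simp only [Sum.elim_inl, Sum.elim_inr, mt, mx, Pi.add_apply] <;>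
      split_ifs <;> simp
  map_smul' r q := by
    funext V
    rcases V with v | v <;>
      simp only [Sum.elim_inl, Sum.elim_inr, mt, mx, Pi.smul_apply, RingHom.id_apply] <;>
      split_ifs <;> simp

variable {T B S i c}

theorem spV_PZ (y : ι → ℝ) (g : Fn ι) : SpV T B S i (PZ T B S i c y g) := by
  unfold PZ
  split_ifs with h
  · exact h.choose_spec.2
  · intro a _ m hm
    exact absurd (coeff_zero m) hm

theorem pp_PZ (hi : i ∈ B) (hc : c ∈ S \ B) (y : ι → ℝ) {g : Fn ι} (hg : T.Fm S (S \ B) g) :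
    PP T B S i c y g (PZ T B S i c y g) := by
  have h : ∃ p, PP T B S i c y g p ∧ SpV T B S i p := by
    obtain ⟨be, b1, b2, -⟩ := exists_be (T := T) hi hc (mk T i y 0 0) (g := fun X => g (T.bs i X))
      fun a ha => by
        have := (hg.2 a ha).vx_inl (i := i) (κ := Fin 2) 0
        simpa only [vx_zero] using this
    refine ⟨s21 ![1, 0] (s32 ![1, 0, 0] ![0, 0, 0] be), fun t x => ?_,
      fun a ha => ((b2 a ha).s32 _ _).s21 _⟩
    have := b1 t x 0 0
    simp only [ev_s21, ev_s32]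
    simp only [Matrix.cons_val_zero, Matrix.cons_val_one, one_smul, zero_smul, Matrix.cons_val]
    exact this
  unfold PZ
  rw [dif_pos h]
  exact h.choose_spec.1

theorem mt_ag {q q' : ι → ℝ} (h : T.Ag (S.erase i) q q') : mt T B S i q = mt T B S i q' := by
  funext v
  unfold mt
  split_ifs with hv
  · exact h v (subset_erase.2 ⟨(mem_fv'.1 hv.1).1, hv.2⟩)
  · rfl

theorem mx_ag {q q' : ι → ℝ} (h : T.Ag S q q') : mx T B S i q = mx T B S i q' := by
  funext v
  unfold mx
  split_ifs with hv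
  · exact h v (mem_fv'.1 hv.1).1
  · rfl

theorem fm_VF {k : V ι ι} (hk : SpV T B S i k) : T.Fm S (S \ B) (VF T B S i k) := by
  refine ⟨fun q q' h => ?_, fun a ha => ?_⟩
  · unfold VF
    rw [mt_ag (h.mono (erase_subset _ _)), mx_ag h]
  · have := (aff_of_sp (hk a ha)).comp (ty' := T.ty) (a' := a) (ML T B S i) 0 fun h hh V hV => by
      rcases V with v | v <;> simp only [ML, LinearMap.coe_mk, AddHom.coe_mk, Sum.elim_inl,
        Sum.elim_inr, mt, mx] <;> split_ifs with h1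
      · exact hh v (by simpa [tyV, h1] using hV)
      · rfl
      · exact hh v (by simpa [tyV, h1] using hV)
      · rfl
    simp only [add_zero] at this
    exact this

theorem SpV.scl0 {k : V ι ι} (hk : SpV T B S i k) : SpV T B S i (scl 0 k) :=
  fun a ha => (hk a ha).of_support (support_scl0 k)
theorem SpV.lin {k : V ι ι} (hk : SpV T B S i k) : SpV T B S i (lin k) :=
  fun a ha => (hk a ha).of_support (support_lin k)
theorem SpV.sub {k k' : V ι ι} (hk : SpV T B S i k) (hk' : SpV T B S i k') : SpV T B S i (k - k') :=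
  fun a ha => (hk a ha).sub (hk' a ha)

theorem fm_AF {k : V ι ι} (hk : SpV T B S i k) :
    T.Fm (S.erase i) (S \ B) (VF T B S i (scl 0 k)) :=
  ⟨fun q q' h => by unfold VF; rw [ev1_scl0, ev1_scl0, mt_ag h], (fm_VF hk.scl0).2⟩

theorem fm_CF {k : V ι ι} (hk : SpV T B S i k) :
    T.Fm S (insert i (S \ B)) (VF T B S i (lin k)) := by
  refine ⟨(fm_VF hk.lin).1, fun a ha => ?_⟩
  rcases mem_insert.1 ha with rfl | ha
  · let ty' : ι ⊕ ι → Finset Unit := Sum.elim (fun _ => ∅) (fun _ => univ)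
    have e : wa ty' () = wt := by
      funext V; rcases V with v | v <;> simp [wa, ty', wt]
    have s : Sp (wa ty' ()) {n | n ≤ 1} (lin k) := by
      rw [e]
      intro m hm
      by_contra hne
      exact hm (lin_lin k m fun h => hne (le_of_eq h))
    have := (aff_of_sp s).comp (ty' := T.ty) (a' := a) (ML T B S a) 0 fun h hh V hV => by
      rcases V with v | v
      · simp only [ML, LinearMap.coe_mk, AddHom.coe_mk, Sum.elim_inl, mt]
        split_ifs with h1
        · exact hh v h1.2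
        · rfl
      · simp [ty'] at hV
    simp only [add_zero] at this
    exact this
  · exact (fm_VF hk.lin).2 a ha

theorem fm_KF (hT : T.Ok) {k : V ι ι} (hk : SpV T B S i k) : T.Fm S (S \ B) (KF T B S i k) :=
  fm_comp hT.fu (fm_VF hk)

theorem ev1_le (k : V ι ι) {t x : ι → ℝ} (ht : ∀ v, |t v| ≤ 1) (hx : ∀ v, |x v| ≤ 1) :
    |ev1 k t x| ≤ nrm k := by
  have := abs_eval_le (x := Sum.elim t x) (M := 1) le_rfl (by rintro (v | v); exacts [ht v, hx v])
    (p := k) le_rfl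
  simpa [ev1] using this

theorem mt_cz (z : ι → ℤ) : mt T B S i (cz z) =
    cz fun v => if v ∈ T.fv B S ∧ i ∉ T.ty v then z v else 0 := by
  funext v
  unfold mt cz
  by_cases h : v ∈ T.fv B S ∧ i ∉ T.ty v
  · simp only [if_pos h]
  · simp only [if_neg h, Int.cast_zero]

theorem mx_cz (z : ι → ℤ) : mx T B S i (cz z) =
    cz fun v => if v ∈ T.fv B S ∧ i ∈ T.ty v then z v else 0 := by
  funext v
  unfold mx cz
  by_cases h : v ∈ T.fv B S ∧ i ∈ T.ty v
  · simp only [if_pos h]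
  · simp only [if_neg h, Int.cast_zero]

theorem VF_int {k : V ι ι} (hk : IsInt k) (z : ι → ℤ) : ∃ n : ℤ, VF T B S i k (cz z) = n := by
  unfold VF ev1
  rw [mt_cz, mx_cz]
  have e : ∀ a b : ι → ℤ, Sum.elim (cz a) (cz b) = fun V => ((Sum.elim a b V : ℤ) : ℝ) := by
    intro a b
    funext V
    rcases V with v | v <;> rfl
  rw [e]
  exact hk.eval _

theorem ag_emb {y q : ι → ℝ} (h : T.Ag B q y) :
    T.Ag S q (emb T B S i y (mt T B S i q) (mx T B S i q)) := by
  intro v hv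
  by_cases h1 : v ∈ T.fv B S
  · by_cases h2 : i ∈ T.ty v <;> simp [emb, mt, mx, h1, h2]
  · rw [emb, if_neg h1]
    by_contra hne
    exact h1 (mem_fv'.2 ⟨hv, fun h2 => hne (h v h2)⟩)

theorem kl_mt {q q' : ι → ℝ} (h : T.Of c q q') :
    kl T.ty c (mt T B S i q) = kl T.ty c (mt T B S i q') :=
  kl_of fun v hv => by simp only [mt, h v hv]
theorem kl_mx {q q' : ι → ℝ} (h : T.Of c q q') :
    kl T.ty c (mx T B S i q) = kl T.ty c (mx T B S i q') :=
  kl_of fun v hv => by simp only [mx, h v hv]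

theorem vx_J3 (X0 : T.CV i (Fin 2) → ℝ) (t x y z : ι → ℝ) (w : Fin 4) :
    T.vx i (qv w) (J3 T B S i X0 t x y z) =
      emb T B S i (T.vx i (qv w) X0) t ((![x, y, z, y + z - x] : Fin 4 → ι → ℝ) w) := by
  unfold J3
  rw [vx_JG]
  congr 1
  fin_cases w <;> simp [qv, Fin.sum_univ_two]
  abel

/-- the four corrected forms -/
def gw (T : TT α ι) (B S : Finset α) (i : α) (f : Fn ι) (s : ℝ) (k : V ι ι) : Fn ι :=
  fun q => f q + s * KF T B S i k q

theorem fm_gw (hT : T.Ok) {f : Fn ι} (hf : T.Fm S (S \ B) f) (s : ℝ) {k : V ι ι}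
    (hk : SpV T B S i k) : T.Fm S (S \ B) (gw T B S i f s k) := hf.add ((fm_KF hT hk).smul s)

/-- **KA3** -/
theorem ka3 (hT : T.Ok) (hi : i ∈ B) (hBS : B ⊆ S) (hc : c ∈ S \ B) (Z : T.CV i (Fin 2) → ℤ)
    {f : Fin 4 → Fn ι} (hf : ∀ w, T.Fm S (S \ B) (f w)) {I : Fn (T.CV i (Fin 2))}
    (hI : (T.cpy i (Fin 2)).Fm (ex S) (ex S \ ex B) I) (hI' : (T.cpy i (Fin 2)).IsI (ex B) Z I)
    (hQ : (T.cpy i (Fin 2)).Dep (ex S) (T.Q i f))
    {be : W ι ι 3} (hB : BE T B S i c ((T.cpy i (Fin 2)).u (cz Z))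
      (fun X => T.Q i f ((T.cpy i (Fin 2)).ψ X) - I ((T.cpy i (Fin 2)).ψ X)) be)
    (hS : SpW T B S i 3 be) (s1 : S1 be) (s2 : S2 be) (s3 : S3 be) {p0 p1 p2 p3 : V ι ι}
    (e0 : p0 = PZ T B S i c (cz (T.vx i (qv 0) Z)) (gw T B S i (f 0) (-1) (k1 (lab1 be))))
    (e1 : p1 = PZ T B S i c (cz (T.vx i (qv 1) Z)) (gw T B S i (f 1) 1 (k2 (lab2 be))))
    (e2 : p2 = PZ T B S i c (cz (T.vx i (qv 2) Z)) (gw T B S i (f 2) 1 (k2 (lab3 be))))
    (e3 : p3 = PZ T B S i c (cz (T.vx i (qv 3) Z)) (gw T B S i (f 3) (-1) (k42 (lab3 be)))) :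
    T.IB B S c (T.bs i Z) (fun x => f 0 x - VF T B S i (scl 0 p0) x - VF T B S i (lin p3) x)
      (12 * nrm be) ∧
    T.IB (B.erase i) (S.erase i) c (T.bs i Z) (fun x => VF T B S i (scl 0 p0) x -
      VF T B S i (scl 0 p1) x - (VF T B S i (scl 0 p2) x - VF T B S i (scl 0 p3) x))
      (2 * nrm be) := by
  have h2 := hT.cpy i (Fin 2)
  set T2 := T.cpy i (Fin 2) with hT2
  set X0 := T2.u (cz Z) with hX0
  have hci : c ≠ i := fun h => (mem_sdiff.1 hc).2 (h ▸ hi)
  obtain ⟨-, q23, -, al⟩ := alg s1 s2 s3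
  rw [q23] at al
  have g0 := fm_gw hT (hf 0) (-1) (k := k1 (lab1 be)) fun a ha => (hS a ha).lab1.k1
  have g1 := fm_gw hT (hf 1) 1 (k := k2 (lab2 be)) fun a ha => (hS a ha).lab2.k2
  have g2 := fm_gw hT (hf 2) 1 (k := k2 (lab3 be)) fun a ha => (hS a ha).lab3.k2
  have g3 := fm_gw hT (hf 3) (-1) (k := k42 (lab3 be)) fun a ha => (hS a ha).lab3.k42
  have P0 := e0 ▸ pp_PZ hi hc (cz (T.vx i (qv 0) Z)) g0
  have P1 := e1 ▸ pp_PZ hi hc (cz (T.vx i (qv 1) Z)) g1
  have P2 := e2 ▸ pp_PZ hi hc (cz (T.vx i (qv 2) Z)) g2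
  have P3 := e3 ▸ pp_PZ hi hc (cz (T.vx i (qv 3) Z)) g3
  have Q0 : SpV T B S i p0 := e0 ▸ spV_PZ _ _
  have Q1 : SpV T B S i p1 := e1 ▸ spV_PZ _ _
  have Q2 : SpV T B S i p2 := e2 ▸ spV_PZ _ _
  have Q3 : SpV T B S i p3 := e3 ▸ spV_PZ _ _
  let G : Fn (T.CV i (Fin 2)) := fun X => T.Q i f (T2.ψ X) - I (T2.ψ X)
  let ρ : Fn (T.CV i (Fin 2)) := fun U => G (JG T B S i X0 (kl T.ty c (mt T B S i (T.bs i U)))
    (kl T.ty c (mx T B S i (T.bs i U))) fun k => kl T.ty c (mx T B S i (T.hc i U k)))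
  have main : ∀ X, T2.Ag (ex B) X (cz Z) →
      gw T B S i (f 0) (-1) (k1 (lab1 be)) (T.vx i (qv 0) X) -
      gw T B S i (f 1) 1 (k2 (lab2 be)) (T.vx i (qv 1) X) -
      gw T B S i (f 2) 1 (k2 (lab3 be)) (T.vx i (qv 2) X) +
      gw T B S i (f 3) (-1) (k42 (lab3 be)) (T.vx i (qv 3) X) =
      I X + ρ (T2.u X) + ev3 be (mt T B S i (T.u (T.bs i X))) 0 0 0 := by
    intro X hX
    set U := T2.u X with hU
    have agU : T2.Ag (ex B) U X0 := fun V hV => h2.u_ag hX hV
    set t := mt T B S i (T.bs i U) with ht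
    set x := mx T B S i (T.bs i U) with hx
    set d0 := mx T B S i (T.hc i U 0) with hd0
    set d1 := mx T B S i (T.hc i U 1) with hd1
    have dG : T2.Dep (ex S) G := fun z z' h =>
      (hQ.op hI.1 (· - ·)) _ _ fun V hV => h2.ψ_ag h hV
    have ed : (fun k => mx T B S i (T.hc i U k)) = ![x + d0 - x, x + d1 - x] := by
      funext k; fin_cases k <;> simp [hd0, hd1]
    have ed' : (fun k => kl T.ty c (mx T B S i (T.hc i U k))) =
        ![kl T.ty c (x + d0) - kl T.ty c x, kl T.ty c (x + d1) - kl T.ty c x] := by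
      funext k; fin_cases k <;> simp [hd0, hd1]
    have a1 : T.Q i f X - I X = G (J3 T B S i X0 t x (x + d0) (x + d1)) := by
      have := dG _ _ (ag_JG hi hBS agU)
      rw [ed] at this
      simp only [G, hU, h2.l] at this
      exact this
    have a2 := hB t x (x + d0) (x + d1)
    have a3 : ρ U = G (J3 T B S i X0 (kl T.ty c t) (kl T.ty c x) (kl T.ty c (x + d0))
        (kl T.ty c (x + d1))) := by
      simp only [ρ, ed']
      rfl
    have a4 := al t x (x + d0) (x + d1)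
    have kf : ∀ k w, KF T B S i k (T.vx i (qv w) X) =
        ev1 k t ((![x, x + d0, x + d1, x + d0 + (x + d1) - x] : Fin 4 → ι → ℝ) w) := by
      intro k w
      unfold KF VF
      rw [hT.u_vx, ← hT2, ← hU]
      congr 1
      · funext v
        simp only [ht, mt]
        split_ifs with h
        · exact of_vx _ _ v h.2
        · rfl
      · funext v
        by_cases h : v ∈ T.fv B S ∧ i ∈ T.ty v <;> fin_cases w <;>
          simp [hx, hd0, hd1, mx, h, vx, qv, Fin.sum_univ_two, bs]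
        ring
    have bu : T.u (T.bs i X) = T.bs i U := rfl
    simp only [gw, kf, bu, ← ht, a3]
    simp only [Q, Fin.sum_univ_four, sg] at a1
    simp only [Matrix.cons_val_zero, Matrix.cons_val_one, Matrix.cons_val] at a1 ⊢
    simp only [G] at a1 ⊢
    linarith
  obtain ⟨I3, i1, i2, -, -, i5⟩ := exists_be (T := T) hi hc (cz Z) (g := I)
    fun a ha => hI.2 _ (by simpa [ex] using ha)
  have i6 : IsInt I3 := i5 fun t x y z => by
    let Wz : T.CV i (Fin 2) → ℤ := Sum.elim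
      (fun v => if v ∈ T.fv B S then (if i ∈ T.ty v then x v else t v) else Z (Sum.inl v))
      (fun p => if p.2.1 ∈ T.fv B S then (![y - x, z - x] : Fin 2 → ι → ℤ) p.1 p.2.1
        else Z (Sum.inr p))
    have e : J3 T B S i (cz Z) (cz t) (cz x) (cz y) (cz z) = cz Wz := by
      funext V
      rcases V with v | ⟨k, v⟩
      · by_cases h1 : v ∈ T.fv B S <;> by_cases h2 : i ∈ T.ty v <;>
          simp [J3, JG, emb, cz, Wz, bs, h1, h2]
      · by_cases h1 : v.1 ∈ T.fv B S <;> fin_cases k <;> simp [J3, JG, cz, Wz, h1]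
    rw [e]
    exact hI' Wz (ag_cz.1 (e ▸ JG_ag hi hBS _ _ _ _))
  let y0 := cz (T.bs i Z)
  let b0 : (ι → ℝ) → ℝ := fun t => ev3 be (mt T B S i (T.u (emb T B S i y0 t 0))) 0 0 0
  have idn : ∀ t x y z, ev1 p0 t x - ev1 p1 t y - ev1 p2 t z + ev1 p3 t (y + z - x) =
      ev3 I3 t x y z + (b0 t - b0 (kl T.ty c t)) := by
    intro t x y z
    have m1 := main _ (JG_ag hi hBS (cz Z) t x ![y - x, z - x])
    have m2 := main _ (JG_ag hi hBS (cz Z) (kl T.ty c t) (kl T.ty c x)
      ![kl T.ty c y - kl T.ty c x, kl T.ty c z - kl T.ty c x])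
    have ou := of_u h2 (J3_of (B := B) (S := S) (cz Z) (of_kl t) (of_kl x) (of_kl y) (of_kl z) hci)
    have r : ρ (T2.u (J3 T B S i (cz Z) t x y z)) = ρ (T2.u (J3 T B S i (cz Z) (kl T.ty c t)
        (kl T.ty c x) (kl T.ty c y) (kl T.ty c z))) := by
      have o1 := ou.vx 0
      rw [vx_zero, vx_zero] at o1
      have o2 : ∀ k, T.Of c (T.hc i (T2.u (J3 T B S i (cz Z) t x y z)) k)
          (T.hc i (T2.u (J3 T B S i (cz Z) (kl T.ty c t) (kl T.ty c x) (kl T.ty c y)
            (kl T.ty c z))) k) := fun k v hv => by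
        by_cases h : i ∈ T.ty v
        · rw [hc_of _ _ h, hc_of _ _ h]
          exact ou _ (by simpa [T2, ty_inr, hci] using hv)
        · rw [hc_not _ _ h, hc_not _ _ h]
      simp only [ρ, kl_mt o1, kl_mx o1, fun k => kl_mx (B := B) (S := S) (i := i) (o2 k)]
    have bb : ∀ t x y z, ev3 be (mt T B S i (T.u (T.bs i (J3 T B S i (cz Z) t x y z)))) 0 0 0 =
        b0 t := by
      intro t x y z
      have : T.Of i (T.bs i (J3 T B S i (cz Z) t x y z)) (emb T B S i y0 t 0) := fun v hv => by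
        simp [bs, J3, JG, emb, hv, y0, cz]
      simp only [b0]
      rw [mt_ag ((of_u hT this).ag (notMem_erase i S))]
    change gw T B S i _ _ _ (T.vx i _ (J3 T B S i (cz Z) t x y z)) -
      gw T B S i _ _ _ (T.vx i _ (J3 T B S i (cz Z) t x y z)) -
      gw T B S i _ _ _ (T.vx i _ (J3 T B S i (cz Z) t x y z)) +
      gw T B S i _ _ _ (T.vx i _ (J3 T B S i (cz Z) t x y z)) = I (J3 T B S i (cz Z) t x y z) +
      ρ (T2.u (J3 T B S i (cz Z) t x y z)) +
      ev3 be (mt T B S i (T.u (T.bs i (J3 T B S i (cz Z) t x y z)))) 0 0 0 at m1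
    change gw T B S i _ _ _ (T.vx i _ (J3 T B S i (cz Z) _ _ _ _)) -
      gw T B S i _ _ _ (T.vx i _ (J3 T B S i (cz Z) _ _ _ _)) -
      gw T B S i _ _ _ (T.vx i _ (J3 T B S i (cz Z) _ _ _ _)) +
      gw T B S i _ _ _ (T.vx i _ (J3 T B S i (cz Z) _ _ _ _)) = I (J3 T B S i (cz Z) _ _ _ _) +
      ρ (T2.u (J3 T B S i (cz Z) _ _ _ _)) +
      ev3 be (mt T B S i (T.u (T.bs i (J3 T B S i (cz Z) _ _ _ _)))) 0 0 0 at m2
    rw [bb] at m1 m2
    simp only [vx_J3, ← cz_vx, Matrix.cons_val_zero, Matrix.cons_val_one, Matrix.cons_val] at m1 m2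
    rw [P0, P1, P2, P3, i1, map_sub, map_add]
    linarith
  obtain ⟨-, x1, -⟩ := extract i6 idn fun m hm v => by
    obtain ⟨a, h1, h2⟩ := not_disjoint_iff.1 (tyV_meet (T := T) (i := i) hc (Sum.inr v))
    have h3 : Finsupp.weight (wa (tyV T B S i) a) m ≤ 1 := Q3 a h2 m hm
    have h4 := Finsupp.le_weight (wa (tyV T B S i) a) (s := Sum.inr v) (by simp [wa, h1]) m
    omega
  have ev0 : T.vx i (qv 0) Z = T.bs i Z := by
    have : qv 0 = 0 := by decide
    rw [this, vx_zero]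
  constructor
  · refine ⟨VF T B S i (p0 - scl 0 p0 - lin p3), fm_VF ((Q0.sub Q0.scl0).sub Q3.lin),
      fun z _ => VF_int x1 z, fun q q' k1' k2' k3 k4 => ?_⟩
    have val : ∀ q, T.Ag B q y0 → f 0 q - VF T B S i (scl 0 p0) q - VF T B S i (lin p3) q -
        VF T B S i (p0 - scl 0 p0 - lin p3) q = KF T B S i (k1 (lab1 be)) q +
        gw T B S i (f 0) (-1) (k1 (lab1 be)) (emb T B S i y0 (kl T.ty c (mt T B S i q))
          (kl T.ty c (mx T B S i q))) := by
      intro q hq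
      have a1 := P0 (mt T B S i q) (mx T B S i q)
      rw [ev0, ← g0.1 _ _ (ag_emb hq)] at a1
      simp only [VF, ev1_sub, a1]
      simp only [gw, y0]
      ring
    have bd : ∀ q, (∀ v ∈ T.fv B S, |T.u q v| ≤ 1) → |KF T B S i (k1 (lab1 be)) q| ≤ 6 * nrm be := by
      intro q hq
      refine (ev1_le _ (fun v => ?_) fun v => ?_).trans (by linarith [nrm_k1 (lab1 be), nrm_lab1 be])
      · unfold mt
        split_ifs with h
        · exact hq v h.1
        · simp
      · unfold mx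
        split_ifs with h
        · exact hq v h.1
        · simp
    show |(f 0 q - _ - _ - _) - (f 0 q' - _ - _ - _)| ≤ _
    rw [val q k1', val q' k2', kl_mt k3, kl_mx k3, add_sub_add_right_eq_sub]
    exact (abs_sub _ _).trans (by
      linarith [bd q fun v hv => (k4 v hv).1, bd q' fun v hv => (k4 v hv).2])
  · let I0 : V ι ι := s31 ![0, 0, 0] 0 I3
    let I1 : V ι ι := s21 ![1, 0] (s32 ![1, 0, 0] ![0, 0, 0] I3)
    have v1 : ∀ q, VF T B S i (scl 0 I1) q = ev3 I3 (mt T B S i q) 0 0 0 := fun q => by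
      simp [VF, ev1_scl0, I1, ev_s21, ev_s32]
    have v0 : ∀ q, VF T B S i I0 q = ev3 I3 (mt T B S i q) 0 0 0 := fun q => by
      have z0 : (fun _ : ι => (0 : ℝ)) = 0 := rfl
      simp [VF, I0, ev_s31, z0]
    refine ⟨VF T B S i (scl 0 I1), (fm_AF fun a ha => ((i2 a ha).s32 _ _).s21 _).mono subset_rfl
      fun a ha => ?_, fun z _ => ?_, fun q q' k1' k2' k3 k4 => ?_⟩
    · simp only [mem_sdiff, mem_erase, not_and] at ha ⊢
      exact ⟨ha.1.2, ha.2 ha.1.1⟩
    · rw [v1, ← v0]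
      exact VF_int (isInt_s31 _ _ i6) z
    · have val : ∀ q, VF T B S i (scl 0 p0) q - VF T B S i (scl 0 p1) q -
          (VF T B S i (scl 0 p2) q - VF T B S i (scl 0 p3) q) - VF T B S i (scl 0 I1) q =
          b0 (mt T B S i q) - b0 (kl T.ty c (mt T B S i q)) := by
        intro q
        have := idn (mt T B S i q) 0 0 0
        rw [add_zero, sub_zero] at this
        rw [v1]
        simp only [VF, ev1_scl0]
        linarith
      have bd : ∀ q, T.Ag (B.erase i) q y0 → (∀ v ∈ T.fv (B.erase i) (S.erase i), |T.u q v| ≤ 1) →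
          |b0 (mt T B S i q)| ≤ nrm be := by
        intro q hq hq'
        have ag : T.Ag (S.erase i) (emb T B S i y0 (mt T B S i q) 0) q := fun v hv => by
          have hv' := subset_erase.1 hv
          by_cases h1 : v ∈ T.fv B S
          · simp [emb, mt, h1, hv'.2]
          · rw [emb, if_neg h1]
            by_contra hne
            exact h1 (mem_fv'.2 ⟨hv'.1, fun h3 => hne (hq v (subset_erase.2 ⟨h3, hv'.2⟩)).symm⟩)
        have := ev3_le (be := be) le_rfl (M := 1) le_rfl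
          (t := mt T B S i (T.u (emb T B S i y0 (mt T B S i q) 0))) (x := 0) (y := 0) (z := 0)
          fun v => ⟨by
            unfold mt
            split_ifs with h
            · have h3 := subset_erase.2 ⟨(mem_fv'.1 h.1).1, h.2⟩
              refine le_of_eq_of_le (congrArg abs (hT.u_ag ag h3)) ?_
              exact hq' v (mem_fv'.2 ⟨h3, fun h4 => (mem_fv'.1 h.1).2 (h4.trans (erase_subset _ _))⟩)
            · simp, by simp, by simp, by simp⟩
        simpa [b0] using this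
      show |(_ - _ - _ - _) - (_ - _ - _ - _)| ≤ _
      rw [val q, val q', kl_mt k3, sub_sub_sub_cancel_right]
      exact (abs_sub _ _).trans (by
        linarith [bd q k1' fun v hv => (k4 v hv).1, bd q' k2' fun v hv => (k4 v hv).2])

end

end Vale.Agent.P057T.Gk.O31
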