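import Vale.Agent.P057T.Gk.Rows
import Vale.Agent.P057T.Gkh.Lin

/-! Linear algebra of one direction. -/

set_option linter.all false

open Finset

namespace Vale.Agent.P057T.Gk

open TT

theorem la : LA := by
  refine ⟨4, fun ρ δ _ _ _ Y k hY hR hk => ?_⟩
  classical
  have hY' : (4 : ℝ) ≤ Y := by exact_mod_cast hY
  obtain ⟨t, sel, w, D, ht, D0, hD, hw, -, hs⟩ := Lin.crqR k hY' hR hk
  obtain ⟨e⟩ : Nonempty (Fin t ↪ ρ) :=
    Function.Embedding.nonempty_of_card_le (by rwa [Fintype.card_fin])
  have y1 : 1 ≤ Y := by linarith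
  have y34 : Real.exp (Y ^ 3) ≤ Real.exp (Y ^ 4) :=
    Real.exp_le_exp.2 (pow_le_pow_right₀ y1 (by norm_num))
  have y24 : Real.exp (2 * Y ^ 2) ≤ Real.exp (Y ^ 4) := (Lin.num2 hY').le.trans y34
  have y14 : Real.exp Y ≤ Real.exp (Y ^ 4) :=
    Real.exp_le_exp.2 (le_self_pow₀ y1 (by norm_num))
  have y04 : 1 ≤ Real.exp (Y ^ 4) := Real.one_le_exp (by positivity)
  have sg : |((D.sign : ℤ) : ℝ)| = 1 := by
    rw [← Int.cast_abs, Int.abs_sign_of_ne_zero D0, Int.cast_one]
  have ort : ∀ a j, ∑ r, k a r * ((if r = j then D else 0) - ∑ i, k (sel i) j * w i r) = 0 := by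
    intro a j
    have h1 := congrFun (hs a) j
    rw [Pi.smul_apply, Finset.sum_apply, smul_eq_mul] at h1
    simp only [mul_sub, sum_sub_distrib, mul_ite, mul_zero, sum_ite_eq', mem_univ, if_true,
      mul_sum]
    rw [sum_comm, mul_comm, h1, sub_eq_zero]
    refine sum_congr rfl fun i _ => ?_
    rw [Pi.smul_apply, smul_eq_mul, dotProduct, sum_mul]
    exact sum_congr rfl fun r _ => by ring
  refine ⟨Function.extend e (fun i => some (sel i)) (fun _ => none), D.natAbs,
    Function.extend e (fun i r => D.sign * w i r) 0, fun j r => if r = j then D.sign else 0,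
    fun j r => (if r = j then D else 0) - ∑ i, k (sel i) j * w i r,
    ⟨Int.natAbs_pos.2 D0, ?_, fun s r => ⟨?_, ?_, ?_, ?_⟩, fun s j => ?_, fun m r => ?_⟩, ort⟩
  · rw [Nat.cast_natAbs, Int.cast_abs]
    exact hD.trans y24
  · generalize Function.extend e (fun i => some (sel i)) (fun _ => none) s = o
    cases o with
    | none => simpa using Real.exp_nonneg _
    | some a => exact (hk a r).trans y14
  · by_cases h : ∃ i, e i = s
    · obtain ⟨i, rfl⟩ := h
      rw [e.injective.extend_apply, Int.cast_mul, abs_mul, sg, one_mul]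
      exact (hw i r).trans y24
    · rw [Function.extend_apply' _ _ _ h]
      simpa using Real.exp_nonneg _
  · split_ifs
    · rwa [sg]
    · simpa using Real.exp_nonneg _
  · have a : |(((if r = s then D else 0 : ℤ)) : ℝ)| ≤ Real.exp (2 * Y ^ 2) := by
      split_ifs
      · exact hD
      · simpa using Real.exp_nonneg _
    have b : |((∑ i, k (sel i) s * w i r : ℤ) : ℝ)| ≤
        Y * (Y * (Real.exp (2 * Y ^ 2) * Real.exp Y)) := by
      rw [Int.cast_sum]
      refine (abs_sum_le_sum_abs _ _).trans ((sum_le_card_nsmul _ _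
        (Real.exp Y * Real.exp (2 * Y ^ 2)) fun b _ => ?_).trans ?_)
      · rw [Int.cast_mul, abs_mul]
        exact mul_le_mul (hk _ _) (hw b r) (abs_nonneg _) (by positivity)
      · rw [card_univ, Fintype.card_fin, nsmul_eq_mul]
        have ht' : (t : ℝ) ≤ Y := le_trans (by exact_mod_cast ht) hR
        refine mul_le_mul ht' ?_ (by positivity) (by positivity)
        rw [mul_comm]
        exact le_mul_of_one_le_left (by positivity) y1
    rw [Int.cast_sub]
    exact (abs_sub _ _).trans ((add_le_add a b).trans ((Lin.num1 hY').le.trans y34))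
  · generalize Function.extend e (fun i => some (sel i)) (fun _ => none) s = o
    cases o with
    | none => simp
    | some a => exact ort a j
  · rw [← Fintype.sum_of_injective e e.injective
      (fun i => (∑ r', k (sel i) r' * m r') * (D.sign * w i r)) _
      (fun s hs => by rw [Function.extend_apply' _ (0 : ρ → ρ → ℤ) _ hs]; simp)
      (fun i => by rw [e.injective.extend_apply, e.injective.extend_apply]; rfl)]
    simp only [ite_mul, zero_mul, sum_ite_eq', mem_univ, if_true, mul_sub, sum_sub_distrib,
      mul_ite, mul_zero, sum_ite_eq, mul_sum, sum_mul]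
    rw [sum_comm (f := fun j i => D.sign * m j * (k (sel i) j * w i r)), ← Int.sign_mul_self_eq_natAbs]
    have : ∀ i, ∑ r', k (sel i) r' * m r' * (D.sign * w i r) =
        ∑ j, D.sign * m j * (k (sel i) j * w i r) := fun i => sum_congr rfl fun _ _ => by ring
    simp only [this]
    ring

end Vale.Agent.P057T.Gk
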