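import Vale.Agent.P057T.Gk.MovA
import Vale.Agent.P057T.Gk.Cnt8
import Vale.Agent.P057T.Gk.CntH51

/-! Row MOV. -/

set_option linter.all false

open Finset

namespace Vale.Agent.P057T.Gk

open TT

namespace MovP

variable {α ι : Type} [Fintype α] [DecidableEq α] [Fintype ι] [DecidableEq ι] {T : TT α ι}
  {S0 S : Finset α} {c e : α} {m : ℕ} {cen : T.CV e (Fin 2) → ℝ}

theorem inr_sub (he : e ∈ S0) {Q : Finset (Fin 2)} {k : Fin 2} {v : {v : ι // e ∈ T.ty v}} :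
    (T.qt e m cen).ty (Sum.inr (k, v)) ⊆ S0.disjSum Q ↔ T.ty v.1 ⊆ S0 ∧ k ∈ Q := by
  have := ty_inr_sub (T := T) (i := e) (κ := Fin 2) (p := (k, v)) (S := S0.disjSum Q)
  rw [toLeft_disjSum, ← subset_insert_iff, insert_eq_of_mem he, inr_mem_disjSum] at this
  exact this

theorem fv_e {v : ι} : v ∈ T.fv (S0.erase e) S0 ↔ T.ty v ⊆ S0 ∧ e ∈ T.ty v := by
  rw [mem_fv, subset_erase]
  tauto

theorem vol_h0 (he : e ∈ S0) : (T.qt e m cen).vol (S0.disjSum {1}) (ex S0) =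
    T.vol (S0.erase e) S0 * ∏ v ∈ T.fv (S0.erase e) S0, ((m : ℝ) ^ 2)⁻¹ := by
  unfold vol
  rw [← prod_mul_distrib]
  symm
  refine prod_bij (fun v hv => Sum.inr (0, ⟨v, (fv_e.1 hv).2⟩)) (fun v hv => mem_fv.2
    ⟨(inr_sub he).2 ⟨(fv_e.1 hv).1, mem_univ _⟩, fun h => by simpa using ((inr_sub he).1 h).2⟩)
    (fun a _ b _ h => by simpa using h) ?_ fun v hv => ?_
  · rintro (v | ⟨k, v⟩) hv
    · exact absurd (inl_sub.2 (inl_sub.1 (mem_fv.1 hv).1)) (mem_fv.1 hv).2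
    · have a := ((inr_sub he).1 (mem_fv.1 hv).1).1
      have b : k = 0 := by
        by_contra q
        exact (mem_fv.1 hv).2 ((inr_sub he).2 ⟨a, by
          rw [mem_singleton]; omega⟩)
      exact ⟨v.1, fv_e.2 ⟨a, v.2⟩, by rw [b]⟩
  · show 2 * T.dv v * _ = 2 * (T.dv v * (if (0 : Fin 2) = 0 then ((m : ℝ) ^ 2)⁻¹ else (m : ℝ)⁻¹))
    rw [if_pos rfl, mul_assoc]

theorem vol_b : (T.qt e m cen).vol ∅ ((S0.erase e).disjSum ∅) = T.vol ∅ (S0.erase e) := by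
  rw [vol_qt, win, vol_sc, prod_eq_one fun v hv =>
    if_neg (subset_erase.1 (mem_fv.1 hv).1).2, mul_one]

theorem cnt0 (hQ : T.Ok) {σ L : ℝ} (hN : T.N0 σ) (hL : 0 ≤ L) (s1 : σ ≤ Real.exp (-(L + 2)))
    {R A : Finset α} (hR : R ⊆ A) {E : Finset (ι → ℤ)} (hE : T.Dn A E L) {p : (ι → ℤ) → Prop}
    (hp : T.Mo A σ p) : ∃ E1 ⊆ E, T.Dn A E1 (L + 2) ∧ ∀ Z1 ∈ E1, p Z1 ∧ ∃ W : Finset (ι → ℤ),
      (∀ Z ∈ W, Z ∈ E ∧ p Z ∧ T.Ag R Z Z1) ∧ Real.exp (-(L + 2)) * T.vol R A ≤ W.card := by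
  classical
  have s2 : σ ≤ 1 := s1.trans (Real.exp_le_one_iff.2 (by linarith))
  have V0 := vol_pos hQ ∅ A
  have a1 := hp.one hQ s2 hE.1
  have sb : E.filter p ⊆ T.pts A 1 := (filter_subset _ _).trans hE.1
  have a2 := hN.1.unpop hQ s2 hR sb (Real.exp_pos (-(L + 2))).le
  have a3 := card_filter_add_card_filter_not (s := E) p
  have a4 := card_filter_add_card_filter_not (s := E.filter p) fun x =>
    (((E.filter p).filter fun y => T.Ag R y x).card : ℝ) < Real.exp (-(L + 2)) * T.vol R A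
  refine ⟨(E.filter p).filter fun x => ¬
    (((E.filter p).filter fun y => T.Ag R y x).card : ℝ) < Real.exp (-(L + 2)) * T.vol R A,
    (filter_subset _ _).trans (filter_subset _ _), ⟨(filter_subset _ _).trans sb, ?_⟩,
    fun Z1 h => ?_⟩
  · have b3 := congrArg (Nat.cast : ℕ → ℝ) a3
    have b4 := congrArg (Nat.cast : ℕ → ℝ) a4
    rw [Nat.cast_add] at b3 b4
    have b5 := mul_le_mul_of_nonneg_right (exp_two L) V0.le
    have b6 := mul_le_mul_of_nonneg_right s1 V0.le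
    have b7 := hE.2
    have b8 : ((E.filter fun z => ¬ p z).card : ℝ) ≤ σ * T.vol ∅ A := by
      convert a1
    linarith
  · obtain ⟨h1, h2⟩ := mem_filter.1 h
    exact ⟨(mem_filter.1 h1).2, _, fun Z hZ => ⟨(mem_filter.1 (mem_filter.1 hZ).1).1,
      (mem_filter.1 (mem_filter.1 hZ).1).2, (mem_filter.1 hZ).2⟩, not_lt.1 h2⟩

theorem cnt (hT : T.Ok) (hm : 1 ≤ m) {σ L : ℝ} (hN : (T.qt e m cen).N0 σ) (hL : 0 ≤ L)
    (hσ : σ ≤ Real.exp (-(L + 2 + 2))) {E : Finset (T.CV e (Fin 2) → ℤ)}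
    (hE : (T.qt e m cen).Dn (ex S0) E L) {p : (T.CV e (Fin 2) → ℤ) → Prop}
    (hp : (T.qt e m cen).Mo (ex S0) σ p) : ∃ E1 ⊆ E, Real.exp (-(L + 2 + 2)) * T.vol ∅ (S0.erase e) ≤
      (E1.image fun Z => T.res (S0.erase e) (T.bs e Z)).card ∧ ∀ Z1 ∈ E1, p Z1 ∧
      ∃ W : Finset (T.CV e (Fin 2) → ℤ), (∀ Z ∈ W, Z ∈ E ∧ p Z ∧
        (T.qt e m cen).Ag (S0.disjSum {1}) Z Z1) ∧
        Real.exp (-(L + 2)) * (T.qt e m cen).vol (S0.disjSum {1}) (ex S0) ≤ W.card := by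
  have hQ : (T.qt e m cen).Ok := ok_qt hT hm
  obtain ⟨E1, e1, e2, e3⟩ := cnt0 hQ hN hL (hσ.trans (Real.exp_le_exp.2 (by linarith)))
    (R := S0.disjSum {1}) (disjSum_mono subset_rfl (subset_univ _)) hE hp
  refine ⟨E1, e1, ?_, e3⟩
  have k := img_ge hQ hN (by linarith) hσ (S0 := (S0.erase e).disjSum ∅)
    ((disjSum_mono (erase_subset _ _) subset_rfl).trans (sub_ex S0))
    (fun Z => T.res (S0.erase e) (T.bs e Z)) e2 fun z _ z' _ h => ag_of_bs fun v hv => by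
      have := congrFun h v
      simpa only [res, if_pos hv] using this
  rw [vol_b] at k
  refine k.trans (Nat.cast_le.2 (card_le_card fun x hx => ?_))
  simpa only [mem_image] using hx

theorem qv19 (w : Fin 4) : ∑ k, |(qv w k : ℝ)| ≤ 19 := by
  fin_cases w <;> simp [qv, Fin.sum_univ_two] <;> norm_num

theorem zr (hS : SCALE) (hT : T.Ok) (hm : 1 ≤ m) (hc : T.Cen e m cen) (he : e ∈ S0) (h0 : S0 ⊆ S)
    (hc0 : c ∉ S0) {Z : T.CV e (Fin 2) → ℤ} {f I : Fin 4 → Fn ι} {H H' : ℝ}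
    (hf : ∀ w, T.Fm S (S \ S0) (f w)) (h1 : ∀ w, T.Fm S (S \ S0) (I w))
    (h2 : ∀ w, T.IsI S0 (T.vx e (qv w) Z) (I w))
    (h3 : ∀ w, T.Osc S0 S c (T.vx e (qv w) Z) (fun z => f w z - I w z) H)
    (ha : ∀ x, (T.cpy e (Fin 2)).Ag (ex S0) x (cz Z) → T.Q e f x = 0)
    (hH : 4 * ((100 : ℝ) ^ (2 ^ (Fintype.card α + 1)) * H) ≤ H')
    (hz : (T.qt e m cen).Zr (ex S0) (ex S) (Sum.inl c) Z H') (x x' : T.CV e (Fin 2) → ℝ)
    (k1 : (T.cpy e (Fin 2)).Ag (ex S0) x (cz Z)) (k2 : (T.cpy e (Fin 2)).Ag (ex S0) x' (cz Z))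
    (k3 : (T.cpy e (Fin 2)).Of (Sum.inl c) x x') :
    T.Q e (fun w z => f w z - I w z) x = T.Q e (fun w z => f w z - I w z) x' := by
  have o : ∀ w, (T.cpy e (Fin 2)).Osc (ex S0) (ex S) (Sum.inl c) Z
      (fun x => f w (T.vx e (qv w) x) - I w (T.vx e (qv w) x))
      ((100 : ℝ) ^ (2 ^ (Fintype.card α + 1)) * H) := fun w => by
    have k := (hS α ι T S0 S c (T.vx e (qv w) Z) hT h0 hc0).1 (fun z => f w z - I w z) (fun _ => 1)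
      (fun _ => 0) 1 H ((hf w).sub (h1 w)) one_pos (fun _ => ⟨le_rfl, by norm_num⟩)
      (by rw [sc_one]; exact h3 w)
    rw [div_one] at k
    exact Osc.vx (f := fun z => f w z - I w z) hT he (qv19 w) k
  have q4 : ∀ (g : Fin 4 → Fn ι) x, T.Q e g x = g 0 (T.vx e (qv 0) x) - g 1 (T.vx e (qv 1) x) -
      g 2 (T.vx e (qv 2) x) + g 3 (T.vx e (qv 3) x) := fun g x => by
    simp [Q, Fin.sum_univ_four, sg]
    ring
  have r := hz (T.Q e I) (fm_sum (T := T.cpy e (Fin 2)) _ fun w _ => ((h1 w).vx_sdiff _).smul _)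
    (fun z hz => by
      obtain ⟨n0, e0⟩ := (h2 0).vx z hz
      obtain ⟨n1, e1⟩ := (h2 1).vx z hz
      obtain ⟨n2, e2⟩ := (h2 2).vx z hz
      obtain ⟨n3, e3⟩ := (h2 3).vx z hz
      refine ⟨n0 - n1 - n2 + n3, ?_⟩
      simp only at e0 e1 e2 e3
      rw [q4, e0, e1, e2, e3]
      push_cast
      rfl)
    (((((((o 1).sub (o 0)).add (o 2)).sub (o 3)).eq (g := T.Q e I) fun z hz => by
      have := ha z hz
      rw [q4] at this ⊢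
      linarith).mono (by linarith)).sc (ql_pos hm) hc) x x' k1 k2 k3
    fun v hv => absurd (mem_fv.1 hv).1 (mem_fv.1 hv).2
  have r1 := ha x k1
  have r2 := ha x' k2
  have r3 := sub_eq_zero.1 (abs_nonpos_iff.1 r)
  rw [q4] at r1 r2
  rw [q4, q4] at r3 ⊢
  linarith

theorem vx0 {R : Type} [CommRing R] (Z : T.CV e (Fin 2) → R) : T.vx e (qv 0) Z = T.bs e Z := by
  funext v
  simp [vx, bs, qv, Fin.sum_univ_two]

theorem vx1 {R : Type} [CommRing R] (Z : T.CV e (Fin 2) → R) (v : ι) :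
    T.vx e (qv 1) Z v = Z (Sum.inl v) + T.hc e Z 0 v := by
  simp [vx, qv, Fin.sum_univ_two]

theorem box (hT : T.Ok) (hm : 1 ≤ m) (he : e ∈ S0) {Z Z1 : T.CV e (Fin 2) → ℤ}
    (hZ : Z ∈ (T.qt e m cen).pts (ex S0) 1) (hy : T.vx e (qv 1) Z ∈ T.pts S0 1)
    (h : (T.qt e m cen).Ag (S0.disjSum {1}) Z Z1) :
    T.vx e (qv 1) Z ∈ T.fbx (S0.erase e) S0 (T.res (S0.erase e) (T.bs e Z1))
      (fun v => if T.ty v ⊆ S0 then T.u (cz (T.bs e Z1)) v + T.hc e cen 0 v else 0)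
      (fun _ => ((m : ℝ) ^ 2)⁻¹) := by
  have a : T.Ag S0 (T.bs e Z) (T.bs e Z1) := fun v hv => h (Sum.inl v) (inl_sub.2 hv)
  unfold fbx
  simp only [mem_filter]
  refine ⟨pts_mono hT (by norm_num) hy, (((of_vx _ Z).ag (notMem_erase e S0)).trans
    (a.mono (erase_subset _ _))).trans (ag_res _ _).symm, fun v hv => ?_⟩
  obtain ⟨v1, v2⟩ := fv_e.1 hv
  have b := ((mem_pts (ok_qt hT hm)).1 hZ).2 (Sum.inr (0, ⟨v, v2⟩)) ((inr_sub he).2 ⟨v1, mem_univ _⟩)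
  have b1 : |((T.cpy e (Fin 2)).u (cz Z) (Sum.inr (0, ⟨v, v2⟩)) - cen (Sum.inr (0, ⟨v, v2⟩))) /
      (if (0 : Fin 2) = 0 then ((m : ℝ) ^ 2)⁻¹ else (m : ℝ)⁻¹)| ≤ 1 := b
  have m0 : (0 : ℝ) < ((m : ℝ) ^ 2)⁻¹ := by
    have : (0 : ℝ) < m := by exact_mod_cast hm
    positivity
  rw [if_pos rfl, abs_div, abs_of_pos m0, div_le_one m0] at b1
  have b2 : (T.cpy e (Fin 2)).u (cz Z) (Sum.inl v) = T.u (cz (T.bs e Z1)) v := hT.u_ag a.cz v1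
  rw [if_pos v1, cz_vx, hT.u_vx, vx1, hc_of _ 0 v2, hc_of _ 0 v2, b2, add_sub_add_left_eq_sub]
  exact b1

theorem inj (hT : T.Ok) (hm : 1 ≤ m) (he : e ∈ S0) {Z Z' : T.CV e (Fin 2) → ℤ}
    (hZ : Z ∈ (T.qt e m cen).pts (ex S0) 1) (hZ' : Z' ∈ (T.qt e m cen).pts (ex S0) 1)
    (h : (T.qt e m cen).Ag (S0.disjSum {1}) Z Z') (h1 : T.vx e (qv 1) Z = T.vx e (qv 1) Z') :
    Z = Z' := by
  funext x
  by_cases q : (T.qt e m cen).ty x ⊆ ex S0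
  swap
  · rw [((mem_pts (ok_qt hT hm)).1 hZ).1 x q, ((mem_pts (ok_qt hT hm)).1 hZ').1 x q]
  rcases x with v | ⟨k, v⟩
  · exact h _ (inl_sub.2 (inl_sub.1 q))
  · have a := ((inr_sub he).1 q).1
    by_cases b : k = 0
    · subst b
      have r := congrFun h1 v.1
      rw [vx1, vx1, h _ (inl_sub.2 a), hc_of _ 0 v.2, hc_of _ 0 v.2] at r
      exact add_left_cancel r
    · exact h _ ((inr_sub he).2 ⟨a, by rw [mem_singleton]; omega⟩)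

theorem num (a C1 : ℕ) : ∃ C : ℕ, ∀ (Y : ℝ) (n d : ℕ), (C : ℝ) ≤ Y → n ≤ a → (d : ℝ) ≤ Real.exp Y →
    1 ≤ Y ∧ Y ≤ Y ^ 2 ∧ (C1 : ℝ) ≤ Y ^ 2 ∧ (Y ^ 2) ^ C1 ≤ Y ^ C ∧ C1 * Y + 2 + 2 ≤ Y ^ 2 ∧
    2 * Y ^ 2 ≤ Y ^ C ∧ Real.exp Y + Real.exp Y ≤ Real.exp (Y ^ C) ∧
    4 * ((100 : ℝ) ^ (2 ^ (n + 1)) * Real.exp Y) ≤ (Real.exp (-Y ^ 2))⁻¹ ∧
    Real.exp (-Y ^ C) * (100 * Real.exp (3 * Y ^ 2)) ^ (2 ^ (n + 2 + 8 * 0 + 1)) ≤
      Real.exp (-Y ^ 2) ∧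
    ∃ m : ℕ, 1 ≤ m ∧ Real.exp (C1 * Y) * (d + 1) ≤ m ∧ (m : ℝ) ≤ Real.exp (Y ^ 2) := by
  refine ⟨2 * C1 + 4 * 100 ^ 2 ^ (a + 1) + 4 * 2 ^ (a + 3) + 100, fun Y n d hY hn hd => ?_⟩
  have c4 : 4 ≤ 2 * C1 + 4 * 100 ^ 2 ^ (a + 1) + 4 * 2 ^ (a + 3) + 100 := by omega
  have c5 : 2 * C1 ≤ 2 * C1 + 4 * 100 ^ 2 ^ (a + 1) + 4 * 2 ^ (a + 3) + 100 := by omega
  generalize hC : 2 * C1 + 4 * 100 ^ 2 ^ (a + 1) + 4 * 2 ^ (a + 3) + 100 = C at c4 c5 ⊢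
  push_cast at hY
  have p1 : (0 : ℝ) ≤ C1 := Nat.cast_nonneg _
  have p2 : (100 : ℝ) ^ 2 ^ (n + 1) ≤ 100 ^ 2 ^ (a + 1) :=
    pow_le_pow_right₀ (by norm_num) (Nat.pow_le_pow_right (by norm_num) (by omega))
  have p3 : (2 : ℝ) ^ (n + 2 + 8 * 0 + 1) ≤ 2 ^ (a + 3) := pow_le_pow_right₀ (by norm_num) (by omega)
  have p4 : (0 : ℝ) < 100 ^ 2 ^ (n + 1) := by positivity
  have p5 : (0 : ℝ) < 2 ^ (n + 2 + 8 * 0 + 1) := by positivity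
  generalize (100 : ℝ) ^ 2 ^ (a + 1) = A at *
  generalize (2 : ℝ) ^ (a + 3) = B at *
  have Y1 : 100 ≤ Y := by linarith
  have ex : ∀ {a b : ℝ}, a ≤ b → Real.exp a ≤ Real.exp b := fun h => Real.exp_le_exp.2 h
  have e1 : Y ≤ Real.exp Y := by linarith [Real.add_one_le_exp Y]
  have y2 : 100 * Y ≤ Y ^ 2 := by nlinarith
  have y3 : 100 * Y ^ 2 ≤ Y ^ 3 := by nlinarith
  have y4 : 100 * Y ^ 3 ≤ Y ^ 4 := by nlinarith
  have y5 : Y ^ 4 ≤ Y ^ C := pow_le_pow_right₀ (by linarith) c4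
  have e2 : Real.exp Y * Real.exp Y ≤ Real.exp (Y ^ 2) := by
    rw [← Real.exp_add]; exact ex (by linarith)
  have y6 : (C1 + 2) * Y ≤ Y ^ 2 := by nlinarith
  refine ⟨by linarith, by linarith, by linarith, ?_, by linarith, by linarith, ?_, ?_, ?_, ?_⟩
  · rw [← pow_mul]; exact pow_le_pow_right₀ (by linarith) c5
  · have := ex (show Y ^ 2 ≤ Y ^ C by linarith)
    nlinarith
  · rw [← Real.exp_neg, neg_neg]
    refine le_trans ?_ e2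
    rw [← mul_assoc]
    exact mul_le_mul_of_nonneg_right (by linarith) (Real.exp_pos _).le
  · have a1 : 100 * Real.exp (3 * Y ^ 2) ≤ Real.exp (4 * Y ^ 2) := by
      rw [show 4 * Y ^ 2 = Y ^ 2 + 3 * Y ^ 2 by ring, Real.exp_add]
      exact mul_le_mul_of_nonneg_right (by linarith [Real.add_one_le_exp (Y ^ 2)]) (Real.exp_pos _).le
    refine (mul_le_mul_of_nonneg_left (pow_le_pow_left₀ (by positivity) a1 _)
      (Real.exp_pos _).le).trans ?_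
    rw [← Real.exp_nat_mul, ← Real.exp_add, Nat.cast_pow, Nat.cast_ofNat]
    have a2 : (2 : ℝ) ^ (n + 2 + 8 * 0 + 1) * (4 * Y ^ 2) ≤ Y ^ 3 := by
      have : 4 * (2 : ℝ) ^ (n + 2 + 8 * 0 + 1) ≤ Y := by linarith
      nlinarith
    exact ex (by linarith)
  · have d0 : (0 : ℝ) ≤ d := Nat.cast_nonneg _
    have a0 : 1 ≤ Real.exp (C1 * Y) := Real.one_le_exp (by positivity)
    refine ⟨_, Nat.ceil_pos.2 (by positivity), Nat.le_ceil _,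
      (Nat.ceil_lt_add_one (by positivity)).le.trans (le_trans ?_ (ex y6))⟩
    rw [add_mul, Real.exp_add, two_mul, Real.exp_add]
    have a1 : (d : ℝ) + 2 ≤ Real.exp Y * Real.exp Y := by nlinarith
    nlinarith

end MovP

open MovP

theorem mov (hC : CSQ) (hS : SCALE) (hG : SCG) : MOV := by
  classical
  intro a
  obtain ⟨C1, hC⟩ := hC a
  obtain ⟨C, hn⟩ := num a C1
  refine ⟨C, ?_⟩
  intro α ι κ ρ _ _ _ _ _ _ _ T Y ha hY hι hκ hρ hT hN S0 S c e f E hc h0 he hE hf hadd hIB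
  obtain ⟨Y1, y2, n1, n2, n3, n4, n5, n6, n7, m, m1, m2, m3⟩ := hn Y _ _ hY ha hι
  have ex2 : Real.exp Y ≤ Real.exp (Y ^ 2) := Real.exp_le_exp.2 y2
  have y0 : 0 ≤ Y ^ 2 := by positivity
  obtain ⟨cen, Eq, hcen, hD, hV⟩ := hC α ι κ ρ T (Y ^ 2) ha n1 (hι.trans ex2) (hκ.trans ex2)
    (hρ.trans y2) hT ((hG 1 α ι T _ _ hT (Real.exp_pos _) (Real.exp_le_one_iff.2
      (neg_nonpos.2 (pow_nonneg y0 _)))).1 (Real.exp_le_exp.2 (neg_le_neg n2)) hN)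
    S0 e E Y m he Y1 hE m2 m3
  have hQ : (T.qt e m cen).N0 (Real.exp (-Y ^ 2)) :=
    (hG 0 _ _ (T.cpy e (Fin 2)) _ _ (hT.cpy e _) (Real.exp_pos _) (Real.exp_le_one_iff.2
      (neg_nonpos.2 y0))).2.2 _ (3 * Y ^ 2) (by positivity) (sub_qt m1 m3 hcen)
      (by rw [Fintype.card_sum, Fintype.card_fin]; exact n7) (hN.2 e 2 (by norm_num))
  have s0 : S0 ⊆ S := h0.trans (erase_subset _ _)
  have c0 : c ∉ S0 := fun q => notMem_erase c S (h0 q)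
  have ce : c ≠ e := fun q => c0 (q ▸ he)
  have hI : ∀ b ∈ E, ∀ k, ∃ I : Fn ι, T.Fm S (S \ S0) I ∧ T.IsI S0 b I ∧
      T.Osc S0 S c b (fun z => f b k z - I z) (Real.exp Y) := hIB
  choose! I i1 i2 i3 using hI
  obtain ⟨E1, e1, e2, e3⟩ := cnt hT m1 hQ (by positivity) (Real.exp_le_exp.2 (neg_le_neg n3)) hD
    (hQ.2.2 (ex S0) (ex S) (ex S0) (Sum.inl c) (ex_mono s0) subset_rfl (inl_mem_ex.2 hc)
      fun q => c0 (inl_mem_ex.1 q))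
  have qd := fun (Z : T.CV e (Fin 2) → ℤ) (hZ : Z ∈ Eq)
      (hz : (T.qt e m cen).Zr (ex S0) (ex S) (Sum.inl c) Z (Real.exp (-Y ^ 2))⁻¹) (k : κ) =>
    quad hT he ce Z (fun w z => f (T.vx e (qv w) Z) k z - I (T.vx e (qv w) Z) k z)
      ((hf _ k).sub (i1 _ (hV Z hZ 0) k)) (zr hS hT m1 hcen he s0 c0 (fun w => hf _ k)
        (fun w => i1 _ (hV Z hZ w) k) (fun w => i2 _ (hV Z hZ w) k) (fun w => i3 _ (hV Z hZ w) k)
        (hadd Z (hV Z hZ) k) n6 hz)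
  have m0 : (1 : ℝ) ≤ m := by exact_mod_cast m1
  have cy : C1 * Y + 2 + 2 ≤ Y ^ C := by linarith
  refine ⟨((m : ℝ) ^ 2)⁻¹, E1.image fun Z => T.res (S0.erase e) (T.bs e Z), ?_,
    inv_le_one_of_one_le₀ (one_le_pow₀ m0), ⟨fun b hb => ?_, le_trans (mul_le_mul_of_nonneg_right
      (Real.exp_le_exp.2 (neg_le_neg cy)) (vol_pos hT _ _).le) e2⟩, fun b hb => ?_⟩
  · rw [Real.exp_neg]
    refine inv_anti₀ (by positivity) ((pow_le_pow_left₀ (by positivity) m3 2).trans ?_)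
    rw [← Real.exp_nat_mul]
    exact Real.exp_le_exp.2 (by exact_mod_cast n4)
  · obtain ⟨Z, hZ, rfl⟩ := mem_image.1 hb
    exact res_mem hT (vx0 Z ▸ hE.1 (hV Z (e1 hZ) 0)) (erase_subset _ _)
  obtain ⟨Z1, hZ1, rfl⟩ := mem_image.1 hb
  obtain ⟨z1, W, w1, w2⟩ := e3 Z1 hZ1
  have y0E := hV Z1 (e1 hZ1) 0
  refine ⟨fun v => if T.ty v ⊆ S0 then T.u (cz (T.bs e Z1)) v + T.hc e cen 0 v else 0,
    W.image (T.vx e (qv 1)), fun k => MM T S0 c e (T.vx e (qv 0) Z1)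
      fun z => f (T.vx e (qv 0) Z1) k z - I (T.vx e (qv 0) Z1) k z, fun v => ?_, fun y hy => ?_,
    fun y hy => ?_, ?_, fun k => ⟨(qd Z1 (e1 hZ1) z1 k).2,
      (osc_MM hT (i3 _ y0E k) _).mono n5⟩, fun y hy k => ?_⟩
  · dsimp only
    split_ifs with q
    · have a1 := ((mem_pts hT).1 (hE.1 y0E)).2 v q
      rw [vx0] at a1
      have a2 : |T.hc e cen 0 v| ≤ 1 := by
        by_cases r : e ∈ T.ty v
        · rw [hc_of _ 0 r]
          linarith [hcen (Sum.inr (0, ⟨v, r⟩)), ql_pos (T := T) m1 (Sum.inr (0, ⟨v, r⟩))]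
        · rw [hc_not _ 0 r, abs_zero]; exact zero_le_one
      linarith [abs_add_le (T.u (cz (T.bs e Z1)) v) (T.hc e cen 0 v)]
    · norm_num
  · obtain ⟨Z, hZ, rfl⟩ := mem_image.1 hy
    exact hV Z (w1 Z hZ).1 1
  · obtain ⟨Z, hZ, rfl⟩ := mem_image.1 hy
    exact box hT m1 he (hD.1 (w1 Z hZ).1) (hE.1 (hV Z (w1 Z hZ).1 1)) (w1 Z hZ).2.2
  · rw [card_image_of_injOn fun Z hZ Z' hZ' h => inj hT m1 he (hD.1 (w1 Z hZ).1)
      (hD.1 (w1 Z' hZ').1) ((w1 Z hZ).2.2.trans (w1 Z' hZ').2.2.symm) h, ← vol_h0 (cen := cen) he]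
    exact le_trans (mul_le_mul_of_nonneg_right (Real.exp_le_exp.2 (by linarith))
      (vol_pos (ok_qt hT m1) _ _).le) w2
  · obtain ⟨Z, hZ, rfl⟩ := mem_image.1 hy
    obtain ⟨u1, u2, u3⟩ := w1 Z hZ
    have eq : T.vx e (qv 0) Z1 = T.vx e (qv 0) Z := funext fun v => by
      by_cases q : T.ty v ⊆ S0
      · rw [vx0, vx0]; exact (u3 (Sum.inl v) (inl_sub.2 q)).symm
      · rw [((mem_pts hT).1 (hE.1 y0E)).1 v q, ((mem_pts hT).1 (hE.1 (hV Z u1 0))).1 v q]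
    have y1E := hV Z u1 1
    refine ⟨_, i1 _ y1E k, i2 _ y1E k, ((osc_rest (e := e) hT (i3 _ y1E k)).eq fun z _ => ?_).mono
      (by linarith [Real.exp_pos Y])⟩
    dsimp only
    rw [eq, (qd Z u1 u2 k).1]
    ring

end Vale.Agent.P057T.Gk
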