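import Vale.Agent.P057T.Gk.Ibc

/-! Row MOV: the top part of a bounded form. -/

set_option linter.all false

open Finset

namespace Vale.Agent.P057T.Gk

open TT

namespace MovP

noncomputable section

variable {α ι : Type} [Fintype α] [DecidableEq α] [Fintype ι] [DecidableEq ι]

def kl (T : TT α ι) (a : α) (x : ι → ℝ) : ι → ℝ := fun v => if a ∈ T.ty v then 0 else x v
def pS (T : TT α ι) (S0 : Finset α) (y : ι → ℤ) (x : ι → ℝ) : ι → ℝ :=
  fun v => if T.ty v ⊆ S0 then T.u (cz y) v else x v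
def FF (T : TT α ι) (S0 : Finset α) (y : ι → ℤ) (be : Fn ι) : Fn ι := fun x => be (T.ψ (pS T S0 y x))
def NN (T : TT α ι) (c : α) (F : Fn ι) : Fn ι := fun x => F x - F (kl T c x)
/-- the top part -/
def MM (T : TT α ι) (S0 : Finset α) (c e : α) (y : ι → ℤ) (be : Fn ι) : Fn ι :=
  fun z => NN T e (NN T c (FF T S0 y be)) (T.u z)

variable {T : TT α ι} {S0 S G : Finset α} {c e : α} {y : ι → ℤ} {be f : Fn ι} {H : ℝ}

theorem pull {m : (ι → ℝ) → ι → ℝ} (hm : ∀ v, T.Fm (T.ty v) univ fun z => m z v) (hf : T.Fm S G f) :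
    T.Fm S G fun z => f (m z) := by
  refine ⟨fun z z' hz => hf.1 _ _ fun v hv => (hm v).1 z z' (hz.mono hv), fun a ha z => ?_⟩
  obtain ⟨L, hL⟩ := hf.2 a ha (m z)
  choose M hM using fun v => (hm v).2 a (mem_univ a) z
  refine ⟨L.comp (LinearMap.pi M), fun k hk => ?_⟩
  have e : m (z + k) = m z + fun v => M v k := funext fun v => hM v k hk
  show f (m (z + k)) = f (m z) + L (fun v => M v k)
  rw [e]
  refine hL _ fun v hv => ?_
  have k1 := hM v k hk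
  have k2 : m (z + k) v = m z v := (hm v).1 _ _ fun w hw => by
    rw [Pi.add_apply, hk w fun hh => hv (hw hh), add_zero]
  simp only at k1
  linarith

theorem fm_kl (a : α) (v : ι) : T.Fm (T.ty v) univ fun z => kl T a z v := by
  unfold kl
  split_ifs
  · exact fm_const _ _ _
  · exact T.fm_coord v

theorem fm_pS (v : ι) : T.Fm (T.ty v) univ fun z => pS T S0 y z v := by
  unfold pS
  split_ifs
  · exact fm_const _ _ _
  · exact T.fm_coord v

theorem fm_FF (hT : T.Ok) (h : T.Fm S G be) : T.Fm S G (FF T S0 y be) :=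
  pull (f := fun x => be (T.ψ x)) fm_pS (pull hT.fψ h)

theorem fm_NN (h : T.Fm S G f) : T.Fm S G (NN T c f) := h.sub (pull (fm_kl c) h)

theorem ag_pS (hT : T.Ok) (x : ι → ℝ) : T.Ag S0 (T.ψ (pS T S0 y x)) (cz y) := fun v hv => by
  rw [hT.ψ_ag (S := S0) (z := pS T S0 y x) (z' := T.u (cz y)) (fun w hw => if_pos hw) hv, hT.l]

theorem of_pS (hT : T.Ok) {x x' : ι → ℝ} (h : T.Of c x x') :
    T.Of c (T.ψ (pS T S0 y x)) (T.ψ (pS T S0 y x')) := fun v hv =>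
  hT.ψ_ag (S := T.ty v) (fun w hw => by unfold pS; rw [h w fun q => hv (hw q)]) subset_rfl

theorem of_kl (x : ι → ℝ) : T.Of c x (kl T c x) := fun v hv => (if_neg hv).symm

theorem kl_of {x x' : ι → ℝ} (h : T.Of c x x') : kl T c x = kl T c x' := funext fun v => by
  unfold kl
  split_ifs with q
  · rfl
  · exact h v q

theorem of_kl' {x x' : ι → ℝ} (h : T.Of c x x') : T.Of c (kl T e x) (kl T e x') := fun v hv => by
  unfold kl
  rw [h v hv]

theorem of_u (hT : T.Ok) {z z' : ι → ℝ} (h : T.Of c z z') : T.Of c (T.u z) (T.u z') := fun v hv =>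
  hT.u_ag (S := T.ty v) (h.ag hv) subset_rfl

theorem ff_u (hT : T.Ok) {z : ι → ℝ} (h : T.Ag S0 z (cz y)) : FF T S0 y be (T.u z) = be z := by
  have : pS T S0 y (T.u z) = T.u z := funext fun v => by
    unfold pS
    split_ifs with q
    · exact (hT.u_ag h q).symm
    · rfl
  rw [FF, this, hT.l]

theorem oscF (hT : T.Ok) (hb : T.Osc S0 S c y be H) {x x' : ι → ℝ} (h : T.Of c x x')
    (h1 : ∀ v ∈ T.fv S0 S, |x v| ≤ 1 ∧ |x' v| ≤ 1) : |FF T S0 y be x - FF T S0 y be x'| ≤ H :=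
  hb _ _ (ag_pS hT x) (ag_pS hT x') (of_pS hT h) fun v hv => by
    rw [hT.r, hT.r, pS, pS, if_neg (mem_fv.1 hv).2, if_neg (mem_fv.1 hv).2]
    exact h1 v hv

theorem kl_bd {x x' : ι → ℝ} (h1 : ∀ v ∈ T.fv S0 (S.erase e), |x v| ≤ 1 ∧ |x' v| ≤ 1) :
    ∀ v ∈ T.fv S0 S, |kl T e x v| ≤ 1 ∧ |kl T e x' v| ≤ 1 := fun v hv => by
  unfold kl
  split_ifs with q
  · simp
  · exact h1 v (mem_fv.2 ⟨subset_erase.2 ⟨(mem_fv.1 hv).1, q⟩, (mem_fv.1 hv).2⟩)

theorem osc_MM (hT : T.Ok) (hb : T.Osc S0 S c y be H) (b : ι → ℤ) :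
    T.Osc (S0.erase e) S c b (MM T S0 c e y be) (H + H) := fun z z' _ _ h3 h4 => by
  have o := of_u hT h3
  have k : ∀ v ∈ T.fv S0 S, |T.u z v| ≤ 1 ∧ |T.u z' v| ≤ 1 := fun v hv =>
    h4 v (mem_fv.2 ⟨(mem_fv.1 hv).1, fun q => (mem_fv.1 hv).2 (q.trans (erase_subset _ _))⟩)
  have a1 := oscF hT hb o k
  have a2 := oscF hT hb (of_kl' (e := e) o) (kl_bd fun v hv =>
    k v (mem_fv.2 ⟨(mem_fv.1 hv).1.trans (erase_subset _ _), (mem_fv.1 hv).2⟩))
  simp only [MM, NN]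
  rw [kl_of o, kl_of (of_kl' (e := e) o)]
  rw [abs_le] at a1 a2 ⊢
  constructor <;> linarith [a1.1, a1.2, a2.1, a2.2]

theorem osc_rest (hT : T.Ok) (hb : T.Osc S0 S c y be H) :
    T.Osc S0 (S.erase e) c y (fun z => be z - MM T S0 c e y be z) H := fun z z' h1 h2 h3 h4 => by
  have o := of_u hT h3
  have a2 := oscF hT hb (of_kl' (e := e) o) (kl_bd h4)
  simp only [MM, NN]
  rw [kl_of o, kl_of (of_kl' (e := e) o), ff_u hT h1, ff_u hT h2]
  rw [abs_le] at a2 ⊢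
  constructor <;> linarith [a2.1, a2.2]

theorem ind_N (hT : T.Ok) (h : T.Dep S be) {x x' : ι → ℝ} (k : ∀ v ∈ T.fv S0 S, x v = x' v) :
    NN T c (FF T S0 y be) x = NN T c (FF T S0 y be) x' := by
  have a : ∀ x x' : ι → ℝ, (∀ v ∈ T.fv S0 S, x v = x' v) → FF T S0 y be x = FF T S0 y be x' :=
    fun x x' k => h _ _ fun v hv => hT.ψ_ag (S := S) (fun w hw => by
      unfold pS
      split_ifs with q
      · rfl
      · exact k w (mem_fv.2 ⟨hw, q⟩)) hv
  unfold NN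
  rw [a x x' k, a (kl T c x) (kl T c x') fun v hv => by unfold kl; rw [k v hv]]

/-- additive in the class `e` means affine -/
theorem affN {N : Fn ι} (hN : T.Fm S (S \ S0) N)
    (hI : ∀ x x' : ι → ℝ, (∀ v ∈ T.fv S0 S, x v = x' v) → N x = N x')
    (hA : ∀ a h k : ι → ℝ, (∀ v, e ∉ T.ty v → h v = 0) → (∀ v, e ∉ T.ty v → k v = 0) →
      N (a + (h + k)) - N a = (N (a + h) - N a) + (N (a + k) - N a)) : T.Aff e N := fun z => by
  have hom : ∀ (v : ι) (s : ℝ), N (z + Pi.single v s) - N z = s * (N (z + Pi.single v 1) - N z) :=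
    fun v s => by
      by_cases q : v ∈ T.fv S0 S
      · obtain ⟨a, a1, a2⟩ := not_subset.1 (mem_fv.1 q).2
        obtain ⟨L, hL⟩ := hN.2 a (mem_sdiff.2 ⟨(mem_fv.1 q).1 a1, a2⟩) z
        have d : ∀ s : ℝ, ∀ w, a ∉ T.ty w → (Pi.single v s : ι → ℝ) w = 0 := fun s w hw => by
          rw [Pi.single_eq_of_ne (fun r : w = v => hw (r ▸ a1))]
        have e1 : (Pi.single v s : ι → ℝ) = s • (Pi.single v 1 : ι → ℝ) := by
          rw [← Pi.single_smul', smul_eq_mul, mul_one]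
        rw [hL _ (d s), hL _ (d 1), e1, map_smul, smul_eq_mul]
        ring
      · have d : ∀ s : ℝ, N (z + Pi.single v s) = N z := fun s => hI _ _ fun w hw => by
          rw [Pi.add_apply, Pi.single_eq_of_ne (fun r : w = v => q (r ▸ hw)), add_zero]
        rw [d, d]
        ring
  refine ⟨∑ v, (N (z + Pi.single v 1) - N z) • LinearMap.proj v, fun h hh => ?_⟩
  have d : ∀ v w, e ∉ T.ty w → (Pi.single v (h v) : ι → ℝ) w = 0 := fun v w hw => by
    by_cases r : w = v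
    · rw [r, Pi.single_eq_same]; exact hh v (r ▸ hw)
    · exact Pi.single_eq_of_ne r _
  have key : ∀ t : Finset ι, N (z + ∑ v ∈ t, Pi.single v (h v)) - N z =
      ∑ v ∈ t, h v * (N (z + Pi.single v 1) - N z) := fun t => by
    induction t using Finset.induction_on with
    | empty => simp
    | insert v t hv ih =>
      rw [sum_insert hv, sum_insert hv, hA _ _ _ (d v) fun w hw => by
        rw [Finset.sum_apply]; exact sum_eq_zero fun v _ => d v w hw, ih, hom]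
  have k := key univ
  rw [univ_sum_single] at k
  rw [LinearMap.sum_apply]
  simp only [LinearMap.smul_apply, LinearMap.proj_apply, smul_eq_mul]
  rw [← sub_eq_iff_eq_add', k]
  exact sum_congr rfl fun v _ => mul_comm _ _

theorem vx_pS (hT : T.Ok) (he : e ∈ S0) (ε : Fin 2 → ℤ) (Z : T.CV e (Fin 2) → ℤ)
    (X : T.CV e (Fin 2) → ℝ) :
    T.vx e ε (pS (T.cpy e (Fin 2)) (ex S0) Z X) = pS T S0 (T.vx e ε Z) (T.vx e ε X) := by
  funext v
  have a1 : (T.cpy e (Fin 2)).ty (Sum.inl v) ⊆ ex S0 ↔ T.ty v ⊆ S0 := by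
    rw [ty_inl_sub, ex, toLeft_disjSum]
  have a2 : ∀ (k : Fin 2) (h : e ∈ T.ty v),
      (T.cpy e (Fin 2)).ty (Sum.inr (k, ⟨v, h⟩)) ⊆ ex S0 ↔ T.ty v ⊆ S0 := fun k h => by
    rw [ty_inr_sub, ex, toLeft_disjSum, ← subset_insert_iff, insert_eq_of_mem he]
    simp
  by_cases q : T.ty v ⊆ S0
  · rw [pS, if_pos q, cz_vx, hT.u_vx]
    unfold vx
    rw [pS, if_pos (a1.2 q)]
    refine congrArg _ (sum_congr rfl fun k _ => congrArg _ ?_)
    by_cases h : e ∈ T.ty v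
    · rw [hc_of _ k h, hc_of _ k h, pS, if_pos ((a2 k h).2 q)]
    · rw [hc_not _ k h, hc_not _ k h]
  · rw [pS, if_neg q]
    unfold vx
    rw [pS, if_neg fun r => q (a1.1 r)]
    refine congrArg _ (sum_congr rfl fun k _ => congrArg _ ?_)
    by_cases h : e ∈ T.ty v
    · rw [hc_of _ k h, hc_of _ k h, pS, if_neg fun r => q ((a2 k h).1 r)]
    · rw [hc_not _ k h, hc_not _ k h]

theorem vx_kl (hc : c ≠ e) (ε : Fin 2 → ℤ) (X : T.CV e (Fin 2) → ℝ) :
    T.vx e ε (kl (T.cpy e (Fin 2)) (Sum.inl c) X) = kl T c (T.vx e ε X) := by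
  funext v
  have a1 : Sum.inl c ∈ (T.cpy e (Fin 2)).ty (Sum.inl v) ↔ c ∈ T.ty v := by simp [ty_inl]
  have a2 : ∀ (k : Fin 2) (h : e ∈ T.ty v),
      Sum.inl c ∈ (T.cpy e (Fin 2)).ty (Sum.inr (k, ⟨v, h⟩)) ↔ c ∈ T.ty v := fun k h => by
    simp [ty_inr, hc]
  by_cases q : c ∈ T.ty v
  · rw [kl, if_pos q]
    unfold vx
    rw [kl, if_pos (a1.2 q), zero_add]
    refine sum_eq_zero fun k _ => ?_
    by_cases h : e ∈ T.ty v
    · rw [hc_of _ k h, kl, if_pos ((a2 k h).2 q), mul_zero]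
    · rw [hc_not _ k h, mul_zero]
  · rw [kl, if_neg q]
    unfold vx
    rw [kl, if_neg fun r => q (a1.1 r)]
    refine congrArg _ (sum_congr rfl fun k _ => congrArg _ ?_)
    by_cases h : e ∈ T.ty v
    · rw [hc_of _ k h, hc_of _ k h, kl, if_neg fun r => q ((a2 k h).1 r)]
    · rw [hc_not _ k h, hc_not _ k h]

theorem rel (hT : T.Ok) (he : e ∈ S0) (hc : c ≠ e) (Z : T.CV e (Fin 2) → ℤ) (be : Fin 4 → Fn ι)
    (hz : ∀ x x' : T.CV e (Fin 2) → ℝ, (T.cpy e (Fin 2)).Ag (ex S0) x (cz Z) →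
      (T.cpy e (Fin 2)).Ag (ex S0) x' (cz Z) → (T.cpy e (Fin 2)).Of (Sum.inl c) x x' →
      T.Q e be x = T.Q e be x') (a h k : ι → ℝ) (hh : ∀ v, e ∉ T.ty v → h v = 0)
    (hk : ∀ v, e ∉ T.ty v → k v = 0) :
    NN T c (FF T S0 (T.vx e (qv 0) Z) (be 0)) a - NN T c (FF T S0 (T.vx e (qv 1) Z) (be 1)) (a + h) -
      NN T c (FF T S0 (T.vx e (qv 2) Z) (be 2)) (a + k) +
      NN T c (FF T S0 (T.vx e (qv 3) Z) (be 3)) (a + (h + k)) = 0 := by
  have hC := hT.cpy e (Fin 2)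
  let X : T.CV e (Fin 2) → ℝ := Sum.elim a fun p => ![h, k] p.1 p.2.1
  have e1 : ∀ (ε : Fin 2 → ℤ), T.vx e ε X = a + ((ε 0 : ℝ) • h + (ε 1 : ℝ) • k) := fun ε => by
    funext v
    unfold vx
    rw [Fin.sum_univ_two]
    by_cases q : e ∈ T.ty v
    · rw [hc_of _ 0 q, hc_of _ 1 q]; rfl
    · rw [hc_not _ 0 q, hc_not _ 1 q]
      simp [X, hh v q, hk v q]
  have e2 : ∀ (w : Fin 4) (Y : T.CV e (Fin 2) → ℝ), be w (T.vx e (qv w) ((T.cpy e (Fin 2)).ψ
      (pS (T.cpy e (Fin 2)) (ex S0) Z Y))) = FF T S0 (T.vx e (qv w) Z) (be w) (T.vx e (qv w) Y) :=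
    fun w Y => by
      rw [FF, ← vx_pS hT he]
      exact congrArg _ (vx_cm hT.fψ _ _)
  have r := hz _ _ (ag_pS hC X) (ag_pS hC (kl _ (Sum.inl c) X)) (of_pS hC (of_kl X))
  simp only [Q, e2, vx_kl hc, e1, Fin.sum_univ_four] at r
  simp [qv, sg] at r
  simp only [NN, qv]
  simp
  linarith

/-- the two facts on a good quadruple -/
theorem quad (hT : T.Ok) (he : e ∈ S0) (hc : c ≠ e) (Z : T.CV e (Fin 2) → ℤ) (be : Fin 4 → Fn ι)
    (hf : T.Fm S (S \ S0) (be 0))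
    (hz : ∀ x x' : T.CV e (Fin 2) → ℝ, (T.cpy e (Fin 2)).Ag (ex S0) x (cz Z) →
      (T.cpy e (Fin 2)).Ag (ex S0) x' (cz Z) → (T.cpy e (Fin 2)).Of (Sum.inl c) x x' →
      T.Q e be x = T.Q e be x') :
    MM T S0 c e (T.vx e (qv 0) Z) (be 0) = MM T S0 c e (T.vx e (qv 1) Z) (be 1) ∧
      T.Fm S (insert e (S \ S0)) (MM T S0 c e (T.vx e (qv 0) Z) (be 0)) := by
  have R := rel hT he hc Z be hz
  have fN : T.Fm S (S \ S0) (NN T c (FF T S0 (T.vx e (qv 0) Z) (be 0))) := fm_NN (fm_FF hT hf)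
  have iN := fun x x' => ind_N (S0 := S0) (c := c) (y := T.vx e (qv 0) Z) (x := x) (x' := x') hT hf.1
  unfold MM
  generalize NN T c (FF T S0 (T.vx e (qv 0) Z) (be 0)) = N0 at *
  generalize NN T c (FF T S0 (T.vx e (qv 1) Z) (be 1)) = N1 at *
  generalize NN T c (FF T S0 (T.vx e (qv 2) Z) (be 2)) = N2 at *
  generalize NN T c (FF T S0 (T.vx e (qv 3) Z) (be 3)) = N3 at *
  have z0 : ∀ v, e ∉ T.ty v → (0 : ι → ℝ) v = 0 := fun _ _ => rfl
  have d01 : ∀ a h : ι → ℝ, (∀ v, e ∉ T.ty v → h v = 0) → N0 (a + h) - N0 a = N1 (a + h) - N1 a :=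
    fun a h hh => by
      have r1 := R (a + h) 0 0 z0 z0
      have r2 := R a 0 h z0 hh
      simp only [add_zero, zero_add] at r1 r2
      linarith
  refine ⟨funext fun z => ?_, pull hT.fu (fm_NN ⟨fN.1, fun a ha => ?_⟩)⟩
  · have := d01 (kl T e (T.u z)) (T.u z - kl T e (T.u z)) fun v hv => by
      rw [Pi.sub_apply, ← of_kl _ v hv, sub_self]
    rw [add_sub_cancel] at this
    exact this
  · rcases mem_insert.1 ha with rfl | ha
    · refine affN fN iN fun x h k hh hk => ?_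
      have hk' : ∀ v, a ∉ T.ty v → (h + k) v = 0 := fun v hv => by
        rw [Pi.add_apply, hh v hv, hk v hv, add_zero]
      have r0 := R x 0 0 z0 z0
      have r1 := R x h k hh hk
      have r2 := R x (h + k) 0 hk' z0
      have r3 := R x k 0 hk z0
      have r4 := R x 0 k z0 hk
      simp only [add_zero, zero_add] at r0 r2 r3 r4
      rw [d01 x _ hk', d01 x _ hh, d01 x _ hk]
      linarith
    · exact fN.2 a ha

end

end MovP

end Vale.Agent.P057T.Gk
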