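import Vale.Agent.P057T.Gk.Rows
import Vale.Agent.P057T.Gk.Bas3

/-! The moving part of an additive family: algebra in chart coordinates. -/

set_option linter.all false

open Finset

namespace Vale.Agent.P057T.Gk.H81

open TT

noncomputable section

variable {α ι : Type} [Fintype α] [DecidableEq α] [Fintype ι] [DecidableEq ι] {T : TT α ι}

theorem mfv {S0 S : Finset α} {v : ι} : v ∈ T.fv S0 S ↔ T.ty v ⊆ S ∧ ¬ T.ty v ⊆ S0 := by
  simp [fv]

/-- maps that respect the types -/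
def Tm (T : TT α ι) (m : (ι → ℝ) → ι → ℝ) : Prop := ∀ v, T.Fm (T.ty v) univ fun z => m z v

theorem Tm.ag {m : (ι → ℝ) → ι → ℝ} (h : Tm T m) {S : Finset α} {z z' : ι → ℝ} (hz : T.Ag S z z') :
    T.Ag S (m z) (m z') := fun v hv => (h v).1 z z' (hz.mono hv)

theorem Tm.of {m : (ι → ℝ) → ι → ℝ} (h : Tm T m) {c : α} {z z' : ι → ℝ} (hz : T.Of c z z') :
    T.Of c (m z) (m z') := fun v hv => (h v).1 z z' (hz.ag hv)

theorem Tm.aff {m : (ι → ℝ) → ι → ℝ} (h : Tm T m) {a : α} {f : Fn ι} (hf : T.Aff a f) :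
    T.Aff a (fun z => f (m z)) := fun z => by
  obtain ⟨L, hL⟩ := hf (m z)
  choose M hM using fun v => (h v).2 a (mem_univ a) z
  refine ⟨L.comp (LinearMap.pi M), fun k hk => ?_⟩
  have e : m (z + k) = m z + fun v => M v k := funext fun v => hM v k hk
  show f (m (z + k)) = f (m z) + L (fun v => M v k)
  rw [e]
  refine hL _ fun v hv => ?_
  have k1 := hM v k hk
  have k2 : m (z + k) v = m z v := (h v).1 _ _ fun w hw => by
    rw [Pi.add_apply, hk w fun hh => hv (hw hh), add_zero]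
  simp only at k1
  linarith

theorem Tm.fm {m : (ι → ℝ) → ι → ℝ} (h : Tm T m) {S G : Finset α} {f : Fn ι} (hf : T.Fm S G f) :
    T.Fm S G (fun z => f (m z)) :=
  ⟨fun _ _ hz => hf.1 _ _ (h.ag hz), fun a ha => h.aff (hf.2 a ha)⟩

def mix (T : TT α ι) (S0 S : Finset α) (y : ι → ℤ) (x : ι → ℝ) : ι → ℝ :=
  fun v => if v ∈ T.fv S0 S then x v else T.u (cz y) v

def kl (T : TT α ι) (a : α) (x : ι → ℝ) : ι → ℝ := fun v => if a ∈ T.ty v then 0 else x v

theorem tm_mix (S0 S : Finset α) (y : ι → ℤ) : Tm T (mix T S0 S y) := fun v => by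
  unfold mix
  split_ifs
  · exact T.fm_coord v
  · exact fm_const _ _ _

theorem tm_kl (a : α) : Tm T (kl T a) := fun v => by
  unfold kl
  split_ifs
  · exact fm_const _ _ _
  · exact T.fm_coord v

theorem kl_of {a : α} {x x' : ι → ℝ} (h : T.Of a x x') : kl T a x = kl T a x' := by
  funext v
  unfold kl
  split_ifs with hv
  · rfl
  · exact h v hv

theorem kl_add (a : α) (x x' : ι → ℝ) : kl T a (x + x') = kl T a x + kl T a x' := by
  funext v
  simp only [kl, Pi.add_apply]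
  split_ifs <;> simp

def bb (T : TT α ι) (S0 S : Finset α) (y : ι → ℤ) (g : Fn ι) (x : ι → ℝ) : ℝ :=
  g (T.ψ (mix T S0 S y x))

def be (T : TT α ι) (S0 S : Finset α) (c : α) (y : ι → ℤ) (g : Fn ι) (x : ι → ℝ) : ℝ :=
  bb T S0 S y g x - bb T S0 S y g (kl T c x)

def JJ (T : TT α ι) (S0 S : Finset α) (c e : α) (y : ι → ℤ) (g : Fn ι) (x : ι → ℝ) : ℝ :=
  be T S0 S c y g x - be T S0 S c y g (kl T e x)

variable {S0 S G : Finset α} {c e : α} {y : ι → ℤ} {g : Fn ι} {H : ℝ}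

theorem fm_bb (hT : T.Ok) (h : T.Fm S G g) : T.Fm S G (bb T S0 S y g) :=
  (tm_mix S0 S y).fm (Tm.fm hT.fψ h)

theorem fm_be (hT : T.Ok) (h : T.Fm S G g) : T.Fm S G (be T S0 S c y g) :=
  (fm_bb hT h).sub ((tm_kl c).fm (fm_bb hT h))

theorem fm_JJ (hT : T.Ok) (h : T.Fm S G g) : T.Fm S G (JJ T S0 S c e y g) :=
  (fm_be hT h).sub ((tm_kl e).fm (fm_be hT h))

theorem JJ_congr {x x' : ι → ℝ} (h : ∀ v ∈ T.fv S0 S, x v = x' v) :
    JJ T S0 S c e y g x = JJ T S0 S c e y g x' := by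
  have h1 : ∀ x x' : ι → ℝ, (∀ v ∈ T.fv S0 S, x v = x' v) → bb T S0 S y g x = bb T S0 S y g x' :=
    fun x x' h => by
      unfold bb
      congr 2
      funext v
      unfold mix
      split_ifs with hv
      · exact h v hv
      · rfl
  have h2 : ∀ (a : α) (x x' : ι → ℝ), (∀ v ∈ T.fv S0 S, x v = x' v) →
      ∀ v ∈ T.fv S0 S, kl T a x v = kl T a x' v := fun a x x' h v hv => by
    unfold kl
    rw [h v hv]
  unfold JJ be
  rw [h1 x x' h, h1 _ _ (h2 c x x' h), h1 _ _ (h2 e x x' h), h1 _ _ (h2 c _ _ (h2 e x x' h))]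

theorem ag_mix (hT : T.Ok) (x : ι → ℝ) : T.Ag S0 (T.ψ (mix T S0 S y x)) (cz y) := fun v hv => by
  rw [← hT.l (cz y)]
  refine hT.ψ_ag (S := S0) (fun w hw => ?_) hv
  exact if_neg fun h => (mfv.1 h).2 hw

theorem be_bd (hT : T.Ok) (h : T.Osc S0 S c y g H) {x : ι → ℝ} (hx : ∀ v ∈ T.fv S0 S, |x v| ≤ 1) :
    |be T S0 S c y g x| ≤ H := by
  refine h _ _ (ag_mix hT _) (ag_mix hT _) (Tm.of hT.fψ ((tm_mix S0 S y).of fun v hv => ?_))
    fun v hv => ?_
  · exact (if_neg hv).symm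
  · rw [hT.r, hT.r]
    unfold mix kl
    rw [if_pos hv, if_pos hv]
    refine ⟨hx v hv, ?_⟩
    split_ifs
    · simp
    · exact hx v hv

theorem bb_u (hT : T.Ok) (hg : T.Dep S g) {z : ι → ℝ} (hz : T.Ag S0 z (cz y)) :
    bb T S0 S y g (T.u z) = g z := by
  refine hg _ _ fun v hv => ?_
  conv_rhs => rw [← hT.l z]
  refine hT.ψ_ag (S := S) (fun w hw => ?_) hv
  unfold mix
  split_ifs with h
  · rfl
  · exact (hT.u_ag hz (by by_contra h1; exact h (mfv.2 ⟨hw, h1⟩))).symm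

theorem kl_bd (a : α) {V : Finset ι} {x : ι → ℝ} (hx : ∀ v ∈ V, a ∉ T.ty v → |x v| ≤ 1) :
    ∀ v ∈ V, |kl T a x v| ≤ 1 := fun v hv => by
  unfold kl
  split_ifs with h
  · simp
  · exact hx v hv h

/-- the moving part is bounded on the cell -/
theorem osc_JJ (hT : T.Ok) (h : T.Osc S0 S c y g H) (b' : ι → ℤ) :
    T.Osc (S0.erase e) S c b' (fun z => JJ T S0 S c e y g (T.u z)) (4 * H) := by
  have h1 : ∀ z : ι → ℝ, (∀ v ∈ T.fv (S0.erase e) S, |T.u z v| ≤ 1) →
      |JJ T S0 S c e y g (T.u z)| ≤ 2 * H := fun z hz => by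
    have h2 : ∀ v ∈ T.fv S0 S, |T.u z v| ≤ 1 := fun v hv =>
      hz v (mfv.2 ⟨(mfv.1 hv).1, fun k => (mfv.1 hv).2 (k.trans (erase_subset _ _))⟩)
    have h3 := be_bd hT h h2
    have h4 := be_bd hT h (kl_bd (T := T) e fun v hv _ => h2 v hv)
    exact (abs_sub _ _).trans (by linarith)
  intro z z' _ _ _ h4
  have h5 := h1 z fun v hv => (h4 v hv).1
  have h6 := h1 z' fun v hv => (h4 v hv).2
  exact (abs_sub _ _).trans (by linarith)

/-- the rest is bounded as soon as the coordinates without `e` are -/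
theorem osc_rest (hT : T.Ok) (hg : T.Dep S g) (h : T.Osc S0 S c y g H) :
    T.Osc S0 (S.erase e) c y (fun z => g z - JJ T S0 S c e y g (T.u z)) (2 * H) := by
  have h1 : ∀ z : ι → ℝ, (∀ v ∈ T.fv S0 (S.erase e), |T.u z v| ≤ 1) →
      |be T S0 S c y g (kl T e (T.u z))| ≤ H := fun z hz =>
    be_bd hT h (kl_bd e fun v hv he =>
      hz v (mfv.2 ⟨subset_erase.2 ⟨(mfv.1 hv).1, he⟩, (mfv.1 hv).2⟩))
  intro z z' h2 h3 h4 h5
  have h6 := h1 z fun v hv => (h5 v hv).1
  have h7 := h1 z' fun v hv => (h5 v hv).2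
  have h8 : kl T c (T.u z) = kl T c (T.u z') := kl_of (Tm.of hT.fu h4)
  have h9 : g z - JJ T S0 S c e y g (T.u z) - (g z' - JJ T S0 S c e y g (T.u z')) =
      be T S0 S c y g (kl T e (T.u z)) - be T S0 S c y g (kl T e (T.u z')) := by
    have e1 : be T S0 S c y g (T.u z) = g z - bb T S0 S y g (kl T c (T.u z')) := by
      rw [be, bb_u hT hg h2, h8]
    have e2 : be T S0 S c y g (T.u z') = g z' - bb T S0 S y g (kl T c (T.u z')) := by
      rw [be, bb_u hT hg h3]
    rw [JJ, JJ, e1, e2]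
    ring
  show |g z - JJ T S0 S c e y g (T.u z) - (g z' - JJ T S0 S c e y g (T.u z'))| ≤ _
  rw [h9]
  exact (abs_sub _ _).trans (by linarith)

/-- four functions with a vanishing signed sum -/
theorem four {V : Type} [AddCommGroup V] (k : V → V) (P : V → Prop)
    (hk : ∀ x h, P h → k (x + h) = k x) (hp : ∀ x, P (x - k x)) (h0 : P 0) (b : Fin 4 → V → ℝ)
    (H : ∀ x h h', P h → P h' → b 0 x - b 1 (x + h) - b 2 (x + h') + b 3 (x + h + h') = 0) :
    (∀ x, b 0 x - b 0 (k x) = b 1 x - b 1 (k x)) ∧ ∀ x h h', P h → P h' →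
      b 0 (k x + h + h') - b 0 (k x) = (b 0 (k x + h) - b 0 (k x)) + (b 0 (k x + h') - b 0 (k x)) := by
  have a0 : ∀ x, b 0 x - b 1 x - b 2 x + b 3 x = 0 := fun x => by
    simpa using H x 0 0 h0 h0
  have a1 : ∀ x h, P h → b 1 (x + h) - b 1 x = b 3 (x + h) - b 3 x := fun x h hh => by
    have h1 := H x h 0 hh h0
    have h2 := a0 x
    simp only [add_zero] at h1
    linarith
  have a2 : ∀ x h, P h → b 2 (x + h) - b 2 x = b 3 (x + h) - b 3 x := fun x h hh => by
    have h1 := H x 0 h h0 hh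
    have h2 := a0 x
    simp only [add_zero] at h1
    linarith
  have a3 : ∀ x h, P h → b 0 (x + h) - b 0 x = b 3 (x + h) - b 3 x := fun x h hh => by
    have h1 := a0 (x + h)
    have h2 := a0 x
    have h3 := a1 x h hh
    have h4 := a2 x h hh
    linarith
  refine ⟨fun x => ?_, fun x h h' hh hh' => ?_⟩
  · have h1 := a3 (k x) _ (hp x)
    have h2 := a1 (k x) _ (hp x)
    rw [add_sub_cancel] at h1 h2
    linarith
  · have h1 := H (k x) h h' hh hh'
    have h2 := a0 (k x)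
    have h3 := a1 (k x) h hh
    have h4 := a2 (k x) h' hh'
    have h5 := a3 (k x) h hh
    have h6 := a3 (k x) h' hh'
    have h7 := a3 (k x + h) h' hh'
    linarith

def Sp (T : TT α ι) (e : α) (h : ι → ℝ) : Prop := ∀ v, e ∉ T.ty v → h v = 0

theorem kl_sp (x h : ι → ℝ) (hh : Sp T e h) : kl T e (x + h) = kl T e x :=
  kl_of fun v hv => by rw [Pi.add_apply, hh v hv, add_zero]

theorem sp_sub (x : ι → ℝ) : Sp T e (x - kl T e x) := fun v hv => by
  rw [Pi.sub_apply, kl, if_neg hv, sub_self]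

/-- additive and multi-affine gives affine -/
theorem aff_JJ (hT : T.Ok) (hg : T.Fm S (S \ S0) g)
    (ha : ∀ x h h', Sp T e h → Sp T e h' →
      be T S0 S c y g (kl T e x + h + h') - be T S0 S c y g (kl T e x) =
        (be T S0 S c y g (kl T e x + h) - be T S0 S c y g (kl T e x)) +
          (be T S0 S c y g (kl T e x + h') - be T S0 S c y g (kl T e x))) :
    T.Aff e (JJ T S0 S c e y g) := fun x => by
  have kk : kl T e (kl T e x) = kl T e x := by
    have := kl_sp (kl T e x) _ (sp_sub (T := T) (e := e) x)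
    rw [add_sub_cancel] at this
    exact this.symm
  have hJ : ∀ h, Sp T e h → JJ T S0 S c e y g (kl T e x + h) =
      be T S0 S c y g (kl T e x + h) - be T S0 S c y g (kl T e x) := fun h hh => by
    rw [JJ, kl_sp _ _ hh, kk]
  let Φ : (ι → ℝ) →+ ℝ := AddMonoidHom.mk' (fun h => JJ T S0 S c e y g (kl T e x + (h - kl T e h)))
    fun h h' => by
      have e1 : h + h' - kl T e (h + h') = (h - kl T e h) + (h' - kl T e h') := by
        rw [kl_add]; abel
      have e2 : Sp T e ((h - kl T e h) + (h' - kl T e h')) := e1 ▸ sp_sub _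
      show JJ T S0 S c e y g _ = JJ T S0 S c e y g _ + JJ T S0 S c e y g _
      rw [e1, hJ _ e2, hJ _ (sp_sub _), hJ _ (sp_sub _), ← add_assoc]
      exact ha x _ _ (sp_sub _) (sp_sub _)
  have hΦ : ∀ h, Φ h = JJ T S0 S c e y g (kl T e x + (h - kl T e h)) := fun _ => rfl
  have z0 : JJ T S0 S c e y g (kl T e x) = 0 := by rw [JJ, kk, sub_self]
  have h1 : ∀ (v : ι) (t : ℝ), Φ (Pi.single v t) = t * Φ (Pi.single v 1) := fun v t => by
    by_cases hv : v ∈ T.fv S0 S
    · obtain ⟨a, ha1, ha2⟩ := not_subset.1 (mfv.1 hv).2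
      obtain ⟨L, hL⟩ := (fm_JJ (S0 := S0) (c := c) (e := e) (y := y) hT hg).2 a
        (mem_sdiff.2 ⟨(mfv.1 hv).1 ha1, ha2⟩) (kl T e x)
      have h2 : ∀ s : ℝ, Φ (Pi.single v s) = s * L (Pi.single v 1 - kl T e (Pi.single v 1)) :=
        fun s => by
          have e1 : Pi.single v s - kl T e (Pi.single v s) =
              s • ((Pi.single v 1 : ι → ℝ) - kl T e (Pi.single v 1)) := by
            funext w
            simp only [kl, Pi.sub_apply, Pi.smul_apply, Pi.single_apply, smul_eq_mul]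
            split_ifs <;> simp
          rw [hΦ, hL, z0, zero_add, e1, map_smul, smul_eq_mul]
          intro w hw
          have : w ≠ v := fun k => hw (k ▸ ha1)
          simp [kl, Pi.single_eq_of_ne this]
      rw [h2 t, h2 1, one_mul]
    · have h2 : ∀ s : ℝ, Φ (Pi.single v s) = 0 := fun s => by
        rw [hΦ, ← z0]
        refine JJ_congr fun w hw => ?_
        have : w ≠ v := fun k => hv (k ▸ hw)
        simp [kl, Pi.single_eq_of_ne this]
      rw [h2, h2, mul_zero]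
  refine ⟨∑ v, Φ (Pi.single v 1) • LinearMap.proj v, fun h hh => ?_⟩
  have e0 : kl T e h = 0 := funext fun v => by
    unfold kl
    split_ifs with hv
    · rfl
    · exact hh v hv
  have e1 : JJ T S0 S c e y g (x + h) = Φ (x + h) := by
    rw [hΦ, kl_sp x h hh, add_sub_cancel]
  have e2 : JJ T S0 S c e y g x = Φ x := by rw [hΦ, add_sub_cancel]
  rw [e1, e2, map_add]
  congr 1
  conv_lhs => rw [← Finset.univ_sum_single h, map_sum]
  simp only [LinearMap.coe_sum, Finset.sum_apply, LinearMap.smul_apply, LinearMap.proj_apply,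
    smul_eq_mul]
  exact sum_congr rfl fun v _ => by rw [h1, mul_comm]

/-- chart values over a quadruple -/
def UU (T : TT α ι) (S0 S : Finset α) (e : α) (Z : T.CV e (Fin 2) → ℤ) (x : ι → ℝ)
    (h : Fin 2 → ι → ℝ) : T.CV e (Fin 2) → ℝ :=
  Sum.elim (fun v => if v ∈ T.fv S0 S then x v else (T.cpy e (Fin 2)).u (cz Z) (Sum.inl v))
    (fun p => if p.2.1 ∈ T.fv S0 S then h p.1 p.2.1 else (T.cpy e (Fin 2)).u (cz Z) (Sum.inr p))

theorem vx_UU (hT : T.Ok) (Z : T.CV e (Fin 2) → ℤ) (x : ι → ℝ) (h : Fin 2 → ι → ℝ)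
    (hh : ∀ k, Sp T e (h k)) (ε : Fin 2 → ℤ) :
    T.vx e ε (UU T S0 S e Z x h) =
      mix T S0 S (T.vx e ε Z) (x + (ε 0 : ℝ) • h 0 + (ε 1 : ℝ) • h 1) := by
  funext v
  unfold mix
  split_ifs with hv
  · have h1 : ∀ k, T.hc e (UU T S0 S e Z x h) k v = h k v := fun k => by
      by_cases he : e ∈ T.ty v
      · rw [hc_of _ k he]; exact if_pos hv
      · rw [hc_not _ k he, hh k v he]
    simp only [TT.vx, h1, Fin.sum_univ_two, Pi.add_apply, Pi.smul_apply, smul_eq_mul, add_assoc]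
    congr 1
    exact if_pos hv
  · rw [cz_vx, hT.u_vx]
    have h1 : ∀ k, T.hc e (UU T S0 S e Z x h) k v = T.hc e ((T.cpy e (Fin 2)).u (cz Z)) k v :=
      fun k => by
        by_cases he : e ∈ T.ty v
        · rw [hc_of _ k he, hc_of _ k he]; exact if_neg hv
        · rw [hc_not _ k he, hc_not _ k he]
    simp only [TT.vx, h1]
    congr 1
    exact if_neg hv

theorem ag_UU (hT : T.Ok) (he : e ∈ S0) (Z : T.CV e (Fin 2) → ℤ) (x : ι → ℝ) (h : Fin 2 → ι → ℝ) :
    (T.cpy e (Fin 2)).Ag (ex S0) ((T.cpy e (Fin 2)).ψ (UU T S0 S e Z x h)) (cz Z) := fun v hv => by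
  rw [← (hT.cpy e (Fin 2)).l (cz Z)]
  refine (hT.cpy e (Fin 2)).ψ_ag (S := ex S0) (fun w hw => ?_) hv
  rcases w with w | p
  · have := ty_inl_sub.1 hw
    rw [ex, toLeft_disjSum] at this
    exact if_neg fun k => (mfv.1 k).2 this
  · have := (ty_inr_sub.1 hw).1
    rw [ex, toLeft_disjSum, ← subset_insert_iff, insert_eq_of_mem he] at this
    exact if_neg fun k => (mfv.1 k).2 this

theorem of_UU (hce : c ≠ e) (Z : T.CV e (Fin 2) → ℤ) (x : ι → ℝ) (h : Fin 2 → ι → ℝ) :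
    (T.cpy e (Fin 2)).Of (Sum.inl c) (UU T S0 S e Z x h)
      (UU T S0 S e Z (kl T c x) fun k => kl T c (h k)) := fun w hw => by
  rcases w with w | p
  · have : c ∉ T.ty w := by simpa [ty_inl] using hw
    simp only [UU, Sum.elim_inl, kl, if_neg this]
  · have : c ∉ T.ty p.2.1 := by simpa [ty_inr, hce] using hw
    simp only [UU, Sum.elim_inr, kl, if_neg this]

/-- the conclusion for one good quadruple -/
theorem quad (hT : T.Ok) (he : e ∈ S0) (hce : c ≠ e) (Z : T.CV e (Fin 2) → ℤ) (g : Fin 4 → Fn ι)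
    (hg : T.Fm S (S \ S0) (g 0))
    (hQ : ∀ X X', (T.cpy e (Fin 2)).Ag (ex S0) X (cz Z) → (T.cpy e (Fin 2)).Ag (ex S0) X' (cz Z) →
      (T.cpy e (Fin 2)).Of (Sum.inl c) X X' → T.Q e g X = T.Q e g X') :
    JJ T S0 S c e (T.vx e (qv 0) Z) (g 0) = JJ T S0 S c e (T.vx e (qv 1) Z) (g 1) ∧
      T.Aff e (JJ T S0 S c e (T.vx e (qv 0) Z) (g 0)) := by
  have hq : ∀ x (h : Fin 2 → ι → ℝ), (∀ k, Sp T e (h k)) →
      T.Q e g ((T.cpy e (Fin 2)).ψ (UU T S0 S e Z x h)) =
        bb T S0 S (T.vx e (qv 0) Z) (g 0) x - bb T S0 S (T.vx e (qv 1) Z) (g 1) (x + h 0) -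
          bb T S0 S (T.vx e (qv 2) Z) (g 2) (x + h 1) +
          bb T S0 S (T.vx e (qv 3) Z) (g 3) (x + h 0 + h 1) := fun x h hh => by
    have h1 : ∀ ε, T.vx e ε ((T.cpy e (Fin 2)).ψ (UU T S0 S e Z x h)) =
        T.ψ (mix T S0 S (T.vx e ε Z) (x + (ε 0 : ℝ) • h 0 + (ε 1 : ℝ) • h 1)) := fun ε => by
      rw [← vx_UU hT Z x h hh ε]
      exact vx_cm hT.fψ ε _
    simp only [TT.Q, h1, Fin.sum_univ_four, bb]
    simp [sg, qv]
    ring
  have h4 := four (kl T e) (Sp T e) kl_sp sp_sub (fun _ _ => rfl)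
    (fun w => be T S0 S c (T.vx e (qv w) Z) (g w)) fun x h h' hh hh' => by
      have k1 : ∀ k : Fin 2, Sp T e (![h, h'] k) := fun k => by fin_cases k <;> assumption
      have k2 : ∀ k : Fin 2, Sp T e (kl T c (![h, h'] k)) := fun k v hv => by
        unfold kl
        rw [k1 k v hv, ite_self]
      have k3 := hQ _ _ (ag_UU (S := S) hT he Z x ![h, h']) (ag_UU (S := S) hT he Z _ _)
        (Tm.of (hT.cpy e (Fin 2)).fψ (of_UU hce Z x ![h, h']))
      rw [hq _ _ k1, hq _ _ k2] at k3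
      simp only [Matrix.cons_val_zero, Matrix.cons_val_one] at k3
      simp only [be, kl_add]
      linarith
  exact ⟨funext h4.1, aff_JJ hT hg h4.2⟩

/-- uniqueness on the joint tower kills the integer parts -/
theorem hq (hS : SCALE) (hT : T.Ok) (h0 : S0 ⊆ S) (he : e ∈ S0) (hc : c ∉ S0)
    {l cen : T.CV e (Fin 2) → ℝ} (hl : ∀ x, 0 < l x) (hcen : ∀ x, |cen x| + l x ≤ 1)
    (Z : T.CV e (Fin 2) → ℤ) (f I : Fin 4 → Fn ι) (hf : ∀ w, T.Fm S (S \ S0) (f w))
    (hI : ∀ w, T.Fm S (S \ S0) (I w) ∧ T.IsI S0 (T.vx e (qv w) Z) (I w) ∧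
      T.Osc S0 S c (T.vx e (qv w) Z) (fun z => f w z - I w z) H)
    (hz : ∀ X, (T.cpy e (Fin 2)).Ag (ex S0) X (cz Z) → T.Q e f X = 0) {H' : ℝ}
    (hH : 4 * ((100 : ℝ) ^ (2 ^ (Fintype.card α + 1)) * H) ≤ H')
    (hZ : ((T.cpy e (Fin 2)).sc l cen).Zr (ex S0) (ex S) (Sum.inl c) Z H') :
    ∀ X X', (T.cpy e (Fin 2)).Ag (ex S0) X (cz Z) → (T.cpy e (Fin 2)).Ag (ex S0) X' (cz Z) →
      (T.cpy e (Fin 2)).Of (Sum.inl c) X X' →
      T.Q e (fun w z => f w z - I w z) X = T.Q e (fun w z => f w z - I w z) X' := by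
  have e1 : ∀ X, T.Q e (fun w z => f w z - I w z) X = T.Q e f X - T.Q e I X := fun X => by
    simp only [TT.Q, mul_sub, sum_sub_distrib]
  have tl : ∀ A : Finset α, (ex A).toLeft = A := fun A => toLeft_disjSum
  have ir : ∀ (A : Finset α) (k : Fin 2), Sum.inr k ∈ ex A := fun A k => by simp [ex]
  have h1 := hZ (T.Q e I) (fm_sum _ fun w _ => ((hI w).1.vx (qv w) (tl S).ge (fun k _ => ir S k)
      (fun a ha _ => by simpa [ex] using ha)
      fun k hk _ => absurd (ir S0 k) (mem_sdiff.1 hk).2).smul _)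
    (fun W hW => by
      choose n hn using fun w => (hI w).2.1 (T.vx e (qv w) W) (by
        have := TT.Ag.vx (ε := qv w) hW fun k _ => ir S0 k
        rwa [tl] at this)
      refine ⟨n 0 - n 1 - n 2 + n 3, ?_⟩
      simp only [TT.Q, ← cz_vx, hn, Fin.sum_univ_four]
      simp [sg]
      ring)
    fun z z' a1 a2 a3 a4 => by
      have b1 : ∀ (w : Fin 4) (z : T.CV e (Fin 2) → ℝ), (T.cpy e (Fin 2)).Ag (ex S0) z (cz Z) →
          T.Ag S0 (T.vx e (qv w) z) (cz (T.vx e (qv w) Z)) := fun w z hz => by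
        have := TT.Ag.vx (ε := qv w) hz fun k _ => ir S0 k
        rwa [tl, ← cz_vx] at this
      have b2 : ∀ (w : Fin 4) (z : T.CV e (Fin 2) → ℝ),
          (∀ x ∈ (T.cpy e (Fin 2)).fv (ex S0) (ex S), |((T.cpy e (Fin 2)).sc l cen).u z x| ≤ 1) →
          ∀ v ∈ T.fv S0 S, |(T.sc (fun _ => 20) fun _ => 0).u (T.vx e (qv w) z) v| ≤ 1 :=
        fun w z hz v hv => by
          have c1 : |(T.cpy e (Fin 2)).u z (Sum.inl v)| ≤ 1 := u_le_of_sc hl hcen (hz _ (mfv.2
            ⟨ty_inl_sub.2 (by rw [tl]; exact (mfv.1 hv).1),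
              fun k => (mfv.1 hv).2 (by have := ty_inl_sub.1 k; rwa [tl] at this)⟩))
          have c2 : ∀ k, |T.hc e ((T.cpy e (Fin 2)).u z) k v| ≤ 1 := fun k => by
            by_cases hev : e ∈ T.ty v
            · rw [hc_of _ k hev]
              refine u_le_of_sc hl hcen (hz _ (mfv.2 ⟨ty_inr_sub.2 ⟨?_, ir S k⟩, fun k' => ?_⟩))
              · rw [tl]; exact (erase_subset _ _).trans (mfv.1 hv).1
              · have := (ty_inr_sub.1 k').1
                rw [tl, ← subset_insert_iff, insert_eq_of_mem he] at this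
                exact (mfv.1 hv).2 this
            · rw [hc_not _ k hev]; simp
          show |(T.u (T.vx e (qv w) z) v - 0) / 20| ≤ 1
          rw [hT.u_vx, sub_zero, abs_div, div_le_one (by norm_num), TT.vx, Fin.sum_univ_two,
            abs_of_pos (by norm_num : (0 : ℝ) < 20)]
          have c3 := abs_le.1 c1
          have c4 := abs_le.1 (c2 0)
          have c5 := abs_le.1 (c2 1)
          rw [abs_le]
          fin_cases w <;> simp [qv] <;> constructor <;> linarith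
      have b3 : ∀ w, |(f w (T.vx e (qv w) z) - I w (T.vx e (qv w) z)) -
          (f w (T.vx e (qv w) z') - I w (T.vx e (qv w) z'))| ≤
          (100 : ℝ) ^ (2 ^ (Fintype.card α + 1)) * H := fun w => by
        have c1 := (hS α ι T S0 S c (T.vx e (qv w) Z) hT h0 hc).1 _ (fun _ => 1) (fun _ => 0) 1 H
          ((hf w).sub (hI w).1) one_pos (fun _ => by norm_num) (by rw [sc_one]; exact (hI w).2.2)
        rw [div_one] at c1
        exact c1 _ _ (b1 w z a1) (b1 w z' a2) (TT.Of.vx a3 _) fun v hv =>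
          ⟨b2 w z (fun x hx => (a4 x hx).1) v hv, b2 w z' (fun x hx => (a4 x hx).2) v hv⟩
      have b4 := e1 z
      have b5 := e1 z'
      rw [hz z a1] at b4
      rw [hz z' a2] at b5
      have b6 : T.Q e I z - T.Q e I z' = -(T.Q e (fun w z => f w z - I w z) z -
          T.Q e (fun w z => f w z - I w z) z') := by linarith
      rw [b6, abs_neg]
      simp only [TT.Q, Fin.sum_univ_four]
      have d0 := abs_le.1 (b3 0)
      have d1 := abs_le.1 (b3 1)
      have d2 := abs_le.1 (b3 2)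
      have d3 := abs_le.1 (b3 3)
      simp only [sg, Matrix.cons_val_zero, Matrix.cons_val_one, Matrix.cons_val]
      rw [abs_le]
      constructor <;> linarith
  intro X X' a1 a2 a3
  have h2 := h1 X X' a1 a2 a3 fun v hv => absurd (mfv.1 hv).1 (mfv.1 hv).2
  rw [e1, e1, hz X a1, hz X' a2, sub_eq_zero.1 (abs_nonpos_iff.1 h2)]

end

end Vale.Agent.P057T.Gk.H81
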