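import Vale.Agent.P057T.Gk.MovAH81
import Vale.Agent.P057T.Gk.CntH51
import Vale.Agent.P057T.Gk.PetdA

/-! The moving part of an additive family: counting and assembly. -/

set_option linter.all false

open Finset

namespace Vale.Agent.P057T.Gk.H81

open TT

noncomputable section

variable {α ι : Type} [Fintype α] [DecidableEq α] [Fintype ι] [DecidableEq ι] {T : TT α ι}
  {S0 : Finset α} {e : α} {m : ℕ} {cen : T.CV e (Fin 2) → ℝ}

theorem inr_sub (he : e ∈ S0) {Q : Finset (Fin 2)} {p : Fin 2 × {v : ι // e ∈ T.ty v}} :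
    (T.qt e m cen).ty (Sum.inr p) ⊆ S0.disjSum Q ↔ T.ty p.2.1 ⊆ S0 ∧ p.1 ∈ Q := by
  have := ty_inr_sub (T := T) (i := e) (κ := Fin 2) (p := p) (S := S0.disjSum Q)
  rw [toLeft_disjSum, inr_mem_disjSum, ← subset_insert_iff, insert_eq_of_mem he] at this
  exact this

theorem vol_base : (T.qt e m cen).vol ∅ ((S0.erase e).disjSum ∅) = T.vol ∅ (S0.erase e) := by
  rw [vol_qt, TT.win, vol_sc, prod_eq_one, mul_one]
  intro v hv
  exact if_neg fun k => notMem_erase e S0 ((mfv.1 hv).1 k)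

theorem vol_inc (he : e ∈ S0) : (T.qt e m cen).vol (S0.disjSum ∅) (S0.disjSum {0}) =
    T.vol (S0.erase e) S0 * ∏ v ∈ T.fv (S0.erase e) S0, ((m : ℝ) ^ 2)⁻¹ := by
  have hm : ∀ v ∈ T.fv (S0.erase e) S0, e ∈ T.ty v := fun v hv => by
    by_contra k
    exact (mfv.1 hv).2 (subset_erase.2 ⟨(mfv.1 hv).1, k⟩)
  unfold vol
  rw [← prod_mul_distrib]
  symm
  refine prod_bij (fun v hv => Sum.inr (0, ⟨v, hm v hv⟩)) ?_ ?_ ?_ ?_
  · intro v hv
    exact mfv.2 ⟨(inr_sub he).2 ⟨(mfv.1 hv).1, mem_singleton_self _⟩, inr_not⟩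
  · intro a _ b _ h
    simpa using h
  · rintro (v | ⟨k, v⟩) hv
    · exact absurd (inl_sub.2 (inl_sub.1 (mfv.1 hv).1)) (mfv.1 hv).2
    · obtain ⟨h1, h2⟩ := (inr_sub he).1 (mfv.1 hv).1
      obtain rfl : k = 0 := mem_singleton.1 h2
      exact ⟨v.1, mfv.2 ⟨h1, fun k => notMem_erase e S0 (k v.2)⟩, rfl⟩
  · intro v _
    show 2 * T.dv v * _ = 2 * (T.dv v * ((m : ℝ) ^ 2)⁻¹)
    ring

theorem vx0 {R : Type} [CommRing R] (Z : T.CV e (Fin 2) → R) : T.vx e (qv 0) Z = T.bs e Z := by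
  funext v
  simp [TT.vx, TT.bs, qv]

theorem vx1 {R : Type} [CommRing R] (Z : T.CV e (Fin 2) → R) :
    T.vx e (qv 1) Z = T.bs e Z + T.hc e Z 0 := by
  funext v
  simp [TT.vx, TT.bs, qv]

open Classical in
/-- second vertices over the first vertex of `Z` -/
def sb (T : TT α ι) (e : α) (A : Finset (T.CV e (Fin 2) → ℤ)) (Z : T.CV e (Fin 2) → ℤ) :
    Finset (ι → ℤ) := (A.filter fun W => T.bs e W = T.bs e Z).image (T.vx e (qv 1))

open Classical in
/-- many bases carry a first vertex with many second vertices -/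
theorem cnt (hT : T.Ok) (hm : 1 ≤ m) (he : e ∈ S0) {σ L : ℝ} (hN : (T.qt e m cen).N0 σ) (hL : 0 ≤ L)
    (hσ : σ ≤ Real.exp (-(L + 4))) {A : Finset (T.CV e (Fin 2) → ℤ)}
    (hA : (T.qt e m cen).Dn (ex S0) A L) :
    ∃ E' : Finset (ι → ℤ), Real.exp (-(L + 4)) * T.vol ∅ (S0.erase e) ≤ E'.card ∧ ∀ b' ∈ E',
      ∃ Z ∈ A, b' = T.res (S0.erase e) (T.bs e Z) ∧ Real.exp (-(L + 4)) *
        (T.vol (S0.erase e) S0 * ∏ v ∈ T.fv (S0.erase e) S0, ((m : ℝ) ^ 2)⁻¹) ≤ (sb T e A Z).card := by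
  have h2 := ok_qt (cen := cen) hT hm
  have hσ2 : σ ≤ Real.exp (-(L + 2)) := hσ.trans (Real.exp_le_exp.2 (by linarith))
  have hσ1 : σ ≤ 1 := hσ2.trans (Real.exp_le_one_iff.2 (by linarith))
  set t := Real.exp (-(L + 4)) * (T.qt e m cen).vol (S0.disjSum ∅) (S0.disjSum {0}) with ht
  have t0 : 0 ≤ t := mul_nonneg (Real.exp_pos _).le (vol_pos h2 _ _).le
  have s1 : S0.disjSum ({0} : Finset (Fin 2)) ⊆ ex S0 := disjSum_mono subset_rfl (subset_univ _)
  have s2 : S0.disjSum (∅ : Finset (Fin 2)) ⊆ ex S0 := disjSum_mono subset_rfl (subset_univ _)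
  have h3 := Dn.prune h2 hN hL hσ2 s1 (fun Z => (T.bs e Z, T.vx e (qv 1) Z)) hA
    (fun Z _ Z' _ h x hx => by
      have a1 : T.bs e Z = T.bs e Z' := congrArg Prod.fst h
      have a2 : T.vx e (qv 1) Z = T.vx e (qv 1) Z' := congrArg Prod.snd h
      rcases x with v | ⟨k, v⟩
      · exact congrFun a1 v
      · obtain rfl : k = 0 := mem_singleton.1 ((inr_sub he).1 hx).2
        rw [vx1, vx1, a1, add_right_inj] at a2
        have := congrFun a2 v.1
        rwa [hc_of _ 0 v.2, hc_of _ 0 v.2] at this)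
    (fun Z => t ≤ ((sb T e A Z).card : ℝ)) (by
      refine (sparse Prod.fst _ (((T.qt e m cen).pts (S0.disjSum ∅) 1).image (T.bs e)) t0
        (fun z hz => ?_) fun z hz => ?_).trans ?_
      · simp only [mem_image, mem_filter] at hz ⊢
        obtain ⟨Z, ⟨hZ, _⟩, rfl⟩ := hz
        refine ⟨_, res_mem h2 (hA.1 hZ) s2, funext fun v => ?_⟩
        show (if _ then Z (Sum.inl v) else 0) = Z (Sum.inl v)
        split_ifs with hv
        · rfl
        · exact (((mem_pts h2).1 (hA.1 hZ)).1 _ fun k => hv (inl_sub.2 (inl_sub.1 k))).symm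
      · simp only [mem_image, mem_filter] at hz
        obtain ⟨Z, ⟨hZ, hp⟩, rfl⟩ := hz
        refine le_trans ?_ (not_le.1 hp).le
        refine Nat.cast_le.2 (card_le_card_of_injOn Prod.snd (fun z hz => ?_) fun z hz z' hz' h => ?_)
        · simp only [coe_filter, mem_image, mem_filter, Set.mem_setOf_eq, mem_coe] at hz
          simp only [sb, mem_image, mem_filter, mem_coe]
          obtain ⟨⟨W, ⟨hW, _⟩, rfl⟩, h1⟩ := hz
          exact ⟨W, ⟨hW, h1⟩, rfl⟩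
        · simp only [coe_filter, Set.mem_setOf_eq] at hz hz'
          exact Prod.ext (hz.2.trans hz'.2.symm) h
      · have a1 : ((((T.qt e m cen).pts (S0.disjSum ∅) 1).image (T.bs e)).card : ℝ) ≤
            2 * (T.qt e m cen).vol ∅ (S0.disjSum ∅) :=
          (Nat.cast_le.2 card_image_le).trans (card_pts_le h2 hN hσ1 _)
        rw [vol_mul h2 (empty_subset (S0.disjSum ∅)) (disjSum_mono subset_rfl (empty_subset _))]
        refine (mul_le_mul_of_nonneg_right a1 t0).trans_eq ?_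
        rw [ht]
        ring)
  have h4 := img_ge h2 hN (by linarith : 0 ≤ L + 2) (by rwa [add_assoc, two_add_two_eq_four])
    (disjSum_mono (erase_subset e S0) (subset_univ ∅))
    (fun Z => T.res (S0.erase e) (T.bs e Z)) h3 fun Z _ Z' _ h x hx => by
      rcases x with v | p
      · have a1 := inl_sub.1 hx
        have a2 := congrFun h v
        simp only [res, if_pos a1] at a2
        exact a2
      · exact absurd hx inr_not
  rw [vol_base, add_assoc, two_add_two_eq_four] at h4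
  refine ⟨_, h4, fun b' hb => ?_⟩
  simp only [mem_image, mem_filter] at hb
  obtain ⟨Z, ⟨hZ, hp⟩, rfl⟩ := hb
  exact ⟨Z, hZ, rfl, by rwa [← vol_inc (cen := cen) he]⟩

theorem num {Y : ℝ} {a n : ℕ} (hY : 6 ≤ Y) (h2 : (2 : ℝ) ^ (a + 1) ≤ Y) (hn : n ≤ a) :
    4 * ((100 : ℝ) ^ (2 ^ (n + 1)) * Real.exp Y) ≤ (Real.exp (-Y ^ 3))⁻¹ := by
  have a1 : (100 : ℝ) ≤ Real.exp 5 := by
    have h := Real.add_one_le_exp (5 / 4 : ℝ)
    have e1 : Real.exp 5 = Real.exp (5 / 4) ^ 4 := by rw [← Real.exp_nat_mul]; norm_num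
    have h1 : (3.2 : ℝ) ≤ Real.exp (5 / 4) := by
      have := Real.quadratic_le_exp_of_nonneg (by norm_num : (0 : ℝ) ≤ 5 / 8)
      have e2 : Real.exp (5 / 4) = Real.exp (5 / 8) ^ 2 := by rw [← Real.exp_nat_mul]; norm_num
      rw [e2]; nlinarith
    rw [e1]
    exact le_trans (by norm_num) (pow_le_pow_left₀ (by norm_num) h1 4)
  have a2 : ((2 ^ (n + 1) : ℕ) : ℝ) ≤ Y := by
    refine le_trans ?_ h2
    exact_mod_cast Nat.pow_le_pow_right (by norm_num) (by omega)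
  have a3 : (100 : ℝ) ^ (2 ^ (n + 1)) ≤ Real.exp (Y * 5) := by
    refine (pow_le_pow_left₀ (by norm_num) a1 _).trans ?_
    rw [← Real.exp_nat_mul]
    exact Real.exp_le_exp.2 (by linarith)
  have a4 : (4 : ℝ) ≤ Real.exp 3 := by linarith [Real.add_one_le_exp (3 : ℝ)]
  rw [Real.exp_neg, inv_inv]
  calc _ ≤ Real.exp 3 * (Real.exp (Y * 5) * Real.exp Y) := by gcongr
    _ = Real.exp (3 + (Y * 5 + Y)) := by rw [Real.exp_add, Real.exp_add]
    _ ≤ _ := Real.exp_le_exp.2 (by nlinarith [mul_self_nonneg Y])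

end

end Vale.Agent.P057T.Gk.H81

namespace Vale.Agent.P057T.Gk.H81

open TT

theorem mov (hC : CSQ) (hS : SCALE) (hG : SCG) : MOV := by
  intro a
  obtain ⟨C1, hC1⟩ := hC a
  refine ⟨3 * C1 + 2 ^ (a + 3) + 10, ?_⟩
  intro α ι κ ρ _ _ _ _ _ _ _ T Y ha hY hι _ _ hT hN S0 S c e f E hc h0 he hE hf hz hib
  classical
  have q0 : 0 < 2 ^ (a + 3) := by positivity
  have p0 : (0 : ℝ) ≤ C1 := Nat.cast_nonneg _
  have p1 : (0 : ℝ) < 2 ^ (a + 3) := by positivity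
  push_cast at hY
  have y6 : 6 ≤ Y := by linarith
  have y2 : 2 ≤ Y := by linarith
  have hcS : c ∉ S0 := fun k => notMem_erase c S (h0 k)
  have hce : c ≠ e := fun k => hcS (k ▸ he)
  have h0S : S0 ⊆ S := h0.trans (erase_subset _ _)
  obtain ⟨m, hm1, hm2, hm3⟩ := H82.ex_m y2 (e := 2) (by norm_num)
  have y3 : Y ≤ Y ^ 3 := H82.pw1 y2 (by norm_num)
  have y23 : C1 * Y + 10 ≤ Y ^ 3 := by nlinarith [mul_self_nonneg Y]
  have yC : Y ^ 4 ≤ Y ^ (3 * C1 + 2 ^ (a + 3) + 10) := H82.pw y2 (by omega)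
  have y34 : 3 * Y ^ 3 ≤ Y ^ 4 := H82.mulpw y2 (by linarith) (by norm_num)
  obtain ⟨cen, E2, hcen, hE2, hv⟩ := hC1 α ι Empty Empty T (Y ^ 3) ha (by linarith)
    (hι.trans (Real.exp_le_exp.2 y3)) (by simp; positivity) (by simp; positivity) hT
    (by rw [← pow_mul]; exact H82.nn_mono hG hT y2 (by omega) hN) S0 e E Y m he (by linarith) hE
    (le_trans (by
      have b1 : (Fintype.card ι : ℝ) + 1 ≤ Real.exp Y * Real.exp Y := by
        nlinarith [Real.add_one_le_exp Y]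
      refine (mul_le_mul_of_nonneg_left b1 (Real.exp_pos _).le).trans ?_
      rw [← Real.exp_add, ← Real.exp_add]
      exact Real.exp_le_exp.2 (by nlinarith)) hm2) hm3
  have h2 := ok_qt (cen := cen) hT hm1
  have hN2 : (T.qt e m cen).N0 (Real.exp (-Y ^ 3)) :=
    H82.nn_sub hG (n := 0) (A := a + 2) (hT.cpy e (Fin 2)) (by simp; omega) y6
      (by norm_num; linarith) (e := 4) (e' := 3) (C := 3 * C1 + 2 ^ (a + 3) + 10) (by norm_num)
      (by omega) (by omega) ((sub_qt hm1 hm3 hcen).mono y34) (hN.2 e 2 (by norm_num))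
  have σ1 : Real.exp (-Y ^ 3) ≤ 1 := Real.exp_le_one_iff.2 (by linarith)
  have L0 : 0 ≤ C1 * Y := by positivity
  have hM := hN2.2.2 (ex S0) (ex S) (ex S0) (Sum.inl c) (disjSum_mono h0S subset_rfl) subset_rfl
    (by simpa [ex] using hc) (by simpa [ex] using hcS) _ _ (bx01 σ1)
  simp only [prod_const_one, mul_one] at hM
  set A := E2.filter fun Z =>
    (T.qt e m cen).Zr (ex S0) (ex S) (Sum.inl c) Z (Real.exp (-Y ^ 3))⁻¹ with hA
  have hAd : (T.qt e m cen).Dn (ex S0) A (C1 * Y + 2) := by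
    refine ⟨(filter_subset _ _).trans hE2.1, ?_⟩
    have b1 : ((E2.filter fun Z => ¬ (T.qt e m cen).Zr (ex S0) (ex S) (Sum.inl c) Z
        (Real.exp (-Y ^ 3))⁻¹).card : ℝ) ≤ Real.exp (-Y ^ 3) * (T.qt e m cen).vol ∅ (ex S0) := by
      refine le_trans (Nat.cast_le.2 (card_le_card fun z hz => ?_)) hM
      rw [mem_filter] at hz ⊢
      exact ⟨mem_fbx01 h2 (hE2.1 hz.1) (ag_empty h2 _ _), hz.2⟩
    have b2 : (E2.card : ℝ) = A.card + (E2.filter fun Z => ¬ (T.qt e m cen).Zr (ex S0) (ex S)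
        (Sum.inl c) Z (Real.exp (-Y ^ 3))⁻¹).card := by
      exact_mod_cast (card_filter_add_card_filter_not _).symm
    have b3 := hE2.2
    have b4 := vol_pos h2 ∅ (ex S0)
    have b5 := mul_le_mul_of_nonneg_right (exp_two (C1 * Y)) b4.le
    have b6 : Real.exp (-Y ^ 3) ≤ Real.exp (-(C1 * Y + 2)) := Real.exp_le_exp.2 (by linarith)
    have b7 := mul_le_mul_of_nonneg_right b6 b4.le
    have b8 := mul_pos (Real.exp_pos (-(C1 * Y + 2))) b4
    linarith
  obtain ⟨E', hE', hb⟩ := cnt hT hm1 he hN2 (by linarith) (Real.exp_le_exp.2 (by linarith)) hAd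
  choose! I hI using hib
  have m1 : (1 : ℝ) ≤ m := by exact_mod_cast hm1
  have eC : Real.exp (-Y ^ (3 * C1 + 2 ^ (a + 3) + 10)) ≤ Real.exp (-(C1 * Y + 2 + 4)) :=
    Real.exp_le_exp.2 (by linarith [pow_pos (by linarith : 0 < Y) 3])
  have e4 : 4 * Real.exp Y ≤ Real.exp (Y ^ (3 * C1 + 2 ^ (a + 3) + 10)) := by
    have b1 : (4 : ℝ) ≤ Real.exp 3 := by linarith [Real.add_one_le_exp (3 : ℝ)]
    refine (mul_le_mul_of_nonneg_right b1 (Real.exp_pos _).le).trans ?_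
    rw [← Real.exp_add]
    exact Real.exp_le_exp.2 (by linarith)
  have hq0 : ∀ W ∈ A, ∀ k, _ := fun W hW k =>
    quad hT he hce W (fun w z => f (T.vx e (qv w) W) k z - I (T.vx e (qv w) W) k z)
      ((hf _ k).sub (hI _ (hv W (mem_filter.1 hW).1 0) k).1)
      (hq hS hT h0S he hcS (ql_pos hm1) hcen W (fun w => f (T.vx e (qv w) W) k)
        (fun w => I (T.vx e (qv w) W) k) (fun w => hf _ k)
        (fun w => hI _ (hv W (mem_filter.1 hW).1 w) k) (hz W (hv W (mem_filter.1 hW).1) k)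
        (num y6 (by rw [pow_succ, pow_succ] at hY; nlinarith [pow_pos (two_pos (α := ℝ)) (a + 1)]) ha)
        (mem_filter.1 hW).2)
  refine ⟨((m : ℝ) ^ 2)⁻¹, E', ?_, inv_le_one_of_one_le₀ (one_le_pow₀ m1), ⟨fun b' hb' => ?_,
    (mul_le_mul_of_nonneg_right eC (vol_pos hT _ _).le).trans hE'⟩, fun b' hb' => ?_⟩
  · rw [Real.exp_neg]
    refine inv_anti₀ (by positivity) ((pow_le_pow_left₀ (by positivity) hm3 2).trans ?_)
    rw [← Real.exp_nat_mul]
    exact Real.exp_le_exp.2 (by push_cast; linarith [pow_pos (by linarith : 0 < Y) 3])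
  · obtain ⟨Z, hZ, rfl, _⟩ := hb b' hb'
    rw [← vx0]
    exact res_mem hT (hE.1 (hv Z (mem_filter.1 hZ).1 0)) (erase_subset _ _)
  obtain ⟨Z, hZ, rfl, hcard⟩ := hb b' hb'
  have hy0 : T.bs e Z ∈ E := vx0 Z ▸ hv Z (mem_filter.1 hZ).1 0
  have hsb : ∀ y ∈ sb T e A Z, ∃ W ∈ A, T.bs e W = T.bs e Z ∧ T.vx e (qv 1) W = y := fun y hy => by
    simp only [sb, mem_image, mem_filter] at hy
    obtain ⟨W, ⟨h1, h3⟩, h4⟩ := hy
    exact ⟨W, h1, h3, h4⟩
  refine ⟨fun v => if T.ty v ⊆ S0 then T.u (cz (T.bs e Z)) v + T.hc e cen 0 v else 0, sb T e A Z,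
    fun k z => JJ T S0 S c e (T.bs e Z) (fun x => f (T.bs e Z) k x - I (T.bs e Z) k x) (T.u z),
    fun v => ?_, fun y hy => ?_, fun y hy => ?_, ?_, fun k => ⟨?_, ?_⟩, fun y hy k => ?_⟩
  · show |if _ then _ else _| ≤ _
    split_ifs with h1
    · have b1 := ((mem_pts hT).1 (hE.1 hy0)).2 v h1
      have b2 : |T.hc e cen 0 v| ≤ 1 := by
        by_cases h3 : e ∈ T.ty v
        · rw [hc_of _ 0 h3]
          linarith [hcen (Sum.inr (0, ⟨v, h3⟩)), ql_pos (T := T) hm1 (Sum.inr (0, ⟨v, h3⟩))]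
        · rw [hc_not _ 0 h3]; simp
      exact (abs_add_le _ _).trans (by linarith)
    · simp
  · obtain ⟨W, hW, _, rfl⟩ := hsb y hy
    exact hv W (mem_filter.1 hW).1 1
  · obtain ⟨W, hW, h1, rfl⟩ := hsb y hy
    unfold fbx
    rw [mem_filter]
    refine ⟨pts_mono hT (by norm_num) (hE.1 (hv W (mem_filter.1 hW).1 1)),
      ((of_vx _ W).ag (notMem_erase e S0)).trans (h1 ▸ (ag_res _ _).symm), fun v hv' => ?_⟩
    have h3 : e ∈ T.ty v := by
      by_contra k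
      exact (mfv.1 hv').2 (subset_erase.2 ⟨(mfv.1 hv').1, k⟩)
    have b1 : |((T.cpy e (Fin 2)).u (cz W) (Sum.inr (0, ⟨v, h3⟩)) - cen (Sum.inr (0, ⟨v, h3⟩))) /
        ((m : ℝ) ^ 2)⁻¹| ≤ 1 :=
      ((mem_pts h2).1 (hAd.1 hW)).2 (Sum.inr (0, ⟨v, h3⟩))
        ((inr_sub he).2 ⟨(mfv.1 hv').1, mem_univ _⟩)
    rw [abs_div, abs_of_pos (by positivity : (0 : ℝ) < ((m : ℝ) ^ 2)⁻¹),
      div_le_one (by positivity)] at b1
    show |_ - if _ then _ else _| ≤ _
    rw [if_pos (mfv.1 hv').1, cz_vx, hT.u_vx, vx1, Pi.add_apply, hc_of _ 0 h3, hc_of _ 0 h3, ← h1]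
    have b2 : T.bs e ((T.cpy e (Fin 2)).u (cz W)) v = T.u (cz (T.bs e W)) v := rfl
    rw [b2, add_sub_add_left_eq_sub]
    exact b1
  · exact (mul_le_mul_of_nonneg_right eC (mul_nonneg (vol_pos hT _ _).le
      (prod_nonneg fun _ _ => by positivity))).trans hcard
  · have b1 := fm_JJ (S0 := S0) (c := c) (e := e) (y := T.bs e Z) hT
      ((hf (T.bs e Z) k).sub (hI _ hy0 k).1)
    have b2 := (hq0 Z hZ k).2
    rw [vx0] at b2
    refine Tm.fm hT.fu ⟨b1.1, fun d hd => ?_⟩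
    rcases mem_insert.1 hd with rfl | hd
    · exact b2
    · exact b1.2 d hd
  · exact (osc_JJ hT (hI _ hy0 k).2.2 _).mono e4
  · obtain ⟨W, hW, h1, rfl⟩ := hsb y hy
    have hy1 := hv W (mem_filter.1 hW).1 1
    have b1 := (hq0 W hW k).1
    rw [vx0, h1] at b1
    refine ⟨I _ k, (hI _ hy1 k).1, (hI _ hy1 k).2.1, ?_⟩
    refine ((osc_rest (e := e) hT ((hf _ k).sub (hI _ hy1 k).1).1 (hI _ hy1 k).2.2).mono
      (le_trans (by linarith [Real.exp_pos Y]) e4)).eq fun z _ => ?_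
    simp only [b1]
    ring

end Vale.Agent.P057T.Gk.H81
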