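import Vale.Agent.P057T.Gk.Rows
import Vale.Agent.P057T.Gk.Bas2

/-! Levels `Y ^ K ^ e` and monotonicity of states. -/

set_option linter.all false

open Finset

namespace Vale.Agent.P057T.Gk

open TT

noncomputable section

/-- the level number `e` -/
def lv (K : ℕ) (Y : ℝ) (e : ℕ) : ℝ := Y ^ K ^ e

namespace Lvl

variable {K : ℕ} {Y U : ℝ}

theorem zero : lv K Y 0 = Y := by simp [lv]

theorem succ (e : ℕ) : lv K Y (e + 1) = lv K Y e ^ K := by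
  simp [lv, pow_succ, pow_mul]

theorem mono (hK : 5 ≤ K) (hY : (K : ℝ) ≤ Y) {e e' : ℕ} (h : e ≤ e') : lv K Y e ≤ lv K Y e' := by
  have : (5 : ℝ) ≤ K := by exact_mod_cast hK
  exact pow_le_pow_right₀ (by linarith) (Nat.pow_le_pow_right (by omega) h)

theorem ge (hK : 5 ≤ K) (hY : (K : ℝ) ≤ Y) (e : ℕ) : Y ≤ lv K Y e := by
  have := mono hK hY (Nat.zero_le e)
  rwa [zero] at this

theorem geK (hK : 5 ≤ K) (hY : (K : ℝ) ≤ Y) (e : ℕ) : (K : ℝ) ≤ lv K Y e := hY.trans (ge hK hY e)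

theorem ge5 (hK : 5 ≤ K) (hY : (K : ℝ) ≤ Y) (e : ℕ) : (5 : ℝ) ≤ lv K Y e :=
  le_trans (by exact_mod_cast hK) (geK hK hY e)

theorem geC (hK : 5 ≤ K) (hY : (K : ℝ) ≤ Y) (e : ℕ) {x : ℕ} (hx : x ≤ K) : (x : ℝ) ≤ lv K Y e :=
  le_trans (by exact_mod_cast hx) (geK hK hY e)

theorem pw (hK : 5 ≤ K) (hY : (K : ℝ) ≤ Y) (e : ℕ) {x : ℕ} (hx : x ≤ K) :
    lv K Y e ^ x ≤ lv K Y (e + 1) := by
  rw [succ]
  exact pow_le_pow_right₀ (by linarith [ge5 hK hY e]) hx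

theorem mul (hK : 5 ≤ K) (hY : (K : ℝ) ≤ Y) (e : ℕ) {x : ℝ} (hx : x ≤ K) :
    x * lv K Y e ≤ lv K Y (e + 1) := by
  have h5 := ge5 hK hY e
  have h := pw hK hY e (x := 2) (by omega)
  have hk := geK hK hY e
  nlinarith

theorem le_lv (hK : 5 ≤ K) (hY : (K : ℝ) ≤ Y) (hU : Y ≤ U) (e : ℕ) : lv K Y e ≤ lv K U e := by
  have : (5 : ℝ) ≤ K := by exact_mod_cast hK
  exact pow_le_pow_left₀ (by linarith) hU _

theorem res (hK : 5 ≤ K) (hY : (K : ℝ) ≤ Y) (hU : Y ≤ U) {j e x : ℕ} (hj : j ≤ e) (hx : 2 * x ≤ K)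
    {w : ℝ} (h0 : 0 ≤ w) (hw : w ≤ lv K U e) : (lv K Y j + w) ^ x ≤ lv K U (e + 1) := by
  have hU' : (K : ℝ) ≤ U := hY.trans hU
  have h1 : lv K Y j ≤ lv K U e := (le_lv hK hY hU j).trans (mono hK hU' hj)
  have h5 := ge5 hK hU' e
  have h6 := ge5 hK hY j
  calc (lv K Y j + w) ^ x ≤ (lv K U e ^ 2) ^ x := pow_le_pow_left₀ (by linarith) (by nlinarith) _
    _ = lv K U e ^ (2 * x) := by rw [pow_mul]
    _ ≤ _ := pw hK hU' e hx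

theorem ex4 (hK : 5 ≤ K) (hY : (K : ℝ) ≤ Y) (e : ℕ) :
    K * Real.exp (lv K Y e) ^ 4 ≤ Real.exp (lv K Y (e + 1)) := by
  have h5 := ge5 hK hY e
  have hk := geK hK hY e
  have h := mul hK hY e (x := 5) (by exact_mod_cast hK)
  have h1 : (K : ℝ) ≤ Real.exp (lv K Y e) := hk.trans (by linarith [Real.add_one_le_exp (lv K Y e)])
  calc K * Real.exp (lv K Y e) ^ 4 ≤ Real.exp (lv K Y e) * Real.exp (lv K Y e) ^ 4 := by gcongr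
    _ = Real.exp (5 * lv K Y e) := by
      rw [← pow_succ', ← Real.exp_nat_mul]; norm_num
    _ ≤ _ := Real.exp_le_exp.2 h

theorem le_ex (x : ℝ) : x ≤ Real.exp x := by linarith [Real.add_one_le_exp x]

theorem one_ex (hK : 5 ≤ K) (hY : (K : ℝ) ≤ Y) (e : ℕ) : 1 ≤ Real.exp (lv K Y e) :=
  Real.one_le_exp (by linarith [ge5 hK hY e])

theorem exm (hK : 5 ≤ K) (hY : (K : ℝ) ≤ Y) {e e' : ℕ} (h : e ≤ e') :
    Real.exp (lv K Y e) ≤ Real.exp (lv K Y e') := Real.exp_le_exp.2 (mono hK hY h)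

theorem ex5 (hK : 5 ≤ K) (hY : (K : ℝ) ≤ Y) (e : ℕ) :
    5 * Real.exp (lv K Y e) ≤ Real.exp (lv K Y (e + 1)) := by
  have h := ex4 hK hY e
  have h1 := one_ex hK hY e
  have h5 : (5 : ℝ) ≤ K := by exact_mod_cast hK
  have h2 : Real.exp (lv K Y e) ≤ Real.exp (lv K Y e) ^ 4 := le_self_pow₀ h1 (by norm_num)
  nlinarith

end Lvl

variable {α ι κ : Type} [Fintype α] [DecidableEq α] [Fintype ι] [DecidableEq ι] {T : TT α ι}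

theorem TT.Dn.mono {S : Finset α} {Ω : Finset (ι → ℤ)} {Y Y' : ℝ} (h : T.Dn S Ω Y) (hT : T.Ok)
    (hY : Y ≤ Y') : T.Dn S Ω Y' :=
  ⟨h.1, le_trans (mul_le_mul_of_nonneg_right (Real.exp_le_exp.2 (by linarith))
    (vol_pos hT _ _).le) h.2⟩

theorem TT.HS.mono {S : Finset α} {c i : α} {τ : κ → Fn ι} {Ω Ω' : Finset (ι → ℤ)} {H H' : ℝ}
    (h : T.HS S c τ Ω i H) (hΩ : Ω' ⊆ Ω) (hH : H ≤ H') : T.HS S c τ Ω' i H' := fun Z hZ k =>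
  IB.mono (h Z (fun w => by
    obtain ⟨ω, h1, h2⟩ := hZ w
    exact ⟨ω, hΩ h1, h2⟩) k) hH

theorem TT.St.mono {S F : Finset α} {c : α} {τ : κ → Fn ι} {Ω : Finset (ι → ℤ)} {Y Y' : ℝ}
    (h : T.St S c F τ Ω Y) (hT : T.Ok) (hY : Y ≤ Y') : T.St S c F τ Ω Y' :=
  ⟨h.hc, h.hF, h.fm, h.dn.mono hT hY, fun i hi =>
    (h.hs i hi).mono (Subset.refl _) (Real.exp_le_exp.2 hY)⟩

theorem TT.Rel.mono {S : Finset α} {c : α} {n : ℕ} {τ τ' : κ → Fn ι} {Ω Ω' : Finset (ι → ℤ)}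
    {H H' : ℝ} (h : T.Rel S c n τ τ' Ω H) (hΩ : Ω' ⊆ Ω) (hH : H ≤ H') : T.Rel S c n τ τ' Ω' H' :=
  fun z hz k => IB.mono (h z (hΩ hz) k) hH

theorem TT.Rel.trans {S : Finset α} {c : α} {n n' : ℕ} {τ τ' τ'' : κ → Fn ι} {Ω : Finset (ι → ℤ)}
    {H H' : ℝ} (h : T.Rel S c n τ τ' Ω H) (h' : T.Rel S c n' τ' τ'' Ω H') :
    T.Rel S c (n' * n) τ τ'' Ω (n' * H + H') := fun z hz k =>
  IB.eq (IB.add (IB.nsmul (h z hz k) n') (h' z hz k)) (fun x _ => by push_cast; ring)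

theorem TT.Ct.mono {S0 S : Finset α} {b : ι → ℤ} {σ σ' : ℝ} {c r : ι → ℝ} (hT : T.Ok)
    (h : T.Ct S0 S b σ c r) (hs : σ ≤ σ') (hr : ∀ v, 0 ≤ r v) : T.Ct S0 S b σ' c r :=
  le_trans h (mul_le_mul_of_nonneg_right hs
    (mul_nonneg (vol_pos hT _ _).le (prod_nonneg fun v _ => hr v)))

theorem TT.Eq.mono {S0 S : Finset α} {b : ι → ℤ} {σ σ' : ℝ} (hT : T.Ok)
    (h : T.Eq S0 S b σ) (h0 : 0 ≤ σ) (hs : σ ≤ σ') : T.Eq S0 S b σ' := fun c r hb =>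
  (h c r fun v => ⟨hs.trans (hb v).1, (hb v).2⟩).mono hT hs fun v => (h0.trans hs).trans (hb v).1

theorem TT.Mo.mono {S : Finset α} {σ σ' : ℝ} {p q : (ι → ℤ) → Prop} (hT : T.Ok)
    (h : T.Mo S σ p) (h0 : 0 ≤ σ) (hs : σ ≤ σ') (hp : ∀ z, p z → q z) : T.Mo S σ' q := by
  classical
  intro c r hb
  refine le_trans ?_ (le_trans (h c r fun v => ⟨hs.trans (hb v).1, (hb v).2⟩)
    (mul_le_mul_of_nonneg_right hs (mul_nonneg (vol_pos hT _ _).le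
      (prod_nonneg fun v _ => (h0.trans hs).trans (hb v).1))))
  refine Nat.cast_le.2 (card_le_card fun z hz => ?_)
  simp only [mem_filter] at hz ⊢
  exact ⟨hz.1, fun h' => hz.2 (hp z h')⟩

theorem TT.G0.mono {σ σ' : ℝ} (hT : T.Ok) (h : T.G0 σ) (h0 : 0 ≤ σ) (hs : σ ≤ σ') : T.G0 σ' :=
  ⟨fun S => (h.1 S).mono hT h0 hs, fun S S1 a h1 h2 =>
    (h.2 S S1 a h1 h2).mono hT h0 hs fun z hz => hz.mono hT h0 hs⟩

theorem gn_mono (hc : CPOK) {σ σ' : ℝ} (h0 : 0 ≤ σ) (hs : σ ≤ σ') (n : ℕ) :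
    ∀ (α ι : Type) [Fintype α] [DecidableEq α] [Fintype ι] [DecidableEq ι] (T : TT α ι), T.Ok →
      T.Gn n σ → T.Gn n σ' := by
  induction n with
  | zero => intro α ι _ _ _ _ T hT h; exact TT.G0.mono hT h h0 hs
  | succ n ih =>
    intro α ι _ _ _ _ T hT h
    exact ⟨TT.G0.mono hT h.1 h0 hs, fun i m hm =>
      ih _ _ _ ((hc α ι T hT).1 i (Fin m)).1 (h.2 i m hm)⟩

end

end Vale.Agent.P057T.Gk
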