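import Vale.Agent.P057T.Gk.Kd
import Vale.Agent.P057T.Gk.Glu

/-! Row `ONE` from its counting part. -/

set_option linter.all false

open Finset MvPolynomial

namespace Vale.Agent.P057T.Gk

open Vale.Agent.P057T.One Vale.Agent.P057T.L1 Vale.Agent.P057T.Brg TT O31

noncomputable section

theorem O31.num {a C C1 g D m : ℕ} {Y : ℝ} (hg : g ≤ a) (hC : 7 * a + 12 ≤ C) (hY : (C : ℝ) ≤ Y)
    (hD : (D : ℝ) ≤ Real.exp Y) (hm : (m : ℝ) ≤ Real.exp (Y ^ C1)) :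
    12 * ((8 * (D : ℝ) + 1) ^ g * (2 * ((6 * (m : ℝ) ^ 3) ^ g * Real.exp Y)) * 9 ^ g) ≤
      Real.exp (Y ^ (C * (C1 + 1))) ∧ (m : ℝ) ^ 5 ≤ Real.exp (Y ^ (C * (C1 + 1))) ∧
      Y ^ 2 ≤ Y ^ (C * (C1 + 1)) ∧ Y ^ 2 ≤ Y ^ C := by
  have c1 : ((7 * a + 12 : ℕ) : ℝ) ≤ Y := le_trans (by exact_mod_cast hC) hY
  push_cast at c1
  have a0 : (0 : ℝ) ≤ a := Nat.cast_nonneg a
  have y1 : 1 ≤ Y := by linarith
  set Z := Y ^ (C1 + 1) with hZ
  have z1 : Y ≤ Z := le_self_pow₀ y1 (by omega)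
  have z2 : Y ^ C1 ≤ Z := pow_le_pow_right₀ y1 (by omega)
  have z3 : Y * Z ≤ Y ^ (C * (C1 + 1)) := by
    rw [hZ, ← pow_succ']
    exact pow_le_pow_right₀ y1 (by nlinarith)
  set u := Real.exp Z with hu
  have u1 : 12 ≤ u := by linarith [Real.add_one_le_exp Z]
  have u2 : Real.exp Y ≤ u := Real.exp_le_exp.2 z1
  have u3 : (m : ℝ) ≤ u := hm.trans (Real.exp_le_exp.2 z2)
  have up : ∀ n : ℕ, (n : ℝ) ≤ Y → u ^ n ≤ Real.exp (Y ^ (C * (C1 + 1))) := fun n hn => by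
    rw [hu, ← Real.exp_nat_mul]
    exact Real.exp_le_exp.2 ((mul_le_mul_of_nonneg_right hn (by linarith)).trans z3)
  have b1 : 8 * (D : ℝ) + 1 ≤ u ^ 2 := by nlinarith
  have b2 : 6 * (m : ℝ) ^ 3 ≤ u ^ 4 := by
    have := pow_le_pow_left₀ (Nat.cast_nonneg m) u3 3
    rw [pow_succ' u 3]
    exact mul_le_mul (by linarith) this (by positivity) (by linarith)
  refine ⟨?_, (pow_le_pow_left₀ (Nat.cast_nonneg m) u3 5).trans (up 5 (by push_cast; linarith)),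
    pow_le_pow_right₀ y1 (by nlinarith), pow_le_pow_right₀ y1 (by omega)⟩
  refine le_trans ?_ (up (7 * g + 3) (by
    have : (g : ℝ) ≤ a := by exact_mod_cast hg
    push_cast; linarith))
  calc _ ≤ u * ((u ^ 2) ^ g * (u * ((u ^ 4) ^ g * u)) * u ^ g) := by
        gcongr <;> linarith
    _ = u ^ (7 * g + 3) := by ring

theorem O31.cyR {ι : Type} [Fintype ι] [DecidableEq ι] (r : Fin 3) {be : Fin 4 → W ι ι 3} (h : ∀ t x d,
    evc (be 0) (cy r 0) t x d - evc (be 1) (cy r 1) t x d + evc (be 2) (cy r 2) t x d -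
      evc (be 3) (cy r 3) t x d = 0) :
    (![S1, S2, S3] : Fin 3 → W ι ι 3 → Prop) r (be 0) ∧
      (![lab1, lab2, lab3] : Fin 3 → W ι ι 3 → W ι ι 2) r (be 0) =
        (![lab1, lab2, lab3] : Fin 3 → W ι ι 3 → W ι ι 2) r (be 3) :=
  match r, h with
  | 0, h => cyA h
  | 1, h => cyB h
  | 2, h => cyC h

theorem one (hO : ONEC) : ONE := by
  intro a
  obtain ⟨C0, hO⟩ := hO
  refine ⟨C0 + 7 * a + 12, ?_⟩
  intro α ι κ ρ _ _ _ _ _ _ _ T Y ha hY hD _ _ hT _ S F c i f Ω m cen hc hF hi hm C1 hm1 hN hQ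
  set C := C0 + 7 * a + 12 with hC
  set B := S.erase c \ F with hB
  have hBS : B ⊆ S := sdiff_subset.trans (erase_subset _ _)
  have eG : S \ B = insert c F := by
    ext x
    simp only [hB, mem_sdiff, mem_erase, mem_insert, not_and, not_not]
    constructor
    · rintro ⟨h1, h2⟩
      by_cases h : x = c
      · exact Or.inl h
      · exact Or.inr (h2 ⟨h, h1⟩)
    · rintro (rfl | h)
      · exact ⟨hc, fun h => absurd rfl h.1⟩
      · exact ⟨mem_of_mem_erase (hF h), fun _ => h⟩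
  have hcG : c ∈ S \ B := eG ▸ mem_insert_self c F
  obtain ⟨n1, n2, n3, n4⟩ := O31.num (a := a) (C := C) (C1 := C1) (g := (S \ B).card)
    ((card_le_univ _).trans ha) (by omega) hY hD hm1
  set Y' := Y ^ (C * (C1 + 1)) with hY'
  have y0 : (C0 : ℝ) + 1 ≤ Y := le_trans (by exact_mod_cast (by omega : C0 + 1 ≤ C)) hY
  have c0 : (0 : ℝ) ≤ C0 := Nat.cast_nonneg _
  have yy : C0 * Y ≤ Y ^ 2 := by nlinarith
  have m1 : 1 ≤ m := by
    have : (1 : ℝ) ≤ m := (Real.one_le_exp (by nlinarith)).trans hm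
    exact_mod_cast this
  set N := (8 * (Fintype.card ι : ℝ) + 1) ^ (S \ B).card *
    (2 * ((6 * (m : ℝ) ^ 3) ^ (S \ B).card * Real.exp Y)) with hN'
  have N0 : 0 ≤ N := by positivity
  have N1 : N ≤ N * 9 ^ (S \ B).card := le_mul_of_one_le_right N0 (one_le_pow₀ (by norm_num))
  obtain ⟨hcen, hf, E, hE, hQ⟩ := hQ
  rw [← eG] at hf
  have fQ : ∀ k, (T.cpy i (Fin 2)).Fm (ex S) (ex S \ ex B) (T.Q i fun w => f w k) := fun k =>
    fm_sum univ fun w _ => ((hf w k).vx (qv w) (by simp [ex]) (fun _ _ => by simp [ex])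
      (fun a ha _ => by simpa [ex] using ha) fun k hk _ => by simp [ex] at hk).smul (sg w)
  have ex1 : ∀ (Z : T.CV i (Fin 2) → ℤ) (k : κ), ∃ (I : Fn (T.CV i (Fin 2))) (be : W ι ι 3),
      Z ∈ E → ((T.cpy i (Fin 2)).Fm (ex S) (ex S \ ex B) I ∧ (T.cpy i (Fin 2)).IsI (ex B) Z I) ∧
      (BE T B S i c ((T.cpy i (Fin 2)).u (cz Z)) (fun X => T.Q i (fun w => f w k)
        ((T.cpy i (Fin 2)).ψ X) - I ((T.cpy i (Fin 2)).ψ X)) be ∧
      be.totalDegree ≤ (S \ B).card ∧ nrm be ≤ N) ∧ SpW T B S i 3 be := by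
    intro Z k
    by_cases hZ : Z ∈ E
    · obtain ⟨I, i1, i2, i3⟩ := (hQ Z hZ).2 k
      obtain ⟨be, b1, b2, b3, b4⟩ := ka1 hT hi hBS hcG m1 hcen Z ((fQ k).sub i1) i3
      exact ⟨I, be, fun _ => ⟨⟨i1, i2⟩, ⟨b1, b3, b4⟩, b2⟩⟩
    · exact ⟨fun _ => 0, 0, fun h => absurd h hZ⟩
  choose I be hb using ex1
  let P : Fin 3 → (T.CV i (Fin 2) → ℤ) → Prop := fun r Z => ∀ k,
    (![S1, S2, S3] : Fin 3 → W ι ι 3 → Prop) r (be Z k)
  let l : Fin 3 → (T.CV i (Fin 2) → ℤ) → κ → W ι ι 2 := fun r Z k =>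
    (![lab1, lab2, lab3] : Fin 3 → W ι ι 3 → W ι ι 2) r (be Z k)
  have N4 : (T.cpy i (Fin 4)).N0 (Real.exp (-Y')) := hN.2 i 4 (by norm_num)
  obtain ⟨E', y3, Ff, Gf, Hf, kk, hE', hZ⟩ := hO α ι T Y (Real.exp (-Y')) B i m cen E (κ → W ι ι 2)
    (κ → V ι ι) P l (fun L k => k41 (L k)) (fun L k => k42 (L k))
    (fun Z' => (T.cpy i (Fin 4)).Zr (B.disjSum univ) (S.disjSum univ) (Sum.inl c) Z'
      (Real.exp (-Y'))⁻¹) (by linarith) hD hT hi
    ((Real.exp_le_exp.2 (yy.trans n4)).trans hm) (Real.exp_pos _) (by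
      rw [Real.exp_neg, inv_mul_le_iff₀ (Real.exp_pos _), mul_one]; exact n2) hN hcen hE
    (N4.2.2 _ _ _ _ (disjSum_mono hBS subset_rfl) subset_rfl (by simpa using hc)
      (by simpa using (mem_sdiff.1 hcG).2))
    (fun Z h0 h1 h2 => funext fun k => by
      obtain ⟨q1, q2, -⟩ := alg (h0 k) (h1 k) (h2 k)
      exact q1.trans q2)
    (fun r Z' hZ' hj => by
      have key := fun k => c4z hT hi hBS hcG Z' hZ' (cy r) (cy_le r)
        (fun j => I (pl T i (cy r j) Z') k) (fun j => be (pl T i (cy r j) Z') k) (fQ k)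
        (fun j => (hb _ k (hj j)).1) (fun j => (hb _ k (hj j)).2.1) (tel_cy r _) (by
          rw [Real.exp_neg, inv_inv]; nlinarith)
      have key2 := fun k => O31.cyR r (be := fun j => be (pl T i (cy r j) Z') k) (key k)
      exact ⟨fun k => (key2 k).1, funext fun k => (key2 k).2⟩)
  let p3 : (ι → ℤ) → κ → V ι ι := fun b k =>
    PZ T B S i c (cz (y3 b)) (gw T B S i (f 3 k) (-1) (kk b k))
  choose Cf c1 c2 using fun k => glu α ι T (B.erase i) S (insert i (S \ B))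
    (fun b => VF T B S i (lin (p3 b k))) ((erase_subset _ _).trans hBS) (fun a ha h => by
      rcases mem_insert.1 ha with rfl | ha
      · exact notMem_erase _ _ h
      · exact (mem_sdiff.1 ha).2 (mem_of_mem_erase h)) fun b => fm_CF (spV_PZ _ _)
  have lp : ∀ V, 0 < T.ql i m V := fun V =>
    lt_of_lt_of_le (by positivity) (ql_ge' (T := T) (i := i) m1 V)
  refine ⟨hcen, fun y k => VF T B S i (scl 0 (PZ T B S i c (cz y)
      (gw T B S i (f 0 k) (-1) (k1 (Ff y k))))),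
    fun y k => VF T B S i (scl 0 (PZ T B S i c (cz y) (gw T B S i (f 1 k) 1 (k2 (Gf y k))))),
    fun y k x => VF T B S i (scl 0 (PZ T B S i c
      (cz (y3 (T.res (B.erase i) y) - (y - T.res (B.erase i) y)))
      (gw T B S i (f 2 k) 1 (k2 (Hf y k))))) x -
      VF T B S i (scl 0 (p3 (T.res (B.erase i) y) k)) x, Cf, E', fun y k => ?_, fun k => ?_,
    ⟨hE'.1, le_trans ?_ hE'.2⟩, fun Z hZE => ?_⟩
  · rw [← eG]
    exact ⟨fm_AF (spV_PZ _ _), fm_AF (spV_PZ _ _), (fm_AF (spV_PZ _ _)).sub (fm_AF (spV_PZ _ _))⟩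
  · rw [← eG]
    exact c1 k
  · exact mul_le_mul_of_nonneg_right (Real.exp_le_exp.2 (by linarith))
      (vol_pos ((hT.cpy i (Fin 2)).sc lp cen) _ _).le
  obtain ⟨Z2, hZ2, z1, z2, z3, z4, z5, z6, z7, z8⟩ := hZ Z hZE
  have hw : (T.win i m cen).Ok := hT.sc (fun v => lp (Sum.inl v)) _
  refine ⟨?_, fun k => ?_⟩
  · have := (hQ Z2 hZ2).1
    rw [z1] at this
    exact le_trans (mul_le_mul_of_nonneg_right (Real.exp_le_exp.2 (by nlinarith))
      (vol_pos hw _ _).le) this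
  have v0 : T.vx i (qv 0) Z2 = T.bs i Z := by
    rw [← z1, vx_eq]; simp [qv, Fin.sum_univ_two]
  have v1 : T.vx i (qv 1) Z2 = T.bs i Z + T.hc i Z 0 := by
    rw [← z1, ← z2, vx_eq]; simp [qv, Fin.sum_univ_two]
  have r1 : T.res (B.erase i) (T.res (B.erase i) (T.bs i Z) + T.hc i Z 0) =
      T.res (B.erase i) (T.bs i Z) := by
    rw [← res_res subset_rfl (T.bs i Z)]
    refine res_congr fun v hv => ?_
    rw [Pi.add_apply, hc_not _ _ fun h => notMem_erase i B (hv h), add_zero, res_res subset_rfl]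
  have v2 : T.vx i (qv 2) Z2 = y3 (T.res (B.erase i) (T.bs i Z)) - T.hc i Z 0 := by
    rw [← z3, ← z2, vx_eq, vx_eq]; simp [qv, Fin.sum_univ_two]; abel
  have l0 : lab1 (be Z2 k) = Ff (T.bs i Z) k := congrFun z5 k
  have l1 : lab2 (be Z2 k) = Gf (T.bs i Z + T.hc i Z 0) k := congrFun z6 k
  have l2 : lab3 (be Z2 k) = Hf (T.res (B.erase i) (T.bs i Z) + T.hc i Z 0) k := congrFun z7 k
  have l3 : k42 (lab3 (be Z2 k)) = kk (T.res (B.erase i) (T.bs i Z)) k := congrFun z8 k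
  obtain ⟨⟨i1, i2⟩, ⟨b1, -, b3⟩, b4⟩ := hb Z2 k hZ2
  obtain ⟨k1', k2'⟩ := ka3 hT hi hBS hcG Z2 (f := fun w => f w k) (fun w => hf w k) i1 i2 (fQ k).1
    b1 b4 (z4 0 k) (z4 1 k) (z4 2 k) rfl rfl rfl rfl
  rw [l3] at k1' k2'
  rw [v0, z3, l0, z1] at k1'
  rw [v0, v1, v2, z3, l0, l1, l2, z1] at k2'
  constructor
  · refine IB.sc ((k1'.eq fun z hz => ?_).mono (by linarith)) (fun v => lp (Sum.inl v))
      fun v => hcen (Sum.inl v)
    simp only [c2 k _ z (hz.mono (erase_subset _ _)), p3]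
  · refine (k2'.eq fun z _ => ?_).mono (by linarith)
    simp only [← hB, r1, add_sub_cancel_left, p3]

end

end Vale.Agent.P057T.Gk
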