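import Vale.Agent.P057T.Gk.Num
import Vale.Agent.P057T.Gk.CntH51

/-! Step (3), geometry. -/

set_option linter.all false

open Finset

namespace Vale.Agent.P057T.Gk

open TT

noncomputable section

namespace P1P

variable {α ι κ ρ : Type} [Fintype α] [DecidableEq α] [Fintype ι] [DecidableEq ι] [Fintype ρ]
  [DecidableEq ρ] {T : TT α ι}

def sz : Fin 4 → ℤ := ![1, -1, -1, 1]

theorem sz_cast (w : Fin 4) : (sz w : ℝ) = sg w := by fin_cases w <;> simp [sz, sg]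
theorem sg_sq (w : Fin 4) : sg w * sg w = 1 := by fin_cases w <;> simp [sg]
theorem qv0 : qv 0 = 0 := by funext k; fin_cases k <;> rfl

def ga (T : TT α ι) (i : α) (g : ρ → Fn ι) : Fin 4 × ρ → Fn (T.CV i (Fin 2)) :=
  fun p x => g p.2 (T.vx i (qv p.1) x)
def ca (T : TT α ι) (i : α) (cc : κ → ρ → Fn ι) : κ → Fin 4 × ρ → Fn (T.CV i (Fin 2)) :=
  fun k p x => sg p.1 * cc k p.2 (T.vx i (qv p.1) x)
def aa (T : TT α ι) (i : α) (a : κ → Fn ι) : κ → Fn (T.CV i (Fin 2)) :=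
  fun k => T.Q i (fun _ => a k)

theorem tw_Q (i : α) (a : κ → Fn ι) (cc : κ → ρ → Fn ι) (g : ρ → Fn ι) (k : κ)
    (x : T.CV i (Fin 2) → ℝ) :
    T.Q i (fun _ => tw a cc g k) x = tw (aa T i a) (ca T i cc) (ga T i g) k x := by
  simp only [tw, aa, ca, ga, Q, Fintype.sum_prod_type, mul_add, sum_add_distrib, mul_sum]
  congr 1
  refine sum_congr rfl fun w _ => sum_congr rfl fun r _ => by ring

theorem lc_Q (i : α) (g : ρ → Fn ι) (K : Fin 4 × ρ → ℤ) (x : T.CV i (Fin 2) → ℝ) :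
    lc K (ga T i g) x = T.Q i (fun w => lc (fun r => sz w * K (w, r)) g) x := by
  simp only [lc, ga, Q, Fintype.sum_prod_type, mul_sum]
  refine sum_congr rfl fun w _ => sum_congr rfl fun r _ => ?_
  push_cast
  rw [sz_cast]
  have := sg_sq w
  linear_combination (-(K (w, r) : ℝ) * g r (T.vx i (qv w) x)) * this

def z0 (ζ : ρ → ℤ) : Fin 4 × ρ → ℤ := fun p => if p.1 = 0 then ζ p.2 else 0

theorem lc_z0 (i : α) (cc : κ → ρ → Fn ι) (ζ : ρ → ℤ) (k : κ) (x : T.CV i (Fin 2) → ℝ) :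
    lc (z0 ζ) (ca T i cc k) x = lc ζ (cc k) (T.bs i x) := by
  simp only [lc, ca, z0, Fintype.sum_prod_type, Fin.sum_univ_four]
  simp [qv0, vx_zero, sg]

theorem dot_z0 (K : Fin 4 × ρ → ℤ) (ζ : ρ → ℤ) : ∑ p, K p * z0 ζ p = ∑ r, K (0, r) * ζ r := by
  simp only [z0, Fintype.sum_prod_type, Fin.sum_univ_four]
  simp

theorem abs_z0 (ζ : ρ → ℤ) : ∑ p, |(z0 ζ p : ℝ)| = ∑ r, |(ζ r : ℝ)| := by
  simp only [z0, Fintype.sum_prod_type, Fin.sum_univ_four]
  simp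

theorem fm_lc {S G : Finset α} (K : ρ → ℤ) {g : ρ → Fn ι} (h : ∀ r, T.Fm S G (g r)) :
    T.Fm S G (lc K g) := fm_sum univ fun r _ => (h r).smul _

theorem lad_mono {k p l ζ : ρ → ρ → ℤ} {D0 : ℕ} {Y Y' : ℝ} (h : LAD k D0 p l ζ Y) (hY : Y ≤ Y') :
    LAD k D0 p l ζ Y' := by
  have e := Real.exp_le_exp.2 hY
  exact ⟨h.d1, h.d2.trans e, fun s r => ⟨(h.bd s r).1.trans e, (h.bd s r).2.1.trans e,
    (h.bd s r).2.2.1.trans e, (h.bd s r).2.2.2.trans e⟩, h.ort, h.id⟩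

theorem pop_congr {B : Finset α} {Ω : Finset (ι → ℤ)} {b b' : ι → ℤ} {L : ℝ} (h : T.Ag B b b')
    (H : T.Pop B Ω b L) : T.Pop B Ω b' L := by
  classical
  refine le_trans H (Nat.cast_le.2 (card_le_card fun z hz => ?_))
  simp only [mem_filter] at hz ⊢
  exact ⟨hz.1, hz.2.1, hz.2.2.trans h⟩

variable {i : α} {m : ℕ} {cen : T.CV i (Fin 2) → ℝ}

/-- prune the first vertices with a thin fibre, then project -/
theorem prune1 (hT : T.Ok) (hm : 1 ≤ m) {σ L : ℝ} (h2 : (T.qt i m cen).N0 σ)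
    (hw : (T.win i m cen).N0 σ) (hL : 0 ≤ L) (hσ : σ ≤ Real.exp (-(L + 4)))
    (B X : Finset α) {Ω : Finset (ι → ℤ)} {E : Finset (T.CV i (Fin 2) → ℤ)}
    (hE : (T.qt i m cen).Dn (ex univ) E L) (hv : ∀ Z ∈ E, ∀ w, T.vx i (qv w) Z ∈ Ω) :
    ∃ E', (T.qt i m cen).Dn (ex X) E' (L + 4) ∧ ∀ Z ∈ E', ∃ Z1 ∈ E,
      (T.qt i m cen).Ag (ex X) Z Z1 ∧ (T.win i m cen).Pop B Ω (T.bs i Z1) (L + 4) := by
  classical
  have o2 := ok_qt (cen := cen) hT hm
  have ow := ok_win (cen := cen) hT hm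
  have s2 : σ ≤ Real.exp (-(L + 2)) := hσ.trans (Real.exp_le_exp.2 (by linarith))
  have s1 : σ ≤ 1 := hσ.trans (Real.exp_le_one_iff.2 (by linarith))
  have hp := Dn.prune o2 h2 hL s2 (sub_ex univ) (T.bs i) hE
    (fun z _ z' _ e => ag_of_bs (e ▸ Ag.refl _ _))
    (fun Z => (T.win i m cen).Pop B Ω (T.bs i Z) (L + 4)) (by
      rw [vol_qt]
      have hmem : ∀ Z ∈ E, T.bs i Z ∈ Ω ∧ T.bs i Z ∈ (T.win i m cen).pts univ 1 := fun Z hZ => by
        have h1 := hv Z hZ 0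
        rw [qv0, vx_zero] at h1
        have h3 := bs_mem hT hm (hE.1 hZ)
        rw [ex_toLeft] at h3
        exact ⟨h1, h3⟩
      have h3 := sparse ((T.win i m cen).res B)
        ((E.filter fun Z => ¬ (T.win i m cen).Pop B Ω (T.bs i Z) (L + 4)).image (T.bs i))
        ((T.win i m cen).pts B 1) (t := Real.exp (-(L + 4)) * (T.win i m cen).vol B univ)
        (mul_nonneg (Real.exp_pos _).le (vol_pos ow _ _).le)
        (fun z hz => by
          obtain ⟨Z, hZ, rfl⟩ := mem_image.1 hz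
          exact res_mem ow (hmem Z (mem_filter.1 hZ).1).2 (subset_univ _))
        (fun z hz => by
          obtain ⟨Z, hZ, rfl⟩ := mem_image.1 hz
          refine le_trans ?_ (not_le.1 (mem_filter.1 hZ).2).le
          refine Nat.cast_le.2 (card_le_card fun y hy => ?_)
          simp only [mem_filter] at hy ⊢
          obtain ⟨Z', hZ', rfl⟩ := mem_image.1 hy.1
          have := hmem Z' (mem_filter.1 hZ').1
          exact ⟨this.1, this.2, (ag_res B _).symm.trans (hy.2 ▸ ag_res B _)⟩)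
      have h4 := card_pts_le ow hw s1 B
      have h5 := vol_mul ow (empty_subset B) (subset_univ B)
      have h6 := mul_le_mul_of_nonneg_right h4
        (mul_nonneg (Real.exp_pos (-(L + 4))).le (vol_pos ow B univ).le)
      rw [h5]
      refine le_trans (le_of_eq ?_) (h3.trans (h6.trans (le_of_eq (by ring))))
      congr!)
  have hq := Dn.prj o2 h2 (by linarith) (by rw [show L + 2 + 2 = L + 4 by ring]; exact hσ)
    (ex_mono (subset_univ X)) hp
  rw [show L + 2 + 2 = L + 4 by ring] at hq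
  refine ⟨_, hq, fun Z hZ => ?_⟩
  obtain ⟨Z1, h1, rfl⟩ := mem_image.1 hZ
  exact ⟨Z1, (mem_filter.1 h1).1, ag_res _ _, (mem_filter.1 h1).2⟩

/-- first vertices with many base completions -/
theorem prune2 (hT : T.Ok) (hm : 1 ≤ m) {σ L : ℝ} (h2 : (T.qt i m cen).N0 σ)
    (hw : (T.win i m cen).N0 σ) (hL : 0 ≤ L) (hσ : σ ≤ Real.exp (-(L + 4)))
    {B X : Finset α} (hB : B ⊆ X) {E : Finset (T.CV i (Fin 2) → ℤ)}
    (hE : (T.qt i m cen).Dn (ex X) E L) :
    ∃ E4, (T.win i m cen).Dn X E4 (L + 4) ∧ (∀ b ∈ E4, ∃ Z ∈ E, T.bs i Z = b) ∧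
      ∀ (E3 : Finset (ι → ℤ)) (M : ℝ), (T.win i m cen).Dn B E3 M →
        (∀ b' ∈ E3, ∃ b ∈ E4, T.res B b = b') →
        ∃ E5, (T.qt i m cen).Dn (ex B) E5 (M + (L + 4)) ∧ ∀ Z ∈ E5,
          T.res B (T.bs i Z) ∈ E3 ∧ ∃ Z1 ∈ E, (T.qt i m cen).Ag (ex B) Z Z1 := by
  classical
  have o2 := ok_qt (cen := cen) hT hm
  have ow := ok_win (cen := cen) hT hm
  have s2 : σ ≤ Real.exp (-(L + 2)) := hσ.trans (Real.exp_le_exp.2 (by linarith))
  have s1 : σ ≤ 1 := hσ.trans (Real.exp_le_one_iff.2 (by linarith))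
  set E' := E.image ((T.qt i m cen).res (ex B)) with hE'
  set t := Real.exp (-(L + 4)) * (T.qt i m cen).vol (B.disjSum ∅) (ex B) with ht
  let φ : (T.CV i (Fin 2) → ℤ) → ι → ℤ := fun Z => T.res B (T.bs i Z)
  have hφ : ∀ Z, φ ((T.qt i m cen).res (ex B) Z) = φ Z := fun Z => by
    have h1 : (T.cpy i (Fin 2)).Ag (ex B) ((T.qt i m cen).res (ex B) Z) Z := ag_res _ _
    have h3 := h1.bs
    rw [ex_toLeft] at h3
    exact res_congr h3
  have hE1 : ∀ Z ∈ E', Z ∈ (T.qt i m cen).pts (ex B) 1 := fun Z hZ => by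
    obtain ⟨Z1, h1, rfl⟩ := mem_image.1 hZ
    exact res_mem o2 (hE.1 h1) (ex_mono hB)
  have h5 := vol_mul o2 (empty_subset _) (sub_ex B)
  rw [vol_qt] at h5
  let p : (T.CV i (Fin 2) → ℤ) → Prop := fun Z => t ≤ ((E'.filter fun Z' => φ Z' = φ Z).card : ℝ)
  have hp := Dn.prune o2 h2 hL s2 (ex_mono hB) ((T.qt i m cen).res (ex B)) hE
    (fun z _ z' _ e => (ag_res _ z).symm.trans (e ▸ ag_res _ z')) p (by
      have h3 := sparse φ ((E.filter fun Z => ¬ p Z).image ((T.qt i m cen).res (ex B)))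
        ((T.win i m cen).pts B 1) (t := t)
        (mul_nonneg (Real.exp_pos _).le (vol_pos o2 _ _).le)
        (fun z hz => by
          obtain ⟨Z, hZ, rfl⟩ := mem_image.1 hz
          rw [hφ]
          have h3 := bs_mem hT hm (hE.1 (mem_filter.1 hZ).1)
          rw [ex_toLeft] at h3
          exact res_mem ow h3 hB)
        (fun z hz => by
          obtain ⟨Z, hZ, rfl⟩ := mem_image.1 hz
          refine le_trans ?_ (not_le.1 (mem_filter.1 hZ).2).le
          refine Nat.cast_le.2 (card_le_card fun y hy => ?_)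
          simp only [mem_filter] at hy ⊢
          exact ⟨image_subset_image (filter_subset _ _) hy.1, hy.2.trans (hφ Z)⟩)
      have h4 := card_pts_le ow hw s1 B
      have h6 := mul_le_mul_of_nonneg_right h4
        (mul_nonneg (Real.exp_pos (-(L + 4))).le (vol_pos o2 (B.disjSum ∅) (ex B)).le)
      rw [h5]
      refine le_trans (le_of_eq ?_) (h3.trans (h6.trans (le_of_eq (by ring))))
      congr!)
  have hq := img_ge o2 h2 (by linarith) (by rw [show L + 2 + 2 = L + 4 by ring]; exact hσ)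
    (sub_ex X) (T.bs i) hp (fun z _ z' _ e => ag_of_bs (e ▸ Ag.refl _ _))
  rw [show L + 2 + 2 = L + 4 by ring, vol_qt] at hq
  refine ⟨(E.filter p).image (T.bs i), ⟨fun b hb => ?_, by convert hq⟩, fun b hb => ?_,
    fun E3 M h3 h4 => ?_⟩
  · obtain ⟨Z, hZ, rfl⟩ := mem_image.1 hb
    have h3 := bs_mem hT hm (hE.1 (mem_filter.1 hZ).1)
    rwa [ex_toLeft] at h3
  · obtain ⟨Z, hZ, rfl⟩ := mem_image.1 hb
    exact ⟨Z, (mem_filter.1 hZ).1, rfl⟩
  · have h6 := dense_fib φ E' E3 (t := t) fun q hq => by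
      obtain ⟨b, hb, rfl⟩ := h4 q hq
      obtain ⟨Z, hZ, rfl⟩ := mem_image.1 hb
      convert (mem_filter.1 hZ).2
    refine ⟨E'.filter fun Z => φ Z ∈ E3, ⟨fun Z hZ => hE1 Z (mem_filter.1 hZ).1, ?_⟩,
      fun Z hZ => ⟨(mem_filter.1 hZ).2, ?_⟩⟩
    · have h7 := mul_le_mul_of_nonneg_right h3.2
        (mul_nonneg (Real.exp_pos (-(L + 4))).le (vol_pos o2 (B.disjSum ∅) (ex B)).le)
      have e : Real.exp (-(M + (L + 4))) = Real.exp (-M) * Real.exp (-(L + 4)) := by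
        rw [← Real.exp_add]; congr 1; ring
      rw [h5, e]
      refine le_trans (le_of_eq (by ring)) (h7.trans (h6.trans (le_of_eq ?_)))
      congr!
    · obtain ⟨Z1, h1, rfl⟩ := mem_image.1 (mem_filter.1 hZ).1
      exact ⟨Z1, h1, ag_res _ _⟩

theorem card_cv (T : TT α ι) (i : α) :
    Fintype.card (T.CV i (Fin 2)) ≤ 3 * Fintype.card ι := by
  have := Fintype.card_subtype_le (fun v : ι => i ∈ T.ty v)
  simp only [CV, Fintype.card_sum, Fintype.card_prod, Fintype.card_fin]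
  omega

theorem num_win {a N C1 M : ℕ} {Y : ℝ} (hN : N ≤ a + 11) (hY : (8 * 2 ^ (a + 11) : ℝ) ≤ Y) :
    Real.exp (-Y ^ (M + C1 + 2)) * (100 * Real.exp (3 * Y ^ C1)) ^ (2 ^ N) ≤ Real.exp (-Y ^ M) := by
  have h1 : (1 : ℝ) ≤ 2 ^ (a + 11) := one_le_pow₀ (by norm_num)
  have y1 : (1 : ℝ) ≤ Y := by linarith
  have h2 : (100 : ℝ) ≤ Real.exp 5 := by
    have e : Real.exp 5 = Real.exp 1 ^ 5 := by rw [← Real.exp_nat_mul]; norm_num
    have h3 := Real.exp_one_gt_d9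
    rw [e]
    calc (100 : ℝ) ≤ 2.7 ^ 5 := by norm_num
      _ ≤ _ := pow_le_pow_left₀ (by norm_num) (by linarith) 5
  have c1 : 1 ≤ Y ^ C1 := one_le_pow₀ y1
  have h3 : 100 * Real.exp (3 * Y ^ C1) ≤ Real.exp (8 * Y ^ C1) := by
    have : Real.exp (8 * Y ^ C1) = Real.exp (5 * Y ^ C1) * Real.exp (3 * Y ^ C1) := by
      rw [← Real.exp_add]; congr 1; ring
    rw [this]
    exact mul_le_mul_of_nonneg_right (h2.trans (Real.exp_le_exp.2 (by linarith))) (Real.exp_pos _).le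
  have h4 : (100 * Real.exp (3 * Y ^ C1)) ^ (2 ^ N) ≤ Real.exp (Y ^ (C1 + 1)) := by
    refine (pow_le_pow_left₀ (by positivity) h3 _).trans ?_
    rw [← Real.exp_nat_mul, Real.exp_le_exp]
    push_cast
    have : (2 : ℝ) ^ N ≤ 2 ^ (a + 11) := pow_le_pow_right₀ (by norm_num) hN
    rw [pow_succ]
    nlinarith
  refine (mul_le_mul_of_nonneg_left h4 (Real.exp_pos _).le).trans ?_
  rw [← Real.exp_add, Real.exp_le_exp]
  have a1 : Y ^ M ≤ Y ^ (M + C1 + 1) := pow_le_pow_right₀ y1 (by omega)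
  have a2 : Y ^ (C1 + 1) ≤ Y ^ (M + C1 + 1) := pow_le_pow_right₀ y1 (by omega)
  have a3 : Y ^ (M + C1 + 2) = Y ^ (M + C1 + 1) * Y := pow_succ _ _
  have a4 : 0 ≤ Y ^ (M + C1 + 1) := by positivity
  nlinarith

/-- the use of `EQW` on the tower of quadruples -/
theorem eqw_in {S F : Finset α} {c i i' : α} {a : κ → Fn ι} {cc : κ → ρ → Fn ι} {g : ρ → Fn ι}
    {Ω : Finset (ι → ℤ)} {m : ℕ} {cen : T.CV i' (Fin 2) → ℝ} {Y : ℝ} (hm : 1 ≤ m)
    (hc : T.Cen i' m cen) (st : T.St S c F (tw a cc g) Ω Y) (wd : T.WD S c F i a cc g Ω)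
    (hi' : i' ∈ (S.erase c \ F).erase i) :
    (∀ k, (T.qt i' m cen).Fm (ex S) {Sum.inl i, Sum.inl c} (aa T i' a k)) ∧
    (∀ k r, (T.qt i' m cen).Fm ((ex S).erase (Sum.inl i)) {Sum.inl c} (ca T i' cc k r)) ∧
    (∀ r, (T.qt i' m cen).Fm (ex (S.erase c \ F)) {Sum.inl i} (ga T i' g r)) ∧
    ∀ Z Z1 : T.CV i' (Fin 2) → ℤ, (T.qt i' m cen).Ag (ex (S.erase c)) Z Z1 →
      (∀ w, T.vx i' (qv w) Z1 ∈ Ω) →
      (∀ r, |ga T i' g r (cz Z) - round (ga T i' g r (cz Z))| ≤ 1 / 100) ∧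
      ∀ k, (T.qt i' m cen).IB (ex (S.erase c)) (ex S) (Sum.inl c) Z
        (tw (aa T i' a) (ca T i' cc) (ga T i' g) k) (Real.exp Y) := by
  refine ⟨fun k => ?_, fun k r => ?_, fun r => ?_, fun Z Z1 hZ hv => ?_⟩
  · refine fm_sum univ fun w _ => Fm.smul ((wd.fa k).vx (qv w) (by rw [ex_toLeft])
      (fun k _ => inr_mem_ex k) (fun x hx _ => ?_) (fun k hk => by simp at hk)) _
    simp only [mem_insert, mem_singleton, Sum.inl.injEq] at hx ⊢
    tauto
  · refine Fm.smul ((wd.fc k r.2).vx (qv r.1) (by rw [ex_erase, ex_toLeft])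
      (fun k _ => by rw [ex_erase]; exact inr_mem_ex k) (fun x hx _ => ?_)
      (fun k hk => by simp at hk)) _
    simp only [mem_insert, mem_singleton, Sum.inl.injEq] at hx ⊢
    tauto
  · refine (wd.fg r.2).vx (qv r.1) (by rw [ex_toLeft])
      (fun k _ => inr_mem_ex k) (fun x hx _ => ?_) (fun k hk => by simp at hk)
    simpa using hx
  · have hag : ∀ w, T.Ag (S.erase c) (T.vx i' (qv w) Z) (T.vx i' (qv w) Z1) := fun w => by
      have h1 : (T.cpy i' (Fin 2)).Ag (ex (S.erase c)) Z Z1 := hZ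
      have := h1.vx (ε := qv w) fun k _ => inr_mem_ex k
      rwa [ex_toLeft] at this
    refine ⟨fun r => ?_, fun k => ?_⟩
    · have e : ga T i' g r (cz Z) = g r.2 (cz (T.vx i' (qv r.1) Z1)) := by
        simp only [ga]
        rw [← cz_vx]
        exact (wd.fg r.2).1 _ _ ((hag r.1).mono sdiff_subset).cz
      rw [e]
      exact wd.arc _ (hv r.1) r.2
    · have h1 := st.hs i' (mem_of_mem_erase hi') Z (fun w => ⟨_, hv w, hag w⟩) k
      exact IB.eq (IB.sc h1 (ql_pos hm) hc) fun x _ => tw_Q i' a cc g k x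

end P1P

open P1P

theorem p1 (hQ : CSQ) (hW : EQW) (hS : SLOT) (hI : EQI) (hL : LA) (hG : SCG) : P1 := by
  intro a0
  obtain ⟨Cq, hQ⟩ := hQ a0
  obtain ⟨Ce, hW⟩ := hW (a0 + 2)
  obtain ⟨Cs, hS⟩ := hS a0
  obtain ⟨Ci, hI⟩ := hI a0
  obtain ⟨Cl, hL⟩ := hL
  obtain ⟨K, k5, kq, ke, ks, ki, kl, ka⟩ : ∃ K : ℕ, 5 ≤ K ∧ Cq + 4 ≤ K ∧ Ce ≤ K ∧ Cs + 1 ≤ K ∧
      Ci ≤ K ∧ Cl ≤ K ∧ 8 * 2 ^ (a0 + 11) ≤ K :=
    ⟨5 + Cq + Ce + Cs + Ci + Cl + 8 * 2 ^ (a0 + 11), by omega, by omega, by omega, by omega,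
      by omega, by omega, by omega⟩
  refine ⟨K ^ 7 + 2, ?_⟩
  intro α ι κ ρ _ _ _ _ _ _ _ T Y ha hY h1 h2 h3 ok nn S F c i i' a cc g Ω m st wd hi' hm C1 hm1 nn2
  classical
  have kk : ∀ e, 1 ≤ e → K ≤ K ^ e := fun e he => Nat.le_self_pow (by omega) K
  have hK : (K : ℝ) ≤ Y := le_trans (by exact_mod_cast (kk 7 (by norm_num)).trans (by omega)) hY
  have y5 : (5 : ℝ) ≤ Y := le_trans (by exact_mod_cast k5) hK
  have y1 : (1 : ℝ) ≤ Y := by linarith
  have pw : ∀ {p q : ℕ}, p ≤ q → Y ^ p ≤ Y ^ q := fun h => pow_le_pow_right₀ y1 h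
  have l5 := Lvl.ge5 k5 hK
  have lm := fun {e e' : ℕ} (h : e ≤ e') => Lvl.mono k5 hK h
  have ly := Lvl.ge k5 hK
  have l2 : ∀ e, 5 * lv K Y e ≤ lv K Y (e + 1) := fun e =>
    Lvl.mul k5 hK e (by exact_mod_cast k5)
  have m1 : 1 ≤ m := by
    have : (1 : ℝ) ≤ m := (Real.one_le_exp (by positivity)).trans hm
    exact_mod_cast this
  have nm : ∀ {α' ι' : Type} [Fintype α'] [DecidableEq α'] [Fintype ι'] [DecidableEq ι']
      {T' : TT α' ι'} {x y : ℝ}, T'.Ok → 0 ≤ x → x ≤ y → T'.Nn 1 (Real.exp (-y)) →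
      T'.Nn 1 (Real.exp (-x)) := fun hT h0 h H =>
    (hG 1 _ _ _ _ _ hT (Real.exp_pos _) (Real.exp_le_one_iff.2 (by linarith))).1
      (Real.exp_le_exp.2 (by linarith)) H
  have nn1 := (hG 1 α ι T _ 1 ok (Real.exp_pos _) le_rfl).2.1 nn2
  have hc := st.hc
  have hF := st.hF
  have hi := wd.hi
  have hiX : i ∈ S.erase c := (mem_sdiff.1 hi).1
  have hi2 : i' ∈ (S.erase i).erase c := by
    simp only [mem_erase, mem_sdiff] at hi' ⊢
    tauto
  have hcS : c ∈ S.erase i := by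
    simp only [mem_erase] at hiX ⊢
    exact ⟨fun h => hiX.1 h.symm, hc⟩
  have eX : (S.erase c).erase i = (S.erase i).erase c := erase_right_comm
  have hBX : (S.erase c \ F).erase i ⊆ (S.erase i).erase c := eX ▸ erase_subset_erase _ sdiff_subset
  -- quadruples
  have yc : Y ≤ Y ^ (C1 + 1) := le_self_pow₀ y1 (by omega)
  obtain ⟨cen, E0, hcen, d0, v0⟩ := hQ α ι κ ρ T (Y ^ (C1 + 1)) ha
    (le_trans (by exact_mod_cast (by omega : Cq ≤ K)) (hK.trans yc))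
    (h1.trans (Real.exp_le_exp.2 yc)) (h2.trans (Real.exp_le_exp.2 yc)) (h3.trans yc) ok
    (nm ok (by positivity) (by
      rw [← pow_mul]
      exact pw (by rw [mul_comm]; exact Nat.mul_le_mul_right _ (by have := kk 7; omega))) nn1)
    univ i' Ω Y m (mem_univ _) y1 st.dn (by
      refine le_trans ?_ hm
      have e1 : 1 ≤ Real.exp Y := Real.one_le_exp (by linarith)
      have e2 : 2 ≤ Real.exp Y := by linarith [Real.add_one_le_exp Y]
      have e3 : (Cq : ℝ) + 4 ≤ Y := le_trans (by exact_mod_cast kq) hK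
      calc _ ≤ Real.exp (Cq * Y) * (Real.exp Y * Real.exp Y) :=
            mul_le_mul_of_nonneg_left (by nlinarith) (Real.exp_pos _).le
        _ = Real.exp (Cq * Y + (Y + Y)) := by rw [Real.exp_add, Real.exp_add]
        _ ≤ _ := Real.exp_le_exp.2 (by nlinarith))
    (hm1.trans (Real.exp_le_exp.2 (pw (by omega))))
  have o2 := ok_qt (cen := cen) ok m1
  have ow := ok_win (cen := cen) ok m1
  have s0 : Real.exp (-Y ^ ((K ^ 7 + 2) * (C1 + 1))) ≤ Real.exp (-Y ^ (K ^ 7 + C1 + 2)) :=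
    Real.exp_le_exp.2 (neg_le_neg (pw (by nlinarith [Nat.zero_le (K ^ 7 * C1)])))
  have ya : (8 * 2 ^ (a0 + 11) : ℝ) ≤ Y := le_trans (by exact_mod_cast ka) hK
  have s1 : Real.exp (-lv K Y 7) ≤ 1 := Real.exp_le_one_iff.2 (by linarith [l5 7])
  have n2 : (T.qt i' m cen).Nn 1 (Real.exp (-lv K Y 7)) :=
    (hG 1 _ _ _ _ _ (ok.cpy i' (Fin 2)) (Real.exp_pos _) s1).2.2 _ _ (by positivity)
      (sub_qt m1 hm1 hcen) (le_trans (mul_le_mul_of_nonneg_right s0 (by positivity))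
        (num_win (by simp only [Fintype.card_sum, Fintype.card_fin]; omega) ya))
      (nn2.2 i' 2 (by norm_num))
  have nw : (T.win i' m cen).Nn 1 (Real.exp (-lv K Y 7)) :=
    (hG 1 _ _ _ _ _ ok (Real.exp_pos _) s1).2.2 _ _ (by positivity)
      (sub_win m1 hm1 hcen) (le_trans (mul_le_mul_of_nonneg_right s0 (by positivity))
        (num_win (by omega) ya)) nn1
  have q1 : Cq * Y + 4 ≤ lv K Y 1 := by
    have := Lvl.mul k5 hK 0 (x := Cq + 4) (by exact_mod_cast kq)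
    rw [Lvl.zero] at this
    nlinarith
  obtain ⟨E0', d1, v1⟩ := prune1 ok m1 n2.1 nw.1 (by positivity)
    (Real.exp_le_exp.2 (neg_le_neg (q1.trans (lm (by norm_num))))) ((S.erase c \ F).erase i)
    (S.erase c) d0 v0
  obtain ⟨f1, f2, f3, f4⟩ := eqw_in m1 hcen st wd hi'
  have y1' : 5 * Y ≤ lv K Y 1 := by simpa only [Lvl.zero] using l2 0
  obtain ⟨n1, K1, E1, n11, n12, hK1, d2, v2⟩ := hW (α ⊕ Fin 2) (T.CV i' (Fin 2)) κ (Fin 4 × ρ)
    (T.qt i' m cen) (lv K Y 1) (by simp only [Fintype.card_sum, Fintype.card_fin]; omega)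
    (Lvl.geC k5 hK 1 ke) (by
      have e1 : (Fintype.card (T.CV i' (Fin 2)) : ℝ) ≤ 3 * Fintype.card ι := by
        exact_mod_cast card_cv T i'
      have e2 := Lvl.ex5 k5 hK 0
      rw [Lvl.zero] at e2
      linarith [Real.exp_pos Y])
    (h2.trans (Real.exp_le_exp.2 (ly 1))) (by
      simp only [Fintype.card_prod, Fintype.card_fin]
      push_cast
      linarith) o2
    (nm o2 (by have := l5 1; positivity) ((Lvl.pw k5 hK 1 ke).trans (lm (by norm_num))) n2)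
    (ex (S.erase c \ F)) (ex S) (Sum.inl c) (Sum.inl i) (aa T i' a) (ca T i' cc) (ga T i' g) E0'
    (inl_mem_ex.2 hc) (by rw [ex_erase]; exact ex_mono sdiff_subset) (inl_mem_ex.2 hi)
    (by rw [ex_erase]; exact d1.mono o2 q1) f1 f2 f3
    (fun Z hZ => by
      obtain ⟨Z1, b1, b2, _⟩ := v1 Z hZ
      exact (f4 Z Z1 b2 (v0 Z1 b1)).1)
    (fun Z hZ k => by
      obtain ⟨Z1, b1, b2, _⟩ := v1 Z hZ
      rw [ex_erase]
      exact IB.mono ((f4 Z Z1 b2 (v0 Z1 b1)).2 k) (Real.exp_le_exp.2 (ly 1)))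
  simp only [ex_erase, eX] at d2 v2
  have e2 : lv K Y 1 ^ Ce ≤ lv K Y 2 := Lvl.pw k5 hK 1 ke
  obtain ⟨sel, D0, p, l, ζ, lad, ort⟩ := hL ρ (Fin 4 × ρ) (lv K Y 2) (fun s r => K1 s (0, r))
    (Lvl.geC k5 hK 2 kl) (h3.trans (ly 2)) (fun s r => (hK1 s _).trans (Real.exp_le_exp.2 e2))
  have e3 : lv K Y 2 ^ Cl ≤ lv K Y 3 := Lvl.pw k5 hK 2 kl
  have fz : ∀ q : ρ × κ, T.Fm (S.erase i) (insert c F) (fun x => (n1 : ℝ) * lc (ζ q.1) (cc q.2) x) :=
    fun q => (fm_lc _ (wd.fc q.2)).smul _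
  have ck : (Fintype.card (ρ × κ) : ℝ) ≤ Real.exp (lv K Y 1) := by
    rw [Fintype.card_prod]
    push_cast
    calc _ ≤ Real.exp Y * Real.exp Y := mul_le_mul (h3.trans (Lvl.le_ex Y)) h2 (by positivity)
          (by positivity)
      _ = Real.exp (Y + Y) := (Real.exp_add _ _).symm
      _ ≤ _ := Real.exp_le_exp.2 (by linarith)
  have y4 : lv K Y 4 ≤ lv K Y 4 ^ (C1 + 1) := le_self_pow₀ (by linarith [l5 4]) (by omega)
  obtain ⟨E2, s2, d3, v3⟩ := hS α ι (ρ × κ) ρ T (lv K Y 4 ^ (C1 + 1)) ha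
    ((Lvl.geC k5 hK 4 (by omega)).trans y4) (h1.trans (Real.exp_le_exp.2 ((ly 4).trans y4)))
    (ck.trans (Real.exp_le_exp.2 ((lm (by norm_num)).trans y4))) (h3.trans ((ly 4).trans y4)) ok
    (nm ok (by have := l5 4; positivity) (by
      simp only [lv]
      rw [← pow_mul, ← pow_mul]
      refine pw ?_
      have : K ^ 4 * Cs ≤ K ^ 7 + 2 := by
        have a1 : K ^ 4 * Cs ≤ K ^ 4 * K ^ 3 := Nat.mul_le_mul_left _ (by have := kk 3; omega)
        rw [← pow_add] at a1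
        exact a1.trans (Nat.le_add_right _ _)
      calc K ^ 4 * ((C1 + 1) * Cs) = K ^ 4 * Cs * (C1 + 1) := by ring
        _ ≤ _ := Nat.mul_le_mul_right _ this) nn1)
    (S.erase i) c i' (fun q x => (n1 : ℝ) * lc (ζ q.1) (cc q.2) x) m cen (lv K Y 4) E1 hcS hi2 m1
    (hm1.trans (Real.exp_le_exp.2 ((pw (by omega)).trans
      (pow_le_pow_left₀ (by linarith) (ly 4) (C1 + 1)))))
    (by linarith [l5 4]) y4 hcen (d2.mono o2 (e2.trans (lm (by norm_num))))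
    (fun q => (fz q).mono subset_rfl (by simp))
    (fun Z hZ q => by
      have b1 := (v2 Z hZ).2.2 (z0 (ζ q.1)) (fun s => by rw [dot_z0]; exact ort s q.1) q.2
      refine IB.mono (IB.eq b1 fun x _ => by rw [lc_z0]) ?_
      rw [abs_z0]
      have b2 : ∑ r, |(ζ q.1 r : ℝ)| ≤ Real.exp Y * Real.exp (lv K Y 3) := by
        refine (sum_le_card_nsmul _ _ _ fun r _ =>
          (lad.bd q.1 r).2.2.2.trans (Real.exp_le_exp.2 e3)).trans ?_
        rw [nsmul_eq_mul, card_univ]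
        exact mul_le_mul_of_nonneg_right (h3.trans (Lvl.le_ex Y)) (Real.exp_pos _).le
      refine (mul_le_mul (Real.exp_le_exp.2 e2) b2 (by positivity) (by positivity)).trans ?_
      rw [← Real.exp_add, ← Real.exp_add, Real.exp_le_exp]
      linarith [l2 3, ly 3, lm (show 2 ≤ 3 by norm_num), l5 3])
  have q5 : Cs * lv K Y 4 + 4 ≤ lv K Y 5 := by
    have := Lvl.mul k5 hK 4 (x := Cs + 1) (by exact_mod_cast ks)
    linarith [l5 4]
  obtain ⟨E4, d4, v4, w4⟩ := prune2 ok m1 n2.1 nw.1 (by have := l5 4; positivity)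
    (Real.exp_le_exp.2 (neg_le_neg (q5.trans (lm (by norm_num))))) hBX d3
  have e6 : lv K Y 5 ^ Ci ≤ lv K Y 6 := Lvl.pw k5 hK 5 ki
  obtain ⟨n3, E3, n31, n32, d5, v5⟩ := hI α ι (ρ × κ) ρ (T.win i' m cen) (lv K Y 5) ha
    (Lvl.geC k5 hK 5 ki) (h1.trans (Real.exp_le_exp.2 (ly 5)))
    (ck.trans (Real.exp_le_exp.2 (lm (by norm_num)))) (h3.trans (ly 5)) ow
    (nm ow (by have := l5 5; positivity) (e6.trans (lm (by norm_num))) nw)
    ((S.erase c \ F).erase i) ((S.erase i).erase c) (S.erase i) c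
    (fun q x => (n1 : ℝ) * lc (ζ q.1) (cc q.2) x) E4 hcS subset_rfl hBX (d4.mono ow q5)
    (fun q => (fz q).mono subset_rfl (fun x hx => by
      simp only [mem_sdiff, mem_erase, mem_insert] at hx ⊢
      tauto))
    (fun b hb q => by
      obtain ⟨Z, hZ, rfl⟩ := v4 b hb
      exact IB.mono (v3 Z hZ q) (Real.exp_le_exp.2 (by linarith)))
  obtain ⟨E5, d6, v6⟩ := w4 E3 _ d5 fun b' hb' => (v5 b' hb').1
  have e7 : lv K Y 7 ≤ Y ^ (K ^ 7 + 2) := pw (by omega)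
  have u6 : 5 * lv K Y 6 ≤ Y ^ (K ^ 7 + 2) := (l2 6).trans e7
  have u5 := lm (show 5 ≤ 6 by norm_num)
  have u3 := lm (show 3 ≤ 6 by norm_num)
  have u2 := lm (show 2 ≤ 6 by norm_num)
  have u1 := lm (show 1 ≤ 6 by norm_num)
  have u0 := l5 6
  refine ⟨cen, n3 * n1, D0, fun w s => (sel s).elim 0 (fun s' r => sz w * K1 s' (w, r)), p, l, ζ,
    Ω.filter (fun z => T.res ((S.erase c \ F).erase i) z ∈ E3), Nat.mul_pos n31 n11, ?_, ?_,
    filter_subset _ _, ⟨hcen, fun w s => (fm_lc _ wd.fg).mono subset_rfl (by simp), E5, ?_, ?_⟩, ?_⟩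
  · push_cast
    refine (mul_le_mul n32 n12 (by positivity) (by positivity)).trans ?_
    rw [← Real.exp_add, Real.exp_le_exp]
    linarith
  · have e : (fun s => (sel s).elim 0 (fun s' r => sz 0 * K1 s' (0, r))) =
        fun s => (sel s).elim 0 (fun s r => K1 s (0, r)) := by
      simp [sz]
    beta_reduce
    rw [e]
    exact lad_mono lad (by linarith)
  · rw [sdiff_empty]
    exact d6.mono o2 (by linarith)
  · rw [sdiff_empty]
    intro Z hZ
    obtain ⟨b1, Z1, b2, b3⟩ := v6 Z hZ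
    obtain ⟨⟨Z2, b4, b5⟩, b6, _⟩ := v2 Z1 (s2 b2)
    obtain ⟨Z3, _, b7, b8⟩ := v1 Z2 b4
    have a1 : (T.cpy i' (Fin 2)).Ag (ex ((S.erase c \ F).erase i)) Z Z3 :=
      b3.trans (((b5 ▸ ag_res _ Z2 : (T.qt i' m cen).Ag _ Z1 Z2).mono (ex_mono hBX)).trans
        (b7.mono (ex_mono ((erase_subset _ _).trans sdiff_subset))))
    have a2 := a1.bs
    rw [ex_toLeft] at a2
    refine ⟨?_, fun s => ?_⟩
    · have a3 := pop_congr (T := T.win i' m cen) a2.symm b8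
      refine le_trans (mul_le_mul_of_nonneg_right (Real.exp_le_exp.2 (by linarith))
        (vol_pos ow _ _).le) (le_trans a3 (Nat.cast_le.2 (card_le_card fun z hz => ?_)))
      simp only [mem_filter] at hz ⊢
      refine ⟨⟨hz.1, ?_⟩, hz.2⟩
      rw [res_congr (T := T) hz.2.2]
      exact b1
    · cases hs : sel s with
      | none =>
        refine IB.mono (IB.eq (f := fun _ => 0) (Ind.ibg (ind_const _ _)) fun x _ => ?_)
          (Real.exp_pos _).le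
        simp [Q, lc, hs]
      | some s' =>
        refine IB.mono (IB.eq (IB.congr (b6 s') b3.symm) fun x _ => ?_)
          (Real.exp_le_exp.2 (by linarith))
        rw [lc_Q]
        simp only [hs, Option.elim]
  · intro z hz j kk'
    have b1 := (v5 _ (mem_filter.1 hz).2).2 (j, kk')
    refine IB.mono (IB.eq (IB.congr b1 (ag_res _ z)) fun x _ => ?_) (Real.exp_le_exp.2 (by linarith))
    push_cast
    ring

end

end Vale.Agent.P057T.Gk
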