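import Vale.Agent.P057T.Gk.PetdA

/-! Row PETD: step (3), one direction. -/

set_option linter.all false

open Finset

namespace Vale.Agent.P057T.Gk

open TT H82

noncomputable section

theorem petd (hP : P1) (hF : FGT) (hH : HSR) (hA : ARC) (hR : RST) (hI : IBC) (hS : SCG)
    (hC : CPOK) : PETD := by
  intro A
  obtain ⟨C1, h1⟩ := hP A
  obtain ⟨C2, h2⟩ := hF A
  obtain ⟨C3, h3⟩ := hH A
  obtain ⟨C4, h4⟩ := hA A
  obtain ⟨C5, h5⟩ := hR A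
  obtain ⟨e1, he1⟩ : ∃ e1, e1 = C1 + 1 := ⟨_, rfl⟩
  obtain ⟨e, he⟩ : ∃ e, e = e1 * C2 + 2 := ⟨_, rfl⟩
  obtain ⟨e2, he2⟩ : ∃ e2, e2 = e1 * (C2 * (e + 1 + 1)) := ⟨_, rfl⟩
  obtain ⟨e3, he3⟩ : ∃ e3, e3 = e2 + e1 + e + 3 := ⟨_, rfl⟩
  obtain ⟨x1, hx1⟩ : ∃ x, x = C1 * (e + 1 + 1) := ⟨_, rfl⟩
  obtain ⟨x2, hx2⟩ : ∃ x, x = e1 * C2 := ⟨_, rfl⟩
  obtain ⟨x3, hx3⟩ : ∃ x, x = e3 * C3 := ⟨_, rfl⟩
  obtain ⟨x4, hx4⟩ : ∃ x, x = e3 * C4 := ⟨_, rfl⟩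
  obtain ⟨e4, he4⟩ : ∃ x, x = e3 + x3 + x4 + 2 := ⟨_, rfl⟩
  obtain ⟨N, hN⟩ : ∃ x : ℕ, x = 2 ^ (A + 8 * 0 + 1) := ⟨_, rfl⟩
  refine ⟨e4 + x1 + x2 + C1 + C2 + C3 + C4 + C5 + N + 6, ?_⟩
  generalize hCC : e4 + x1 + x2 + C1 + C2 + C3 + C4 + C5 + N + 6 = C
  intro α ι κ ρ _ _ _ _ _ _ _ T Y ha hY hι hκ hρ hT hn S F c i i' a cc g Ω hSt hW hi'
  have cY : ∀ t : ℕ, t ≤ C → (t : ℝ) ≤ Y := fun t ht => le_trans (by exact_mod_cast ht) hY
  have y6 : (6 : ℝ) ≤ Y := by simpa using cY 6 (by omega)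
  have y2 : (2 : ℝ) ≤ Y := by linarith
  have yN : (2 : ℝ) ^ (A + 8 * 0 + 1) ≤ Y := by
    have := cY N (by omega)
    rw [hN] at this
    exact_mod_cast this
  obtain ⟨m, m1, m2, m3⟩ := ex_m y2 (e := e) (by omega)
  obtain ⟨cen, n, D0, k, p, l, ζ, Ω1, n1, n2, lad, o1, qs, ib⟩ :=
    h1 α ι κ ρ T Y ha (cY _ (by omega)) hι hκ hρ hT (nn_mono hS hT y2 (by omega) hn)
      S F c i i' a cc g Ω m hSt hW hi' ((ex_mono (pw y2 (by omega))).trans m2) (e + 1) m3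
      (nn_mono hS hT y2 (by omega) hn)
  have Y1 : Y ≤ Y ^ e1 := pw1 y2 (by omega)
  have n1' := nn_down hS hT (Real.exp_pos _) hn
  have n0' := nn_down hS hT (Real.exp_pos _) n1'
  have ρe : ∀ t, Y ≤ t → (Fintype.card ρ : ℝ) ≤ Real.exp t := fun t ht =>
    hρ.trans (ht.trans (by linarith [Real.add_one_le_exp t]))
  have i'' : i' ∈ (S.erase c \ F).erase i \ ∅ := by rwa [sdiff_empty]
  obtain ⟨T1, Ω2, s1, o2, r6⟩ :=
    h2 α ι ρ ρ T (Y ^ e1) ha ((cY _ (by omega)).trans Y1) (hι.trans (ex_mono Y1)) (ρe _ Y1)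
      (hρ.trans Y1) hT (by rw [← pow_mul]; exact nn_mono hS hT y2 (by omega) n1')
      (S.erase c \ F) ∅ i i' (fun w s => lc (k w s) g) Ω1 m cen hW.hi (empty_subset _) i''
      (by rw [← pow_mul]; exact (ex_mono (pw y2 (by omega))).trans m2) (e + 1)
      (m3.trans (ex_mono (pow_le_pow_left₀ (by linarith) Y1 _)))
      (by rw [← pow_mul]; exact nn_mono hS hT y2 (by omega) n1')
      (qs_mono hC hT m1 qs (pw y2 (by omega)))
  rw [← pow_mul, ← he2] at s1 r6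
  have s0 := win_sub m1 m3 qs.1
  have s2 : T.Sub T1 (Y ^ e3) := (s0.trans s1).mono (by
    have b1 := pw y2 (show e + 1 ≤ e2 + e1 + e + 2 by omega)
    have b2 := pw y2 (show e2 ≤ e2 + e1 + e + 2 by omega)
    have b3 := mulpw y2 (show (4 : ℝ) ≤ Y by linarith) (show e2 + e1 + e + 2 < e3 by omega)
    linarith)
  have T1ok := s2.ok hT
  have Y3 : Y ≤ Y ^ e3 := pw1 y2 (by omega)
  have r6' := r6_mono T1ok r6 (pw y2 (show e2 ≤ e3 by omega))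
  have W1 := wd_sub s2 hW (o2.trans o1)
  have hs1 := h3 α ι ρ ρ T1 (Y ^ e3) ha ((cY _ (by omega)).trans Y3) (hι.trans (ex_mono Y3))
    (ρe _ Y3) (hρ.trans Y3) T1ok
    (by rw [← pow_mul]; exact nn_sub hS hT ha y6 yN (by omega) (by omega) (by omega) s2 n0')
    (S.erase c \ F) ∅ i i' (fun s => lc (k 0 s) g) Ω2 hW.hi (empty_subset _) i''
    (fun s => lc_fm W1.fg _) r6'
  have E13 : Y ^ C1 ≤ Y ^ e3 := pw y2 (by omega)
  obtain ⟨Ω3, a', cc', g', o3, d3, W3, rel, ind⟩ :=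
    h4 α ι κ ρ T1 (Y ^ e3) ha ((cY _ (by omega)).trans Y3) (hι.trans (ex_mono Y3))
      (hκ.trans (ex_mono Y3)) (hρ.trans Y3) T1ok
      (by rw [← pow_mul]; exact nn_sub hS hT ha y6 yN (by omega) (by omega) (by omega) s2 n0')
      S F c i a cc g Ω2 n D0 (k 0) p l ζ hSt.hc hSt.hF r6'.1 W1 n1 (n2.trans (ex_mono E13))
      (lad_mono lad E13) fun z hz j kk => IB.mono (s1.ib (ib z (o2 hz) j kk)) (ex_mono E13)
  rw [← pow_mul, ← hx4] at d3 rel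
  rw [← pow_mul, ← hx3] at hs1
  have oo : Ω3 ⊆ Ω := o3.trans (o2.trans o1)
  have nD : ((D0 * n : ℕ) : ℝ) ≤ Real.exp (2 * Y ^ e3) := by
    rw [Nat.cast_mul, two_mul, Real.exp_add]
    exact mul_le_mul (lad.d2.trans (ex_mono E13)) (n2.trans (ex_mono E13)) (by positivity)
      (by positivity)
  have q3 : 3 * Y ^ e3 ≤ Y ^ e4 := mulpw y2 (by linarith) (by omega)
  have q4 : 3 * Y ^ e4 ≤ Y ^ C := mulpw y2 (by linarith) (by omega)
  have q5 : Y ≤ Y ^ e4 := pw1 y2 (by omega)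
  have q6 : Y ^ x4 ≤ Y ^ e4 := pw y2 (by omega)
  have q0 : 0 ≤ Y ^ e3 := by positivity
  have yexp : Y ≤ Real.exp Y := by linarith [Real.add_one_le_exp Y]
  have hsub : ∀ (κ' : Type) S c (τ : κ' → Fn ι) j H, T.HS S c τ Ω j H → T1.HS S c τ Ω3 j H :=
    fun κ' S c τ j H h => (hI α ι T hT).2.2.2.2.2.2.2.2.1 κ' T1 _ S c τ Ω Ω3 j H s2 oo h
  refine ⟨T1, Ω3, D0 * n, a', cc', g', s2.mono (pw y2 (by omega)), oo,
    Nat.mul_pos lad.d1 n1, nD.trans (ex_mono (by linarith)),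
    ⟨hSt.hc, hSt.hF, wd_fm W3, dn_mono T1ok d3 (pw y2 (by omega)), fun j hj => ?_⟩, W3,
    rel_mono rel subset_rfl (ex_mono (pw y2 (by omega))),
    hs_ind (hs_mono hs1 o3 (ex_mono (pw y2 (by omega)))) ind, fun j hj h => ?_⟩
  · have := (h5 α ι κ T1 S (insert c F) c (tw a cc g) (tw a' cc' g') (tw a' cc' g') Ω3 (D0 * n) 1
      _ _ ha T1ok hSt.hc (mem_insert_self _ _) (Real.exp_pos _).le (Real.exp_pos Y).le
      (wd_fm W1) (wd_fm W3) rel).1 j (sdiff_subset hj) (hsub _ _ _ _ _ _ (hSt.hs j hj))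
    refine hs_mono this subset_rfl ?_
    have b1 : ((D0 * n : ℕ) : ℝ) * Real.exp Y ≤ Real.exp (2 * Y ^ e4) :=
      calc _ ≤ Real.exp (2 * Y ^ e3) * Real.exp Y := by gcongr
        _ = Real.exp (2 * Y ^ e3 + Y) := (Real.exp_add _ _).symm
        _ ≤ _ := ex_mono (by linarith)
    have b2 : (C5 : ℝ) * Real.exp (Y ^ x4) ≤ Real.exp (2 * Y ^ e4) :=
      calc _ ≤ Real.exp Y * Real.exp (Y ^ x4) := by
            gcongr
            exact (cY _ (by omega)).trans yexp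
        _ = Real.exp (Y + Y ^ x4) := (Real.exp_add _ _).symm
        _ ≤ _ := ex_mono (by linarith)
    have b3 : 2 ≤ Real.exp (Y ^ e4) := by linarith [Real.add_one_le_exp (Y ^ e4)]
    calc _ ≤ 2 * Real.exp (2 * Y ^ e4) := by linarith
      _ ≤ Real.exp (Y ^ e4) * Real.exp (2 * Y ^ e4) := by gcongr
      _ = Real.exp (Y ^ e4 + 2 * Y ^ e4) := (Real.exp_add _ _).symm
      _ ≤ _ := ex_mono (by linarith)
  · refine hs_ind (hs_mono (hs_lc (hsub _ _ _ _ _ _ h) (Real.exp_pos _).le (k 0)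
      fun s r => (lad.bd s r).1) subset_rfl ?_) ind
    calc _ ≤ Real.exp Y * (Real.exp (Y ^ e3) * Real.exp Y) := by
          gcongr
          · exact hρ.trans yexp
      _ = Real.exp (Y + (Y ^ e3 + Y)) := by rw [Real.exp_add, Real.exp_add]
      _ ≤ _ := ex_mono (by linarith)

end

end Vale.Agent.P057T.Gk
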