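import Vale.Agent.P057T.Gk.SlotA
import Vale.Agent.P057T.Gk.Bas2

/-! Row SLOT. -/

set_option linter.all false

open Finset

namespace Vale.Agent.P057T.Gk

open TT

namespace Slot

open Classical in
theorem cnt {A B : Type} (E : Finset A) (b : A → B) (Bs : Finset B) (hb : ∀ Z ∈ E, b Z ∈ Bs)
    (good : A → A → Prop) {t η : ℝ} (ht : 0 < t)
    (h : (((E ×ˢ E).filter fun p => b p.2 = b p.1 ∧ ¬ good p.1 p.2).card : ℝ) ≤ η) :
    ((E.filter fun Z => ¬ ∃ Z' ∈ E, b Z' = b Z ∧ good Z Z').card : ℝ) ≤ t * Bs.card + η / t := by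
  set D := E.filter fun Z => ¬ ∃ Z' ∈ E, b Z' = b Z ∧ good Z Z' with hD
  let dg : B → ℝ := fun y => ((E.filter fun Z => b Z = y).card : ℝ)
  have h1 : ((D.filter fun Z => dg (b Z) ≤ t).card : ℝ) ≤ t * Bs.card := by
    rw [card_eq_sum_card_fiberwise (f := b) (t := Bs)
      (fun Z hZ => hb Z (mem_filter.1 (mem_filter.1 hZ).1).1), Nat.cast_sum]
    refine (sum_le_sum (g := fun _ => t) fun y _ => ?_).trans (by rw [sum_const, nsmul_eq_mul, mul_comm])
    rcases ((D.filter fun Z => dg (b Z) ≤ t).filter fun Z => b Z = y).eq_empty_or_nonempty with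
      h0 | ⟨Z, hZ⟩
    · rw [h0, card_empty, Nat.cast_zero]; exact ht.le
    · have h2 := (mem_filter.1 (mem_filter.1 hZ).1).2
      rw [(mem_filter.1 hZ).2] at h2
      refine le_trans ?_ h2
      exact Nat.cast_le.2 (card_le_card (filter_subset_filter _
        ((filter_subset _ _).trans (filter_subset _ _))))
  have h2 : t * ((D.filter fun Z => ¬ dg (b Z) ≤ t).card : ℝ) ≤ η := by
    refine le_trans ?_ h
    set D2 := D.filter fun Z => ¬ dg (b Z) ≤ t
    have h3 : (D2.sigma fun Z => E.filter fun Z' => b Z' = b Z).card ≤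
        ((E ×ˢ E).filter fun p => b p.2 = b p.1 ∧ ¬ good p.1 p.2).card := by
      refine card_le_card_of_injOn (fun p => (p.1, p.2)) (fun p hp => ?_) ?_
      · obtain ⟨a1, a2⟩ := mem_sigma.1 (mem_coe.1 hp)
        obtain ⟨a3, a4⟩ := mem_filter.1 (mem_filter.1 a1).1
        obtain ⟨a5, a6⟩ := mem_filter.1 a2
        exact mem_coe.2 (mem_filter.2 ⟨mem_product.2 ⟨a3, a5⟩, a6, fun hg => a4 ⟨_, a5, a6, hg⟩⟩)
      · rintro ⟨x, y⟩ - ⟨x', y'⟩ - hh
        obtain ⟨rfl, rfl⟩ := Prod.mk.inj hh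
        rfl
    rw [card_sigma] at h3
    refine le_trans ?_ (Nat.cast_le.2 h3)
    rw [Nat.cast_sum, mul_comm, ← nsmul_eq_mul, ← sum_const]
    exact sum_le_sum fun Z hZ => (not_le.1 (mem_filter.1 hZ).2).le
  have h3 := card_filter_add_card_filter_not (s := D) (fun Z => dg (b Z) ≤ t)
  have h4 : (D.card : ℝ) = (D.filter fun Z => dg (b Z) ≤ t).card +
      (D.filter fun Z => ¬ dg (b Z) ≤ t).card := by exact_mod_cast h3.symm
  have h5 : ((D.filter fun Z => ¬ dg (b Z) ≤ t).card : ℝ) ≤ η / t := by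
    rw [le_div_iff₀ ht, mul_comm]; exact h2
  linarith

theorem num {Y L : ℝ} {N C : ℕ} (hC : C = 8 * N + 20) (hY : (C : ℝ) ≤ Y) (hL : L ≤ Y) :
    (N : ℝ) * (5 + 3 * Y) + (1 + L) ≤ Y ^ C ∧ 3 * Y ≤ Y ^ C ∧ 2 * L + 4 ≤ Y ^ C := by
  have hN : (0 : ℝ) ≤ N := Nat.cast_nonneg N
  have h1 : 8 * (N : ℝ) + 20 ≤ Y := by rw [hC] at hY; push_cast at hY; exact hY
  have h2 : Y ^ 2 ≤ Y ^ C := pow_le_pow_right₀ (by linarith) (by omega)
  have h3 : (8 * (N : ℝ) + 20) * Y ≤ Y ^ 2 := by rw [sq]; exact mul_le_mul_of_nonneg_right h1 (by linarith)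
  have h4 : (N : ℝ) * 5 ≤ N * (5 * Y) := mul_le_mul_of_nonneg_left (by linarith) hN
  have h5 : 0 ≤ (N : ℝ) * Y := mul_nonneg hN (by linarith)
  refine ⟨?_, ?_, ?_⟩ <;> nlinarith

theorem fin {e σ V H x y z : ℝ} (he : 0 < e) (he2 : e ≤ 1 / 2) (hV : 0 < V) (hH : 0 < H)
    (hσ : σ ≤ e ^ 2 / 32) (hx : e * (V * H) ≤ x + y) (hz : z ≤ 2 * V)
    (hy : y ≤ e * H / 8 * z + σ * (V * H ^ 2) / (e * H / 8)) : e ^ 2 * (V * H) ≤ x := by
  have h1 : e * H / 8 * z ≤ e * (V * H) / 4 := by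
    have := mul_le_mul_of_nonneg_left hz (show 0 ≤ e * H / 8 by positivity)
    linarith
  have h2 : σ * (V * H ^ 2) / (e * H / 8) ≤ e * (V * H) / 4 := by
    rw [div_le_iff₀ (by positivity)]
    have := mul_le_mul_of_nonneg_right hσ (show 0 ≤ V * H ^ 2 by positivity)
    linarith
  have h3 : e * (e * (V * H)) ≤ 1 / 2 * (e * (V * H)) :=
    mul_le_mul_of_nonneg_right he2 (by positivity)
  nlinarith

end Slot

open Slot in
theorem slot (hSC : SCALE) : SLOT := by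
  classical
  intro a
  obtain ⟨N, hN⟩ : ∃ N : ℕ, N = 2 ^ (a + 5) := ⟨_, rfl⟩
  obtain ⟨C, hC⟩ : ∃ C : ℕ, C = 8 * N + 20 := ⟨_, rfl⟩
  refine ⟨C, ?_⟩
  intro α ι κ ρ _ _ _ _ _ _ _ T Y ha hY _ _ _ hT hNn S c i f m cen L E hcS hi hm1 hmY hL1 hLY hcen hE
    hf hIB
  obtain ⟨n1, n2, n3⟩ := num hC hY hLY
  have hiS := mem_of_mem_erase hi
  have hc : c ≠ i := (ne_of_mem_erase hi).symm
  have hK2 := hT.cpy i (Fin 2)
  have hK4 := hT.cpy i (Fin 4)
  have hm : (1 : ℝ) ≤ m := by exact_mod_cast hm1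
  set σ := Real.exp (-Y ^ C) with hσ
  have hlo : ∀ x, ((m : ℝ) ^ 3)⁻¹ ≤ T.ql i m x := by
    intro x
    rcases x with v | p
    · simp only [ql, Sum.elim_inl]
      split_ifs
      · exact le_rfl
      · exact inv_le_one_of_one_le₀ (one_le_pow₀ hm)
    · simp only [ql, Sum.elim_inr]
      split_ifs
      · exact inv_anti₀ (by positivity) (pow_le_pow_right₀ hm (by norm_num))
      · exact inv_anti₀ (by positivity) (le_self_pow₀ hm (by norm_num))
  have hlo0 : 0 < ((m : ℝ) ^ 3)⁻¹ := by positivity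
  have hl0 : ∀ x, 0 < T.ql i m x := fun x => hlo0.trans_le (hlo x)
  have hm3 : (m : ℝ) ^ 3 ≤ Real.exp (3 * Y) := by
    have := pow_le_pow_left₀ (by positivity) hmY 3
    rwa [← Real.exp_nat_mul, Nat.cast_ofNat] at this
  have hσlo : σ ≤ ((m : ℝ) ^ 3)⁻¹ := by
    refine le_trans (Real.exp_le_exp.2 (neg_le_neg n2)) ?_
    rw [Real.exp_neg]
    exact inv_anti₀ (by positivity) hm3
  have hQ := hK2.sc hl0 cen
  have hpt : ∀ Z ∈ E, (∀ x, ¬ T.ty (bv T i x) ⊆ S.erase c → Z x = 0) ∧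
      ∀ x, T.ty (bv T i x) ⊆ S.erase c →
        |(T.cpy i (Fin 2)).u (cz Z) x - cen x| ≤ T.ql i m x := by
    intro Z hZ
    obtain ⟨h1, h2⟩ := (mem_pts hQ).1 (hE.1 hZ)
    refine ⟨fun x hx => h1 x fun h => hx ((sub_iff hi x).1 h), fun x hx => ?_⟩
    have h3 : |((T.cpy i (Fin 2)).u (cz Z) x - cen x) / T.ql i m x| ≤ 1 := h2 x ((sub_iff hi x).2 hx)
    rwa [abs_div, abs_of_pos (hl0 x), div_le_one (hl0 x)] at h3
  have h20 : ∀ (x : T.CV i (Fin 2)) (w : ℝ), |w - cen x| ≤ T.ql i m x → |w| ≤ 20 := by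
    intro x w hw
    have h1 := hcen x
    have h2 := abs_sub_abs_le_abs_sub w (cen x)
    linarith
  -- volumes
  let h : Fin 2 → ℝ := fun k => ∏ v : {v : ι // i ∈ T.ty v},
    if T.ty v.1 ⊆ S.erase c then 2 * (T.dv v.1 * T.ql i m (Sum.inr (k, v))) else 1
  have hh : ∀ k, 0 < h k := fun k => prod_pos fun v _ => by
    split_ifs
    · exact mul_pos two_pos (mul_pos (hT.pos _) (hl0 _))
    · exact one_pos
  set V := T.vol ∅ (S.erase c) * ∏ v ∈ T.fv ∅ (S.erase c), T.ql i m (Sum.inl v) with hV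
  have hV0 : 0 < V := mul_pos (vol_pos hT _ _) (prod_pos fun v _ => hl0 _)
  have hV1 : ∏ v ∈ T.fv ∅ (S.erase c), 2 * (T.dv v * T.ql i m (Sum.inl v)) = V := by
    rw [hV, vol, ← prod_mul_distrib]
    exact prod_congr rfl fun v _ => (mul_assoc _ _ _).symm
  have hV2 : (T.qt i m cen).vol ∅ (ex (S.erase c)) = V * (h 0 * h 1) := by
    have := prod_fv (κ := Fin 2) hT hi fun x => 2 * ((T.cpy i (Fin 2)).dv x * T.ql i m x)
    rw [Fin.prod_univ_two] at this
    rw [← hV1]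
    exact this
  have hV4 : (T.cpy i (Fin 4)).vol ∅ ((S.erase c).disjSum univ) *
      ∏ x ∈ (T.cpy i (Fin 4)).fv ∅ ((S.erase c).disjSum univ), (T.ql i m ∘ mp T i md) x =
      V * (h 0 * h 1) ^ 2 := by
    have := prod_fv (κ := Fin 4) hT hi
      fun x => 2 * ((T.cpy i (Fin 4)).dv x * (T.ql i m ∘ mp T i md) x)
    rw [Fin.prod_univ_four] at this
    rw [vol, ← prod_mul_distrib, prod_congr rfl fun v _ => mul_assoc _ _ _, this, ← hV1]
    show _ * (h 0 * h 1 * h 0 * h 1) = _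
    rw [show h 0 * h 1 * h 0 * h 1 = (h 0 * h 1) ^ 2 by ring]
    rfl
  -- base points
  let Bs := T.fbx ∅ (S.erase c) 0 (fun v => cen (Sum.inl v)) fun v => T.ql i m (Sum.inl v)
  have hne : ∀ {R : Type} (z z' : ι → R), T.Ag ∅ z z' := fun z z' v hv =>
    absurd (subset_empty.1 hv) (hT.ne v).ne_empty
  have hBs : ∀ Z ∈ E, T.bs i Z ∈ Bs := by
    intro Z hZ
    obtain ⟨h1, h2⟩ := hpt Z hZ
    refine mem_filter.2 ⟨(mem_pts hT).2 ⟨fun v hv => h1 (Sum.inl v) hv,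
      fun v hv => h20 _ _ (h2 (Sum.inl v) hv)⟩, hne _ _, fun v hv => ?_⟩
    exact h2 (Sum.inl v) (mem_filter.1 hv).2.1
  have hσ1 : σ ≤ 1 := hσlo.trans (inv_le_one_of_one_le₀ (one_le_pow₀ hm))
  have hBc : (Bs.card : ℝ) ≤ 2 * V := by
    have h1 := hNn.1.1.1 (S.erase c) (fun v => cen (Sum.inl v)) (fun v => T.ql i m (Sum.inl v))
      fun v => ⟨hσlo.trans (hlo _), (hcen _).trans (by norm_num)⟩
    have h2 := (abs_le.1 h1).2
    have h3 : σ * V ≤ 1 * V := mul_le_mul_of_nonneg_right hσ1 hV0.le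
    linarith
  -- atypical pairs
  let good : (T.CV i (Fin 2) → ℤ) → (T.CV i (Fin 2) → ℤ) → Prop := fun Z Z' =>
    (T.cpy i (Fin 4)).Zr ((S.erase c).disjSum univ) (S.disjSum univ) (Sum.inl c) (jn Z Z') σ⁻¹
  have hsub : (S.erase c).disjSum (univ : Finset (Fin 4)) ⊆ S.disjSum univ :=
    disjSum_mono (erase_subset _ _) subset_rfl
  have hcn : (Sum.inl c : α ⊕ Fin 4) ∉ (S.erase c).disjSum univ := fun h1 =>
    notMem_erase c S (inl_mem_disjSum.1 h1)
  have hbad : (((E ×ˢ E).filter fun p => T.bs i p.2 = T.bs i p.1 ∧ ¬ good p.1 p.2).card : ℝ) ≤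
      σ * (V * (h 0 * h 1) ^ 2) := by
    have h1 := (hNn.2 i 4 (by norm_num)).2.2 _ _ _ (Sum.inl c) hsub subset_rfl
      (inl_mem_disjSum.2 hcS) hcn (cen ∘ mp T i md) (T.ql i m ∘ mp T i md)
      fun v => ⟨hσlo.trans (hlo _), (hcen _).trans (by norm_num)⟩
    rw [hV4] at h1
    refine le_trans (Nat.cast_le.2 (card_le_card_of_injOn (fun p => jn p.1 p.2) (fun p hp => ?_) ?_)) h1
    · obtain ⟨a1, a2, a3⟩ := mem_filter.1 (mem_coe.1 hp)
      obtain ⟨b1, b2⟩ := hpt _ (mem_product.1 a1).1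
      obtain ⟨c1, c2⟩ := hpt _ (mem_product.1 a1).2
      have d1 : jn p.1 p.2 ∘ mp T i e1 = p.2 := jn_e1 fun v => (congrFun a2 v).symm
      have hu : ∀ x, T.ty (bv T i x) ⊆ S.erase c →
          |(T.cpy i (Fin 4)).u (cz (jn p.1 p.2)) x - cen (mp T i md x)| ≤
            T.ql i m (mp T i md x) := by
        intro x hx
        rcases cases4 x with ⟨y, rfl⟩ | ⟨q, rfl⟩
        · rw [md_mp0, ← u_mp]
          have e : cz (jn p.1 p.2) ∘ mp T i e0 = cz p.1 := congrArg cz (jn_e0 p.1 p.2)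
          rw [e]
          exact b2 y (by rwa [bv_mp] at hx)
        · rw [md_mp1, ← u_mp]
          have e : cz (jn p.1 p.2) ∘ mp T i e1 = cz p.2 := congrArg cz d1
          rw [e]
          exact c2 _ (by rwa [bv_mp] at hx)
      refine mem_coe.2 (mem_filter.2 ⟨mem_filter.2 ⟨(mem_pts hK4).2 ⟨fun x hx => ?_,
        fun x hx => h20 _ _ (hu x ((sub_iff hi x).1 hx))⟩, fun v hv => ?_,
        fun x hx => hu x ((sub_iff hi x).1 (mem_filter.1 hx).2.1)⟩, a3⟩)
      · have hx' : ¬ T.ty (bv T i x) ⊆ S.erase c := fun h2 => hx ((sub_iff hi x).2 h2)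
        rcases cases4 x with ⟨y, rfl⟩ | ⟨q, rfl⟩
        · exact (jn_l _ _ y).trans (b1 y (by rwa [bv_mp] at hx'))
        · exact (jn_r _ _ q).trans (c1 _ (by rwa [bv_mp] at hx'))
      · exact absurd (subset_empty.1 hv) (hK4.ne v).ne_empty
    · intro p hp p' hp' hh
      have a2 := (mem_filter.1 (mem_coe.1 hp)).2.1
      have a2' := (mem_filter.1 (mem_coe.1 hp')).2.1
      have hh' : jn p.1 p.2 = jn p'.1 p'.2 := hh
      refine Prod.ext ?_ ?_
      · rw [← jn_e0 p.1 p.2, hh', jn_e0]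
      · rw [← jn_e1 (X := p.1) (X' := p.2) fun v => (congrFun a2 v).symm, hh',
          jn_e1 fun v => (congrFun a2' v).symm]
  have hH0 : 0 < h 0 * h 1 := mul_pos (hh 0) (hh 1)
  have he0 : 0 < Real.exp (-L) := Real.exp_pos _
  have hcnt := cnt E (T.bs i) Bs hBs good (t := Real.exp (-L) * (h 0 * h 1) / 8) (by positivity)
    (by convert hbad)
  refine ⟨E.filter fun Z => ∃ Z' ∈ E, T.bs i Z' = T.bs i Z ∧ good Z Z', filter_subset _ _,
    ⟨(filter_subset _ _).trans hE.1, ?_⟩, fun Z hZ k => ?_⟩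
  · have h1 := hE.2
    rw [hV2] at h1 ⊢
    have h2 := card_filter_add_card_filter_not (s := E)
      (fun Z => ∃ Z' ∈ E, T.bs i Z' = T.bs i Z ∧ good Z Z')
    have h3 : (E.card : ℝ) = (E.filter fun Z => ∃ Z' ∈ E, T.bs i Z' = T.bs i Z ∧ good Z Z').card +
        (E.filter fun Z => ¬ ∃ Z' ∈ E, T.bs i Z' = T.bs i Z ∧ good Z Z').card := by
      exact_mod_cast h2.symm
    rw [h3] at h1
    have h4 : Real.exp (-L) ≤ 1 / 2 := by
      have := Real.add_one_le_exp L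
      rw [Real.exp_neg, one_div]
      exact inv_anti₀ two_pos (by linarith)
    have h5 : σ ≤ Real.exp (-L) ^ 2 / 32 := by
      have h6 : (32 : ℝ) ≤ Real.exp 4 := by
        have h7 := Real.exp_one_gt_d9
        have h8 : Real.exp 4 = Real.exp 1 ^ 4 := by rw [← Real.exp_nat_mul]; norm_num
        have h9 := pow_le_pow_left₀ (by norm_num : (0 : ℝ) ≤ 2.7) (by linarith : 2.7 ≤ Real.exp 1) 4
        rw [h8]
        linarith [show (32 : ℝ) ≤ 2.7 ^ 4 by norm_num]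
      rw [le_div_iff₀ (by norm_num), ← Real.exp_nat_mul]
      refine (mul_le_mul_of_nonneg_left h6 (Real.exp_pos _).le).trans ?_
      rw [← Real.exp_add]
      refine Real.exp_le_exp.2 ?_
      push_cast
      linarith
    refine le_trans (mul_le_mul_of_nonneg_right ?_ (by positivity))
      (fin he0 h4 hV0 hH0 h5 h1 hBc (by convert hcnt))
    rw [← Real.exp_nat_mul]
    refine Real.exp_le_exp.2 ?_
    have h10 : (2 : ℝ) ≤ C := by rw [hC]; push_cast; linarith [Nat.cast_nonneg (α := ℝ) N]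
    have := mul_le_mul_of_nonneg_right h10 (show 0 ≤ L by linarith)
    push_cast
    linarith
  · obtain ⟨hZE, Z', hZ', hb, hg⟩ := mem_filter.1 hZ
    obtain ⟨I, i1, i2, i3⟩ := hIB Z hZE k
    obtain ⟨I', j1, j2, j3⟩ := hIB Z' hZ' k
    have d1 : jn Z Z' ∘ mp T i e1 = Z' := jn_e1 fun v => (congrFun hb v).symm
    have hF := (fm_mp hiS hc hcS e0 i1).sub (fm_mp hiS hc hcS e1 j1)
    have hI : (T.cpy i (Fin 4)).IsI ((S.erase c).disjSum univ) (jn Z Z')
        fun W => I (W ∘ mp T i e0) - I' (W ∘ mp T i e1) := by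
      refine IsI.sub (fun z hz => ?_) (fun z hz => ?_)
      · exact i2 (z ∘ mp T i e0) (jn_e0 Z Z' ▸ ag_mp hi e0 hz)
      · exact j2 (z ∘ mp T i e1) (by have := ag_mp hi e1 hz; rwa [d1] at this)
    have hO := ((osc_mp hi e1 md_mp1 d1 j3).sub (osc_mp hi e0 md_mp0 (jn_e0 Z Z') i3)).eq
      (g := fun W => I (W ∘ mp T i e0) - I' (W ∘ mp T i e1)) fun W _ => by
        show f k (T.bs i (W ∘ mp T i e0)) - _ - (f k (T.bs i (W ∘ mp T i e0)) - _) = _
        ring
    have hO2 := (hSC _ _ (T.cpy i (Fin 4)) _ _ (Sum.inl c) (jn Z Z') hK4 hsub hcn).1 _ _ _ _ _ hF hlo0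
      (fun v => ⟨hlo _, (hcen _).trans (by norm_num)⟩) hO
    have hO3 : (T.cpy i (Fin 4)).Osc ((S.erase c).disjSum univ) (S.disjSum univ) (Sum.inl c)
        (jn Z Z') (fun W => I (W ∘ mp T i e0) - I' (W ∘ mp T i e1)) σ⁻¹ := by
      intro W W' a1 a2 a3 a4
      refine (hO2 W W' a1 a2 a3 fun v hv => ?_).trans ?_
      · have := a4 v hv
        simp only [sc, sub_zero, abs_div]
        norm_num
        constructor <;> rw [div_le_one (by norm_num)] <;> linarith [this.1, this.2]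
      · have b1 : 100 / ((m : ℝ) ^ 3)⁻¹ ≤ Real.exp (5 + 3 * Y) := by
          rw [div_inv_eq_mul, Real.exp_add]
          refine mul_le_mul ?_ hm3 (by positivity) (Real.exp_pos _).le
          have h7 := Real.exp_one_gt_d9
          have h8 : Real.exp 5 = Real.exp 1 ^ 5 := by rw [← Real.exp_nat_mul]; norm_num
          have h9 := pow_le_pow_left₀ (by norm_num : (0 : ℝ) ≤ 2.7) (by linarith : 2.7 ≤ Real.exp 1) 5
          rw [h8]
          linarith [show (100 : ℝ) ≤ 2.7 ^ 5 by norm_num]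
        have b2 : 2 ^ (Fintype.card (α ⊕ Fin 4) + 1) ≤ N := by
          rw [hN, Fintype.card_sum, Fintype.card_fin]
          exact Nat.pow_le_pow_right two_pos (by omega)
        have hY0 : 0 ≤ Y := (Nat.cast_nonneg C).trans hY
        have b3 : (100 / ((m : ℝ) ^ 3)⁻¹) ^ 2 ^ (Fintype.card (α ⊕ Fin 4) + 1) ≤
            Real.exp (N * (5 + 3 * Y)) := by
          rw [Real.exp_nat_mul]
          exact (pow_le_pow_left₀ (by positivity) b1 _).trans
            (pow_le_pow_right₀ (Real.one_le_exp (by linarith)) b2)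
        have b4 : Real.exp L + Real.exp L ≤ Real.exp (1 + L) := by
          have := mul_le_mul_of_nonneg_right (Real.add_one_le_exp 1) (Real.exp_pos L).le
          rw [Real.exp_add]
          linarith
        refine (mul_le_mul b3 b4 (by positivity) (Real.exp_pos _).le).trans ?_
        rw [← Real.exp_add, hσ, ← Real.exp_neg, neg_neg]
        exact Real.exp_le_exp.2 n1
    have hz := hg _ hF hI hO3
    refine IBg.mono (down hT hcS hi i1 i2 i3 fun X X' a1 a2 a3 a4 => indep hi hz a1 a2 a3 a4) ?_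
    refine Real.exp_le_exp.2 (le_mul_of_one_le_left (by linarith) ?_)
    rw [hC]; push_cast; linarith [Nat.cast_nonneg (α := ℝ) N]

end Vale.Agent.P057T.Gk
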