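import Vale.Agent.P057T.Gk.Rows
import Vale.Agent.P057T.Gk.Bas3

/-! Row SLOT, algebra: two completions of one vertex. -/

set_option linter.all false

open Finset

namespace Vale.Agent.P057T.Gk.Slot

open TT

noncomputable section

variable {α ι : Type} [Fintype α] [DecidableEq α] [Fintype ι] [DecidableEq ι] {T : TT α ι} {i : α}

/-- the variable below a copy -/
def bv (T : TT α ι) (i : α) {κ : Type} : T.CV i κ → ι := Sum.elim id fun p => p.2.1

section
variable {κ : Type} [Fintype κ] [DecidableEq κ]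

theorem sub_iff {S : Finset α} (hi : i ∈ S) (x : T.CV i κ) :
    (T.cpy i κ).ty x ⊆ S.disjSum univ ↔ T.ty (bv T i x) ⊆ S := by
  rcases x with v | p
  · rw [ty_inl_sub, toLeft_disjSum]; rfl
  · rw [ty_inr_sub, toLeft_disjSum]
    simp only [inr_mem_disjSum, mem_univ, and_true, bv, Sum.elim_inr]
    rw [← subset_insert_iff, insert_eq_of_mem hi]

theorem mem_iff {c : α} (hc : c ≠ i) (x : T.CV i κ) :
    Sum.inl c ∈ (T.cpy i κ).ty x ↔ c ∈ T.ty (bv T i x) := by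
  rcases x with v | p
  · rw [ty_inl, inl_mem_disjSum]; rfl
  · rw [ty_inr, inl_mem_disjSum, mem_erase]
    exact ⟨fun h => h.2, fun h => ⟨hc, h⟩⟩

theorem prod_fv (hT : T.Ok) {S : Finset α} (hi : i ∈ S) (g : T.CV i κ → ℝ) :
    ∏ x ∈ (T.cpy i κ).fv ∅ (S.disjSum univ), g x = (∏ v ∈ T.fv ∅ S, g (Sum.inl v)) *
      ∏ k, ∏ v : {v : ι // i ∈ T.ty v}, if T.ty v.1 ⊆ S then g (Sum.inr (k, v)) else 1 := by
  have h1 : ∀ x : T.CV i κ, ¬ (T.cpy i κ).ty x ⊆ ∅ := fun x h =>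
    ((hT.cpy i κ).ne x).ne_empty (subset_empty.1 h)
  have h2 : ∀ v, ¬ T.ty v ⊆ ∅ := fun v h => (hT.ne v).ne_empty (subset_empty.1 h)
  unfold fv
  rw [prod_filter, prod_filter, Fintype.prod_sum_type, Fintype.prod_prod_type]
  simp only [h1, h2, not_false_eq_true, and_true, sub_iff hi]
  rfl
end

def md : Fin 4 → Fin 2 := ![0, 1, 0, 1]
def e0 : Fin 2 → Fin 4 := ![0, 1]
def e1 : Fin 2 → Fin 4 := ![2, 3]

theorem md_e0 (k : Fin 2) : md (e0 k) = k := by fin_cases k <;> rfl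
theorem md_e1 (k : Fin 2) : md (e1 k) = k := by fin_cases k <;> rfl

def mp (T : TT α ι) (i : α) {κ κ' : Type} (e : κ → κ') : T.CV i κ → T.CV i κ' :=
  Sum.map id (Prod.map e id)

theorem bv_mp {κ κ' : Type} (e : κ → κ') (x : T.CV i κ) : bv T i (mp T i e x) = bv T i x := by
  rcases x with v | p <;> rfl

/-- the joint point -/
def jn {R : Type} (X X' : T.CV i (Fin 2) → R) : T.CV i (Fin 4) → R :=
  Sum.elim (fun v => X (Sum.inl v)) fun p => ![X, X, X', X'] p.1 (Sum.inr (md p.1, p.2))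

theorem jn_e0 {R : Type} (X X' : T.CV i (Fin 2) → R) : jn X X' ∘ mp T i e0 = X := by
  funext x
  rcases x with v | ⟨k, v⟩
  · rfl
  · fin_cases k <;> rfl

theorem jn_e1 {R : Type} {X X' : T.CV i (Fin 2) → R} (h : ∀ v, X (Sum.inl v) = X' (Sum.inl v)) :
    jn X X' ∘ mp T i e1 = X' := by
  funext x
  rcases x with v | ⟨k, v⟩
  · exact h v
  · fin_cases k <;> rfl

theorem cases4 (x : T.CV i (Fin 4)) : (∃ y, x = mp T i e0 y) ∨ ∃ p, x = mp T i e1 (Sum.inr p) := by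
  rcases x with v | ⟨k, v⟩
  · exact Or.inl ⟨Sum.inl v, rfl⟩
  · fin_cases k
    · exact Or.inl ⟨Sum.inr (0, v), rfl⟩
    · exact Or.inl ⟨Sum.inr (1, v), rfl⟩
    · exact Or.inr ⟨(0, v), rfl⟩
    · exact Or.inr ⟨(1, v), rfl⟩

theorem jn_r {R : Type} (X X' : T.CV i (Fin 2) → R) (p) :
    jn X X' (mp T i e1 (Sum.inr p)) = X' (Sum.inr p) := by
  obtain ⟨k, v⟩ := p
  fin_cases k <;> rfl

theorem jn_l {R : Type} (X X' : T.CV i (Fin 2) → R) (y) : jn X X' (mp T i e0 y) = X y :=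
  congrFun (jn_e0 X X') y

theorem u_mp (e : Fin 2 → Fin 4) (W : T.CV i (Fin 4) → ℝ) (x : T.CV i (Fin 2)) :
    (T.cpy i (Fin 2)).u (W ∘ mp T i e) x = (T.cpy i (Fin 4)).u W (mp T i e x) := by
  rcases x with v | ⟨k, v⟩ <;> rfl

theorem md_mp0 (x : T.CV i (Fin 2)) : mp T i md (mp T i e0 x) = x := by
  rcases x with v | ⟨k, v⟩
  · rfl
  · fin_cases k <;> rfl

theorem md_mp1 (x : T.CV i (Fin 2)) : mp T i md (mp T i e1 x) = x := by
  rcases x with v | ⟨k, v⟩
  · rfl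
  · fin_cases k <;> rfl

section
variable {S : Finset α} {c : α}

theorem ag_mp {R : Type} (hi : i ∈ S) (e : Fin 2 → Fin 4) {W W' : T.CV i (Fin 4) → R}
    (h : (T.cpy i (Fin 4)).Ag (S.disjSum univ) W W') :
    (T.cpy i (Fin 2)).Ag (S.disjSum univ) (W ∘ mp T i e) (W' ∘ mp T i e) := fun x hx =>
  h _ ((sub_iff hi _).2 (by rw [bv_mp]; exact (sub_iff hi _).1 hx))

theorem of_mp {R : Type} (hc : c ≠ i) (e : Fin 2 → Fin 4) {W W' : T.CV i (Fin 4) → R}
    (h : (T.cpy i (Fin 4)).Of (Sum.inl c) W W') :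
    (T.cpy i (Fin 2)).Of (Sum.inl c) (W ∘ mp T i e) (W' ∘ mp T i e) := fun x hx =>
  h _ fun h1 => hx ((mem_iff hc _).2 (by rw [← bv_mp e]; exact (mem_iff hc _).1 h1))

theorem sd {κ : Type} [Fintype κ] [DecidableEq κ] {a : α ⊕ κ}
    (ha : a ∈ S.disjSum (univ : Finset κ) \ (S.erase c).disjSum univ) : a = Sum.inl c := by
  obtain ⟨h1, h2⟩ := mem_sdiff.1 ha
  rcases a with a | k
  · rw [inl_mem_disjSum] at h1 h2
    by_contra h
    exact h2 (mem_erase.2 ⟨fun h3 => h (congrArg _ h3), h1⟩)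
  · exact absurd (inr_mem_disjSum.2 (mem_univ k)) h2

theorem sd_mem {κ : Type} [Fintype κ] [DecidableEq κ] (hc : c ∈ S) :
    (Sum.inl c : α ⊕ κ) ∈ S.disjSum (univ : Finset κ) \ (S.erase c).disjSum univ :=
  mem_sdiff.2 ⟨inl_mem_disjSum.2 hc, fun h => notMem_erase c S (inl_mem_disjSum.1 h)⟩

theorem fm_mp (hi : i ∈ S) (hc : c ≠ i) (hcS : c ∈ S) (e : Fin 2 → Fin 4) {I : Fn (T.CV i (Fin 2))}
    (h : (T.cpy i (Fin 2)).Fm (S.disjSum univ) (S.disjSum univ \ (S.erase c).disjSum univ) I) :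
    (T.cpy i (Fin 4)).Fm (S.disjSum univ) (S.disjSum univ \ (S.erase c).disjSum univ)
      fun W => I (W ∘ mp T i e) := by
  refine ⟨fun W W' hW => h.1 _ _ (ag_mp hi e hW), fun a ha W => ?_⟩
  rw [sd ha]
  obtain ⟨L, hL⟩ := h.2 _ (sd_mem hcS) (W ∘ mp T i e)
  refine ⟨L.comp (LinearMap.funLeft ℝ ℝ (mp T i e)), fun K hK => ?_⟩
  exact hL (K ∘ mp T i e) fun x hx =>
    hK _ fun h1 => hx ((mem_iff hc _).2 (by rw [← bv_mp e]; exact (mem_iff hc _).1 h1))

theorem osc_mp (hi : i ∈ S.erase c) (e : Fin 2 → Fin 4) (he : ∀ x, mp T i md (mp T i e x) = x)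
    {l cen : T.CV i (Fin 2) → ℝ} {Z : T.CV i (Fin 2) → ℤ} {B : T.CV i (Fin 4) → ℤ}
    (hB : B ∘ mp T i e = Z) {g : Fn (T.CV i (Fin 2))} {H : ℝ}
    (h : ((T.cpy i (Fin 2)).sc l cen).Osc (ex (S.erase c)) (ex S) (Sum.inl c) Z g H) :
    ((T.cpy i (Fin 4)).sc (l ∘ mp T i md) (cen ∘ mp T i md)).Osc ((S.erase c).disjSum univ)
      (S.disjSum univ) (Sum.inl c) B (fun W => g (W ∘ mp T i e)) H := by
  intro W W' h1 h2 h3 h4
  have hiS := mem_of_mem_erase hi
  have hc : c ≠ i := (ne_of_mem_erase hi).symm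
  subst hB
  refine h _ _ (ag_mp hi e h1) (ag_mp hi e h2) (of_mp hc e h3) fun x hx => ?_
  obtain ⟨h5, h6⟩ := (mem_filter.1 hx).2
  have h7 := h4 (mp T i e x) (mem_filter.2 ⟨mem_univ _,
    (sub_iff hiS _).2 (by rw [bv_mp]; exact (sub_iff hiS _).1 h5),
    fun h8 => h6 ((sub_iff hi _).2 (by rw [← bv_mp e]; exact (sub_iff hi _).1 h8))⟩)
  simp only [sc, Function.comp, he] at h7 ⊢
  rw [← u_mp, ← u_mp] at h7
  exact h7

/-- the integer part does not see the increments -/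
theorem indep (hi : i ∈ S.erase c) {Z Z' : T.CV i (Fin 2) → ℤ} {I I' : Fn (T.CV i (Fin 2))}
    (h : (T.cpy i (Fin 4)).Osc ((S.erase c).disjSum univ) ((S.erase c).disjSum univ) (Sum.inl c)
      (jn Z Z') (fun W => I (W ∘ mp T i e0) - I' (W ∘ mp T i e1)) 0)
    {X X' : T.CV i (Fin 2) → ℝ} (h1 : (T.cpy i (Fin 2)).Ag (ex (S.erase c)) X (cz Z))
    (h2 : (T.cpy i (Fin 2)).Ag (ex (S.erase c)) X' (cz Z))
    (h3 : (T.cpy i (Fin 2)).Of (Sum.inl c) X X') (h4 : ∀ v, X (Sum.inl v) = X' (Sum.inl v)) :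
    I X = I X' := by
  have hc : c ≠ i := (ne_of_mem_erase hi).symm
  have hag : ∀ Y : T.CV i (Fin 2) → ℝ, (T.cpy i (Fin 2)).Ag (ex (S.erase c)) Y (cz Z) →
      (T.cpy i (Fin 4)).Ag ((S.erase c).disjSum univ) (jn Y (cz Z')) (cz (jn Z Z')) := by
    intro Y hY x hx
    rcases cases4 x with ⟨y, rfl⟩ | ⟨p, rfl⟩
    · unfold cz
      rw [jn_l, jn_l]
      exact hY y ((sub_iff hi _).2 (by rw [← bv_mp e0]; exact (sub_iff hi _).1 hx))
    · unfold cz
      rw [jn_r, jn_r]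
  have h5 := h (jn X (cz Z')) (jn X' (cz Z')) (hag X h1) (hag X' h2) (by
    intro x hx
    rcases cases4 x with ⟨y, rfl⟩ | ⟨p, rfl⟩
    · rw [jn_l, jn_l]
      exact h3 y fun h6 => hx ((mem_iff hc _).2 (by rw [bv_mp]; exact (mem_iff hc _).1 h6))
    · rw [jn_r, jn_r]) (fun x hx => absurd (mem_filter.1 hx).2.1 (mem_filter.1 hx).2.2)
  have e : jn X (cz Z') ∘ mp T i e1 = jn X' (cz Z') ∘ mp T i e1 := by
    funext x
    rcases x with v | p
    · exact h4 v
    · exact (jn_r _ _ p).trans (jn_r _ _ p).symm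
  simp only [jn_e0, e] at h5
  have := abs_nonpos_iff.1 h5
  linarith

/-- complete a point by increments in the centre of the window -/
theorem fill (hT : T.Ok) (hc : c ≠ i) (Z cen : T.CV i (Fin 2) → ℝ) (x : ι → ℝ) :
    ∃ X : T.CV i (Fin 2) → ℝ, (∀ v, X (Sum.inl v) = x v) ∧
      (∀ p, c ∉ T.ty p.2.1 → X (Sum.inr p) = Z (Sum.inr p)) ∧
      ∀ p, c ∈ T.ty p.2.1 → (T.cpy i (Fin 2)).u X (Sum.inr p) = cen (Sum.inr p) := by
  have hK := hT.cpy i (Fin 2)
  let X0 : T.CV i (Fin 2) → ℝ := Sum.elim x fun p => Z (Sum.inr p)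
  let t : T.CV i (Fin 2) → ℝ := Sum.elim (fun v => (T.cpy i (Fin 2)).u X0 (Sum.inl v)) fun p =>
    if c ∈ T.ty p.2.1 then cen (Sum.inr p) else (T.cpy i (Fin 2)).u X0 (Sum.inr p)
  have key : ∀ y, (∀ p, (T.cpy i (Fin 2)).ty (Sum.inr p) ⊆ (T.cpy i (Fin 2)).ty y →
      c ∉ T.ty p.2.1) → (T.cpy i (Fin 2)).ψ t y = X0 y := by
    intro y hy
    have h1 := (hK.fψ y).1 t ((T.cpy i (Fin 2)).u X0) (by
      intro w hw
      rcases w with v | p
      · rfl
      · exact if_neg (hy p hw))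
    exact h1.trans (congrFun (hK.l X0) y)
  refine ⟨(T.cpy i (Fin 2)).ψ t, fun v => key _ fun p hp => ?_, fun p hp => key _ fun q hq h => ?_,
    fun p hp => ?_⟩
  · have := (ty_inr_sub.1 hp).2
    rw [ty_inl] at this
    simp at this
  · exact hp ((mem_iff hc (Sum.inr p)).1 (hq ((mem_iff hc (Sum.inr q)).2 h)))
  · rw [hK.r]
    exact if_pos hp

theorem down (hT : T.Ok) (hcS : c ∈ S) (hi : i ∈ S.erase c) {m : ℕ} {cen : T.CV i (Fin 2) → ℝ}
    {Z : T.CV i (Fin 2) → ℤ} {f : Fn ι} {I : Fn (T.CV i (Fin 2))} {H : ℝ}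
    (h1 : (T.cpy i (Fin 2)).Fm (ex S) (ex S \ ex (S.erase c)) I)
    (h2 : (T.cpy i (Fin 2)).IsI (ex (S.erase c)) Z I)
    (h3 : (T.qt i m cen).Osc (ex (S.erase c)) (ex S) (Sum.inl c) Z (fun x => f (T.bs i x) - I x) H)
    (h4 : ∀ X X' : T.CV i (Fin 2) → ℝ, (T.cpy i (Fin 2)).Ag (ex (S.erase c)) X (cz Z) →
      (T.cpy i (Fin 2)).Ag (ex (S.erase c)) X' (cz Z) → (T.cpy i (Fin 2)).Of (Sum.inl c) X X' →
      (∀ v, X (Sum.inl v) = X' (Sum.inl v)) → I X = I X') :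
    (T.win i m cen).IB (S.erase c) S c (T.bs i Z) f H := by
  have hiS := mem_of_mem_erase hi
  have hc : c ≠ i := (ne_of_mem_erase hi).symm
  let xt : (ι → ℝ) → T.CV i (Fin 2) → ℝ := fun x => Sum.elim x fun p => cz Z (Sum.inr p)
  have hxt : ∀ x, T.Ag (S.erase c) x (cz (T.bs i Z)) →
      (T.cpy i (Fin 2)).Ag (ex (S.erase c)) (xt x) (cz Z) := by
    intro x hx y hy
    rcases y with v | p
    · exact hx v ((sub_iff hi _).1 hy)
    · rfl
  refine ⟨fun x => I (xt x), ⟨fun x x' hx => h1.1 _ _ ?_, fun a ha x => ?_⟩, fun z hz => ?_, ?_⟩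
  · intro y hy
    rcases y with v | p
    · exact hx v ((sub_iff hiS _).1 hy)
    · rfl
  · have hac : a = c := by
      obtain ⟨b1, b2⟩ := mem_sdiff.1 ha
      by_contra h
      exact b2 (mem_erase.2 ⟨h, b1⟩)
    subst hac
    obtain ⟨L, hL⟩ := h1.2 _ (sd_mem hcS) (xt x)
    let M : (ι → ℝ) →ₗ[ℝ] T.CV i (Fin 2) → ℝ :=
      { toFun := fun k => Sum.elim k fun _ => 0
        map_add' := fun k k' => by funext y; rcases y with v | p <;> simp
        map_smul' := fun r k => by funext y; rcases y with v | p <;> simp }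
    refine ⟨L.comp M, fun k hk => ?_⟩
    have e : xt (x + k) = xt x + M k := by
      funext y
      rcases y with v | p
      · rfl
      · exact (add_zero _).symm
    show I (xt (x + k)) = I (xt x) + L (M k)
    rw [e]
    refine hL _ fun y hy => ?_
    rcases y with v | p
    · exact hk v fun h => hy ((mem_iff hc _).2 h)
    · rfl
  · have e : xt (cz z) = cz (Sum.elim z fun p => Z (Sum.inr p)) := by
      funext y
      rcases y with v | p <;> rfl
    show ∃ n : ℤ, I (xt (cz z)) = n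
    rw [e]
    refine h2 _ fun y hy => ?_
    rcases y with v | p
    · exact hz v ((sub_iff hi _).1 hy)
    · rfl
  · intro x x' a1 a2 a3 a4
    have one : ∀ y : ι → ℝ, T.Ag (S.erase c) y (cz (T.bs i Z)) →
        (∀ v ∈ T.fv (S.erase c) S, |(T.win i m cen).u y v| ≤ 1) →
        ∃ X : T.CV i (Fin 2) → ℝ, T.bs i X = y ∧
          (∀ p, c ∉ T.ty p.2.1 → X (Sum.inr p) = cz Z (Sum.inr p)) ∧
          (T.cpy i (Fin 2)).Ag (ex (S.erase c)) X (cz Z) ∧ I X = I (xt y) ∧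
          ∀ w ∈ (T.qt i m cen).fv (ex (S.erase c)) (ex S), |(T.qt i m cen).u X w| ≤ 1 := by
      intro y b1 b2
      obtain ⟨X, c1, c2, c3⟩ := fill hT hc (cz Z) cen y
      have hb : T.bs i X = y := funext c1
      have hA : (T.cpy i (Fin 2)).Ag (ex (S.erase c)) X (cz Z) := by
        intro w hw
        have hw' := (sub_iff hi _).1 hw
        rcases w with v | p
        · exact (c1 v).trans (b1 v hw')
        · exact c2 p fun h => notMem_erase c S (hw' h)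
      refine ⟨X, hb, c2, hA, h4 _ _ hA (hxt y b1) (fun w hw => ?_) c1, fun w hw => ?_⟩
      · rcases w with v | p
        · exact c1 v
        · exact c2 p fun h => hw ((mem_iff hc _).2 h)
      · obtain ⟨d1, d2⟩ := (mem_filter.1 hw).2
        have d3 := (sub_iff hiS _).1 d1
        have d4 : ¬ T.ty (bv T i w) ⊆ S.erase c := fun h => d2 ((sub_iff hi _).2 h)
        rcases w with v | p
        · have := b2 v (mem_filter.2 ⟨mem_univ _, d3, d4⟩)
          rw [← hb] at this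
          exact this
        · have d5 : c ∈ T.ty p.2.1 := by
            by_contra h
            exact d4 (subset_erase.2 ⟨d3, h⟩)
          show |((T.cpy i (Fin 2)).u X (Sum.inr p) - cen (Sum.inr p)) / _| ≤ 1
          rw [c3 p d5, sub_self, zero_div, abs_zero]
          exact zero_le_one
    obtain ⟨X, b1, b2, b3, b4, b5⟩ := one x a1 fun v hv => (a4 v hv).1
    obtain ⟨X', b1', b2', b3', b4', b5'⟩ := one x' a2 fun v hv => (a4 v hv).2
    have := h3 X X' b3 b3' (by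
      intro w hw
      have hw' : c ∉ T.ty (bv T i w) := fun h => hw ((mem_iff hc _).2 h)
      rcases w with v | p
      · exact (congrFun b1 v).trans ((a3 v hw').trans (congrFun b1' v).symm)
      · exact (b2 p hw').trans (b2' p hw').symm) fun w hw => ⟨b5 w hw, b5' w hw⟩
    simp only [b1, b1', b4, b4'] at this
    exact this
end

end

end Vale.Agent.P057T.Gk.Slot
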