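import Vale.Agent.P057T.Gk.Step
import Vale.Agent.P057T.Gk.Glu

/-! The recursion with a stage counter: every addition of variables uses one stage. -/

set_option linter.all false

open Finset

namespace Vale.Agent.P057T.Gk

open TT

noncomputable section

structure Env2 {α β : Type} [Fintype α] [DecidableEq α] (Rv : ℕ → RV α β) (C0 : ℕ) (D0 : ℝ) :
    Prop where
  ok : ∀ t (ι : Type) [Fintype ι] [DecidableEq ι] (T : TT α ι) p W R, Rv t ι T p W R →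
    T.Ok ∧ 0 ≤ R ∧ (Fintype.card ι : ℝ) ≤ D0 + R ∧ T.Gn 3 (Real.exp (-W))
  mono : ∀ t t' (ι : Type) [Fintype ι] [DecidableEq ι] (T : TT α ι) p W R W' R', Rv t ι T p W R →
    t' ≤ t → 1 ≤ W' → W' ≤ W → R ≤ R' → Rv t' ι T p W' R'
  win : ∀ t (ι : Type) [Fintype ι] [DecidableEq ι] (T T' : TT α ι) p W R W' Y, Rv t ι T p W R →
    (C0 : ℝ) ≤ Y → D0 + R ≤ Real.exp Y → 1 ≤ W' → (Y + W') ^ C0 ≤ W → T.Sub T' Y →
    Rv t ι T' p W' R
  add : ∀ t (ι : Type) [Fintype ι] [DecidableEq ι] (T : TT α ι) p W R W' Y (ρ : Type) [Fintype ρ]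
    (e : Finset α) (Ψ : ρ → Fn ι) (Ω : Finset (ι → ℤ)), Rv (t + 1) ι T p W R → (C0 : ℝ) ≤ Y →
    D0 + R ≤ Real.exp Y → (Fintype.card ρ : ℝ) ≤ Y → 1 ≤ W' → (Y + W') ^ C0 ≤ W →
    (∀ r, T.Fm e e (Ψ r)) → T.Dn univ Ω Y →
    ∃ (ι' : Type) (_ : Fintype ι') (_ : DecidableEq ι') (T' : TT α ι') (π : (ι' → ℝ) → ι → ℝ)
      (Ω' : Finset (ι' → ℤ)) (ζ : ρ → Fn ι') (s : ρ → ℝ),
      Rv t ι' T' (fun z => p (π z)) W' (R + Y ^ C0) ∧
      Mor T' T π ∧ T'.Dn univ Ω' (Y ^ C0) ∧ (∀ z ∈ Ω', zi π z ∈ Ω) ∧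
      (∀ r, T'.Fm e e (ζ r) ∧ ∀ z : ι' → ℤ, ∃ n : ℤ, ζ r (cz z) = n) ∧
      ∀ z ∈ Ω', ∀ r, |Ψ r (π (cz z)) - ζ r (cz z) - s r| ≤ 1 / 100

/-- the theorem for states with at most `s` classes and at most `b` base classes -/
def GKs2 (a s b : ℕ) : Prop :=
  ∃ t0 : ℕ, ∀ C0 : ℕ, ∃ C : ℕ, ∀ (t : ℕ) (α β : Type) [Fintype α] [DecidableEq α]
    (Rv : ℕ → RV α β) (D0 : ℝ) (ι κ : Type)
    [Fintype ι] [DecidableEq ι] [Fintype κ] (T : TT α ι) (p : (ι → ℝ) → β) (W R W' Y : ℝ)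
    (S : Finset α) (c : α) (F : Finset α) (τ : κ → Fn ι) (Ω : Finset (ι → ℤ)),
    Fintype.card α ≤ a → Env2 Rv C0 D0 → Rv (t + t0) ι T p W R → (C : ℝ) ≤ Y →
    D0 + R ≤ Real.exp Y →
    (Fintype.card κ : ℝ) ≤ Real.exp Y → 1 ≤ W' → (Y + W') ^ C ≤ W → S.card ≤ s →
    (S.erase c \ F).card ≤ b → T.St S c F τ Ω Y →
    ∃ (ι' : Type) (_ : Fintype ι') (_ : DecidableEq ι') (T' : TT α ι') (π : (ι' → ℝ) → ι → ℝ)
      (Ω' : Finset (ι' → ℤ)) (n : ℕ) (P : κ → Fn ι'),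
      Rv t ι' T' (fun z => p (π z)) W' (R + Y ^ C) ∧
      Mor T' T π ∧ T'.Dn univ Ω' (Y ^ C) ∧ (∀ z ∈ Ω', zi π z ∈ Ω) ∧ 1 ≤ n ∧
      (n : ℝ) ≤ Real.exp (Y ^ C) ∧ (∀ k, T'.Fm S S (P k)) ∧
      T'.Rel S c n (fun k z => τ k (π z)) P Ω' (Real.exp (Y ^ C))

/-- the main statement with the stage counter -/
def GK2 : Prop := ∀ a : ℕ, GKs2 a a a

theorem base2 (a s : ℕ) : GKs2 a s 0 := by
  refine ⟨0, fun C0 => ⟨1, ?_⟩⟩
  intro t α β _ _ Rv D0 ι κ _ _ _ T p W R W' Y S c F τ Ω _ hE hR hY _ _ hW hWW _ hb hS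
  rw [Nat.cast_one] at hY
  rw [pow_one] at hWW ⊢
  have hF : S ⊆ insert c F := by
    intro x hx
    by_contra h
    rw [mem_insert, not_or] at h
    have : x ∈ S.erase c \ F := mem_sdiff.2 ⟨mem_erase.2 ⟨h.1, hx⟩, h.2⟩
    rw [card_eq_zero.1 (Nat.le_zero.1 hb)] at this
    exact notMem_empty _ this
  refine ⟨ι, inferInstance, inferInstance, T, fun x => x, Ω, 1, τ,
    hE.mono _ t ι T p W R W' (R + Y) hR (by omega) hW (by linarith) (by linarith), Mor.id T, hS.dn,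
    fun z hz => by rw [zi_id]; exact hz, le_rfl, ?_, fun k => (hS.fm k).mono subset_rfl hF,
    fun z _ k => ?_⟩
  · rw [Nat.cast_one]; exact Real.one_le_exp (by linarith)
  · refine IB.mono (H := 0) ?_ (Real.exp_pos _).le
    exact IB.eq (ind_const c 0).ibg fun x _ => by simp

set_option maxHeartbeats 1600000 in
theorem step2 (hc : CPOK) (hzt : ZT) (hs : SCG) (hp : PRE) (hsh : SHR) (hf : FINA) (hl : LIFT)
    (hr : RST) (a s b : ℕ) : GKs2 a s a → GKs2 a (s + 1) b → GKs2 a (s + 1) (b + 1) := by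
  intro ⟨tψ, hψ⟩ ⟨tm, hm⟩
  refine ⟨tm + 1 + tψ, fun C0 => ?_⟩
  obtain ⟨Cψ, hψ⟩ := hψ C0
  obtain ⟨Cm, hm⟩ := hm C0
  obtain ⟨Cz, hz⟩ := hzt a 3
  obtain ⟨Cp, hp⟩ := hp a
  obtain ⟨Cs, hsh⟩ := hsh a
  obtain ⟨Cf, hf⟩ := hf a
  obtain ⟨Cl, hl⟩ := hl a
  obtain ⟨Cr, hr⟩ := hr a
  obtain ⟨K, hKd⟩ : ∃ K, K = 2 * (C0 + Cψ + Cm + Cz + Cp + Cs + Cf + Cl + Cr) + 5 := ⟨_, rfl⟩
  have hK : 5 ≤ K := by omega
  refine ⟨K ^ 16, ?_⟩
  intro t α β _ _ Rv D0 ι κ _ _ _ T p W R W' Y S c F τ Ω ha hE hR hY hD hκ hW' hW hS hb hSt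
  have hKK : K ≤ K ^ 16 := Nat.le_self_pow (by norm_num) K
  have hY' : (K : ℝ) ≤ Y := le_trans (by exact_mod_cast hKK) hY
  have hU : Y ≤ Y + W' := by linarith
  have hU' : (K : ℝ) ≤ Y + W' := hY'.trans hU
  have hWP : ∀ e, W' ≤ lv K (Y + W') e := fun e => by
    have := Lvl.ge hK hU' e
    have h5 : (5 : ℝ) ≤ K := by exact_mod_cast hK
    linarith
  have hP1 : ∀ e, 1 ≤ lv K (Y + W') e := fun e => hW'.trans (hWP e)
  have hQ0 : ∀ e, 0 ≤ lv K Y e := fun e => by linarith [Lvl.ge5 hK hY' e]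
  have hW16 : lv K (Y + W') 16 ≤ W := hW
  have hY16 : Y ^ K ^ 16 = lv K Y 16 := rfl
  have exY : ∀ e, Real.exp Y ≤ Real.exp (lv K Y e) := fun e => Real.exp_le_exp.2 (Lvl.ge hK hY' e)
  rw [hY16]
  by_cases hb' : (S.erase c \ F).card ≤ b
  · obtain ⟨ι', i1, i2, T', π, Ω', n, P, g1, g2, g3, g4, g5, g6, g7, g8⟩ :=
      hm t α β Rv D0 ι κ T p W R W' Y S c F τ Ω ha hE
        (hE.mono _ _ _ _ _ _ _ _ _ hR (by omega) ((hP1 16).trans hW16) le_rfl le_rfl)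
        (le_trans (by exact_mod_cast (by omega : Cm ≤ K)) hY') hD hκ hW'
        (le_trans (pow_le_pow_right₀ (by linarith [hP1 0, Lvl.zero (K := K) (Y := Y + W')])
          (by omega : Cm ≤ K ^ 16)) hW) hS hb' hSt
    have e : Y ^ Cm ≤ lv K Y 16 := by
      have := Lvl.pw hK hY' 0 (x := Cm) (by omega)
      rw [Lvl.zero] at this
      exact this.trans (Lvl.mono hK hY' (by norm_num))
    have hT' := (hE.ok _ _ _ _ _ _ g1).1
    exact ⟨ι', i1, i2, T', π, Ω', n, P, hE.mono _ _ _ _ _ _ _ _ _ g1 le_rfl hW' le_rfl (by linarith), g2,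
      g3.mono hT' e, g4, g5, g6.trans (Real.exp_le_exp.2 e), g7,
      g8.mono (Subset.refl _) (Real.exp_le_exp.2 e)⟩
  obtain ⟨i, hi⟩ : (S.erase c \ F).Nonempty := card_pos.1 (by omega)
  obtain ⟨hT, hR0, hι, hG⟩ := hE.ok _ _ _ _ _ _ hR
  have czq : ∀ e e', e + 1 ≤ e' → Cz * lv K Y e ≤ lv K (Y + W') e' := fun e e' h =>
    (Lvl.mul hK hY' e (by exact_mod_cast (by omega : Cz ≤ K))).trans
      ((Lvl.le_lv hK hY' hU _).trans (Lvl.mono hK hU' h))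
  have q01 : Y ^ Cp ≤ lv K Y 1 := by
    have := Lvl.pw hK hY' 0 (x := Cp) (by omega)
    rwa [Lvl.zero] at this
  have hY0 : 0 ≤ Y := by linarith [hQ0 0, Lvl.zero (K := K) (Y := Y)]
  -- steps (0) to (3)
  obtain ⟨T1, Ω1, n1, r, a1, cc, g, s1, o1, n1a, n1b, hr1, st1, wd1, rel1, stg⟩ :=
    hp α ι κ Empty T Y ha (le_trans (by exact_mod_cast (by omega : Cp ≤ K)) hY') (hι.trans hD) hκ
      (by simpa using hY0) hT
      (nn_of hc hs hz ha hT hG (Lvl.geC hK hY' 1 (by omega)) ((hι.trans hD).trans (exY 1))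
        ((czq 1 16 (by norm_num)).trans hW16) q01 (by positivity)).1 S F c i τ Ω hSt hi
  have hT1 : T1.Ok := s1.ok hT
  have hR1 : Rv (t + tm + 1 + tψ) ι T1 p (lv K (Y + W') 15) R :=
    hE.win _ _ _ _ _ _ _ _ (lv K Y 1) (by rwa [← add_assoc, ← add_assoc] at hR) (Lvl.geC hK hY' 1 (by omega)) (hD.trans (exY 1)) (hP1 _)
      ((Lvl.res hK hY' hU (by norm_num) (by omega) (by linarith [hP1 15]) le_rfl).trans hW16)
      (s1.mono q01)
  have hrq : ∀ e, 1 ≤ e → (Fintype.card (Fin r) : ℝ) ≤ lv K Y e := fun e he => by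
    rw [Fintype.card_fin]; exact (hr1.trans q01).trans (Lvl.mono hK hY' he)
  have hBS : S.erase c \ F ⊆ S.erase c := sdiff_subset
  -- the call for the frequencies
  obtain ⟨ι2, i21, i22, T2, π2, Ω2, n2, Ψ, hR2, m2, d2, o2, n2a, n2b, fΨ, rel2⟩ :=
    hψ (t + tm + 1) α β Rv D0 ι (Fin r) T1 p _ R (lv K (Y + W') 14) (lv K Y 1) (S.erase c \ F) i ∅ g Ω1 ha hE hR1
      (Lvl.geC hK hY' 1 (by omega)) (hD.trans (exY 1)) ((hrq 1 le_rfl).trans (Lvl.le_ex _)) (hP1 _)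
      (Lvl.res hK hY' hU (by norm_num) (by omega) (by linarith [hP1 14]) le_rfl)
      (by
        have := card_le_card hBS
        rw [card_erase_of_mem hSt.hc] at this
        omega)
      ((card_le_univ _).trans ha) (stg.mono hT1 q01)
  have q12 : lv K Y 1 ^ Cψ ≤ lv K Y 2 := Lvl.pw hK hY' 1 (by omega)
  have hR2' : Rv (t + tm + 1) ι2 T2 _ (lv K (Y + W') 14) (R + lv K Y 2) :=
    hE.mono _ _ _ _ _ _ _ _ _ hR2 le_rfl (hP1 _) le_rfl (by linarith)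
  obtain ⟨hT2, -, hι2, hG2⟩ := hE.ok _ _ _ _ _ _ hR2'
  have dd : ∀ e x, x ≤ 4 * lv K Y e → D0 + (R + x) ≤ Real.exp (lv K Y (e + 1)) := fun e x hx => by
    linarith [Lvl.ex5 hK hY' e, exY e, Lvl.le_ex (lv K Y e)]
  have d23 : D0 + (R + lv K Y 2) ≤ Real.exp (lv K Y 3) := dd 2 _ (by linarith [hQ0 2])
  have q34 : lv K Y 3 ^ Cs ≤ lv K Y 4 := Lvl.pw hK hY' 3 (by omega)
  have q23 := Lvl.mono hK hY' (by norm_num : 2 ≤ 3)
  have hiB : ({i} : Finset α) ⊆ S.erase c \ F := singleton_subset_iff.2 hi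
  obtain ⟨T3, Ω3, I, j0, s3, o3, d3, fI, h3⟩ :=
    hsh α ι2 Empty (Fin r) T2 (lv K Y 3) ha (Lvl.geC hK hY' 3 (by omega)) (hι2.trans d23)
      (by simp only [Fintype.card_eq_zero, Nat.cast_zero]; positivity) (hrq 3 (by norm_num)) hT2
      (nn_of hc hs hz ha hT2 hG2 (Lvl.geC hK hY' 4 (by omega))
        ((hι2.trans d23).trans (Lvl.exm hK hY' (by norm_num))) (czq 4 14 (by norm_num)) q34
        (pow_nonneg (hQ0 3) _)).2
      (S.erase c \ F) i (fun k z => g k (π2 z)) Ψ Ω2 n2 hi (d2.mono hT2 (q12.trans q23))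
      (fun k => m2.pull (wd1.fg k)) (fun k => (fΨ k).mono (Subset.refl _) hiB)
      (rel2.mono (Subset.refl _) (Real.exp_le_exp.2 (q12.trans q23)))
  have hT3 : T3.Ok := s3.ok hT2
  have d24 : D0 + (R + lv K Y 2) ≤ Real.exp (lv K Y 4) := d23.trans (Lvl.exm hK hY' (by norm_num))
  have hR3 : Rv (t + tm + 1) ι2 T3 _ (lv K (Y + W') 13) (R + lv K Y 2) :=
    hE.win _ _ _ _ _ _ _ _ (lv K Y 4) hR2' (Lvl.geC hK hY' 4 (by omega)) d24 (hP1 _)
      (Lvl.res hK hY' hU (by norm_num) (by omega) (by linarith [hP1 13]) le_rfl) (s3.mono q34)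
  obtain ⟨ι4, i41, i42, T4, π4, Ω4, ζ, sc, hR4, m4, d4, o4, fζ, h4⟩ :=
    hE.add (t + tm) ι2 T3 _ _ _ (lv K (Y + W') 12) (lv K Y 4) (Fin r) (S.erase c \ F) Ψ Ω3 hR3
      (Lvl.geC hK hY' 4 (by omega)) d24 (hrq 4 (by norm_num)) (hP1 _)
      (Lvl.res hK hY' hU (by norm_num) (by omega) (by linarith [hP1 12]) le_rfl)
      (fun k => s3.fm.2 (fΨ k)) (d3.mono hT3 q34)
  have q45 : lv K Y 4 ^ C0 ≤ lv K Y 5 := Lvl.pw hK hY' 4 (by omega)
  have q25 := Lvl.mono hK hY' (by norm_num : 2 ≤ 5)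
  have hR4' : Rv (t + tm) ι4 T4 _ (lv K (Y + W') 12) (R + 2 * lv K Y 5) :=
    hE.mono _ _ _ _ _ _ _ _ _ hR4 le_rfl (hP1 _) le_rfl (by linarith)
  obtain ⟨hT4, -, hι4, hG4⟩ := hE.ok _ _ _ _ _ _ hR4'
  have d56 : D0 + (R + 2 * lv K Y 5) ≤ Real.exp (lv K Y 6) := dd 5 _ (by linarith [hQ0 5])
  have m42 : Mor T4 T2 π4 := m4.comp s3.mor
  have m41 : Mor T4 T1 (fun z => π2 (π4 z)) := m42.comp m2
  have o41 : ∀ z ∈ Ω4, zi (fun z => π2 (π4 z)) z ∈ Ω1 := fun z hz => by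
    rw [m42.zi_comp]; exact o2 _ (o3 (o4 z hz))
  have q67 : lv K Y 6 ^ Cf ≤ lv K Y 7 := Lvl.pw hK hY' 6 (by omega)
  have n26 : (n2 : ℝ) ≤ Real.exp (lv K Y 2) := n2b.trans (Real.exp_le_exp.2 q12)
  obtain ⟨Ω5, τ5, o5, d5, f5, rel5⟩ :=
    hf α ι4 κ (Fin r) T4 (lv K Y 6) ha (Lvl.geC hK hY' 6 (by omega)) (hι4.trans d56)
      (hκ.trans (exY 6)) (hrq 6 (by norm_num)) hT4
      (nn_of hc hs hz ha hT4 hG4 (Lvl.geC hK hY' 7 (by omega))
        ((hι4.trans d56).trans (Lvl.exm hK hY' (by norm_num))) (czq 7 12 (by norm_num)) q67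
        (pow_nonneg (hQ0 6) _)).2
      S F c i (fun k z => a1 k (π2 (π4 z))) (fun k j z => cc k j (π2 (π4 z)))
      (fun j z => g j (π2 (π4 z))) (fun j z => I j (π4 z) + ζ j z) (fun j z => j0 j (π4 z) + sc j)
      Ω4 n2 hSt.hc hSt.hF (d4.mono hT4 (q45.trans (Lvl.mono hK hY' (by norm_num))))
      ⟨hi, fun k => m41.pull (wd1.fa k), fun k j => m41.pull (wd1.fc k j),
        fun j => m41.pull (wd1.fg j), fun z hz j => by
          have := wd1.arc _ (o41 z hz) j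
          rw [← m41.int] at this
          exact this⟩
      n2a (n26.trans (Lvl.exm hK hY' (by norm_num)))
      (fun j => ⟨(m42.pull (fI j).1).add ((fζ j).1.mono (Subset.refl _) hiB), fun z => by
          obtain ⟨q1, h1⟩ := (fI j).2.1 (zi π4 z)
          obtain ⟨q2, h2⟩ := (fζ j).2 z
          refine ⟨q1 + q2, ?_⟩
          show I j (π4 (cz z)) + ζ j (cz z) = _
          rw [m42.int, h1, h2]; push_cast; ring,
        fun z z' hz => by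
          show j0 j (π4 z) + sc j = j0 j (π4 z') + sc j
          rw [(fI j).2.2 _ _ (m42.ag hz)]⟩)
      (fun z hz j => by
        have k1 := h3 _ (o4 z hz) j
        have k2 := h4 z hz j
        rw [← m42.int] at k1
        have k3 := abs_add_le
          (n2 * g j (π2 (π4 (cz z))) - Ψ j (π4 (cz z)) - I j (π4 (cz z)) - j0 j (π4 (cz z)))
          (Ψ j (π4 (cz z)) - ζ j (cz z) - sc j)
        have e : (n2 : ℝ) * g j (π2 (π4 (cz z))) - (I j (π4 (cz z)) + ζ j (cz z)) -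
            (j0 j (π4 (cz z)) + sc j) =
            n2 * g j (π2 (π4 (cz z))) - Ψ j (π4 (cz z)) - I j (π4 (cz z)) - j0 j (π4 (cz z)) +
              (Ψ j (π4 (cz z)) - ζ j (cz z) - sc j) := by ring
        show |(n2 : ℝ) * g j (π2 (π4 (cz z))) - (I j (π4 (cz z)) + ζ j (cz z)) -
            (j0 j (π4 (cz z)) + sc j)| ≤ 1 / 50
        rw [e]; linarith)
  have e1 : Real.exp (Y ^ Cp) ≤ Real.exp (lv K Y 1) := Real.exp_le_exp.2 q01
  have ftw : ∀ k, T4.Fm S (insert c F) (tw a1 cc g k ∘ fun z => π2 (π4 z)) :=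
    fun k => m41.pull (st1.fm k)
  have st5 : T4.St S c (insert i F) τ5 Ω5 (lv K Y 7) := by
    refine ⟨hSt.hc, insert_subset (hBS hi) hSt.hF, f5, d5.mono hT4 q67, fun i' hi' => ?_⟩
    have hi'' : i' ∈ S.erase c \ F := by
      rw [mem_sdiff] at hi' ⊢
      exact ⟨hi'.1, fun h => hi'.2 (mem_insert_of_mem h)⟩
    have k1 := (hl α ι ι4 T1 T4 _ ha hT1 hT4 m41).2.2.2.1 κ S (insert c F) c (tw a1 cc g) Ω1 Ω5 i'
      _ hSt.hc (mem_insert_self _ _) (hBS hi'') (Real.exp_pos _).le st1.fm (o5.trans d4.1)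
      (fun z hz => o41 z (o5 hz)) (st1.hs i' hi'')
    have k2 := (hr α ι4 κ T4 S (insert c F) c _ τ5 τ5 Ω5 n2 1 0 (Cl * Real.exp (Y ^ Cp)) ha hT4
      hSt.hc (mem_insert_self _ _) le_rfl (by positivity) ftw
      (fun k => (f5 k).mono (Subset.refl _)
        (insert_subset_insert _ (subset_insert _ _))) rel5).1 i' (hBS hi'') k1
    refine k2.mono (Subset.refl _) ?_
    have x1 := Lvl.ex4 hK hY' 2
    have x2 := Lvl.exm hK hY' (by norm_num : 3 ≤ 7)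
    have x3 := Lvl.exm hK hY' (by norm_num : 1 ≤ 2)
    have x4 := Lvl.one_ex hK hY' 2
    have x5 : (Cl : ℝ) ≤ K := by exact_mod_cast (by omega : Cl ≤ K)
    calc (n2 : ℝ) * (Cl * Real.exp (Y ^ Cp)) + Cr * 0 = Cl * (n2 * Real.exp (Y ^ Cp)) := by ring
      _ ≤ K * (Real.exp (lv K Y 2) * Real.exp (lv K Y 2)) := by
        gcongr
        exact q01.trans (Lvl.mono hK hY' (by norm_num))
      _ ≤ K * Real.exp (lv K Y 2) ^ 4 := by
        gcongr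
        rw [← pow_two]; exact pow_le_pow_right₀ x4 (by norm_num)
      _ ≤ _ := x1.trans x2
  obtain ⟨ι6, i61, i62, T6, π6, Ω6, n6, P, hR6, m6, d6, o6, n6a, n6b, fP, rel6⟩ :=
    hm t α β Rv D0 ι4 κ T4 _ _ _ W' (lv K Y 7) S c (insert i F) τ5 Ω5 ha hE hR4'
      (Lvl.geC hK hY' 7 (by omega)) (d56.trans (Lvl.exm hK hY' (by norm_num))) (hκ.trans (exY 7)) hW'
      ((Lvl.res hK hY' hU le_rfl (by omega) (by linarith) (hWP 7)).trans
        (Lvl.mono hK hU' (by norm_num))) hS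
      (by
        have : S.erase c \ insert i F = (S.erase c \ F).erase i := by
          ext x; simp only [mem_sdiff, mem_erase, mem_insert]; tauto
        rw [this, card_erase_of_mem hi]; omega) st5
  have q78 : lv K Y 7 ^ Cm ≤ lv K Y 8 := Lvl.pw hK hY' 7 (by omega)
  have hT6 := (hE.ok _ _ _ _ _ _ hR6).1
  have q916 := Lvl.mono hK hY' (by norm_num : 9 ≤ 16)
  have q89 := Lvl.mul hK hY' 8 (x := 3) (by exact_mod_cast (by omega : 3 ≤ K))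
  have q58 := Lvl.mono hK hY' (by norm_num : 5 ≤ 8)
  have m61 : Mor T6 T1 (fun z => π2 (π4 (π6 z))) := m6.comp m41
  have o61 : ∀ z ∈ Ω6, zi (fun z => π2 (π4 (π6 z))) z ∈ Ω1 := fun z hz => by
    rw [m6.zi_comp (fun z => π2 (π4 z))]; exact o41 _ (o5 (o6 z hz))
  have y1 := Lvl.ex4 hK hY' 8
  have y2 := Lvl.exm hK hY' (by norm_num : 9 ≤ 16)
  have y3 := Lvl.exm hK hY' (by norm_num : 1 ≤ 8)
  have y4 := Lvl.exm hK hY' (by norm_num : 2 ≤ 8)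
  have y5 := Lvl.one_ex hK hY' 8
  have y6 : (5 : ℝ) ≤ K := by exact_mod_cast hK
  have y7 : Real.exp (lv K Y 7 ^ Cm) ≤ Real.exp (lv K Y 8) := Real.exp_le_exp.2 q78
  have y8 : Real.exp (lv K Y 8) ^ 3 ≤ Real.exp (lv K Y 8) ^ 4 := pow_le_pow_right₀ y5 (by norm_num)
  have y9 : Real.exp (lv K Y 8) ≤ Real.exp (lv K Y 8) ^ 4 := le_self_pow₀ y5 (by norm_num)
  have y10 : ∀ x : ℝ, 0 ≤ x → x ≤ Real.exp (lv K Y 8) →
      (n6 : ℝ) * (n2 * x) ≤ Real.exp (lv K Y 8) ^ 3 := fun x x0 hx => by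
    calc (n6 : ℝ) * (n2 * x) ≤ Real.exp (lv K Y 8) * (Real.exp (lv K Y 8) * Real.exp (lv K Y 8)) := by
          gcongr
          · exact n6b.trans y7
          · exact n26.trans y4
      _ = _ := by ring
  have y11 : 0 ≤ Real.exp (lv K Y 8) ^ 4 := by positivity
  refine ⟨ι6, i61, i62, T6, fun z => π2 (π4 (π6 z)), Ω6, n6 * (n2 * n1), P,
    hE.mono _ _ _ _ _ _ _ _ _ hR6 le_rfl hW' le_rfl (by linarith), m61.comp s1.mor,
    d6.mono hT6 (by linarith [hQ0 8]), fun z hz => o1 (o61 z hz),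
    Nat.mul_pos n6a (Nat.mul_pos n2a n1a), ?_, fP, ?_⟩
  · have := y10 n1 (by positivity) ((n1b.trans e1).trans y3)
    push_cast
    exact fin1 this y8 y11 y6 y1 y2
  · have r1 := m61.rel hT6 d6.1 o61 rel1
    have r2 := m6.rel hT6 d6.1 o6 rel5
    refine ((r1.trans r2).trans rel6).mono (Subset.refl _) ?_
    have := y10 (Real.exp (Y ^ Cp)) (by positivity) (e1.trans y3)
    rw [add_zero]
    exact fin2 this y8 y11 y6 y1 y2 y7 y9

theorem gk2_of (hc : CPOK) (hzt : ZT) (hs : SCG) (hp : PRE) (hsh : SHR) (hf : FINA) (hl : LIFT)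
    (hr : RST) : GK2 := by
  intro a
  have key : ∀ s b, GKs2 a s b := by
    intro s
    induction s with
    | zero =>
      intro b
      refine ⟨0, fun C0 => ⟨0, ?_⟩⟩
      intro t α β _ _ Rv D0 ι κ _ _ _ T p W R W' Y S c F τ Ω _ _ _ _ _ _ _ _ hS _ hSt
      have := card_pos.2 ⟨c, hSt.hc⟩
      omega
    | succ s ih =>
      intro b
      induction b with
      | zero => exact base2 a (s + 1)
      | succ b ih2 => exact step2 hc hzt hs hp hsh hf hl hr a s b (ih a) ih2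
  exact key a a

end

end Vale.Agent.P057T.Gk
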